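import Mathlib
import Vale.Agent.P219.CoDefs

set_option linter.all false

section

open MeasureTheory
open scoped ENNReal ContDiff

namespace Vale.Agent.P219

/-- Euclidean space `ℝⁿ`, used as a global chart. -/
abbrev E (n : ℕ) := EuclideanSpace ℝ (Fin n)

/-- A smooth Riemannian metric on the manifold `ℝⁿ`. -/
structure RiemMetric (n : ℕ) where
  /-- the metric tensor -/
  g : E n → E n →L[ℝ] E n →L[ℝ] ℝ
  smooth : ContDiff ℝ ∞ g
  symm : ∀ x u v, g x u v = g x v u
  pos : ∀ x v, v ≠ 0 → 0 < g x v v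

/-- The `i`-th coordinate vector field `∂ᵢ`. -/
noncomputable def basisVec {n : ℕ} (i : Fin n) : E n := EuclideanSpace.single i 1

/-- The Riemannian volume density `√(det gᵢⱼ)`. -/
noncomputable def volDensity {n : ℕ} (M : RiemMetric n) (x : E n) : ℝ :=
  √(Matrix.det (Matrix.of fun i j : Fin n => M.g x (basisVec i) (basisVec j)))

/-- The Riemannian volume of a set. -/
noncomputable def riemVol {n : ℕ} (M : RiemMetric n) (S : Set (E n)) : ℝ≥0∞ :=
  ∫⁻ x in S, ENNReal.ofReal (volDensity M x)

/-- The norm of a covector `φ` at the point `x` with respect to the metric. -/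
noncomputable def covNorm {n : ℕ} (M : RiemMetric n) (x : E n) (φ : E n →L[ℝ] ℝ) : ℝ :=
  sSup {t | ∃ v, M.g x v v ≤ 1 ∧ φ v = t}

/-- A domain: a bounded open set with smooth boundary, given by a global defining function. -/
structure SmoothDomain (n : ℕ) where
  /-- the defining function -/
  ρ : E n → ℝ
  smooth : ContDiff ℝ ∞ ρ
  bdd : Bornology.IsBounded {x | ρ x < 0}
  regular : ∀ x, ρ x = 0 → fderiv ℝ ρ x ≠ 0

/-- The underlying open set of a domain. -/
def SmoothDomain.carrier {n : ℕ} (D : SmoothDomain n) : Set (E n) := {x | D.ρ x < 0}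

/-- The Riemannian area (the `(n-1)`-dimensional Riemannian measure) of the boundary `{ρ = 0}`:
the integral of `√(det g) |ν|_g` against the Euclidean `(n-1)`-dimensional Hausdorff measure,
where `ν = dρ / |dρ|` is the Euclidean unit conormal and `|·|_g` is the norm of covectors. -/
noncomputable def riemArea {n : ℕ} (M : RiemMetric n) (D : SmoothDomain n) : ℝ≥0∞ :=
  ∫⁻ x in {x | D.ρ x = 0},
    ENNReal.ofReal (volDensity M x * (covNorm M x (fderiv ℝ D.ρ x) / ‖fderiv ℝ D.ρ x‖))
      ∂(μHE[n - 1] : Measure (E n))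

/-- `ω_n`, the volume of the unit ball of `ℝⁿ`. -/
noncomputable def omega (n : ℕ) : ℝ := (volume (Metric.ball (0 : E n) 1)).toReal

/-- `sn_b(r)`, equal to `r` if `b = 0` and to `sinh (b r) / b` otherwise. -/
noncomputable def sn (b r : ℝ) : ℝ := if b = 0 then r else Real.sinh (b * r) / b

/-- Boundary area of a geodesic ball of radius `r` in the space form of curvature `κ`. -/
noncomputable def modelArea (n : ℕ) (κ r : ℝ) : ℝ := n * omega n * sn √(-κ) r ^ (n - 1)

/-- Volume of a geodesic ball of radius `r` in the space form of curvature `κ`. -/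
noncomputable def modelVol (n : ℕ) (κ r : ℝ) : ℝ :=
  n * omega n * ∫ t in (0 : ℝ)..r, sn √(-κ) t ^ (n - 1)

/-- The conclusion of the generalized Cartan-Hadamard conjecture for the Riemannian manifold
`(ℝⁿ, g)`: every domain `D` satisfies `area (∂ D) ≥ I_κ (vol D)`. -/
def IsoperimetricIneq {n : ℕ} (M : RiemMetric n) (κ : ℝ) : Prop :=
  ∀ D : SmoothDomain n, ∃ r : ℝ, 0 ≤ r ∧
    riemVol M D.carrier = ENNReal.ofReal (modelVol n κ r) ∧
    ENNReal.ofReal (modelArea n κ r) ≤ riemArea M D

/-- `e` is a smooth orthonormal frame field, triangular with respect to the coordinates: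
`eₐ` lies in the span of `∂ₐ, …, ∂ₙ`, with positive `∂ₐ` component. -/
structure TriangularFrame {n : ℕ} (M : RiemMetric n) (e : Fin n → E n → E n) : Prop where
  smooth : ∀ a, ContDiff ℝ ∞ (e a)
  orthonormal : ∀ x a b, M.g x (e a x) (e b x) = if a = b then 1 else 0
  triangular : ∀ a x i, i < a → e a x i = 0
  positive : ∀ a x, 0 < e a x a

/-- `Sec ≤ κ`, with the Levi-Civita connection given by its Christoffel tensor `Γ` (determined by
the Koszul formula) and `R(u,v)w = (D_u Γ)(v,w) - (D_v Γ)(u,w) + Γ(u,Γ(v,w)) - Γ(v,Γ(u,w))`. -/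
def SecLE {n : ℕ} (M : RiemMetric n) (κ : ℝ) : Prop :=
  ∃ Γ : E n → E n →L[ℝ] E n →L[ℝ] E n, ContDiff ℝ ∞ Γ ∧
    (∀ x u v w, 2 * M.g x (Γ x u v) w =
      fderiv ℝ M.g x u v w + fderiv ℝ M.g x v u w - fderiv ℝ M.g x w u v) ∧
    ∀ x u v, M.g x (fderiv ℝ Γ x u v v - fderiv ℝ Γ x v u v + Γ x u (Γ x v v)
      - Γ x v (Γ x u v)) u ≤ κ * (M.g x u u * M.g x v v - M.g x u v ^ 2)

end Vale.Agent.P219
end

section

/-! # Linear algebra for the two-ended comparison -/

open Set

namespace Vale.Agent.P219.CH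

variable {W : Type} [NormedAddCommGroup W] [InnerProductSpace ℝ W] [FiniteDimensional ℝ W]

theorem linw_sum_le {ι : Type} (s : Finset ι) (σ : ι → ℝ) (h0 : ∀ i ∈ s, 0 ≤ σ i)
    (h1 : ∀ i ∈ s, σ i ≤ 1) :
    ∑ i ∈ s, σ i + 1 ≤ s.card + ∏ i ∈ s, σ i := by
  classical
  induction s using Finset.induction_on with
  | empty => simp
  | insert a s ha ih =>
    have ih' := ih (fun i hi => h0 i (Finset.mem_insert_of_mem hi))
      (fun i hi => h1 i (Finset.mem_insert_of_mem hi))
    rw [Finset.sum_insert ha, Finset.prod_insert ha, Finset.card_insert_of_notMem ha]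
    have ha0 := h0 a (Finset.mem_insert_self a s)
    have ha1 := h1 a (Finset.mem_insert_self a s)
    have hp1 : ∏ i ∈ s, σ i ≤ 1 :=
      Finset.prod_le_one (fun i hi => h0 i (Finset.mem_insert_of_mem hi))
        (fun i hi => h1 i (Finset.mem_insert_of_mem hi))
    push_cast
    linarith only [mul_nonneg (sub_nonneg.2 ha1) (sub_nonneg.2 hp1), mul_nonneg (sub_nonneg.2 ih') (sub_nonneg.2 ha1), mul_nonneg (sub_nonneg.2 ih') (sub_nonneg.2 ha0)]

/-- PROOF: `e_i` an orthonormal eigenbasis of `BᵀB`, `σ_i = ‖B e_i‖ ≤ 1`, `|det B| = ∏ σ_i`,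
`tr B = ∑ ⟨B e_i, e_i⟩ ≤ ∑ σ_i ≤ m - 1 + ∏ σ_i`. -/
theorem trace_le_of_contraction {B : W →L[ℝ] W} (hB : ∀ w, ‖B w‖ ≤ ‖w‖)
    (hW : 1 ≤ Module.finrank ℝ W) :
    LinearMap.trace ℝ W B.toLinearMap ≤ Module.finrank ℝ W - 1 + |B.det| := by
  set L : W →ₗ[ℝ] W := B.toLinearMap with hL
  set A : W →ₗ[ℝ] W := L.adjoint ∘ₗ L with hA
  have hAs : A.IsSymmetric := by
    intro x y
    simp only [hA, LinearMap.comp_apply]
    rw [LinearMap.adjoint_inner_left, LinearMap.adjoint_inner_right]
  set m := Module.finrank ℝ W with hm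
  set b := hAs.eigenvectorBasis hm.symm with hb
  have hlam : ∀ i, hAs.eigenvalues hm.symm i = ‖B (b i)‖ ^ 2 := by
    intro i
    have h1 : inner ℝ (b i) (A (b i)) = hAs.eigenvalues hm.symm i := by
      rw [hb, LinearMap.IsSymmetric.apply_eigenvectorBasis, inner_smul_right,
        real_inner_self_eq_norm_sq, OrthonormalBasis.norm_eq_one]
      simp
    rw [← h1]
    simp only [hA, LinearMap.comp_apply]
    rw [LinearMap.adjoint_inner_right, real_inner_self_eq_norm_sq]
    rfl
  have hdet : |B.det| = ∏ i, ‖B (b i)‖ := by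
    have h1 : L.det ^ 2 = (∏ i, ‖B (b i)‖) ^ 2 := by
      have h2 : A.det = L.adjoint.det * L.det := LinearMap.det_comp _ _
      have h3 : L.adjoint.det = L.det := by
        rw [← LinearMap.det_toMatrix b.toBasis, ← LinearMap.det_toMatrix b.toBasis,
          LinearMap.toMatrix_adjoint b b]
        simp [Matrix.det_conjTranspose]
      have h4 := hAs.det_eq_prod_eigenvalues hm.symm
      rw [h3] at h2
      rw [sq, ← h2, h4, ← Finset.prod_pow]
      exact Finset.prod_congr rfl fun i _ => hlam i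
    have h5 : |L.det| = |∏ i, ‖B (b i)‖| := (sq_eq_sq_iff_abs_eq_abs _ _).1 h1
    rw [abs_of_nonneg (Finset.prod_nonneg fun i _ => norm_nonneg _)] at h5
    exact h5
  have htr : LinearMap.trace ℝ W L ≤ ∑ i, ‖B (b i)‖ := by
    rw [LinearMap.trace_eq_sum_inner L b]
    refine Finset.sum_le_sum fun i _ => ?_
    refine (real_inner_le_norm _ _).trans ?_
    rw [OrthonormalBasis.norm_eq_one, one_mul]
    rfl
  have hsum := linw_sum_le Finset.univ (fun i => ‖B (b i)‖) (fun i _ => norm_nonneg _)
    (fun i _ => by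
      have := hB (b i)
      rwa [OrthonormalBasis.norm_eq_one] at this)
  rw [Finset.card_univ, Fintype.card_fin] at hsum
  rw [hdet]
  linarith

end Vale.Agent.P219.CH
end

section

namespace Vale.Agent.P219

open Matrix

variable {n : ℕ}

theorem E_expand (v : E n) : v = ∑ i, v i • basisVec i := by
  have := (EuclideanSpace.basisFun (Fin n) ℝ).sum_repr v
  simpa [basisVec] using this.symm

theorem map_expand (φ : E n →L[ℝ] ℝ) (v : E n) : φ v = ∑ i, v i * φ (basisVec i) := by
  conv_lhs => rw [E_expand v]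
  simp [map_sum]

section

variable (M : RiemMetric n) (e : Fin n → E n → E n)

/-- components of the frame -/
def frameMat (x : E n) : Matrix (Fin n) (Fin n) ℝ := Matrix.of fun a i => e a x i

/-- Gram matrix of the metric -/
noncomputable def gramMat (x : E n) : Matrix (Fin n) (Fin n) ℝ :=
  Matrix.of fun i j => M.g x (basisVec i) (basisVec j)

variable {M e}

theorem frame_gram (he : TriangularFrame M e) (x : E n) :
    frameMat e x * gramMat M x * (frameMat e x)ᵀ = 1 := by
  ext a b
  rw [Matrix.one_apply, ← he.orthonormal x a b]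
  simp only [Matrix.mul_apply, frameMat, gramMat, Matrix.of_apply, Matrix.transpose_apply]
  rw [map_expand (M.g x (e a x)) (e b x)]
  refine Finset.sum_congr rfl fun j _ => ?_
  rw [mul_comm]
  congr 1
  have h := map_expand ((M.g x).flip (basisVec j)) (e a x)
  simpa using h.symm

theorem gram_frame (he : TriangularFrame M e) (x : E n) :
    gramMat M x * (frameMat e x)ᵀ * frameMat e x = 1 := by
  rw [mul_eq_one_comm, ← mul_assoc]
  exact frame_gram he x

theorem frame_det (he : TriangularFrame M e) (x : E n) : (frameMat e x).det = ∏ a, e a x a := by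
  rw [Matrix.det_of_isUpperTriangular]
  · rfl
  · intro a i hi
    exact he.triangular a x i hi

theorem volDensity_eq (he : TriangularFrame M e) (x : E n) :
    volDensity M x = ∏ a, (e a x a)⁻¹ := by
  have hdet : (∏ a, e a x a) * (gramMat M x).det * (∏ a, e a x a) = 1 := by
    have := congrArg Matrix.det (frame_gram he x)
    rwa [Matrix.det_mul, Matrix.det_mul, Matrix.det_transpose, Matrix.det_one, frame_det he] at this
  have hpos : 0 < ∏ a, e a x a := Finset.prod_pos fun a _ => he.positive a x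
  have hg : (gramMat M x).det = ((∏ a, e a x a)⁻¹) ^ 2 := by
    field_simp
    linarith
  have : volDensity M x = √(gramMat M x).det := rfl
  rw [this, hg, Real.sqrt_sq (by positivity), Finset.prod_inv_distrib]

/-- completeness of the frame -/
theorem frame_complete (he : TriangularFrame M e) (x v : E n) :
    v = ∑ k, M.g x v (e k x) • e k x := by
  have h1 : ∀ i j, ∑ k, M.g x (basisVec i) (e k x) * e k x j = if i = j then 1 else 0 := by
    intro i j
    have := congrFun (congrFun (gram_frame he x) i) j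
    rw [Matrix.one_apply] at this
    rw [← this]
    simp only [Matrix.mul_apply, frameMat, gramMat, Matrix.of_apply, Matrix.transpose_apply]
    refine Finset.sum_congr rfl fun k _ => ?_
    congr 1
    rw [map_expand (M.g x (basisVec i)) (e k x)]
    refine Finset.sum_congr rfl fun l _ => ?_
    ring
  ext j
  have h2 : (∑ k, M.g x v (e k x) • e k x) j = ∑ k, M.g x v (e k x) * e k x j := by
    simp [Finset.sum_apply]
  rw [h2]
  have h3 : ∀ k, M.g x v (e k x) = ∑ i, v i * M.g x (basisVec i) (e k x) := by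
    intro k
    have h := map_expand ((M.g x).flip (e k x)) v
    simpa using h
  simp only [h3, Finset.sum_mul]
  rw [Finset.sum_comm]
  have h4 : ∀ i, ∑ k, v i * M.g x (basisVec i) (e k x) * e k x j = v i * if i = j then 1 else 0 := by
    intro i
    rw [← h1 i j, Finset.mul_sum]
    refine Finset.sum_congr rfl fun k _ => ?_
    ring
  simp only [h4]
  simp

theorem covNorm_eq (he : TriangularFrame M e) (x : E n) (φ : E n →L[ℝ] ℝ) :
    covNorm M x φ = √(∑ a, φ (e a x) ^ 2) := by
  have hquad : ∀ v, M.g x v v = ∑ a, M.g x v (e a x) ^ 2 := by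
    intro v
    have h := congrArg (M.g x v) (frame_complete he x v)
    rw [map_sum] at h
    rw [h]
    refine Finset.sum_congr rfl fun a _ => ?_
    rw [map_smul, smul_eq_mul, pow_two]
  have hφ : ∀ v, φ v = ∑ a, M.g x v (e a x) * φ (e a x) := by
    intro v
    conv_lhs => rw [frame_complete he x v]
    simp [map_sum]
  have hub : ∀ t ∈ {t | ∃ v, M.g x v v ≤ 1 ∧ φ v = t}, t ≤ √(∑ a, φ (e a x) ^ 2) := by
    rintro t ⟨v, hv, rfl⟩
    rw [hφ v]
    have h1 := Finset.sum_mul_sq_le_sq_mul_sq Finset.univ (fun a => M.g x v (e a x))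
      (fun a => φ (e a x))
    rw [← hquad v] at h1
    apply Real.le_sqrt_of_sq_le
    refine h1.trans ?_
    have h2 : 0 ≤ ∑ a, φ (e a x) ^ 2 := Finset.sum_nonneg fun a _ => sq_nonneg _
    linarith only [mul_nonneg (sub_nonneg.2 hv) (sub_nonneg.2 h2)]
  unfold covNorm
  apply le_antisymm
  · exact csSup_le ⟨0, 0, by simp, by simp⟩ hub
  · set s := √(∑ a, φ (e a x) ^ 2) with hs
    have hs0 : 0 ≤ s := Real.sqrt_nonneg _
    have hs2 : s ^ 2 = ∑ a, φ (e a x) ^ 2 :=
      Real.sq_sqrt (Finset.sum_nonneg fun a _ => sq_nonneg _)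
    rcases hs0.eq_or_lt with h0 | h0
    · rw [← h0]
      exact le_csSup ⟨_, hub⟩ ⟨0, by simp, by simp⟩
    · apply le_csSup ⟨_, hub⟩
      refine ⟨∑ a, (φ (e a x) / s) • e a x, ?_, ?_⟩
      · have h3 : M.g x (∑ a, (φ (e a x) / s) • e a x) (∑ a, (φ (e a x) / s) • e a x) =
            ∑ a, (φ (e a x) / s) ^ 2 := by
          simp only [map_sum, map_smul, _root_.sum_apply,
            _root_.smul_apply, smul_eq_mul, he.orthonormal]
          refine Finset.sum_congr rfl fun a _ => ?_
          simp [pow_two]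
        rw [h3]
        simp only [div_pow]
        rw [← Finset.sum_div, ← hs2, div_self (by positivity)]
      · simp only [map_sum, map_smul, smul_eq_mul]
        have h4 : ∀ a, φ (e a x) / s * φ (e a x) = φ (e a x) ^ 2 / s := fun a => by ring
        simp only [h4]
        rw [← Finset.sum_div, ← hs2]
        field_simp

end

end Vale.Agent.P219
end

section

open MeasureTheory
open scoped ENNReal ContDiff

namespace Vale.Agent.P219

variable {n : ℕ}

/-- The Gram matrix of the metric. -/
noncomputable def gram (M : RiemMetric n) (x : E n) : Matrix (Fin n) (Fin n) ℝ :=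
  Matrix.of fun i j : Fin n => M.g x (basisVec i) (basisVec j)

/-- The matrix of components of the frame. -/
noncomputable def fmat (e : Fin n → E n → E n) (x : E n) : Matrix (Fin n) (Fin n) ℝ :=
  Matrix.of fun a i : Fin n => e a x i

theorem vec_eq_sum (v : E n) : v = ∑ i, v i • basisVec i := by
  ext j
  have h : ∀ i : Fin n, (v i • (basisVec i : E n)) j = if i = j then v i else 0 := by
    intro i
    by_cases hij : i = j
    · subst hij; simp [basisVec]
    · simp [basisVec, hij, Ne.symm hij]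
  rw [WithLp.ofLp_sum, Finset.sum_apply]
  rw [Finset.sum_congr rfl fun i _ => h i]
  simp

theorem g_apply (M : RiemMetric n) (x u v : E n) :
    M.g x u v = ∑ i, ∑ j, u i * v j * gram M x i j := by
  conv_lhs => rw [vec_eq_sum u, vec_eq_sum v]
  simp only [map_sum, map_smul, _root_.sum_apply, _root_.smul_apply,
    smul_eq_mul, gram, Matrix.of_apply, Finset.mul_sum]
  rw [Finset.sum_comm]
  refine Finset.sum_congr rfl fun i _ => Finset.sum_congr rfl fun j _ => ?_
  ring

theorem fmat_gram (M : RiemMetric n) (e : Fin n → E n → E n) (he : TriangularFrame M e) (x : E n) :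
    fmat e x * gram M x * (fmat e x).transpose = 1 := by
  ext a b
  have h := he.orthonormal x a b
  rw [g_apply] at h
  rw [Matrix.mul_apply, Matrix.one_apply, ← h]
  simp only [Matrix.mul_apply, fmat, Matrix.of_apply, Matrix.transpose_apply, Finset.sum_mul]
  rw [Finset.sum_comm]
  refine Finset.sum_congr rfl fun i _ => Finset.sum_congr rfl fun j _ => ?_
  ring

theorem det_fmat (M : RiemMetric n) (e : Fin n → E n → E n) (he : TriangularFrame M e) (x : E n) :
    (fmat e x).det = ∏ a, e a x a := by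
  have h : (fmat e x).BlockTriangular id := by
    intro a i hai
    exact he.triangular a x i hai
  rw [Matrix.det_of_isUpperTriangular h]
  rfl

theorem prod_pos (M : RiemMetric n) (e : Fin n → E n → E n) (he : TriangularFrame M e) (x : E n) :
    0 < ∏ a, e a x a := Finset.prod_pos fun a _ => he.positive a x

theorem volDensity_prod (M : RiemMetric n) (e : Fin n → E n → E n) (he : TriangularFrame M e)
    (x : E n) : volDensity M x = (∏ a, e a x a)⁻¹ := by
  have h := congrArg Matrix.det (fmat_gram M e he x)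
  rw [Matrix.det_mul, Matrix.det_mul, Matrix.det_transpose, Matrix.det_one,
    det_fmat M e he x] at h
  have hp := prod_pos M e he x
  have hg : (gram M x).det = ((∏ a, e a x a)⁻¹) ^ 2 := by
    field_simp
    linarith
  have : volDensity M x = √((gram M x).det) := rfl
  rw [this, hg, Real.sqrt_sq (inv_pos.2 hp).le]

theorem volDensity_gt (M : RiemMetric n) (e : Fin n → E n → E n) (he : TriangularFrame M e)
    (x : E n) : 0 < volDensity M x := by
  rw [volDensity_prod M e he]; exact inv_pos.2 (prod_pos M e he x)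

/-- expansion of a vector in an orthonormal frame -/
theorem frame_expand (M : RiemMetric n) (e : Fin n → E n → E n) (he : TriangularFrame M e)
    (x v : E n) : v = ∑ a, M.g x (e a x) v • e a x := by
  -- linear independence
  have hli : LinearIndependent ℝ fun a => e a x := by
    rw [Fintype.linearIndependent_iff]
    intro c hc a
    have h1 : M.g x (e a x) (∑ b, c b • e b x) = 0 := by rw [hc, map_zero]
    rw [map_sum] at h1
    simp only [map_smul, smul_eq_mul, he.orthonormal] at h1
    simpa using h1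
  have hspan : ⊤ ≤ Submodule.span ℝ (Set.range fun a => e a x) := by
    rw [LinearIndependent.span_eq_top_of_card_eq_finrank' hli (by simp)]
  let B := Module.Basis.mk hli hspan
  have hv := B.sum_repr v
  have hB : ∀ a, B a = e a x := fun a => by simp [B]
  have hc : ∀ a, M.g x (e a x) v = B.repr v a := by
    intro a
    conv_lhs => rw [← hv]
    rw [map_sum]
    simp only [map_smul, smul_eq_mul, hB, he.orthonormal]
    simp
  conv_lhs => rw [← hv]
  refine Finset.sum_congr rfl fun a _ => ?_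
  rw [hc, hB]

theorem g_self (M : RiemMetric n) (e : Fin n → E n → E n) (he : TriangularFrame M e)
    (x v : E n) : M.g x v v = ∑ a, M.g x (e a x) v ^ 2 := by
  conv_lhs => rw [frame_expand M e he x v]
  rw [map_sum]
  simp only [map_smul, smul_eq_mul]
  refine Finset.sum_congr rfl fun a _ => ?_
  rw [sq]
  congr 1
  rw [← frame_expand M e he x v, M.symm]

theorem covNorm_sum (M : RiemMetric n) (e : Fin n → E n → E n) (he : TriangularFrame M e)
    (x : E n) (φ : E n →L[ℝ] ℝ) : covNorm M x φ = √(∑ a, φ (e a x) ^ 2) := by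
  set N := √(∑ a, φ (e a x) ^ 2) with hN
  have hN0 : 0 ≤ N := Real.sqrt_nonneg _
  have hNsq : N ^ 2 = ∑ a, φ (e a x) ^ 2 := Real.sq_sqrt (Finset.sum_nonneg fun a _ => sq_nonneg _)
  have hle : ∀ v, M.g x v v ≤ 1 → φ v ≤ N := by
    intro v hv
    have h1 : φ v = ∑ a, M.g x (e a x) v * φ (e a x) := by
      conv_lhs => rw [frame_expand M e he x v]
      simp
    rw [h1]
    apply Real.le_sqrt_of_sq_le
    have h2 := Finset.sum_mul_sq_le_sq_mul_sq Finset.univ (fun a => M.g x (e a x) v)
      (fun a => φ (e a x))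
    rw [← g_self M e he] at h2
    have h3 : 0 ≤ ∑ a, φ (e a x) ^ 2 := Finset.sum_nonneg fun a _ => sq_nonneg _
    linarith only [mul_nonneg (sub_nonneg.2 hv) (sub_nonneg.2 h3), h2]
  unfold covNorm
  apply le_antisymm
  · apply csSup_le (show Set.Nonempty {t | ∃ v, M.g x v v ≤ 1 ∧ φ v = t} from ⟨φ 0, 0, by simp, rfl⟩)
    rintro t ⟨v, hv, rfl⟩
    exact hle v hv
  · have hbdd : BddAbove {t | ∃ v, M.g x v v ≤ 1 ∧ φ v = t} := by
      refine ⟨N, ?_⟩
      rintro t ⟨v, hv, rfl⟩
      exact hle v hv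
    by_cases h0 : N = 0
    · rw [h0]
      exact le_csSup hbdd ⟨0, by simp, by simp⟩
    · apply le_csSup hbdd
      refine ⟨∑ a, (φ (e a x) / N) • e a x, ?_, ?_⟩
      · rw [g_self M e he]
        have : ∀ a, M.g x (e a x) (∑ b, (φ (e b x) / N) • e b x) = φ (e a x) / N := by
          intro a
          rw [map_sum]
          simp only [map_smul, smul_eq_mul, he.orthonormal]
          simp
        simp only [this, div_pow, ← Finset.sum_div]
        rw [← hNsq, div_self (pow_ne_zero 2 h0)]
      · rw [map_sum]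
        simp only [map_smul, smul_eq_mul]
        have : ∀ a, φ (e a x) / N * φ (e a x) = φ (e a x) ^ 2 / N := fun a => by ring
        simp only [this, ← Finset.sum_div]
        rw [← hNsq]
        field_simp

end Vale.Agent.P219
end

section

open MeasureTheory Set Filter Topology Module
open scoped ENNReal ContDiff

namespace Vale.Agent.P219.Coarea

variable {V : Type*} [NormedAddCommGroup V] [InnerProductSpace ℝ V] [FiniteDimensional ℝ V]
  [MeasurableSpace V] [BorelSpace V]

theorem lintegral_line {ν : V} (hν : ‖ν‖ = 1) (G : V → ℝ≥0∞) (hG : Measurable G) :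
    ∫⁻ x, G x = ∫⁻ y : (ℝ ∙ ν)ᗮ, ∫⁻ t : ℝ, G (t • ν + y) := by
  have h1 := ((ℝ ∙ ν).measurePreserving_measurableEquivProd (0 : V)).symm
  rw [InnerProductSpace.euclideanHausdorffMeasure_eq_volume] at h1
  rw [← h1.lintegral_comp_emb (MeasurableEquiv.measurableEmbedding _)]
  rw [Measure.volume_eq_prod, lintegral_prod_symm]
  · congr 1
    ext y
    have h2 := (LinearIsometryEquiv.toSpanUnitSingleton ν hν).measurePreserving
    rw [← h2.lintegral_comp_emb
      (LinearIsometryEquiv.toSpanUnitSingleton ν hν).toHomeomorph.measurableEmbedding]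
    congr 1
    ext t
    simp
  · exact (hG.comp (MeasurableEquiv.measurable _)).aemeasurable

/-- derivative of the smooth transition -/
noncomputable def chi' (t : ℝ) : ℝ := deriv Real.smoothTransition t

theorem continuous_chi' : Continuous chi' :=
  (Real.smoothTransition.contDiff (n := 1)).continuous_deriv le_rfl

theorem hasDerivAt_chi (t : ℝ) : HasDerivAt Real.smoothTransition (chi' t) t :=
  ((Real.smoothTransition.contDiff (n := 1)).differentiable one_ne_zero t).hasDerivAt

theorem chi'_nonneg (t : ℝ) : 0 ≤ chi' t := Real.smoothTransition.monotone.deriv_nonneg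

theorem chi'_eq_zero_of_lt {t : ℝ} (h : t < 0) : chi' t = 0 := by
  have : Real.smoothTransition =ᶠ[𝓝 t] fun _ => 0 := by
    filter_upwards [Iio_mem_nhds h] with s hs
    exact Real.smoothTransition.zero_of_nonpos hs.le
  rw [chi', this.deriv_eq]; simp

theorem chi'_eq_zero_of_gt {t : ℝ} (h : 1 < t) : chi' t = 0 := by
  have : Real.smoothTransition =ᶠ[𝓝 t] fun _ => 1 := by
    filter_upwards [Ioi_mem_nhds h] with s hs
    exact Real.smoothTransition.one_of_one_le (le_of_lt hs)
  rw [chi', this.deriv_eq]; simp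

theorem one_dim {s s' : ℝ → ℝ} (hs : ∀ t, HasDerivAt s (s' t) t) (hs' : Continuous s')
    {α β a ε : ℝ} (hαβ : α ≤ β) (ha : 0 < a) (hε : 0 < ε) (hsa : ∀ t ∈ Icc α β, a ≤ s' t) :
    ∫ t in α..β, ε⁻¹ * chi' (-s t / ε) ≤ 1 / a := by
  have hsc : Continuous s := continuous_iff_continuousAt.2 fun t => (hs t).continuousAt
  have key : ∫ t in α..β, chi' (-s t / ε) * (-s' t / ε) =
      Real.smoothTransition (-s β / ε) - Real.smoothTransition (-s α / ε) := by
    apply intervalIntegral.integral_eq_sub_of_hasDerivAt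
    · intro t _
      exact (hasDerivAt_chi _).comp t ((hs t).neg.div_const ε)
    · apply Continuous.intervalIntegrable
      exact (continuous_chi'.comp (by fun_prop)).mul (by fun_prop)
  have h1 : ∫ t in α..β, a * (ε⁻¹ * chi' (-s t / ε)) ≤
      ∫ t in α..β, -(chi' (-s t / ε) * (-s' t / ε)) := by
    apply intervalIntegral.integral_mono_on hαβ
    · apply Continuous.intervalIntegrable
      exact continuous_const.mul (continuous_const.mul (continuous_chi'.comp (by fun_prop)))
    · apply Continuous.intervalIntegrable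
      exact ((continuous_chi'.comp (by fun_prop)).mul (by fun_prop)).neg
    · intro t ht
      have h2 := hsa t ht
      have h3 : 0 ≤ ε⁻¹ * chi' (-s t / ε) := mul_nonneg (inv_nonneg.2 hε.le) (chi'_nonneg _)
      calc a * (ε⁻¹ * chi' (-s t / ε)) ≤ s' t * (ε⁻¹ * chi' (-s t / ε)) :=
            mul_le_mul_of_nonneg_right h2 h3
        _ = -(chi' (-s t / ε) * (-s' t / ε)) := by field_simp
  rw [intervalIntegral.integral_neg, key, intervalIntegral.integral_const_mul] at h1
  rw [le_div_iff₀' ha]
  have h4 := Real.smoothTransition.le_one (-s α / ε)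
  have h5 := Real.smoothTransition.nonneg (-s β / ε)
  linarith


omit [MeasurableSpace V] [BorelSpace V] in
theorem exists_unit {φ : V →L[ℝ] ℝ} (hφ : φ ≠ 0) : ∃ ν : V, ‖ν‖ = 1 ∧ φ ν = ‖φ‖ := by
  set w := (InnerProductSpace.toDual ℝ V).symm φ with hw
  have hwn : ‖w‖ = ‖φ‖ := by simp [hw]
  have hw0 : ‖w‖ ≠ 0 := by rw [hwn]; exact norm_ne_zero_iff.2 hφ
  refine ⟨‖w‖⁻¹ • w, ?_, ?_⟩
  · rw [norm_smul, norm_inv, norm_norm, inv_mul_cancel₀ hw0]
  · have : φ w = ‖w‖ * ‖w‖ := by
      rw [← real_inner_self_eq_norm_mul_norm, hw, InnerProductSpace.toDual_symm_apply]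
    rw [map_smul, this, smul_eq_mul, ← hwn]
    field_simp

/-- the hyperplane orthogonal to `ν` -/
noncomputable abbrev Hyp (ν : V) : Submodule ℝ V := (ℝ ∙ ν)ᗮ

omit [FiniteDimensional ℝ V] [MeasurableSpace V] [BorelSpace V] in
theorem proj_aux {ν : V} (hν : ‖ν‖ = 1) (t : ℝ) (y : Hyp ν) :
    (Hyp ν).orthogonalProjectionOnto (t • ν + (y : V)) = y ∧ inner ℝ ν (t • ν + (y : V)) = t := by
  have hν' : (Hyp ν).orthogonalProjectionOnto ν = 0 :=
    Submodule.orthogonalProjectionOnto_orthogonalComplement_singleton_eq_zero ν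
  constructor
  · rw [map_add, map_smul, hν', smul_zero, zero_add, Submodule.orthogonalProjectionOnto_mem_subspace_eq_self]
  · have h1 : inner ℝ ν (y : V) = 0 := Submodule.mem_orthogonal_singleton_iff_inner_right.1 y.2
    rw [inner_add_right, inner_smul_right, real_inner_self_eq_norm_sq, hν, h1]
    ring

omit [FiniteDimensional ℝ V] [MeasurableSpace V] [BorelSpace V] in
theorem decomp_aux {ν : V} (hν : ‖ν‖ = 1) (x : V) :
    (inner ℝ ν x) • ν + ((Hyp ν).orthogonalProjectionOnto x : V) = x := by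
  have h := (ℝ ∙ ν).starProjection_add_starProjection_orthogonal x
  rw [Submodule.starProjection_unit_singleton ℝ hν] at h
  exact h

theorem local_bound (ρ : V → ℝ) (hρ : ContDiff ℝ 1 ρ) (p : V) (hp : ρ p = 0)
    (hdp : fderiv ℝ ρ p ≠ 0) (δ : ℝ) (hδ : 0 < δ) :
    ∃ U : Set V, IsOpen U ∧ p ∈ U ∧ ∀ φ : V → ℝ, Continuous φ → (∀ x, 0 ≤ φ x) →
      HasCompactSupport φ → tsupport φ ⊆ U → ∀ η > 0, ∀ᶠ ε in 𝓝[>] (0 : ℝ),
      ∫⁻ x, ENNReal.ofReal (ε⁻¹ * chi' (-ρ x / ε) * φ x) ≤
        ENNReal.ofReal (1 + δ) * (∫⁻ x in {x | ρ x = 0},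
          ENNReal.ofReal (φ x / ‖fderiv ℝ ρ x‖) ∂(μHE[finrank ℝ V - 1] : Measure V)) +
        ENNReal.ofReal η := by
  obtain ⟨ν, hν, hνG⟩ := exists_unit hdp
  set G := ‖fderiv ℝ ρ p‖ with hG
  have hG0 : 0 < G := norm_pos_iff.2 hdp
  have hcont : Continuous (fderiv ℝ ρ) := hρ.continuous_fderiv one_ne_zero
  -- choose a
  obtain ⟨a, ha1, ha2⟩ : ∃ a, G / (1 + δ) < a ∧ a < G :=
    exists_between (by rw [div_lt_iff₀ (by linarith)]; linarith only [mul_pos (sub_pos.2 hδ) (sub_pos.2 hG0)])
  have ha : 0 < a := lt_trans (by positivity) ha1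
  have haG : G < (1 + δ) * a := by
    rw [div_lt_iff₀ (by linarith)] at ha1; linarith
  have hWo : IsOpen {x | a < fderiv ℝ ρ x ν ∧ ‖fderiv ℝ ρ x‖ < (1 + δ) * a} := by
    exact (isOpen_lt continuous_const (hcont.clm_apply continuous_const)).inter
      (isOpen_lt hcont.norm continuous_const)
  have hpW : p ∈ {x | a < fderiv ℝ ρ x ν ∧ ‖fderiv ℝ ρ x‖ < (1 + δ) * a} := ⟨by rw [hνG]; exact ha2, haG⟩
  obtain ⟨R, hR, hball⟩ := Metric.isOpen_iff.1 hWo p hpW
  set r := R / 3 with hr
  have hr0 : 0 < r := by positivity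
  -- points of the cylinder are in the ball
  have hcyl : ∀ (t : ℝ) (y : Hyp ν), |t| ≤ r → ‖y‖ ≤ r →
      a < fderiv ℝ ρ (p + (t • ν + y)) ν ∧ ‖fderiv ℝ ρ (p + (t • ν + y))‖ < (1 + δ) * a := by
    intro t y ht hy
    apply hball
    rw [Metric.mem_ball, dist_eq_norm, add_sub_cancel_left]
    calc ‖t • ν + (y : V)‖ ≤ ‖t • ν‖ + ‖(y : V)‖ := norm_add_le _ _
      _ = |t| + ‖y‖ := by rw [norm_smul, hν, mul_one, Real.norm_eq_abs]; rfl
      _ ≤ r + r := add_le_add ht hy
      _ < R := by rw [hr]; linarith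
  -- derivative along lines
  have hder : ∀ (y : V) (t : ℝ), HasDerivAt (fun t : ℝ => ρ (p + (t • ν + y)))
      (fderiv ℝ ρ (p + (t • ν + y)) ν) t := by
    intro y t
    have h1 : HasDerivAt (fun t : ℝ => p + (t • ν + y)) ν t := by
      have := (((hasDerivAt_id t).smul_const ν).add_const y).const_add p
      simpa using this
    exact ((hρ.differentiable one_ne_zero _).hasFDerivAt).comp_hasDerivAt t h1
  have hdc : ∀ y : V, Continuous fun t : ℝ => fderiv ℝ ρ (p + (t • ν + y)) ν := by
    intro y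
    exact (hcont.comp (by fun_prop : Continuous fun t : ℝ => p + (t • ν + y))).clm_apply
      continuous_const
  have hmono : ∀ y : Hyp ν, ‖y‖ ≤ r → ∀ t₁ t₂ : ℝ, t₁ ∈ Icc (-r) r → t₂ ∈ Icc (-r) r → t₁ ≤ t₂ →
      a * (t₂ - t₁) ≤ ρ (p + (t₂ • ν + y)) - ρ (p + (t₁ • ν + y)) := by
    intro y hy t₁ t₂ h1 h2 h12
    apply (convex_Icc (-r) r).mul_sub_le_image_sub_of_le_deriv
      (f := fun t : ℝ => ρ (p + (t • ν + y))) _ _ _ t₁ h1 t₂ h2 h12
    · exact fun t _ => (hder y t).continuousAt.continuousWithinAt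
    · exact fun t _ => (hder y t).differentiableAt.differentiableWithinAt
    · intro t ht
      rw [(hder y t).deriv]
      have ht' : t ∈ Icc (-r) r := interior_subset ht
      exact (hcyl t y (abs_le.2 ht') hy).1.le
  -- signs at the ends
  have hend : ∃ r' > 0, r' ≤ r ∧ ∀ y : Hyp ν, ‖y‖ < r' →
      0 < ρ (p + (r • ν + y)) ∧ ρ (p + ((-r) • ν + y)) < 0 := by
    have h0 : ρ (p + ((0 : ℝ) • ν + ((0 : Hyp ν) : V))) = 0 := by simp [hp]
    have h1 := hmono 0 (by simpa using hr0.le) 0 r ⟨by linarith, hr0.le⟩ ⟨by linarith, le_rfl⟩ hr0.le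
    have h2 := hmono 0 (by simpa using hr0.le) (-r) 0 ⟨le_rfl, by linarith⟩ ⟨by linarith, hr0.le⟩ (by linarith)
    rw [h0] at h1 h2
    have h1' : 0 < ρ (p + (r • ν + ((0 : Hyp ν) : V))) := by (by_contra nlg; linarith only [nlg, mul_pos (sub_pos.2 haG) (sub_pos.2 hr0), mul_pos (sub_pos.2 ha2) (sub_pos.2 hr0), mul_nonneg (le_of_lt (sub_pos.2 hδ)) (sub_nonneg.2 h1), mul_nonneg (sub_nonneg.2 (not_lt.1 nlg)) (le_of_lt (sub_pos.2 hδ))])
    have h2' : ρ (p + ((-r) • ν + ((0 : Hyp ν) : V))) < 0 := by (by_contra nlg; linarith only [nlg, mul_pos (sub_pos.2 haG) (sub_pos.2 hr0), mul_pos (sub_pos.2 ha2) (sub_pos.2 hr0), mul_nonneg (le_of_lt (sub_pos.2 hδ)) (sub_nonneg.2 h2), mul_nonneg (sub_nonneg.2 (not_lt.1 nlg)) (le_of_lt (sub_pos.2 hδ))])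
    have hc1 : Continuous fun y : Hyp ν => ρ (p + (r • ν + y)) :=
      hρ.continuous.comp (by fun_prop)
    have hc2 : Continuous fun y : Hyp ν => ρ (p + ((-r) • ν + y)) :=
      hρ.continuous.comp (by fun_prop)
    have hev : ∀ᶠ y : Hyp ν in 𝓝 0, 0 < ρ (p + (r • ν + y)) ∧ ρ (p + ((-r) • ν + y)) < 0 :=
      (hc1.continuousAt.eventually (lt_mem_nhds h1')).and
        (hc2.continuousAt.eventually (gt_mem_nhds h2'))
    obtain ⟨r', hr', hr'2⟩ := Metric.eventually_nhds_iff.1 hev
    refine ⟨min r' r, lt_min hr' hr0, min_le_right _ _, fun y hy => hr'2 ?_⟩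
    rw [dist_zero_right]
    exact lt_of_lt_of_le hy (min_le_left _ _)
  obtain ⟨r', hr'0, hr'r, hsign⟩ := hend
  have hzero : ∀ y : Hyp ν, ∃ t : ℝ, ‖y‖ < r' → t ∈ Ioo (-r) r ∧ ρ (p + (t • ν + y)) = 0 := by
    intro y
    by_cases hy : ‖y‖ < r'
    · have hc : ContinuousOn (fun t : ℝ => ρ (p + (t • ν + y))) (Icc (-r) r) :=
        fun t _ => (hder y t).continuousAt.continuousWithinAt
      obtain ⟨t, ht, ht0⟩ := intermediate_value_Ioo (by linarith : -r ≤ r) hc
        ⟨(hsign y hy).2, (hsign y hy).1⟩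
      exact ⟨t, fun _ => ⟨ht, ht0⟩⟩
    · exact ⟨0, fun h => absurd h hy⟩
  choose τ hτ using hzero
  set P : V → Hyp ν := fun x => (Hyp ν).orthogonalProjectionOnto (x - p) with hP
  set U : Set V := {x | |inner ℝ ν (x - p)| < r ∧ ‖P x‖ < r'} with hU
  have hPc : Continuous P := by fun_prop
  have hUo : IsOpen U := by
    have h1 : Continuous fun x : V => |inner ℝ ν (x - p)| := by fun_prop
    exact (isOpen_lt h1 continuous_const).inter (isOpen_lt hPc.norm continuous_const)
  refine ⟨U, hUo, ?_, ?_⟩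
  · simp [hU, hP, hr0, hr'0]
  intro φ hφc hφ0 hφs hφU η hη
  -- the height function on U
  have hmemU : ∀ (t : ℝ) (y : Hyp ν), p + (t • ν + (y : V)) ∈ U ↔ |t| < r ∧ ‖y‖ < r' := by
    intro t y
    have h := proj_aux hν t y
    simp only [hU, hP, mem_ofPred_eq, add_sub_cancel_left, h.1, h.2]
  have hφ_out : ∀ (t : ℝ) (y : Hyp ν), ¬ (|t| < r ∧ ‖y‖ < r') → φ (p + (t • ν + (y : V))) = 0 := by
    intro t y h
    by_contra hne
    exact h ((hmemU t y).1 (hφU (subset_tsupport φ hne)))
  have huniq : ∀ (y : Hyp ν), ‖y‖ < r' → ∀ t : ℝ, |t| ≤ r → ρ (p + (t • ν + (y : V))) = 0 →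
      t = τ y := by
    intro y hy t ht h0
    obtain ⟨hτ1, hτ2⟩ := hτ y hy
    have hτ1' : τ y ∈ Icc (-r) r := Ioo_subset_Icc_self hτ1
    have ht' : t ∈ Icc (-r) r := abs_le.1 ht
    rcases le_total t (τ y) with h | h
    · have := hmono y (hy.le.trans hr'r) t (τ y) ht' hτ1' h
      rw [h0, hτ2] at this
      nlinarith
    · have := hmono y (hy.le.trans hr'r) (τ y) t hτ1' ht' h
      rw [h0, hτ2] at this
      nlinarith
  set q : Hyp ν → V := fun y => p + (τ y • ν + (y : V)) with hq
  set B : Set (Hyp ν) := Metric.ball 0 r' with hB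
  -- error size
  set vB : ℝ := (volume B).toReal with hvB
  have hvB0 : 0 ≤ vB := ENNReal.toReal_nonneg
  set η₁ : ℝ := η * a / (vB + 1) with hη₁
  have hη₁0 : 0 < η₁ := by positivity
  have huc : UniformContinuous φ := hφs.uniformContinuous_of_continuous hφc
  obtain ⟨d, hd, hdφ⟩ := Metric.uniformContinuous_iff.1 huc η₁ hη₁0
  have hev : ∀ᶠ ε in 𝓝[>] (0 : ℝ), ε < a * d ∧ 0 < ε := by
    have h1 : ∀ᶠ ε in 𝓝[>] (0 : ℝ), ε < a * d :=
      (eventually_lt_nhds (by positivity)).filter_mono nhdsWithin_le_nhds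
    exact h1.and self_mem_nhdsWithin
  filter_upwards [hev] with ε hε
  obtain ⟨hεd, hε0⟩ := hε
  -- inner estimate
  have hinner : ∀ y : Hyp ν, ∫⁻ t : ℝ, ENNReal.ofReal (ε⁻¹ *
      chi' (-ρ (p + (t • ν + (y : V))) / ε) * φ (p + (t • ν + (y : V)))) ≤
      B.indicator (fun y => ENNReal.ofReal (1 / a) * ENNReal.ofReal (φ (q y)) +
        ENNReal.ofReal (η₁ / a)) y := by
    intro y
    by_cases hy : ‖y‖ < r'
    · have hyB : y ∈ B := by simpa [hB] using hy
      rw [indicator_of_mem hyB]
      obtain ⟨hτ1, hτ2⟩ := hτ y hy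
      have hτ1' : τ y ∈ Icc (-r) r := Ioo_subset_Icc_self hτ1
      have hφq : 0 ≤ φ (q y) + η₁ := add_nonneg (hφ0 _) hη₁0.le
      have hpt : ∀ t : ℝ, ENNReal.ofReal (ε⁻¹ *
          chi' (-ρ (p + (t • ν + (y : V))) / ε) * φ (p + (t • ν + (y : V)))) ≤
          (Icc (-r) r).indicator (fun t => ENNReal.ofReal ((φ (q y) + η₁) *
            (ε⁻¹ * chi' (-ρ (p + (t • ν + (y : V))) / ε)))) t := by
        intro t
        by_cases ht : t ∈ Icc (-r) r
        · rw [indicator_of_mem ht]
          apply ENNReal.ofReal_le_ofReal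
          rw [mul_comm]
          have hchi : 0 ≤ ε⁻¹ * chi' (-ρ (p + (t • ν + (y : V))) / ε) :=
            mul_nonneg (inv_nonneg.2 hε0.le) (chi'_nonneg _)
          by_cases hz : chi' (-ρ (p + (t • ν + (y : V))) / ε) = 0
          · simp [hz]
          · apply mul_le_mul_of_nonneg_right _ hchi
            have h1 : 0 ≤ -ρ (p + (t • ν + (y : V))) / ε := by
              by_contra h; exact hz (chi'_eq_zero_of_lt (not_le.1 h))
            have h2 : -ρ (p + (t • ν + (y : V))) / ε ≤ 1 := by
              by_contra h; exact hz (chi'_eq_zero_of_gt (not_le.1 h))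
            have h3 : ρ (p + (t • ν + (y : V))) ≤ 0 := by
              have := mul_nonneg h1 hε0.le
              rw [div_mul_cancel₀ _ hε0.ne'] at this
              linarith
            have h4 : -ε ≤ ρ (p + (t • ν + (y : V))) := by
              rw [div_le_one hε0] at h2; linarith
            have h5 : |t - τ y| < d := by
              rcases le_total t (τ y) with h | h
              · have := hmono y (hy.le.trans hr'r) t (τ y) ht hτ1' h
                rw [hτ2] at this
                rw [abs_of_nonpos (by linarith)]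
                by_contra hcon
                have : a * d ≤ a * (τ y - t) := mul_le_mul_of_nonneg_left (by linarith) ha.le
                linarith
              · have := hmono y (hy.le.trans hr'r) (τ y) t hτ1' ht h
                rw [hτ2] at this
                rw [abs_of_nonneg (by linarith)]
                by_contra hcon
                have : a * d ≤ a * (t - τ y) := mul_le_mul_of_nonneg_left (by linarith) ha.le
                linarith
            have h6 : dist (p + (t • ν + (y : V))) (q y) < d := by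
              rw [hq, dist_eq_norm]
              have : p + (t • ν + (y : V)) - (p + (τ y • ν + (y : V))) = (t - τ y) • ν := by
                rw [sub_smul]; abel
              rw [this, norm_smul, hν, mul_one, Real.norm_eq_abs]
              exact h5
            have h7 := hdφ h6
            rw [Real.dist_eq] at h7
            linarith only [(abs_lt.1 h7).2]
        · rw [indicator_of_notMem ht, hφ_out t y]
          · simp
          · intro h
            exact ht (abs_le.1 h.1.le)
      calc ∫⁻ t : ℝ, ENNReal.ofReal (ε⁻¹ *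
            chi' (-ρ (p + (t • ν + (y : V))) / ε) * φ (p + (t • ν + (y : V))))
          ≤ ∫⁻ t in Icc (-r) r, ENNReal.ofReal ((φ (q y) + η₁) *
            (ε⁻¹ * chi' (-ρ (p + (t • ν + (y : V))) / ε))) := by
            rw [← lintegral_indicator measurableSet_Icc]
            exact lintegral_mono hpt
        _ = ENNReal.ofReal (∫ t in Icc (-r) r, (φ (q y) + η₁) *
            (ε⁻¹ * chi' (-ρ (p + (t • ν + (y : V))) / ε))) := by
            rw [ofReal_integral_eq_lintegral_ofReal]
            · apply Continuous.integrableOn_Icc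
              have h1 : Continuous fun t : ℝ => ρ (p + (t • ν + (y : V))) :=
                hρ.continuous.comp (by fun_prop)
              exact continuous_const.mul (continuous_const.mul
                (continuous_chi'.comp (h1.neg.div_const ε)))
            · exact ae_of_all _ fun t => mul_nonneg hφq
                (mul_nonneg (inv_nonneg.2 hε0.le) (chi'_nonneg _))
        _ ≤ ENNReal.ofReal ((φ (q y) + η₁) * (1 / a)) := by
            apply ENNReal.ofReal_le_ofReal
            rw [integral_const_mul]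
            apply mul_le_mul_of_nonneg_left _ hφq
            rw [integral_Icc_eq_integral_Ioc, ← intervalIntegral.integral_of_le (by linarith only [hr'r, hr'0])]
            exact one_dim (hder y) (hdc y) (by linarith) ha hε0
              fun t ht => (hcyl t y (abs_le.2 ht) (hy.le.trans hr'r)).1.le
        _ = ENNReal.ofReal (1 / a) * ENNReal.ofReal (φ (q y)) + ENNReal.ofReal (η₁ / a) := by
            rw [← ENNReal.ofReal_mul (by positivity), ← ENNReal.ofReal_add (by
              have := hφ0 (q y); positivity) (by positivity)]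
            congr 1; ring
    · have hyB : y ∉ B := by simpa [hB] using hy
      rw [indicator_of_notMem hyB]
      have : ∀ t : ℝ, φ (p + (t • ν + (y : V))) = 0 := fun t => hφ_out t y fun h => hy h.2
      simp [this]
  -- comparison of measures
  set K : Set V := {x | ρ x = 0} with hK
  have hKc : IsClosed K := isClosed_eq hρ.continuous continuous_const
  have hKU : MeasurableSet (K ∩ U) := hKc.measurableSet.inter hUo.measurableSet
  have hPm : Measurable P := hPc.measurable
  have hqU : ∀ y ∈ B, q y ∈ K ∩ U ∧ P (q y) = y := by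
    intro y hy
    have hy' : ‖y‖ < r' := by simpa [hB] using hy
    obtain ⟨hτ1, hτ2⟩ := hτ y hy'
    refine ⟨⟨hτ2, (hmemU _ _).2 ⟨abs_lt.2 hτ1, hy'⟩⟩, ?_⟩
    simp only [hP, hq, add_sub_cancel_left]
    exact (proj_aux hν _ _).1
  have hqP : ∀ x ∈ K ∩ U, q (P x) = x := by
    intro x hx
    have hx2 := hx.2
    have hdec := decomp_aux hν (x - p)
    have hx' : x = p + (inner ℝ ν (x - p) • ν + (P x : V)) := by
      simp only [hP]; rw [hdec]; abel
    have hx3 : |inner ℝ ν (x - p)| < r ∧ ‖P x‖ < r' := hx2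
    have h0 : ρ (p + (inner ℝ ν (x - p) • ν + (P x : V))) = 0 := by
      rw [← hx']; exact hx.1
    have := huniq (P x) hx3.2 _ hx3.1.le h0
    simp only [hq]
    rw [← this]
    exact hx'.symm
  have hfr : finrank ℝ (Hyp ν) = finrank ℝ V - 1 := by
    have h1 : finrank ℝ (ℝ ∙ ν) + finrank ℝ (Hyp ν) = finrank ℝ V :=
      (ℝ ∙ ν).finrank_add_finrank_orthogonal
    have h2 : finrank ℝ (ℝ ∙ ν) = 1 := finrank_span_singleton (by
      intro h; rw [h, norm_zero] at hν; exact one_ne_zero hν.symm)
    rw [h2] at h1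
    omega
  have hLip : LipschitzWith 1 P := by
    have h1 : LipschitzWith 1 fun x : V => x - p := by
      apply LipschitzWith.of_dist_le_mul
      intro x y
      simp
    have h2 := (Hyp ν).lipschitzWith_orthogonalProjectionOnto.comp h1
    rw [one_mul] at h2
    exact h2
  have himage : ∀ S : Set V, (volume (P '' S) : ℝ≥0∞) ≤ (μHE[finrank ℝ V - 1] : Measure V) S := by
    intro S
    rw [← InnerProductSpace.euclideanHausdorffMeasure_eq_volume, hfr,
      Measure.euclideanHausdorffMeasure_def, Measure.euclideanHausdorffMeasure_def,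
      Measure.smul_apply, Measure.smul_apply]
    have := hLip.hausdorffMeasure_image_le (d := ((finrank ℝ V - 1 : ℕ) : ℝ)) (by positivity) S
    simp only [ENNReal.coe_one, ENNReal.one_rpow, one_mul] at this
    gcongr
  have hmeas : (volume.restrict B : Measure (Hyp ν)) ≤
      ((μHE[finrank ℝ V - 1] : Measure V).restrict (K ∩ U)).map P := by
    rw [Measure.le_iff]
    intro A hA
    rw [Measure.restrict_apply hA, Measure.map_apply hPm hA, Measure.restrict_apply (hPm hA)]
    refine le_trans (measure_mono ?_) (himage _)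
    rintro y ⟨hyA, hyB⟩
    obtain ⟨h1, h2⟩ := hqU y hyB
    refine ⟨q y, ⟨?_, h1⟩, h2⟩
    rw [mem_preimage, h2]; exact hyA
  have hcomp : ∫⁻ y in B, ENNReal.ofReal (φ (q y)) ≤
      ∫⁻ x in K ∩ U, ENNReal.ofReal (φ x) ∂(μHE[finrank ℝ V - 1] : Measure V) := by
    calc ∫⁻ y in B, ENNReal.ofReal (φ (q y))
        ≤ ∫⁻ y, ENNReal.ofReal (φ (q y)) ∂(((μHE[finrank ℝ V - 1] : Measure V).restrict (K ∩ U)).map P) :=
          lintegral_mono' hmeas le_rfl
      _ ≤ ∫⁻ x in K ∩ U, ENNReal.ofReal (φ (q (P x))) ∂(μHE[finrank ℝ V - 1] : Measure V) :=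
          lintegral_map_le _ _
      _ = ∫⁻ x in K ∩ U, ENNReal.ofReal (φ x) ∂(μHE[finrank ℝ V - 1] : Measure V) := by
          apply setLIntegral_congr_fun hKU
          intro x hx
          simp only [hqP x hx]
  have hGm : Measurable fun x : V => ENNReal.ofReal (ε⁻¹ * chi' (-ρ x / ε) * φ x) := by
    apply ENNReal.measurable_ofReal.comp
    apply Continuous.measurable
    exact (continuous_const.mul (continuous_chi'.comp (hρ.continuous.neg.div_const ε))).mul hφc
  calc ∫⁻ x, ENNReal.ofReal (ε⁻¹ * chi' (-ρ x / ε) * φ x)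
      = ∫⁻ x, ENNReal.ofReal (ε⁻¹ * chi' (-ρ (p + x) / ε) * φ (p + x)) :=
        (lintegral_add_left_eq_self (fun x => ENNReal.ofReal (ε⁻¹ * chi' (-ρ x / ε) * φ x)) p).symm
    _ = ∫⁻ y : Hyp ν, ∫⁻ t : ℝ, ENNReal.ofReal (ε⁻¹ *
          chi' (-ρ (p + (t • ν + (y : V))) / ε) * φ (p + (t • ν + (y : V)))) :=
        lintegral_line hν (fun x => ENNReal.ofReal (ε⁻¹ * chi' (-ρ (p + x) / ε) * φ (p + x)))
          (hGm.comp (measurable_const_add p))
    _ ≤ ∫⁻ y : Hyp ν, B.indicator (fun y => ENNReal.ofReal (1 / a) * ENNReal.ofReal (φ (q y)) +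
        ENNReal.ofReal (η₁ / a)) y := lintegral_mono hinner
    _ = ENNReal.ofReal (1 / a) * (∫⁻ y in B, ENNReal.ofReal (φ (q y))) +
        ENNReal.ofReal (η₁ / a) * volume B := by
        rw [lintegral_indicator Metric.isOpen_ball.measurableSet, lintegral_add_right _ measurable_const,
          lintegral_const_mul' _ _ ENNReal.ofReal_ne_top, lintegral_const, Measure.restrict_apply_univ]
    _ ≤ ENNReal.ofReal (1 + δ) * (∫⁻ x in K,
          ENNReal.ofReal (φ x / ‖fderiv ℝ ρ x‖) ∂(μHE[finrank ℝ V - 1] : Measure V)) +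
        ENNReal.ofReal η := by
        apply add_le_add
        · calc ENNReal.ofReal (1 / a) * (∫⁻ y in B, ENNReal.ofReal (φ (q y)))
              ≤ ENNReal.ofReal (1 / a) * ∫⁻ x in K ∩ U, ENNReal.ofReal (φ x)
                ∂(μHE[finrank ℝ V - 1] : Measure V) := by gcongr
            _ = ∫⁻ x in K ∩ U, ENNReal.ofReal (1 / a) * ENNReal.ofReal (φ x)
                ∂(μHE[finrank ℝ V - 1] : Measure V) :=
                (lintegral_const_mul' _ _ ENNReal.ofReal_ne_top).symm
            _ ≤ ∫⁻ x in K ∩ U, ENNReal.ofReal (1 + δ) * ENNReal.ofReal (φ x / ‖fderiv ℝ ρ x‖)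
                ∂(μHE[finrank ℝ V - 1] : Measure V) := by
                apply setLIntegral_mono' hKU
                intro x hx
                rw [← ENNReal.ofReal_mul (by positivity), ← ENNReal.ofReal_mul (by positivity)]
                apply ENNReal.ofReal_le_ofReal
                have hx2 : |inner ℝ ν (x - p)| < r ∧ ‖P x‖ < r' := hx.2
                have hx' : x = p + (inner ℝ ν (x - p) • ν + (P x : V)) := by
                  simp only [hP]; rw [decomp_aux hν (x - p)]; abel
                have h1 := hcyl (inner ℝ ν (x - p)) (P x) hx2.1.le (hx2.2.le.trans hr'r)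
                rw [← hx'] at h1
                have h2 : 0 < ‖fderiv ℝ ρ x‖ := by
                  rw [norm_pos_iff]
                  intro h0
                  rw [h0] at h1
                  simp at h1
                  linarith only [h1.1, ha]
                have h3 : 1 / a ≤ (1 + δ) / ‖fderiv ℝ ρ x‖ := by
                  rw [div_le_div_iff₀ ha h2]
                  linarith only [h1.2]
                calc 1 / a * φ x ≤ (1 + δ) / ‖fderiv ℝ ρ x‖ * φ x :=
                      mul_le_mul_of_nonneg_right h3 (hφ0 x)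
                  _ = (1 + δ) * (φ x / ‖fderiv ℝ ρ x‖) := by ring
            _ = ENNReal.ofReal (1 + δ) * ∫⁻ x in K ∩ U, ENNReal.ofReal (φ x / ‖fderiv ℝ ρ x‖)
                ∂(μHE[finrank ℝ V - 1] : Measure V) := lintegral_const_mul' _ _ ENNReal.ofReal_ne_top
            _ ≤ _ := by
                gcongr
                exact inter_subset_left
        · have hvBt : volume B ≠ ⊤ := measure_ball_lt_top.ne
          rw [← ENNReal.ofReal_toReal hvBt, ← ENNReal.ofReal_mul (by positivity)]
          apply ENNReal.ofReal_le_ofReal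
          rw [← hvB, hη₁]
          have : η * a / (vB + 1) / a * vB = η * (vB / (vB + 1)) := by field_simp
          rw [this]
          have h5 : vB / (vB + 1) ≤ 1 := by rw [div_le_one (by positivity)]; linarith only []
          linarith only [mul_nonneg (le_of_lt (sub_pos.2 hη)) (sub_nonneg.2 h5)]


omit [FiniteDimensional ℝ V] [MeasurableSpace V] [BorelSpace V] in
theorem zero_subset_closure {ρ : V → ℝ} (hreg : ∀ x, ρ x = 0 → fderiv ℝ ρ x ≠ 0) :
    {x | ρ x = 0} ⊆ closure {x | ρ x < 0} := by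
  intro x hx
  by_contra hcl
  apply hreg x hx
  apply IsLocalMin.fderiv_eq_zero
  have h1 : (closure {x | ρ x < 0})ᶜ ∈ 𝓝 x := isClosed_closure.isOpen_compl.mem_nhds hcl
  filter_upwards [h1] with y hy
  have hy2 : ¬ ρ y < 0 := fun h => hy (subset_closure h)
  have hx' : ρ x = 0 := hx
  rw [hx']
  exact not_lt.1 hy2

theorem coarea_limsup (ρ : V → ℝ) (hρ : ContDiff ℝ 1 ρ) (hbdd : Bornology.IsBounded {x | ρ x < 0})
    (hreg : ∀ x, ρ x = 0 → fderiv ℝ ρ x ≠ 0) (h : V → ℝ) (hh : Continuous h)
    (hh0 : ∀ x, 0 ≤ h x) (η : ℝ) (hη : 0 < η) :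
    ∀ᶠ ε in 𝓝[>] (0 : ℝ), ∫⁻ x, ENNReal.ofReal (ε⁻¹ * chi' (-ρ x / ε) * h x) ≤
        (∫⁻ x in {x | ρ x = 0},
          ENNReal.ofReal (h x / ‖fderiv ℝ ρ x‖) ∂(μHE[finrank ℝ V - 1] : Measure V)) +
        ENNReal.ofReal η := by
  set K : Set V := {x | ρ x = 0} with hK
  set Ω : Set V := {x | ρ x < 0} with hΩ
  set A : ℝ≥0∞ := ∫⁻ x in K, ENNReal.ofReal (h x / ‖fderiv ℝ ρ x‖)
    ∂(μHE[finrank ℝ V - 1] : Measure V) with hA
  by_cases hAt : A = ⊤
  · rw [hAt]; simp
  have hcont : Continuous (fderiv ℝ ρ) := hρ.continuous_fderiv one_ne_zero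
  have hKclosed : IsClosed K := isClosed_eq hρ.continuous continuous_const
  have hKcl : K ⊆ closure Ω := zero_subset_closure hreg
  have hclc : IsCompact (closure Ω) := hbdd.isCompact_closure
  have hKcomp : IsCompact K := hclc.of_isClosed_subset hKclosed hKcl
  have hclle : ∀ x ∈ closure Ω, ρ x ≤ 0 := by
    intro x hx
    exact closure_minimal (fun y hy => le_of_lt hy) (isClosed_le hρ.continuous continuous_const) hx
  -- δ
  set δ : ℝ := η / (2 * (A.toReal + 1)) with hδ
  have hA0 : 0 ≤ A.toReal := ENNReal.toReal_nonneg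
  have hδ0 : 0 < δ := by positivity
  have hloc : ∀ p : K, ∃ U : Set V, IsOpen U ∧ (p : V) ∈ U ∧ ∀ φ : V → ℝ, Continuous φ →
      (∀ x, 0 ≤ φ x) → HasCompactSupport φ → tsupport φ ⊆ U → ∀ η > 0, ∀ᶠ ε in 𝓝[>] (0 : ℝ),
      ∫⁻ x, ENNReal.ofReal (ε⁻¹ * chi' (-ρ x / ε) * φ x) ≤
        ENNReal.ofReal (1 + δ) * (∫⁻ x in {x | ρ x = 0},
          ENNReal.ofReal (φ x / ‖fderiv ℝ ρ x‖) ∂(μHE[finrank ℝ V - 1] : Measure V)) +
        ENNReal.ofReal η := fun p => local_bound ρ hρ p p.2 (hreg p p.2) δ hδ0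
  choose U hUo hpU hU using hloc
  obtain ⟨t, ht⟩ := hKcomp.elim_finite_subcover U hUo
    (fun x hx => mem_iUnion.2 ⟨⟨x, hx⟩, hpU ⟨x, hx⟩⟩)
  set N := t.card with hN
  set eqv := t.equivFin.symm with heqv
  set W : Fin N → Set V := fun i => U (eqv i) with hW
  have hWo : ∀ i, IsOpen (W i) := fun i => hUo _
  have hKW : K ⊆ ⋃ i, W i := by
    intro x hx
    obtain ⟨p, hp, hxp⟩ := mem_iUnion₂.1 (ht hx)
    refine mem_iUnion.2 ⟨t.equivFin ⟨p, hp⟩, ?_⟩
    simp only [hW, heqv, Equiv.symm_apply_apply]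
    exact hxp
  obtain ⟨K', hK'c, hKK', hK'W⟩ := exists_compact_between hKcomp (isOpen_iUnion hWo) hKW
  obtain ⟨f, hfs, hf1, hf01, hfc⟩ := exists_continuous_sum_one_of_isOpen_isCompact hWo hK'c hK'W
  -- small ε: support in K'
  obtain ⟨ε₀, hε₀, hε₀K⟩ : ∃ ε₀ > 0, ∀ x, x ∉ K' → ρ x ≤ 0 → ρ x ≤ -ε₀ := by
    have hc : IsCompact (closure Ω \ interior K') := hclc.diff isOpen_interior
    rcases (closure Ω \ interior K').eq_empty_or_nonempty with he | hne
    · refine ⟨1, one_pos, fun x hx hx0 => ?_⟩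
      exfalso
      have hxcl : x ∈ closure Ω := by
        rcases lt_or_eq_of_le hx0 with h' | h'
        · exact subset_closure h'
        · exact hKcl h'
      have : x ∈ closure Ω \ interior K' := ⟨hxcl, fun hi => hx (interior_subset hi)⟩
      rw [he] at this
      exact this
    · obtain ⟨z, hz, hzmax⟩ := hc.exists_isMaxOn hne hρ.continuous.continuousOn
      have hz0 : ρ z < 0 := by
        rcases lt_or_eq_of_le (hclle z hz.1) with h' | h'
        · exact h'
        · exact absurd (hKK' h') hz.2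
      refine ⟨-ρ z, by linarith, fun x hx hx0 => ?_⟩
      have hxcl : x ∈ closure Ω := by
        rcases lt_or_eq_of_le hx0 with h' | h'
        · exact subset_closure h'
        · exact hKcl h'
      have : x ∈ closure Ω \ interior K' := ⟨hxcl, fun hi => hx (interior_subset hi)⟩
      have := hzmax this
      simp only [mem_ofPred_eq] at this
      linarith
  set φ : Fin N → V → ℝ := fun i x => h x * f i x with hφ
  have hφc : ∀ i, Continuous (φ i) := fun i => hh.mul (f i).continuous
  have hφ0 : ∀ i x, 0 ≤ φ i x := fun i x => mul_nonneg (hh0 x) (hf01 i x).1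
  have hφcs : ∀ i, HasCompactSupport (φ i) := fun i => (hfc i).mul_left
  have hφts : ∀ i, tsupport (φ i) ⊆ W i := fun i =>
    (tsupport_mul_subset_right (f := h) (g := f i)).trans (hfs i)
  obtain ⟨η', hη'0, hη'⟩ : ∃ η' : ℝ, 0 < η' ∧ (N : ℝ) * η' ≤ η / 2 := by
    have hN0 : (0 : ℝ) ≤ (N : ℝ) := Nat.cast_nonneg N
    generalize (N : ℝ) = Nr at hN0
    refine ⟨η / (2 * (Nr + 1)), by positivity, ?_⟩
    have : Nr * (η / (2 * (Nr + 1))) = η / 2 * (Nr / (Nr + 1)) := by field_simp
    rw [this]
    have h5 : Nr / (Nr + 1) ≤ 1 := by rw [div_le_one (by positivity)]; linarith only []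
    linarith only [mul_nonneg (le_of_lt (sub_pos.2 hη)) (sub_nonneg.2 h5)]
  have hev : ∀ᶠ ε in 𝓝[>] (0 : ℝ), ∀ i : Fin N,
      ∫⁻ x, ENNReal.ofReal (ε⁻¹ * chi' (-ρ x / ε) * φ i x) ≤
        ENNReal.ofReal (1 + δ) * (∫⁻ x in {x | ρ x = 0},
          ENNReal.ofReal (φ i x / ‖fderiv ℝ ρ x‖) ∂(μHE[finrank ℝ V - 1] : Measure V)) +
        ENNReal.ofReal η' := by
    rw [eventually_all]
    intro i
    exact hU (eqv i) (φ i) (hφc i) (hφ0 i) (hφcs i) (hφts i) _ hη'0
  have hev2 : ∀ᶠ ε in 𝓝[>] (0 : ℝ), ε < ε₀ ∧ 0 < ε := by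
    have h1 : ∀ᶠ ε in 𝓝[>] (0 : ℝ), ε < ε₀ :=
      (eventually_lt_nhds hε₀).filter_mono nhdsWithin_le_nhds
    exact h1.and self_mem_nhdsWithin
  filter_upwards [hev, hev2] with ε hε hε2
  obtain ⟨hεε₀, hε0⟩ := hε2
  have hsum : ∀ x, ENNReal.ofReal (ε⁻¹ * chi' (-ρ x / ε) * h x) =
      ∑ i, ENNReal.ofReal (ε⁻¹ * chi' (-ρ x / ε) * φ i x) := by
    intro x
    have hchi : 0 ≤ ε⁻¹ * chi' (-ρ x / ε) :=
      mul_nonneg (inv_nonneg.2 hε0.le) (chi'_nonneg _)
    rw [← ENNReal.ofReal_sum_of_nonneg (fun i _ => mul_nonneg hchi (hφ0 i x)), ← Finset.mul_sum]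
    by_cases hz : chi' (-ρ x / ε) = 0
    · simp [hz]
    · have h1 : 0 ≤ -ρ x / ε := by
        by_contra h; exact hz (chi'_eq_zero_of_lt (not_le.1 h))
      have h2 : -ρ x / ε ≤ 1 := by
        by_contra h; exact hz (chi'_eq_zero_of_gt (not_le.1 h))
      have h3 : ρ x ≤ 0 := by
        have := mul_nonneg h1 hε0.le
        rw [div_mul_cancel₀ _ hε0.ne'] at this
        linarith only [this]
      have h4 : -ε ≤ ρ x := by
        rw [div_le_one hε0] at h2; linarith
      have hxK : x ∈ K' := by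
        by_contra hx
        have := hε₀K x hx h3
        linarith
      have h5 := hf1 hxK
      simp only [Finset.sum_apply, Pi.one_apply] at h5
      have h6 : ∑ i, φ i x = h x := by
        simp only [hφ]
        rw [← Finset.mul_sum]
        have : ∑ i, (f i) x = 1 := by simpa using h5
        rw [this, mul_one]
      rw [h6]
  have hmeas : ∀ i, Measurable fun x => ENNReal.ofReal (ε⁻¹ * chi' (-ρ x / ε) * φ i x) := by
    intro i
    apply ENNReal.measurable_ofReal.comp
    apply Continuous.measurable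
    exact (continuous_const.mul (continuous_chi'.comp (hρ.continuous.neg.div_const ε))).mul (hφc i)
  calc ∫⁻ x, ENNReal.ofReal (ε⁻¹ * chi' (-ρ x / ε) * h x)
      = ∫⁻ x, ∑ i, ENNReal.ofReal (ε⁻¹ * chi' (-ρ x / ε) * φ i x) := lintegral_congr hsum
    _ = ∑ i, ∫⁻ x, ENNReal.ofReal (ε⁻¹ * chi' (-ρ x / ε) * φ i x) :=
        lintegral_finsetSum _ fun i _ => hmeas i
    _ ≤ ∑ i, (ENNReal.ofReal (1 + δ) * (∫⁻ x in K,
          ENNReal.ofReal (φ i x / ‖fderiv ℝ ρ x‖) ∂(μHE[finrank ℝ V - 1] : Measure V)) +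
        ENNReal.ofReal η') := Finset.sum_le_sum fun i _ => hε i
    _ = ENNReal.ofReal (1 + δ) * (∑ i, ∫⁻ x in K,
          ENNReal.ofReal (φ i x / ‖fderiv ℝ ρ x‖) ∂(μHE[finrank ℝ V - 1] : Measure V)) +
        N * ENNReal.ofReal η' := by
        rw [Finset.sum_add_distrib, Finset.mul_sum]
        simp
    _ = ENNReal.ofReal (1 + δ) * A + N * ENNReal.ofReal η' := by
        congr 2
        rw [hA, ← lintegral_finsetSum]
        · apply setLIntegral_congr_fun hKclosed.measurableSet
          intro x hx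
          have hxK : x ∈ K' := interior_subset (hKK' hx)
          have h5 := hf1 hxK
          simp only [Finset.sum_apply, Pi.one_apply] at h5
          have h7 : ∑ i, (f i) x = 1 := by simpa using h5
          simp only
          rw [← ENNReal.ofReal_sum_of_nonneg
            (fun i _ => div_nonneg (hφ0 i x) (norm_nonneg _)), ← Finset.sum_div]
          simp only [hφ]
          rw [← Finset.mul_sum, h7, mul_one]
        · intro i _
          exact ENNReal.measurable_ofReal.comp ((hφc i).measurable.div hcont.norm.measurable)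
    _ ≤ A + ENNReal.ofReal η := by
        have hAe : A = ENNReal.ofReal A.toReal := (ENNReal.ofReal_toReal hAt).symm
        have hNe : (N : ℝ≥0∞) = ENNReal.ofReal (N : ℝ) := by simp
        have hN0 : (0 : ℝ) ≤ (N : ℝ) := Nat.cast_nonneg N
        have h0 : 0 ≤ (1 + δ) * A.toReal := mul_nonneg (by linarith) hA0
        rw [hAe, hNe, ← ENNReal.ofReal_mul (by linarith), ← ENNReal.ofReal_mul hN0,
          ← ENNReal.ofReal_add h0 (mul_nonneg hN0 hη'0.le),
          ← ENNReal.ofReal_add ENNReal.toReal_nonneg hη.le]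
        apply ENNReal.ofReal_le_ofReal
        have h1 : δ * A.toReal ≤ η / 2 := by
          rw [hδ]
          have : η / (2 * (A.toReal + 1)) * A.toReal = η / 2 * (A.toReal / (A.toReal + 1)) := by
            field_simp
          rw [this]
          have h5 : A.toReal / (A.toReal + 1) ≤ 1 := by
            rw [div_le_one (by positivity)]; linarith
          linarith only [mul_nonneg (le_of_lt (sub_pos.2 hη)) (sub_nonneg.2 h5)]
        linarith


end Vale.Agent.P219.Coarea
end

section

open MeasureTheory Set Filter Topology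
open scoped ENNReal ContDiff

namespace Vale.Agent.P219

variable {n : ℕ}

/-- Smooth functions increasing to the indicator function of a domain. -/
noncomputable def Feps (D : SmoothDomain n) (ε : ℝ) (x : E n) : ℝ :=
  Real.smoothTransition (-D.ρ x / ε)

theorem Feps_smooth (D : SmoothDomain n) (ε : ℝ) : ContDiff ℝ ∞ (Feps D ε) :=
  (Real.smoothTransition.contDiff (n := ⊤)).comp (D.smooth.neg.div_const ε)

theorem Feps_nonneg (D : SmoothDomain n) (ε : ℝ) (x : E n) : 0 ≤ Feps D ε x :=
  Real.smoothTransition.nonneg _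

theorem Feps_le_one (D : SmoothDomain n) (ε : ℝ) (x : E n) : Feps D ε x ≤ 1 :=
  Real.smoothTransition.le_one _

theorem Feps_eq_zero (D : SmoothDomain n) {ε : ℝ} (hε : 0 < ε) {x : E n} (hx : x ∉ D.carrier) :
    Feps D ε x = 0 := by
  apply Real.smoothTransition.zero_of_nonpos
  have : 0 ≤ D.ρ x := not_lt.1 hx
  exact div_nonpos_of_nonpos_of_nonneg (by linarith) hε.le

theorem Feps_compact (D : SmoothDomain n) {ε : ℝ} (hε : 0 < ε) :
    HasCompactSupport (Feps D ε) := by
  have hK : IsCompact (closure D.carrier) := D.bdd.isCompact_closure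
  apply HasCompactSupport.of_support_subset_isCompact hK
  intro x hx
  by_contra h
  exact hx (Feps_eq_zero D hε fun h' => h (subset_closure h'))

theorem Feps_tendsto (D : SmoothDomain n) (x : E n) :
    Tendsto (fun ε => Feps D ε x) (𝓝[>] 0) (𝓝 (D.carrier.indicator (fun _ => 1) x)) := by
  by_cases hx : x ∈ D.carrier
  · rw [indicator_of_mem hx]
    apply tendsto_const_nhds.congr'
    have hρ : D.ρ x < 0 := hx
    have h1 : ∀ᶠ ε in 𝓝[>] (0 : ℝ), ε < -D.ρ x := by
      filter_upwards [Ioo_mem_nhdsGT (show (0 : ℝ) < -D.ρ x by linarith)] with ε hε using hε.2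
    filter_upwards [h1, self_mem_nhdsWithin] with ε h1 h2
    have h2 : 0 < ε := h2
    symm
    apply Real.smoothTransition.one_of_one_le
    rw [le_div_iff₀ h2]
    linarith
  · rw [indicator_of_notMem hx]
    apply tendsto_const_nhds.congr'
    filter_upwards [self_mem_nhdsWithin] with ε h2
    exact (Feps_eq_zero D h2 hx).symm

theorem Feps_fderiv (D : SmoothDomain n) (ε : ℝ) (x : E n) :
    fderiv ℝ (Feps D ε) x = (-(ε⁻¹ * Coarea.chi' (-D.ρ x / ε))) • fderiv ℝ D.ρ x := by
  have h1 : HasFDerivAt D.ρ (fderiv ℝ D.ρ x) x :=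
    (D.smooth.differentiable (by simp) x).hasFDerivAt
  have h2 : HasFDerivAt (fun x => -D.ρ x / ε) ((-ε⁻¹) • fderiv ℝ D.ρ x) x := by
    have := (h1.neg).const_mul ε⁻¹
    refine (this.congr_fderiv ?_).congr_of_eventuallyEq ?_
    · simp
    · filter_upwards with y
      simp
      ring
  have h3 := (Coarea.hasDerivAt_chi (-D.ρ x / ε)).comp_hasFDerivAt x h2
  have h4 := h3.fderiv
  have h5 : fderiv ℝ (Feps D ε) x =
      Coarea.chi' (-D.ρ x / ε) • ((-ε⁻¹) • fderiv ℝ D.ρ x) := h4
  rw [h5, smul_smul]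
  congr 1
  ring

variable (M : RiemMetric n) (e : Fin n → E n → E n) (he : TriangularFrame M e)

include he

theorem coord_smooth (a i : Fin n) : ContDiff ℝ ∞ fun x => e a x i := by
  have := (contDiff_euclidean (𝕜 := ℝ)).1 (he.smooth a)
  exact this i

theorem volDensity_smooth : ContDiff ℝ ∞ (volDensity M) := by
  have : volDensity M = fun x => (∏ a, e a x a)⁻¹ := by
    funext x; exact volDensity_prod M e he x
  rw [this]
  exact ContDiff.inv (contDiff_prod fun a _ => coord_smooth M e he a a)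
    fun x => (prod_pos M e he x).ne'

theorem covNorm_smul (x : E n) (c : ℝ) (φ : E n →L[ℝ] ℝ) :
    covNorm M x (c • φ) = |c| * covNorm M x φ := by
  rw [covNorm_sum M e he, covNorm_sum M e he, ← Real.sqrt_sq_eq_abs, ← Real.sqrt_mul (sq_nonneg _),
    Finset.mul_sum]
  congr 1
  refine Finset.sum_congr rfl fun a _ => ?_
  simp
  ring

theorem covNorm_nonneg (x : E n) (φ : E n →L[ℝ] ℝ) : 0 ≤ covNorm M x φ := by
  rw [covNorm_sum M e he]; exact Real.sqrt_nonneg _

theorem covNorm_fderiv_continuous {f : E n → ℝ} (hf : ContDiff ℝ 1 f) :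
    Continuous fun x => covNorm M x (fderiv ℝ f x) := by
  have : (fun x => covNorm M x (fderiv ℝ f x)) = fun x => √(∑ a, fderiv ℝ f x (e a x) ^ 2) := by
    funext x; exact covNorm_sum M e he x _
  rw [this]
  refine (continuous_finsetSum _ fun a _ => ?_).sqrt
  exact ((hf.continuous_fderiv one_ne_zero).clm_apply (he.smooth a).continuous).pow 2

/-- The gradient integrals of the approximating functions are asymptotically bounded by the
area. -/
theorem Feps_area (D : SmoothDomain n) {η : ℝ} (hη : 0 < η) :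
    ∀ᶠ ε in 𝓝[>] (0 : ℝ),
      ∫⁻ x, ENNReal.ofReal (covNorm M x (fderiv ℝ (Feps D ε) x) * volDensity M x) ≤
        riemArea M D + ENNReal.ofReal η := by
  have hρ1 : ContDiff ℝ 1 D.ρ := D.smooth.of_le (by simp)
  have hc : Continuous fun x => volDensity M x * covNorm M x (fderiv ℝ D.ρ x) :=
    (volDensity_smooth M e he).continuous.mul (covNorm_fderiv_continuous M e he hρ1)
  have h0 : ∀ x, 0 ≤ volDensity M x * covNorm M x (fderiv ℝ D.ρ x) := fun x =>
    mul_nonneg (volDensity_gt M e he x).le (covNorm_nonneg M e he x _)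
  have key := Coarea.coarea_limsup D.ρ hρ1 D.bdd D.regular _ hc h0 η hη
  filter_upwards [key, self_mem_nhdsWithin] with ε h1 h2
  have h2 : 0 < ε := h2
  have e1 : ∀ x, covNorm M x (fderiv ℝ (Feps D ε) x) * volDensity M x =
      ε⁻¹ * Coarea.chi' (-D.ρ x / ε) * (volDensity M x * covNorm M x (fderiv ℝ D.ρ x)) := by
    intro x
    rw [Feps_fderiv, covNorm_smul M e he, abs_neg, abs_of_nonneg]
    · ring
    · exact mul_nonneg (inv_pos.2 h2).le (Coarea.chi'_nonneg _)
  simp only [e1]
  refine h1.trans (le_of_eq ?_)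
  unfold riemArea
  rw [finrank_euclideanSpace_fin]
  congr 1
  refine lintegral_congr fun x => ?_
  rw [mul_div_assoc]

theorem riemVol_eq (D : SmoothDomain n) :
    riemVol M D.carrier = ENNReal.ofReal (∫ x in D.carrier, volDensity M x) := by
  have hvc := (volDensity_smooth M e he).continuous
  have hint : IntegrableOn (volDensity M) D.carrier :=
    (hvc.continuousOn.integrableOn_compact D.bdd.isCompact_closure).mono_set subset_closure
  unfold riemVol
  rw [ofReal_integral_eq_lintegral_ofReal hint]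
  exact Eventually.of_forall fun x => (volDensity_gt M e he x).le

end Vale.Agent.P219
end

section

namespace Vale.Agent.P219

open MeasureTheory Set intervalIntegral Filter Topology

/-- `τ` is the monotone transport of `f dt` on the line to `p dy` on `[-1,1]`, with
active interval `(t₀, t₁)`. -/
structure Transport (f p τ : ℝ → ℝ) (t₀ t₁ : ℝ) : Prop where
  lt : t₀ < t₁
  mono : Monotone τ
  cont : Continuous τ
  mem : ∀ t, τ t ∈ Icc (-1 : ℝ) 1
  zero : ∀ t, t ∉ Ioo t₀ t₁ → f t = 0
  left : τ t₀ = -1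
  right : τ t₁ = 1
  inside : ∀ t ∈ Ioo t₀ t₁, τ t ∈ Ioo (-1 : ℝ) 1
  deriv : ∀ t ∈ Ioo t₀ t₁, HasDerivAt τ (f t / p (τ t)) t

end Vale.Agent.P219
end

section

namespace Vale.Agent.P219

open MeasureTheory Set Filter Topology

end Vale.Agent.P219
end

section

namespace Vale.Agent.P219

open MeasureTheory Set Filter Topology

/-- A triangular system of `C¹` vector fields on `ℝⁿ` with weight `w` and divergences `β`
which are monotone along the flag of coordinates. -/
structure TriSys (n : ℕ) where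
  E : Fin n → (Fin n → ℝ) → (Fin n → ℝ)
  w : (Fin n → ℝ) → ℝ
  β : Fin n → (Fin n → ℝ) → ℝ
  E_c1 : ∀ a, ContDiff ℝ 1 (E a)
  w_c1 : ContDiff ℝ 1 w
  w_pos : ∀ x, 0 < w x
  tri : ∀ a i x, i < a → E a x i = 0
  diag : ∀ a x, 0 < E a x a
  div : ∀ a x, ∑ i, fderiv ℝ (fun y => w y * E a y i) x (Pi.single i 1) = w x * β a x
  β_mono : ∀ a x y, (∀ i < a, x i = y i) → x a ≤ y a → β a x ≤ β a y

namespace TriSys

variable {n k : ℕ}

end TriSys

end Vale.Agent.P219
end

section

namespace Vale.Agent.P219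

open MeasureTheory Set Filter Topology

variable {k : ℕ}

end Vale.Agent.P219
end

section

namespace Vale.Agent.P219

open MeasureTheory Set Filter Topology

/-- The volume constants, defined by slicing: `omr k = ω_k`. -/
noncomputable def omr : ℕ → ℝ
  | 0 => 1
  | (k + 1) => omr k * ∫ y in (-1 : ℝ)..1, √(1 - y ^ 2) ^ k

theorem omr_pos : ∀ k, 0 < omr k
  | 0 => by simp [omr]
  | (k + 1) => by
    rw [omr]
    refine mul_pos (omr_pos k) ?_
    apply intervalIntegral.intervalIntegral_pos_of_pos_on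
    · exact (by fun_prop : Continuous fun y : ℝ => √(1 - y ^ 2) ^ k).intervalIntegrable _ _
    · intro y hy
      have : 0 < 1 - y ^ 2 := by nlinarith [hy.1, hy.2]
      positivity
    · norm_num

variable {k : ℕ}

end Vale.Agent.P219
end

section

namespace Vale.Agent.P219

open MeasureTheory Set Filter Topology

variable {k : ℕ}

end Vale.Agent.P219
end

section

namespace Vale.Agent.P219

open MeasureTheory Set Filter Topology

/-- the Wallis type integrals -/
noncomputable def wal (k : ℕ) : ℝ := ∫ y in (-1 : ℝ)..1, √(1 - y ^ 2) ^ k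

theorem wal_zero : wal 0 = 2 := by norm_num [wal]

theorem wal_one : wal 1 = Real.pi / 2 := by
  rw [wal]; simp only [pow_one]; exact integral_sqrt_one_sub_sq

theorem hasDerivAt_sqrt_pow (k : ℕ) {y : ℝ} (hy : y ∈ Ioo (-1 : ℝ) 1) :
    HasDerivAt (fun y : ℝ => √(1 - y ^ 2) ^ (k + 2)) (-((k + 2) * y * √(1 - y ^ 2) ^ k)) y := by
  have h1 : 0 < 1 - y ^ 2 := by nlinarith [hy.1, hy.2]
  have h2 : HasDerivAt (fun y : ℝ => 1 - y ^ 2) (-(2 * y)) y := by
    have := (hasDerivAt_pow 2 y).const_sub 1
    simpa using this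
  have h3 := (h2.sqrt h1.ne').fun_pow (k + 2)
  have h4 : √(1 - y ^ 2) ≠ 0 := (Real.sqrt_pos.2 h1).ne'
  refine h3.congr_deriv ?_
  push_cast
  have : k + 2 - 1 = k + 1 := by omega
  simp only [pow_succ]
  field_simp

/-- integration by parts with a weight -/
theorem integral_sqrt_pow_deriv (k : ℕ) (g g' : ℝ → ℝ)
    (hg : ∀ y ∈ Icc (-1 : ℝ) 1, HasDerivAt g (g' y) y) (hg' : ContinuousOn g' (Icc (-1) 1)) :
    ∫ y in (-1 : ℝ)..1, (g' y * √(1 - y ^ 2) ^ 2 - (k + 2) * y * g y) * √(1 - y ^ 2) ^ k = 0 := by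
  have hgc : ContinuousOn g (Icc (-1) 1) := fun y hy => (hg y hy).continuousAt.continuousWithinAt
  have hs : Continuous fun y : ℝ => √(1 - y ^ 2) := by fun_prop
  have key := intervalIntegral.integral_eq_sub_of_hasDerivAt_of_le (a := -1) (b := 1)
    (f := fun y => g y * √(1 - y ^ 2) ^ (k + 2))
    (f' := fun y => (g' y * √(1 - y ^ 2) ^ 2 - (k + 2) * y * g y) * √(1 - y ^ 2) ^ k)
    (by norm_num) (hgc.mul (hs.pow _).continuousOn)
    (by
      intro y hy
      have := (hg y (Ioo_subset_Icc_self hy)).mul (hasDerivAt_sqrt_pow k hy)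
      refine this.congr_deriv ?_
      ring)
    (by
      apply ContinuousOn.intervalIntegrable
      rw [uIcc_of_le (by norm_num : (-1 : ℝ) ≤ 1)]
      fun_prop)
  rw [key]
  norm_num

theorem wal_rec (k : ℕ) : ((k : ℝ) + 3) * wal (k + 2) = (k + 2) * wal k := by
  have h := integral_sqrt_pow_deriv k (fun y => y) (fun _ => 1) (fun y _ => hasDerivAt_id y)
    continuousOn_const
  have hs : Continuous fun y : ℝ => √(1 - y ^ 2) := by fun_prop
  have e : ∀ y ∈ Icc (-1 : ℝ) 1,
      (1 * √(1 - y ^ 2) ^ 2 - (k + 2) * y * y) * √(1 - y ^ 2) ^ k =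
      (k + 3) * √(1 - y ^ 2) ^ (k + 2) - (k + 2) * √(1 - y ^ 2) ^ k := by
    intro y hy
    have h1 : 0 ≤ 1 - y ^ 2 := by nlinarith [hy.1, hy.2]
    have h2 := Real.sq_sqrt h1
    rw [pow_add]
    have : y * y = 1 - √(1 - y ^ 2) ^ 2 := by rw [h2]; ring
    rw [mul_assoc _ y y, this]
    ring
  have h3 : ∫ y in (-1 : ℝ)..1, (1 * √(1 - y ^ 2) ^ 2 - (k + 2) * y * y) * √(1 - y ^ 2) ^ k =
      ∫ y in (-1 : ℝ)..1, ((k + 3) * √(1 - y ^ 2) ^ (k + 2) - (k + 2) * √(1 - y ^ 2) ^ k) := by
    apply intervalIntegral.integral_congr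
    intro y hy
    rw [uIcc_of_le (by norm_num : (-1 : ℝ) ≤ 1)] at hy
    exact e y hy
  rw [h3, intervalIntegral.integral_sub (by apply Continuous.intervalIntegrable; fun_prop)
    (by apply Continuous.intervalIntegrable; fun_prop), intervalIntegral.integral_const_mul,
    intervalIntegral.integral_const_mul] at h
  unfold wal
  linarith

/-- the Gamma quotient -/
noncomputable def gq (k : ℕ) : ℝ := √Real.pi * Real.Gamma (k / 2 + 1) / Real.Gamma (k / 2 + 3 / 2)

theorem gq_rec (k : ℕ) : ((k : ℝ) + 3) * gq (k + 2) = (k + 2) * gq k := by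
  unfold gq
  have hk : (0 : ℝ) ≤ k := Nat.cast_nonneg k
  have e1 : (((k + 2 : ℕ) : ℝ) / 2 + 1) = ((k : ℝ) / 2 + 1) + 1 := by push_cast; ring
  have e2 : (((k + 2 : ℕ) : ℝ) / 2 + 3 / 2) = ((k : ℝ) / 2 + 3 / 2) + 1 := by push_cast; ring
  rw [e1, e2, Real.Gamma_add_one (s := (k : ℝ) / 2 + 1) (by positivity),
    Real.Gamma_add_one (s := (k : ℝ) / 2 + 3 / 2) (by positivity)]
  have h3 : Real.Gamma ((k : ℝ) / 2 + 3 / 2) ≠ 0 := (Real.Gamma_pos_of_pos (by positivity)).ne'
  field_simp

theorem gq_zero : gq 0 = 2 := by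
  unfold gq
  have e : ((0 : ℕ) : ℝ) / 2 + 3 / 2 = 1 / 2 + 1 := by norm_num
  rw [e, Real.Gamma_add_one (s := 1 / 2) (by norm_num), Real.Gamma_one_half_eq]
  have : √Real.pi ≠ 0 := (Real.sqrt_pos.2 Real.pi_pos).ne'
  have e3 : ((0 : ℕ) : ℝ) / 2 + 1 = 1 := by norm_num
  rw [e3, Real.Gamma_one]
  field_simp

theorem gq_one : gq 1 = Real.pi / 2 := by
  unfold gq
  have e : ((1 : ℕ) : ℝ) / 2 + 3 / 2 = 2 := by norm_num
  have e2 : ((1 : ℕ) : ℝ) / 2 + 1 = 1 / 2 + 1 := by norm_num
  rw [e, e2, Real.Gamma_add_one (s := 1 / 2) (by norm_num), Real.Gamma_one_half_eq,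
    Real.Gamma_two]
  have := Real.mul_self_sqrt Real.pi_pos.le
  have e3 : √Real.pi * (1 / 2 * √Real.pi) / 1 = (√Real.pi * √Real.pi) / 2 := by ring
  rw [e3, this]

theorem wal_eq_gq : ∀ k, wal k = gq k
  | 0 => by rw [wal_zero, gq_zero]
  | 1 => by rw [wal_one, gq_one]
  | (k + 2) => by
    have h1 := wal_rec k
    have h2 := gq_rec k
    rw [wal_eq_gq k] at h1
    have : ((k : ℝ) + 3) ≠ 0 := by positivity
    have h3 : ((k : ℝ) + 3) * wal (k + 2) = ((k : ℝ) + 3) * gq (k + 2) := by linarith
    exact mul_left_cancel₀ this h3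

theorem omr_formula : ∀ k, omr k = √Real.pi ^ k / Real.Gamma (k / 2 + 1)
  | 0 => by simp [omr]
  | (k + 1) => by
    have h0 : omr (k + 1) = omr k * wal k := rfl
    rw [h0, omr_formula k, wal_eq_gq k, gq]
    have h3 : Real.Gamma ((k : ℝ) / 2 + 1) ≠ 0 := (Real.Gamma_pos_of_pos (by positivity)).ne'
    have e : (((k + 1 : ℕ) : ℝ) / 2 + 1) = (k : ℝ) / 2 + 3 / 2 := by push_cast; ring
    rw [e, pow_succ]
    field_simp

theorem omr_eq_omega (n : ℕ) : omr n = omega n := by
  unfold omega
  rcases Nat.eq_zero_or_pos n with hn | hn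
  · subst hn
    have h1 : Metric.ball (0 : E 0) 1 = univ := by
      ext x
      simp [Subsingleton.elim x 0]
    rw [h1]
    rw [volume_euclideanSpace_eq_dirac]
    simp [omr]
  · have : Nonempty (Fin n) := ⟨⟨0, hn⟩⟩
    rw [EuclideanSpace.volume_ball, omr_formula]
    have hpos : 0 ≤ √Real.pi ^ n / Real.Gamma (n / 2 + 1) := by
      have := Real.Gamma_pos_of_pos (s := (n : ℝ) / 2 + 1) (by positivity)
      positivity
    simp [ENNReal.toReal_ofReal hpos]

theorem hasDerivAt_sn (b r : ℝ) : HasDerivAt (sn b) (Real.cosh (b * r)) r := by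
  by_cases hb : b = 0
  · subst hb
    have : sn 0 = fun r => r := by funext r; simp [sn]
    rw [this]
    simpa using hasDerivAt_id' r
  · have : sn b = fun r => Real.sinh (b * r) / b := by funext r; simp [sn, hb]
    rw [this]
    have h1 : HasDerivAt (fun r => b * r) b r := by simpa using (hasDerivAt_id r).const_mul b
    refine ((h1.sinh).div_const b).congr_deriv ?_
    field_simp

theorem sn_continuous (b : ℝ) : Continuous (sn b) :=
  continuous_iff_continuousAt.2 fun r => (hasDerivAt_sn b r).continuousAt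

theorem sn_zero (b : ℝ) : sn b 0 = 0 := by
  by_cases hb : b = 0 <;> simp [sn]

theorem sn_strictMono (b : ℝ) : StrictMono (sn b) :=
  strictMono_of_hasDerivAt_pos (fun r => hasDerivAt_sn b r) fun _ => Real.cosh_pos _

theorem sn_pos (b : ℝ) {r : ℝ} (hr : 0 < r) : 0 < sn b r := by
  rw [← sn_zero b]; exact sn_strictMono b hr

theorem omega_pos (n : ℕ) : 0 < omega n := by rw [← omr_eq_omega]; exact omr_pos n

theorem modelVol_continuous (n : ℕ) (κ : ℝ) : Continuous (modelVol n κ) := by
  unfold modelVol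
  have : Continuous fun t => sn √(-κ) t ^ (n - 1) := (sn_continuous _).pow _
  exact continuous_const.mul (intervalIntegral.continuous_primitive
    (fun a b => this.intervalIntegrable a b) 0)

theorem modelArea_continuous (n : ℕ) (κ : ℝ) : Continuous (modelArea n κ) := by
  unfold modelArea
  exact continuous_const.mul ((sn_continuous _).pow _)

theorem modelVol_zero (n : ℕ) (κ : ℝ) : modelVol n κ 0 = 0 := by simp [modelVol]

theorem hasDerivAt_modelVol (n : ℕ) (κ r : ℝ) :
    HasDerivAt (modelVol n κ) (modelArea n κ r) r := by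
  have hc : Continuous fun t => sn √(-κ) t ^ (n - 1) := (sn_continuous _).pow _
  have h1 := intervalIntegral.integral_hasDerivAt_right (hc.intervalIntegrable 0 r)
    (hc.stronglyMeasurableAtFilter _ _) hc.continuousAt
  exact h1.const_mul _

theorem modelVol_strictMonoOn (n : ℕ) (hn : 1 ≤ n) (κ : ℝ) :
    StrictMonoOn (modelVol n κ) (Ici 0) := by
  apply strictMonoOn_of_deriv_pos (convex_Ici 0) (modelVol_continuous n κ).continuousOn
  intro r hr
  rw [interior_Ici] at hr
  rw [(hasDerivAt_modelVol n κ r).deriv, modelArea]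
  have h1 := sn_pos √(-κ) hr
  have h2 := omega_pos n
  have h3 : (0 : ℝ) < n := by exact_mod_cast hn
  positivity

theorem sn_ge (b : ℝ) {r : ℝ} (hr : 0 ≤ r) : r ≤ sn b r := by
  have h : MonotoneOn (fun r => sn b r - r) (Ici 0) := by
    apply monotoneOn_of_deriv_nonneg (convex_Ici 0)
    · exact ((sn_continuous b).sub continuous_id).continuousOn
    · intro x _
      exact ((hasDerivAt_sn b x).sub (hasDerivAt_id x)).differentiableAt.differentiableWithinAt
    · intro x _
      have := ((hasDerivAt_sn b x).sub (hasDerivAt_id x)).deriv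
      have h2 : deriv (fun r => sn b r - r) x = Real.cosh (b * x) - 1 := this
      rw [h2]
      linarith [Real.one_le_cosh (b * x)]
  have := h (mem_Ici.2 le_rfl) (mem_Ici.2 hr) hr
  simp only [sn_zero] at this
  linarith

theorem modelVol_surj (n : ℕ) (hn : 1 ≤ n) (κ : ℝ) (V : ℝ) (hV : 0 ≤ V) :
    ∃ r, 0 ≤ r ∧ modelVol n κ r = V := by
  have hlim : Tendsto (modelVol n κ) atTop atTop := by
    have h1 : ∀ r, 0 ≤ r → omega n * r ^ n ≤ modelVol n κ r := by
      intro r hr
      have e : omega n * r ^ n = n * omega n * ∫ t in (0 : ℝ)..r, t ^ (n - 1) := by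
        rw [integral_pow]
        have : n - 1 + 1 = n := by omega
        rw [this]
        have h3 : ((n - 1 : ℕ) : ℝ) + 1 = n := by exact_mod_cast this
        rw [h3, zero_pow (by omega), sub_zero]
        have h4 : (n : ℝ) ≠ 0 := by positivity
        field_simp
      rw [e, modelVol]
      refine mul_le_mul_of_nonneg_left ?_ (mul_nonneg (Nat.cast_nonneg n) (omega_pos n).le)
      apply intervalIntegral.integral_mono_on hr
      · exact (continuous_pow _).intervalIntegrable _ _
      · exact ((sn_continuous _).pow _).intervalIntegrable _ _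
      · intro x hx
        exact pow_le_pow_left₀ hx.1 (sn_ge _ hx.1) _
    have h2 : Tendsto (fun r : ℝ => omega n * r ^ n) atTop atTop :=
      (tendsto_pow_atTop (by omega)).const_mul_atTop (omega_pos n)
    exact tendsto_atTop_mono' _ (eventually_atTop.2 ⟨0, h1⟩) h2
  obtain ⟨R, hR0, hR⟩ := ((eventually_ge_atTop 0).and (hlim.eventually_ge_atTop V)).exists
  have := intermediate_value_Icc hR0 (modelVol_continuous n κ).continuousOn
  obtain ⟨r, hr, hrV⟩ := this ⟨by rw [modelVol_zero]; exact hV, hR⟩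
  exact ⟨r, hr.1, hrV⟩

end Vale.Agent.P219
end

section

open MeasureTheory Matrix
open scoped ENNReal ContDiff

namespace Vale.Agent.P219.Co

variable {n : ℕ}

theorem smooth_smul {V W : Type*} [NormedAddCommGroup V] [NormedSpace ℝ V] [NormedAddCommGroup W]
    [NormedSpace ℝ W] (f : V → ℝ) (B : W) (hf : ContDiff ℝ ∞ f) : ContDiff ℝ ∞ fun x => f x • B :=
  hf.smul contDiff_const

/-- The bilinear form `(u, v) ↦ uᵢ vⱼ`. -/
noncomputable def bil (i j : Fin n) : E n →L[ℝ] E n →L[ℝ] ℝ :=
  (EuclideanSpace.proj i : E n →L[ℝ] ℝ).smulRight (EuclideanSpace.proj j : E n →L[ℝ] ℝ)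

theorem bil_apply (i j : Fin n) (u v : E n) : bil i j u v = u i * v j := by
  simp [bil]

theorem old_g_apply (A : Matrix (Fin n) (Fin n) ℝ) (u v : E n) :
    (∑ i, ∑ j, A i j • bil i j) u v = u ⬝ᵥ A *ᵥ v := by
  simp only [_root_.sum_apply, _root_.smul_apply, bil_apply, smul_eq_mul, dotProduct, mulVec,
    Finset.mul_sum]
  refine Finset.sum_congr rfl fun i _ => Finset.sum_congr rfl fun j _ => ?_
  ring

/-- The metric in the invariant form. -/
noncomputable def old (M : RiemMetric n) : Vale.Agent.P219.RiemMetric n where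
  g x := ∑ i, ∑ j, M.g x i j • bil i j
  smooth := by
    refine ContDiff.sum fun i _ => ContDiff.sum fun j _ => ?_
    exact smooth_smul _ (bil i j) (M.smooth i j)
  symm x u v := by
    rw [old_g_apply, old_g_apply, dotProduct_mulVec, ← mulVec_transpose, dotProduct_comm]
    have h : (M.g x).transpose = M.g x := by
      have := (M.pos x).isHermitian
      simpa [Matrix.IsHermitian, conjTranspose_eq_transpose_of_trivial] using this
    rw [h]
  pos x v hv := by
    rw [old_g_apply]
    have hv' : (v : Fin n → ℝ) ≠ 0 := fun h => hv (by ext i; simpa using congrFun h i)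
    have := (M.pos x).dotProduct_mulVec_pos hv'
    simpa using this

theorem old_apply (M : RiemMetric n) (x u v : E n) : (old M).g x u v = u ⬝ᵥ M.g x *ᵥ v :=
  old_g_apply _ _ _

/-- The frame as a family of vector fields. -/
noncomputable def oldFrame (e : Fin n → E n → Fin n → ℝ) (a : Fin n) (x : E n) : E n :=
  WithLp.toLp 2 (e a x)

theorem old_frame {M : RiemMetric n} {e : Fin n → E n → Fin n → ℝ} (he : TriangularFrame M e) :
    Vale.Agent.P219.TriangularFrame (old M) (oldFrame e) where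
  smooth a := by
    rw [contDiff_euclidean]
    intro i
    exact he.smooth a i
  orthonormal x a b := by
    rw [old_apply]
    exact he.orthonormal x a b
  triangular a x i hi := he.triangular a x i hi
  positive a x := he.positive a x

theorem pd_eq {f : E n → ℝ} {x : E n} (hf : DifferentiableAt ℝ f x) (i : Fin n) :
    pd i f x = fderiv ℝ f x (basisVec i) :=
  hf.lineDeriv_eq_fderiv

end Vale.Agent.P219.Co
end

section

open MeasureTheory Matrix
open scoped ENNReal ContDiff

namespace Vale.Agent.P219.Co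

variable {n : ℕ}

theorem smooth_differentiable_co {f : E n → ℝ} (hf : Smooth f) : Differentiable ℝ f :=
  ContDiff.differentiable hf (by simp)

theorem gram_old (M : RiemMetric n) (x : E n) : gram (old M) x = M.g x := by
  ext i j
  rw [gram, of_apply, old_apply]
  simp [basisVec]

theorem volDensity_old (M : RiemMetric n) (x : E n) :
    Vale.Agent.P219.volDensity (old M) x = volDensity M x := by
  have h : Vale.Agent.P219.volDensity (old M) x = √(gram (old M) x).det := rfl
  rw [h, gram_old, volDensity]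

theorem inv_eq_fmat {M : RiemMetric n} {e : Fin n → E n → Fin n → ℝ} (he : TriangularFrame M e)
    (x : E n) : (M.g x)⁻¹ = (fmat (oldFrame e) x).transpose * fmat (oldFrame e) x := by
  apply Matrix.inv_eq_left_inv
  have h := fmat_gram (old M) (oldFrame e) (old_frame he) x
  rw [gram_old] at h
  set F := fmat (oldFrame e) x
  -- F * G * Fᵀ = 1 gives Fᵀ * (F * G) = 1
  have h2 : F.transpose * (F * M.g x) = 1 := mul_eq_one_comm.1 h
  rw [Matrix.mul_assoc]
  exact h2

theorem gradNorm_old {M : RiemMetric n} {e : Fin n → E n → Fin n → ℝ} (he : TriangularFrame M e)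
    {f : E n → ℝ} (hf : Differentiable ℝ f) (x : E n) :
    covNorm (old M) x (fderiv ℝ f x) = gradNorm M f x := by
  rw [covNorm_sum (old M) (oldFrame e) (old_frame he), gradNorm, inv_eq_fmat he]
  congr 1
  set p : Fin n → ℝ := fun i => pd i f x with hp
  have h1 : ∀ a, fderiv ℝ f x (oldFrame e a x) = (fmat (oldFrame e) x *ᵥ p) a := by
    intro a
    conv_lhs => rw [vec_eq_sum (oldFrame e a x)]
    rw [map_sum]
    simp only [map_smul, smul_eq_mul, mulVec, dotProduct, fmat, of_apply, hp]
    refine Finset.sum_congr rfl fun i _ => ?_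
    rw [pd_eq (hf x)]
  rw [← mulVec_mulVec, dotProduct_mulVec, vecMul_transpose]
  simp only [dotProduct]
  refine Finset.sum_congr rfl fun a _ => ?_
  rw [h1]
  ring

theorem norm_fderiv_co {f : E n → ℝ} (hf : Differentiable ℝ f) (x : E n) :
    ‖fderiv ℝ f x‖ = √(∑ i, pd i f x ^ 2) := by
  have h1 : ∀ i, pd i f x = ((InnerProductSpace.toDual ℝ (E n)).symm (fderiv ℝ f x)) i := by
    intro i
    have h2 : inner ℝ ((InnerProductSpace.toDual ℝ (E n)).symm (fderiv ℝ f x))
        (EuclideanSpace.single i (1 : ℝ)) = fderiv ℝ f x (EuclideanSpace.single i 1) :=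
      InnerProductSpace.toDual_symm_apply
    rw [pd_eq (hf x), basisVec, ← h2, EuclideanSpace.inner_single_right]
    simp
  rw [← LinearIsometryEquiv.norm_map (InnerProductSpace.toDual ℝ (E n)).symm (fderiv ℝ f x),
    EuclideanSpace.norm_eq]
  congr 1
  refine Finset.sum_congr rfl fun i _ => ?_
  rw [h1 i, Real.norm_eq_abs, sq_abs]

theorem fderiv_ne_zero {f : E n → ℝ} (hf : Differentiable ℝ f) {x : E n}
    (h : ∃ i, pd i f x ≠ 0) : fderiv ℝ f x ≠ 0 := by
  obtain ⟨i, hi⟩ := h
  intro h0
  apply hi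
  rw [pd_eq (hf x), h0]
  simp

/-- The domain in the invariant form. -/
noncomputable def oldDomain (D : SmoothDomain n) : Vale.Agent.P219.SmoothDomain n where
  ρ := D.ρ
  smooth := D.smooth
  bdd := by
    obtain ⟨R, hR⟩ := D.bdd
    rw [isBounded_iff_forall_norm_le]
    refine ⟨√(∑ _i : Fin n, R ^ 2), fun x hx => ?_⟩
    rw [EuclideanSpace.norm_eq]
    apply Real.sqrt_le_sqrt
    refine Finset.sum_le_sum fun i _ => ?_
    rw [Real.norm_eq_abs]
    exact pow_le_pow_left₀ (abs_nonneg _) (hR x hx i) 2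
  regular x hx := fderiv_ne_zero (smooth_differentiable_co D.smooth) (D.regular x hx)

theorem riemVol_old (M : RiemMetric n) (S : Set (E n)) :
    Vale.Agent.P219.riemVol (old M) S = riemVol M S := by
  unfold Vale.Agent.P219.riemVol riemVol leb
  simp only [volDensity_old]

theorem riemArea_old {M : RiemMetric n} {e : Fin n → E n → Fin n → ℝ} (he : TriangularFrame M e)
    (D : SmoothDomain n) : Vale.Agent.P219.riemArea (old M) (oldDomain D) = riemArea M D := by
  unfold Vale.Agent.P219.riemArea riemArea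
  have h : ∀ x, Vale.Agent.P219.volDensity (old M) x * (covNorm (old M) x
      (fderiv ℝ (oldDomain D).ρ x) / ‖fderiv ℝ (oldDomain D).ρ x‖) =
      volDensity M x * gradNorm M D.ρ x / √(∑ i, pd i D.ρ x ^ 2) := by
    intro x
    have h1 : (oldDomain D).ρ = D.ρ := rfl
    rw [h1, volDensity_old, gradNorm_old he (smooth_differentiable_co D.smooth),
      norm_fderiv_co (smooth_differentiable_co D.smooth), mul_div_assoc]
  simp only [h]
  rfl

theorem omega_old (n : ℕ) : Vale.Agent.P219.omega n = omega n := by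
  unfold Vale.Agent.P219.omega omega leb
  congr 2
  ext x
  simp only [Metric.mem_ball, dist_zero_right, Set.mem_ofPred_eq]
  rw [EuclideanSpace.norm_eq, Real.sqrt_lt' one_pos]
  simp

theorem modelVol_old (n : ℕ) (κ r : ℝ) : Vale.Agent.P219.modelVol n κ r = modelVol n κ r := by
  unfold Vale.Agent.P219.modelVol modelVol
  rw [omega_old]
  rfl

theorem modelArea_old (n : ℕ) (κ r : ℝ) : Vale.Agent.P219.modelArea n κ r = modelArea n κ r := by
  unfold Vale.Agent.P219.modelArea modelArea
  rw [omega_old]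
  rfl

theorem isop_old {M : RiemMetric n} {e : Fin n → E n → Fin n → ℝ} (he : TriangularFrame M e)
    {κ : ℝ} (h : Vale.Agent.P219.IsoperimetricIneq (old M) κ) : IsoperimetricIneq M κ := by
  intro D
  obtain ⟨r, hr, h1, h2⟩ := h (oldDomain D)
  refine ⟨r, hr, ?_, ?_⟩
  · rw [← modelVol_old, ← h1, ← riemVol_old]
    rfl
  · rw [← modelArea_old, ← riemArea_old he]
    exact h2

end Vale.Agent.P219.Co
end
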