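import Mathlib

set_option linter.all false

section

/-!
# P219, two-point kernel method: definitions

`Geo n` is the abstract output of the geometry of a Cartan-Hadamard metric on `ℝⁿ`:
volume density, orthonormal frame, exponential map, geodesic flow, logarithm, all globally
defined and smooth, Gauss lemma, and the Rauch comparison (monotonicity of Jacobi fields).
-/

open MeasureTheory Set Metric
open scoped ENNReal ContDiff

namespace Vale.Agent.P219.TP

/-- Euclidean space. -/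
abbrev E (n : ℕ) := EuclideanSpace ℝ (Fin n)

/-- Abstract Cartan-Hadamard geometry on `ℝⁿ`. -/
structure Geo (n : ℕ) where
  /-- volume density -/
  w : E n → ℝ
  /-- orthonormal frame: `A x` maps the Euclidean space isometrically to `(T_x M, g_x)` -/
  A : E n → E n →L[ℝ] E n
  /-- `ex x v = exp_x (A x v)` -/
  ex : E n → E n → E n
  /-- `V t x v`: the velocity, in the frame, at time `t` of the geodesic `t ↦ ex x (t v)` -/
  V : ℝ → E n → E n → E n
  /-- inverse of `ex x` -/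
  lg : E n → E n → E n
  /-- `T x v`: differential of `ex x` at `v`, in the frames -/
  T : E n → E n → E n →L[ℝ] E n
  w_smooth : ContDiff ℝ ∞ w
  A_smooth : ContDiff ℝ ∞ A
  ex_smooth : ContDiff ℝ ∞ fun z : E n × E n => ex z.1 z.2
  V_smooth : ContDiff ℝ ∞ fun z : ℝ × E n × E n => V z.1 z.2.1 z.2.2
  lg_smooth : ContDiff ℝ ∞ fun z : E n × E n => lg z.1 z.2
  T_smooth : ContDiff ℝ ∞ fun z : E n × E n => T z.1 z.2
  w_pos : ∀ x, 0 < w x
  w_det : ∀ x, w x * |(A x).det| = 1
  ex_zero : ∀ x, ex x 0 = x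
  ex_lg : ∀ x y, ex x (lg x y) = y
  lg_ex : ∀ x v, lg x (ex x v) = v
  V_zero : ∀ x v, V 0 x v = v
  norm_V : ∀ t x v, ‖V t x v‖ = ‖v‖
  V_smul : ∀ c t x v, V t x (c • v) = c • V (c * t) x v
  ex_flow : ∀ s t x v, ex (ex x (s • v)) (t • V s x v) = ex x ((s + t) • v)
  V_flow : ∀ s t x v, V t (ex x (s • v)) (V s x v) = V (s + t) x v
  ex_deriv : ∀ t x v, HasDerivAt (fun s : ℝ => ex x (s • v)) (A (ex x (t • v)) (V t x v)) t
  T_spec : ∀ x v z, A (ex x v) (T x v z) = fderiv ℝ (ex x) v z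
  gauss : ∀ x v z, inner ℝ (T x v v) (T x v z) = inner ℝ v z
  mono : ∀ (x v z : E n) (s : ℝ), inner ℝ v z = 0 → 0 ≤ s → s ≤ 1 →
    ‖T x (s • v) z‖ ≤ ‖T x v z‖

variable {n : ℕ}

namespace Geo

variable (G : Geo n)

/-- Riemannian volume. -/
noncomputable def vol : Measure (E n) := volume.withDensity fun x => ENNReal.ofReal (G.w x)

/-- Gradient of `h`, in the frame. -/
noncomputable def D (h : E n → ℝ) (x : E n) : E n :=
  (InnerProductSpace.toDual ℝ (E n)).symm ((fderiv ℝ h x).comp (G.A x))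

/-- Total variation `∫ |dh| dvol`. -/
noncomputable def per (h : E n → ℝ) : ℝ := ∫ x, ‖G.D h x‖ ∂G.vol

/-- `∫ h^{n/(n-1)} dvol`. -/
noncomputable def vp (h : E n → ℝ) : ℝ := ∫ x, h x ^ ((n : ℝ) / ((n : ℝ) - 1)) ∂G.vol

/-- Volume of the Euclidean unit ball. -/
noncomputable def om (n : ℕ) : ℝ := (volume : Measure (E n)).real (ball 0 1)

/-- Cosine of the angle at `p` between the gradient of `h` and the direction of `q`. -/
noncomputable def ang (h : E n → ℝ) (p q : E n) : ℝ :=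
  inner ℝ (G.lg p q) (G.D h p) / (‖G.lg p q‖ * ‖G.D h p‖)

/-- Test functions supported in the closed geodesic ball of centre `o` and radius `ρ`. -/
structure Cls (o : E n) (ρ : ℝ) (h : E n → ℝ) : Prop where
  smooth : ContDiff ℝ 1 h
  nonneg : ∀ x, 0 ≤ h x
  le_one : ∀ x, h x ≤ 1
  supp : ∀ x, h x ≠ 0 → ‖G.lg o x‖ ≤ ρ

end Geo

/-- Area of the unit sphere. -/
noncomputable def sig (n : ℕ) : ℝ := ((volume : Measure (E n)).toSphere).real univ

/-- First variation of area of the field `φ(r,a) ∇r`, `φ(r,a) = r Φ(r², ra)`. -/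
noncomputable def kap (m : ℕ) (Φ : ℝ × ℝ → ℝ) (r a b : ℝ) : ℝ :=
  m * Φ (r ^ 2, r * a) +
    (2 * r ^ 2 * fderiv ℝ Φ (r ^ 2, r * a) (1, 0) + r * a * fderiv ℝ Φ (r ^ 2, r * a) (0, 1)) *
      (1 - b ^ 2) -
    r * |fderiv ℝ Φ (r ^ 2, r * a) (0, 1)| * |b| * √((1 - a ^ 2) * (1 - b ^ 2))

/-- The kernel, before symmetrisation. -/
noncomputable def ker0 (m : ℕ) (Φ : ℝ × ℝ → ℝ) (lam r a b : ℝ) : ℝ :=
  lam + kap m Φ r a b - m * (r * b * Φ (r ^ 2, r * a))

/-- The symmetrised kernel. -/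
noncomputable def ker (m : ℕ) (Φ : ℝ × ℝ → ℝ) (lam r a b : ℝ) : ℝ :=
  (ker0 m Φ lam r a b + ker0 m Φ lam r b a) / 2

/-- Certificate for the isoperimetric inequality in dimension `n`. -/
structure Cert (n : ℕ) where
  lam : ℝ
  s : ℝ
  F : ℝ
  f : ℝ → ℝ
  lam_pos : 0 < lam
  s_nonneg : 0 ≤ s
  f_cont : Continuous f
  f_nonneg : ∀ a ∈ Icc (0 : ℝ) 1, 0 ≤ f a
  hF : ∀ e : E n, ‖e‖ = 1 →
    ∫ u : sphere (0 : E n) 1, f (max 0 (inner ℝ e (u : E n))) * max 0 (inner ℝ e (u : E n))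
      ∂((volume : Measure (E n)).toSphere) ≤ F * sig n
  balance : s / n - F = lam
  approx : ∀ ε > 0, ∃ Φ : ℝ × ℝ → ℝ, ∃ δ > 0, ContDiffOn ℝ ∞ Φ {p | -δ < p.1} ∧
    (∀ p : ℝ × ℝ, 0 ≤ p.1 → 0 ≤ Φ p) ∧
    (∀ r a b : ℝ, 0 ≤ r → |a| ≤ 1 → |b| ≤ 1 → 0 ≤ ker (n - 1) Φ (lam + ε) r a b) ∧
    (∀ r a b : ℝ, 0 < r → 0 ≤ a → a ≤ 1 → 0 ≤ b → b ≤ 1 →
      a * b * (s * r - (f a + f b) / 2 - ε) ≤ ker (n - 1) Φ (lam + ε) r a b * r ^ (n - 1))

end Vale.Agent.P219.TP
end

section

/-! # Basic consequences of the axioms of `Geo` (task A1) -/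

open MeasureTheory Set Metric
open scoped ENNReal ContDiff

namespace Vale.Agent.P219.TP

variable {n : ℕ} (G : Geo n)

namespace Geo

theorem det_A_ne (x : E n) : (G.A x).det ≠ 0 := by
  intro h
  have := G.w_det x
  rw [h, abs_zero, mul_zero] at this
  exact zero_ne_one this

theorem A_injective (x : E n) : Function.Injective (G.A x) := by
  have h := G.det_A_ne x
  rw [← ContinuousLinearMap.coe_coe, ← LinearMap.ker_eq_bot]
  by_contra hk
  exact h (by
    by_contra hd
    exact hk (LinearMap.ker_eq_bot_of_injective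
      (LinearMap.equivOfDetNeZero ((G.A x : E n →L[ℝ] E n) : E n →ₗ[ℝ] E n) hd).injective))

theorem ex_diff (x v : E n) : DifferentiableAt ℝ (G.ex x) v := by
  have h : ContDiff ℝ ∞ (G.ex x) :=
    G.ex_smooth.comp (contDiff_const.prodMk contDiff_id)
  exact h.differentiable (by simp) v

theorem lg_diff (x y : E n) : DifferentiableAt ℝ (G.lg x) y := by
  have h : ContDiff ℝ ∞ (G.lg x) :=
    G.lg_smooth.comp (contDiff_const.prodMk contDiff_id)
  exact h.differentiable (by simp) y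

/-- Same at distance `r` along a unit vector. -/
theorem T_smul_self (x u : E n) (r : ℝ) : G.T x (r • u) u = G.V r x u := by
  apply G.A_injective (G.ex x (r • u))
  rw [G.T_spec]
  have h1 := G.ex_deriv r x u
  have h2 : HasDerivAt (fun s : ℝ => s • u) u r := by
    simpa using (hasDerivAt_id r).smul_const u
  have h3 := (G.ex_diff x (r • u)).hasFDerivAt.comp_hasDerivAt r h2
  exact h3.unique h1

/-- The radial derivative: `T x v v = V 1 x v`. -/
theorem T_self (x v : E n) : G.T x v v = G.V 1 x v := by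
  have := G.T_smul_self x v 1
  rwa [one_smul] at this

theorem lg_back (x v : E n) : G.lg (G.ex x v) x = -G.V 1 x v := by
  have h := G.ex_flow 1 (-1) x v
  rw [one_smul, neg_one_smul, add_neg_cancel, zero_smul, G.ex_zero] at h
  have h2 := G.lg_ex (G.ex x v) (-G.V 1 x v)
  rwa [h] at h2

theorem lg_back' (x y : E n) : G.V 1 x (G.lg x y) = -G.lg y x := by
  have h := G.lg_back x (G.lg x y)
  rw [G.ex_lg] at h
  rw [h, neg_neg]

theorem norm_lg_comm (x y : E n) : ‖G.lg x y‖ = ‖G.lg y x‖ := by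
  rw [← G.norm_V 1 x (G.lg x y), G.lg_back', norm_neg]

theorem lg_self (x : E n) : G.lg x x = 0 := by
  have h := G.lg_ex x 0
  rwa [G.ex_zero] at h

theorem lg_eq_zero {x y : E n} : G.lg x y = 0 ↔ x = y := by
  constructor
  · intro h
    have h1 := G.ex_lg x y
    rw [h, G.ex_zero] at h1
    exact h1
  · rintro rfl
    exact G.lg_self x

theorem T_zero (x z : E n) : G.T x 0 z = z := by
  have h := G.T_smul_self x z 0
  rwa [zero_smul, G.V_zero] at h

/-- The exponential map does not decrease lengths. -/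
theorem norm_le_T (x v z : E n) : ‖z‖ ≤ ‖G.T x v z‖ := by
  by_cases hv : v = 0
  · rw [hv, G.T_zero]
  have hv2 : (inner ℝ v v : ℝ) ≠ 0 := by
    rw [real_inner_self_eq_norm_sq]
    exact pow_ne_zero 2 (norm_ne_zero_iff.2 hv)
  set c : ℝ := inner ℝ v z / inner ℝ v v with hc
  set z' : E n := z - c • v with hz'
  have hz : z = c • v + z' := by rw [hz']; abel
  have ho : (inner ℝ v z' : ℝ) = 0 := by
    rw [hz', inner_sub_right, inner_smul_right, hc, div_mul_cancel₀ _ hv2, sub_self]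
  have h1 : ‖z'‖ ≤ ‖G.T x v z'‖ := by
    have := G.mono x v z' 0 ho le_rfl zero_le_one
    rwa [zero_smul, G.T_zero] at this
  have h2 : (inner ℝ (G.T x v v) (G.T x v z') : ℝ) = 0 := by rw [G.gauss, ho]
  have h3 : (inner ℝ (G.T x v v) (G.T x v v) : ℝ) = inner ℝ v v := G.gauss x v v
  have h4 : ‖G.T x v z‖ ^ 2 = c ^ 2 * ‖v‖ ^ 2 + ‖G.T x v z'‖ ^ 2 := by
    rw [hz, map_add, map_smul, ← real_inner_self_eq_norm_sq, inner_add_left, inner_add_right,
      inner_add_right, inner_smul_left, inner_smul_right, inner_smul_left, inner_smul_right, h2, h3,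
      real_inner_comm (G.T x v v) (G.T x v z'), h2, real_inner_self_eq_norm_sq,
      real_inner_self_eq_norm_sq]
    simp
    ring
  have h5 : ‖z‖ ^ 2 = c ^ 2 * ‖v‖ ^ 2 + ‖z'‖ ^ 2 := by
    conv_lhs => rw [hz]
    rw [← real_inner_self_eq_norm_sq, inner_add_left, inner_add_right,
      inner_add_right, inner_smul_left, inner_smul_right, inner_smul_left, inner_smul_right, ho,
      real_inner_comm v z', ho, real_inner_self_eq_norm_sq, real_inner_self_eq_norm_sq]
    simp
    ring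
  have h6 : ‖z'‖ ^ 2 ≤ ‖G.T x v z'‖ ^ 2 := pow_le_pow_left₀ (norm_nonneg _) h1 2
  exact le_of_sq_le_sq (by rw [h4, h5]; linarith) (norm_nonneg _)

theorem T_injective (x v : E n) : Function.Injective (G.T x v) := by
  intro a b h
  have h1 := G.norm_le_T x v (a - b)
  rw [map_sub, h, sub_self, norm_zero] at h1
  exact sub_eq_zero.1 (norm_le_zero_iff.1 h1)

theorem det_T_ne (x v : E n) : (G.T x v).det ≠ 0 := by
  intro h
  have h1 := LinearMap.bot_lt_ker_of_det_eq_zero
    (f := ((G.T x v : E n →L[ℝ] E n) : E n →ₗ[ℝ] E n)) h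
  rw [LinearMap.ker_eq_bot.2 (G.T_injective x v)] at h1
  exact lt_irrefl _ h1

theorem T_surjective (x v : E n) : Function.Surjective (G.T x v) :=
  (LinearMap.injective_iff_surjective
    (f := ((G.T x v : E n →L[ℝ] E n) : E n →ₗ[ℝ] E n))).1 (G.T_injective x v)

theorem one_le_J (x v : E n) : 1 ≤ |(G.T x v).det| := by
  have h1 : ball (0 : E n) 1 ⊆ G.T x v '' ball (0 : E n) 1 := by
    intro y hy
    obtain ⟨z, hz⟩ := G.T_surjective x v y
    refine ⟨z, ?_, hz⟩
    rw [mem_ball_zero_iff] at hy ⊢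
    calc ‖z‖ ≤ ‖G.T x v z‖ := G.norm_le_T x v z
      _ = ‖y‖ := by rw [hz]
      _ < 1 := hy
  have h2 := measure_mono (μ := (volume : Measure (E n))) h1
  rw [Measure.addHaar_image_continuousLinearMap] at h2
  have h3 : (volume : Measure (E n)) (ball (0 : E n) 1) ≠ 0 :=
    (measure_ball_pos _ _ one_pos).ne'
  have h4 : (volume : Measure (E n)) (ball (0 : E n) 1) ≠ ⊤ := measure_ball_lt_top.ne
  have h5 : (1 : ℝ≥0∞) ≤ ENNReal.ofReal |(G.T x v).det| := by
    have h6 : 1 * (volume : Measure (E n)) (ball (0 : E n) 1) ≤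
        ENNReal.ofReal |(G.T x v).det| * (volume : Measure (E n)) (ball (0 : E n) 1) := by
      rwa [one_mul]
    exact (ENNReal.mul_le_mul_iff_left h3 h4).1 h6
  exact ENNReal.one_le_ofReal.1 h5

theorem fderiv_ex_eq (x v : E n) :
    fderiv ℝ (G.ex x) v = (G.A (G.ex x v)).comp (G.T x v) := by
  ext1 z
  rw [ContinuousLinearMap.comp_apply, G.T_spec]

theorem det_fderiv_ex (x v : E n) :
    (fderiv ℝ (G.ex x) v).det = (G.A (G.ex x v)).det * (G.T x v).det := by
  rw [G.fderiv_ex_eq]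
  unfold ContinuousLinearMap.det
  rw [ContinuousLinearMap.toLinearMap_comp, LinearMap.det_comp]

theorem w_J (x v : E n) :
    G.w (G.ex x v) * |(fderiv ℝ (G.ex x) v).det| = |(G.T x v).det| := by
  rw [G.det_fderiv_ex, abs_mul, ← mul_assoc, G.w_det, one_mul]

/-- `fderiv` of the logarithm is the inverse of `fderiv` of the exponential. -/
theorem fderiv_lg (x v z : E n) :
    fderiv ℝ (G.lg x) (G.ex x v) (fderiv ℝ (G.ex x) v z) = z := by
  have h1 : HasFDerivAt (fun v => G.lg x (G.ex x v))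
      ((fderiv ℝ (G.lg x) (G.ex x v)).comp (fderiv ℝ (G.ex x) v)) v :=
    (G.lg_diff x (G.ex x v)).hasFDerivAt.comp v (G.ex_diff x v).hasFDerivAt
  have h2 : (fun v => G.lg x (G.ex x v)) = id := by
    funext v
    exact G.lg_ex x v
  rw [h2] at h1
  have h3 := h1.unique (hasFDerivAt_id v)
  have h4 := congrArg (fun L : E n →L[ℝ] E n => L z) h3
  simpa using h4

theorem inner_D (h : E n → ℝ) (x v : E n) :
    inner ℝ (G.D h x) v = fderiv ℝ h x (G.A x v) := by
  unfold D
  rw [InnerProductSpace.toDual_symm_apply, ContinuousLinearMap.comp_apply]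

/-- Derivative of a function along a geodesic. -/
theorem hasDerivAt_geod {h : E n → ℝ} (hh : ContDiff ℝ 1 h) (x v : E n) (t : ℝ) :
    HasDerivAt (fun s : ℝ => h (G.ex x (s • v)))
      (inner ℝ (G.D h (G.ex x (t • v))) (G.V t x v)) t := by
  rw [G.inner_D]
  exact ((hh.differentiable one_ne_zero) (G.ex x (t • v))).hasFDerivAt.comp_hasDerivAt t
    (G.ex_deriv t x v)

end Geo

end Vale.Agent.P219.TP
end

section

/-! # Squared distance, symmetry of the Jacobian (task A1b) -/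

open MeasureTheory Set Metric
open scoped ENNReal ContDiff

namespace Vale.Agent.P219.TP

variable {n : ℕ} (G : Geo n)

namespace Geo

/-- `(x, y) ↦ ‖lg x y‖²/2` is smooth. -/
theorem sq_smooth : ContDiff ℝ ∞ fun z : E n × E n => ‖G.lg z.1 z.2‖ ^ 2 / 2 :=
  (G.lg_smooth.norm_sq ℝ).div_const 2

theorem lg_smooth_right (x : E n) : ContDiff ℝ ∞ fun y : E n => G.lg x y :=
  G.lg_smooth.comp (contDiff_const.prodMk contDiff_id)

theorem ex_smooth_right (x : E n) : ContDiff ℝ ∞ fun v : E n => G.ex x v :=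
  G.ex_smooth.comp (contDiff_const.prodMk contDiff_id)

theorem sq_smooth_right (x : E n) : ContDiff ℝ ∞ fun y : E n => ‖G.lg x y‖ ^ 2 / 2 :=
  ((G.lg_smooth_right x).norm_sq ℝ).div_const 2

/-- First variation formula: gradient of the squared distance. -/
theorem hasFDerivAt_sq (x y η : E n) :
    HasFDerivAt (fun y => ‖G.lg x y‖ ^ 2 / 2) (fderiv ℝ (fun y => ‖G.lg x y‖ ^ 2 / 2) y) y ∧
    fderiv ℝ (fun y => ‖G.lg x y‖ ^ 2 / 2) y (G.A y η) = -inner ℝ (G.lg y x) η := by
  have hd : DifferentiableAt ℝ (fun y => ‖G.lg x y‖ ^ 2 / 2) y :=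
    (G.sq_smooth_right x).differentiable (by simp) y
  refine ⟨hd.hasFDerivAt, ?_⟩
  obtain ⟨v, rfl⟩ : ∃ v, y = G.ex x v := ⟨G.lg x y, (G.ex_lg x y).symm⟩
  obtain ⟨z, rfl⟩ := G.T_surjective x v η
  rw [G.T_spec x v z]
  have he : DifferentiableAt ℝ (G.ex x) v := (G.ex_smooth_right x).differentiable (by simp) v
  have h1 : HasFDerivAt (fun v' => ‖G.lg x (G.ex x v')‖ ^ 2 / 2)
      ((fderiv ℝ (fun y => ‖G.lg x y‖ ^ 2 / 2) (G.ex x v)).comp (fderiv ℝ (G.ex x) v)) v :=
    HasFDerivAt.comp (f := G.ex x) v hd.hasFDerivAt he.hasFDerivAt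
  have h2 : HasFDerivAt (fun v' : E n => ‖v'‖ ^ 2 / 2) (innerSL ℝ v) v := by
    have h := (hasStrictFDerivAt_norm_sq v).hasFDerivAt.mul_const (1 / 2 : ℝ)
    have hf : (fun v' : E n => ‖v'‖ ^ 2 / 2) = fun v' : E n => ‖v'‖ ^ 2 * (1 / 2) := by
      funext v'
      ring
    rw [hf]
    refine h.congr_fderiv ?_
    ext z'
    simp [two_smul]
    ring
  have h3 : (fun v' => ‖G.lg x (G.ex x v')‖ ^ 2 / 2) = fun v' : E n => ‖v'‖ ^ 2 / 2 := by
    funext v'
    rw [G.lg_ex]
  rw [h3] at h1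
  have h4 := h1.unique h2
  have h5 := congrArg (fun L : E n →L[ℝ] ℝ => L z) h4
  simp only [ContinuousLinearMap.comp_apply, innerSL_apply_apply] at h5
  rw [h5, G.lg_back, inner_neg_left, neg_neg, ← G.T_self, G.gauss]

theorem fderiv_sq (x y η : E n) :
    fderiv ℝ (fun y => ‖G.lg x y‖ ^ 2 / 2) y (G.A y η) = -inner ℝ (G.lg y x) η :=
  (G.hasFDerivAt_sq x y η).2

/-- Partial derivative in the second variable. -/
theorem fderiv_sq_prod_right (x y η : E n) :
    fderiv ℝ (fun z : E n × E n => ‖G.lg z.1 z.2‖ ^ 2 / 2) (x, y) (0, G.A y η) =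
      -inner ℝ (G.lg y x) η := by
  have hd : DifferentiableAt ℝ (fun z : E n × E n => ‖G.lg z.1 z.2‖ ^ 2 / 2) (x, y) :=
    G.sq_smooth.differentiable (by simp) (x, y)
  have h0 : HasFDerivAt (fun y' : E n => (x, y')) ((0 : E n →L[ℝ] E n).prod
      (ContinuousLinearMap.id ℝ (E n))) y :=
    (hasFDerivAt_const x y).prodMk (hasFDerivAt_id y)
  have h1 := HasFDerivAt.comp (g := fun z : E n × E n => ‖G.lg z.1 z.2‖ ^ 2 / 2)
    (f := fun y' : E n => (x, y')) y hd.hasFDerivAt h0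
  have h2 := h1.unique (G.hasFDerivAt_sq x y η).1
  have h3 := congrArg (fun L : E n →L[ℝ] ℝ => L (G.A y η)) h2
  simp only [ContinuousLinearMap.comp_apply, ContinuousLinearMap.prod_apply,
    zero_apply, ContinuousLinearMap.id_apply] at h3
  rw [h3]
  exact G.fderiv_sq x y η

/-- Partial derivative in the first variable. -/
theorem fderiv_sq_prod_left (x y ξ : E n) :
    fderiv ℝ (fun z : E n × E n => ‖G.lg z.1 z.2‖ ^ 2 / 2) (x, y) (G.A x ξ, 0) =
      -inner ℝ (G.lg x y) ξ := by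
  have hd : DifferentiableAt ℝ (fun z : E n × E n => ‖G.lg z.1 z.2‖ ^ 2 / 2) (x, y) :=
    G.sq_smooth.differentiable (by simp) (x, y)
  have h0 : HasFDerivAt (fun x' : E n => (x', y)) ((ContinuousLinearMap.id ℝ (E n)).prod
      (0 : E n →L[ℝ] E n)) x :=
    (hasFDerivAt_id x).prodMk (hasFDerivAt_const y x)
  have h1 := HasFDerivAt.comp (g := fun z : E n × E n => ‖G.lg z.1 z.2‖ ^ 2 / 2)
    (f := fun x' : E n => (x', y)) x hd.hasFDerivAt h0
  have h4 : ((fun z : E n × E n => ‖G.lg z.1 z.2‖ ^ 2 / 2) ∘ fun x' : E n => (x', y)) =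
      fun x' => ‖G.lg y x'‖ ^ 2 / 2 := by
    funext x'
    simp only [Function.comp_apply]
    rw [G.norm_lg_comm]
  rw [h4] at h1
  have h2 := h1.unique (G.hasFDerivAt_sq y x ξ).1
  have h3 := congrArg (fun L : E n →L[ℝ] ℝ => L (G.A x ξ)) h2
  simp only [ContinuousLinearMap.comp_apply, ContinuousLinearMap.prod_apply,
    zero_apply, ContinuousLinearMap.id_apply] at h3
  rw [h3]
  exact G.fderiv_sq y x ξ

/-- The mixed second derivative of `‖lg x y‖²/2`, first in `y`, then in `x`. -/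
theorem sq_mixed_right (x y ζ η : E n) :
    fderiv ℝ (fderiv ℝ (fun z : E n × E n => ‖G.lg z.1 z.2‖ ^ 2 / 2)) (x, y) (ζ, 0)
      (0, G.A y η) = -inner ℝ (fderiv ℝ (G.lg y) x ζ) η := by
  set S : E n × E n → ℝ := fun z : E n × E n => ‖G.lg z.1 z.2‖ ^ 2 / 2 with hS
  have hd : DifferentiableAt ℝ (fderiv ℝ S) (x, y) :=
    (G.sq_smooth.fderiv_right (m := 1) (by norm_cast)).differentiable (by simp) (x, y)
  have h0 : HasFDerivAt (fun x' : E n => (x', y)) ((ContinuousLinearMap.id ℝ (E n)).prod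
      (0 : E n →L[ℝ] E n)) x :=
    (hasFDerivAt_id x).prodMk (hasFDerivAt_const y x)
  have h1 : HasFDerivAt (fun x' : E n => fderiv ℝ S (x', y)) _ x :=
    HasFDerivAt.comp (g := fderiv ℝ S) (f := fun x' : E n => (x', y)) x hd.hasFDerivAt h0
  have h2 : HasFDerivAt (fun x' : E n => fderiv ℝ S (x', y) (0, G.A y η)) _ x :=
    h1.clm_apply (hasFDerivAt_const ((0 : E n), G.A y η) x)
  have h3 : (fun x' : E n => fderiv ℝ S (x', y) (0, G.A y η)) =
      fun x' => -inner ℝ (G.lg y x') η := by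
    funext x'
    exact G.fderiv_sq_prod_right x' y η
  rw [h3] at h2
  have hl : HasFDerivAt (G.lg y) (fderiv ℝ (G.lg y) x) x :=
    ((G.lg_smooth_right y).differentiable (by simp) x).hasFDerivAt
  have h4 : HasFDerivAt (fun x' : E n => -inner ℝ (G.lg y x') η) _ x :=
    (hl.inner ℝ (hasFDerivAt_const η x)).neg
  have h5 := h2.unique h4
  have h6 := congrArg (fun L : E n →L[ℝ] ℝ => L ζ) h5
  simpa using h6

/-- The mixed second derivative of `‖lg x y‖²/2`, first in `x`, then in `y`. -/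
theorem sq_mixed_left (x y ξ ζ : E n) :
    fderiv ℝ (fderiv ℝ (fun z : E n × E n => ‖G.lg z.1 z.2‖ ^ 2 / 2)) (x, y) (0, ζ)
      (G.A x ξ, 0) = -inner ℝ (fderiv ℝ (G.lg x) y ζ) ξ := by
  set S : E n × E n → ℝ := fun z : E n × E n => ‖G.lg z.1 z.2‖ ^ 2 / 2 with hS
  have hd : DifferentiableAt ℝ (fderiv ℝ S) (x, y) :=
    (G.sq_smooth.fderiv_right (m := 1) (by norm_cast)).differentiable (by simp) (x, y)
  have h0 : HasFDerivAt (fun y' : E n => (x, y')) ((0 : E n →L[ℝ] E n).prod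
      (ContinuousLinearMap.id ℝ (E n))) y :=
    (hasFDerivAt_const x y).prodMk (hasFDerivAt_id y)
  have h1 : HasFDerivAt (fun y' : E n => fderiv ℝ S (x, y')) _ y :=
    HasFDerivAt.comp (g := fderiv ℝ S) (f := fun y' : E n => (x, y')) y hd.hasFDerivAt h0
  have h2 : HasFDerivAt (fun y' : E n => fderiv ℝ S (x, y') (G.A x ξ, 0)) _ y :=
    h1.clm_apply (hasFDerivAt_const (G.A x ξ, (0 : E n)) y)
  have h3 : (fun y' : E n => fderiv ℝ S (x, y') (G.A x ξ, 0)) =
      fun y' => -inner ℝ (G.lg x y') ξ := by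
    funext y'
    exact G.fderiv_sq_prod_left x y' ξ
  rw [h3] at h2
  have hl : HasFDerivAt (G.lg x) (fderiv ℝ (G.lg x) y) y :=
    ((G.lg_smooth_right x).differentiable (by simp) y).hasFDerivAt
  have h4 : HasFDerivAt (fun y' : E n => -inner ℝ (G.lg x y') ξ) _ y :=
    (hl.inner ℝ (hasFDerivAt_const ξ y)).neg
  have h5 := h2.unique h4
  have h6 := congrArg (fun L : E n →L[ℝ] ℝ => L ζ) h5
  simpa using h6

theorem mixed_symm (x y ξ η : E n) :
    inner ℝ (fderiv ℝ (G.lg y) x (G.A x ξ)) η = inner ℝ (fderiv ℝ (G.lg x) y (G.A y η)) ξ := by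
  have hs : IsSymmSndFDerivAt ℝ (fun z : E n × E n => ‖G.lg z.1 z.2‖ ^ 2 / 2) (x, y) :=
    G.sq_smooth.contDiffAt.isSymmSndFDerivAt (by simp; norm_cast)
  have h := hs.eq (G.A x ξ, 0) (0, G.A y η)
  rw [G.sq_mixed_right, G.sq_mixed_left] at h
  linarith

/-- `D (lg x) (y) ∘ A y` is a left inverse of `T x (lg x y)`. -/
theorem fderiv_lg_T (x y z : E n) :
    fderiv ℝ (G.lg x) y (G.A y (G.T x (G.lg x y) z)) = z := by
  have h := G.fderiv_lg x (G.lg x y) z
  rw [← G.T_spec, G.ex_lg] at h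
  exact h

/-- Symmetry of the Jacobian of the exponential map. Proof: differentiate `hasFDerivAt_sq` once
more: the mixed second derivative of `‖lg x y‖²/2` computed in both orders. -/
theorem J_symm (x y : E n) : |(G.T x (G.lg x y)).det| = |(G.T y (G.lg y x)).det| := by
  set M : E n →ₗ[ℝ] E n :=
    ContinuousLinearMap.toLinearMap ((fderiv ℝ (G.lg y) x).comp (G.A x)) with hM
  set N : E n →ₗ[ℝ] E n :=
    ContinuousLinearMap.toLinearMap ((fderiv ℝ (G.lg x) y).comp (G.A y)) with hN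
  have hadj : N = LinearMap.adjoint M := by
    rw [LinearMap.eq_adjoint_iff]
    intro η ξ
    rw [hM, hN, real_inner_comm (M ξ) η]
    exact (G.mixed_symm x y ξ η).symm
  have hdet : LinearMap.det N = LinearMap.det M := by
    have b := EuclideanSpace.basisFun (Fin n) ℝ
    rw [hadj, ← LinearMap.det_toMatrix b.toBasis, ← LinearMap.det_toMatrix b.toBasis,
      LinearMap.toMatrix_adjoint, Matrix.det_conjTranspose, star_trivial]
  have h1 : LinearMap.det N * (G.T x (G.lg x y)).det = 1 := by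
    have : N.comp (G.T x (G.lg x y) : E n →ₗ[ℝ] E n) = LinearMap.id := by
      ext1 z
      exact G.fderiv_lg_T x y z
    rw [ContinuousLinearMap.det, ← LinearMap.det_comp, this, LinearMap.det_id]
  have h2 : LinearMap.det M * (G.T y (G.lg y x)).det = 1 := by
    have : M.comp (G.T y (G.lg y x) : E n →ₗ[ℝ] E n) = LinearMap.id := by
      ext1 z
      exact G.fderiv_lg_T y x z
    rw [ContinuousLinearMap.det, ← LinearMap.det_comp, this, LinearMap.det_id]
  rw [← hdet] at h2
  have hne : LinearMap.det N ≠ 0 := left_ne_zero_of_mul_eq_one h1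
  rw [mul_left_cancel₀ hne (h1.trans h2.symm)]

end Geo

end Vale.Agent.P219.TP
end

section

/-! # Polar coordinates (task A3a) -/

open MeasureTheory Set Metric
open scoped ENNReal ContDiff

namespace Vale.Agent.P219.TP

variable {n : ℕ}

/-- Polar coordinates in `E n`. -/
theorem polar (hn : 1 ≤ n) {F : E n → ℝ≥0∞} (hF : Measurable F) :
    ∫⁻ v, F v = ∫⁻ u : sphere (0 : E n) 1, ∫⁻ r in Ioi (0 : ℝ),
      ENNReal.ofReal (r ^ (n - 1)) * F (r • (u : E n)) ∂volume
        ∂((volume : Measure (E n)).toSphere) := by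
  have hdim : Module.finrank ℝ (E n) = n := by simp
  have hnt : Nontrivial (E n) := by
    apply Module.nontrivial_of_finrank_pos (R := ℝ)
    omega
  have hmp := (volume : Measure (E n)).measurePreserving_homeomorphUnitSphereProd
  rw [hdim] at hmp
  have hG : Measurable (fun p : sphere (0 : E n) 1 × Ioi (0 : ℝ) => F (p.2.1 • p.1.1)) := by
    refine hF.comp ?_
    fun_prop
  calc ∫⁻ v, F v = ∫⁻ v in ({0}ᶜ : Set (E n)), F v := by
        rw [restrict_compl_singleton]
    _ = ∫⁻ v : ({0}ᶜ : Set (E n)), F v ∂(Measure.comap (Subtype.val : ({0}ᶜ : Set (E n)) → E n) volume) :=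
        (lintegral_subtype_comap (measurableSet_singleton (0 : E n)).compl F).symm
    _ = ∫⁻ v : ({0}ᶜ : Set (E n)), (fun p : sphere (0 : E n) 1 × Ioi (0 : ℝ) =>
          F (p.2.1 • p.1.1)) (homeomorphUnitSphereProd (E n) v) ∂(Measure.comap (Subtype.val : ({0}ᶜ : Set (E n)) → E n) volume) := by
        refine lintegral_congr fun v => ?_
        have h := congrArg Subtype.val ((homeomorphUnitSphereProd (E n)).symm_apply_apply v)
        rw [homeomorphUnitSphereProd_symm_apply_coe] at h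
        change F v = F (((homeomorphUnitSphereProd (E n) v).2 : ℝ) •
          ((homeomorphUnitSphereProd (E n) v).1 : E n))
        rw [h]
    _ = ∫⁻ p : sphere (0 : E n) 1 × Ioi (0 : ℝ), F (p.2.1 • p.1.1)
          ∂((volume : Measure (E n)).toSphere.prod (Measure.volumeIoiPow (n - 1))) :=
        hmp.lintegral_comp hG
    _ = ∫⁻ u : sphere (0 : E n) 1, ∫⁻ r : Ioi (0 : ℝ), F (r.1 • u.1)
          ∂(Measure.volumeIoiPow (n - 1)) ∂((volume : Measure (E n)).toSphere) :=
        lintegral_prod _ hG.aemeasurable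
    _ = _ := by
        refine lintegral_congr fun u => ?_
        have hm : Measurable (fun r : Ioi (0 : ℝ) => F (r.1 • (u : E n))) := by
          refine hF.comp ?_
          fun_prop
        rw [Measure.volumeIoiPow, lintegral_withDensity_eq_lintegral_mul _ (by fun_prop) hm]
        exact lintegral_subtype_comap measurableSet_Ioi
          (fun r : ℝ => ENNReal.ofReal (r ^ (n - 1)) * F (r • (u : E n)))

end Vale.Agent.P219.TP
end

section

/-! # Polar coordinates and invariance of the Liouville measure (task A3) -/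

open MeasureTheory Set Metric
open scoped ENNReal ContDiff

namespace Vale.Agent.P219.TP

variable {n : ℕ}

namespace Geo

variable (G : Geo n)

theorem w_measurable : Measurable fun x => ENNReal.ofReal (G.w x) :=
  G.w_smooth.continuous.measurable.ennreal_ofReal

theorem lintegral_vol {F : E n → ℝ≥0∞} (hF : Measurable F) :
    ∫⁻ x, F x ∂G.vol = ∫⁻ x, ENNReal.ofReal (G.w x) * F x := by
  unfold vol
  rw [lintegral_withDensity_eq_lintegral_mul _ G.w_measurable hF]
  rfl

theorem vol_apply {K : Set (E n)} (hK : MeasurableSet K) :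
    G.vol K = ∫⁻ x in K, ENNReal.ofReal (G.w x) :=
  withDensity_apply (fun x : E n => ENNReal.ofReal (G.w x)) hK

theorem vol_le_bdd {K : Set (E n)} (hK : MeasurableSet K) {C : ℝ} (hC : ∀ x ∈ K, G.w x ≤ C) :
    G.vol K ≤ ENNReal.ofReal C * (volume : Measure (E n)) K := by
  rw [G.vol_apply hK, ← setLIntegral_const]
  exact setLIntegral_mono measurable_const fun x hx => ENNReal.ofReal_le_ofReal (hC x hx)

theorem vol_compact_lt_top {K : Set (E n)} (hK : IsCompact K) : G.vol K < ⊤ := by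
  have hb : BddAbove (G.w '' K) := (hK.image G.w_smooth.continuous).bddAbove
  obtain ⟨C, hC⟩ := hb
  refine lt_of_le_of_lt (G.vol_le_bdd hK.measurableSet
    fun x hx => hC (mem_image_of_mem _ hx)) ?_
  exact ENNReal.mul_lt_top ENNReal.ofReal_lt_top hK.measure_lt_top

instance isFiniteMeasureOnCompacts_vol : IsFiniteMeasureOnCompacts G.vol :=
  ⟨fun _ hK => G.vol_compact_lt_top hK⟩

instance sigmaFinite_vol : SigmaFinite G.vol := inferInstance

/-- Change of variables `y = ex x v`. -/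
theorem lintegral_vol_ex (x : E n) {F : E n → ℝ≥0∞} (hF : Measurable F) :
    ∫⁻ y, F y ∂G.vol = ∫⁻ v, ENNReal.ofReal |(G.T x v).det| * F (G.ex x v) := by
  rw [G.lintegral_vol hF]
  have hinj : InjOn (G.ex x) univ := fun v _ v' _ h => by
    rw [← G.lg_ex x v, ← G.lg_ex x v', h]
  have him : G.ex x '' univ = univ := by
    rw [image_univ]
    exact Set.range_eq_univ.2 fun y => ⟨G.lg x y, G.ex_lg x y⟩
  have hd : ∀ v ∈ (univ : Set (E n)), HasFDerivWithinAt (G.ex x) (fderiv ℝ (G.ex x) v) univ v :=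
    fun v _ => ((G.ex_smooth_right x).differentiable (by simp) v).hasFDerivAt.hasFDerivWithinAt
  have h := lintegral_image_eq_lintegral_abs_det_fderiv_mul volume MeasurableSet.univ hd hinj
    (fun y => ENNReal.ofReal (G.w y) * F y)
  rw [him, Measure.restrict_univ] at h
  rw [h]
  refine lintegral_congr fun v => ?_
  rw [← mul_assoc, ← ENNReal.ofReal_mul (abs_nonneg _), mul_comm |_| _, G.w_J]

/-- The map `(x,v) ↦ (ex x v, - V 1 x v)` preserves `vol ⊗ Lebesgue`. -/
theorem liouville {F : E n × E n → ℝ≥0∞} (hF : Measurable F) :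
    ∫⁻ x, ∫⁻ v, F (G.ex x v, -G.V 1 x v) ∂volume ∂G.vol =
      ∫⁻ x, ∫⁻ v, F (x, v) ∂volume ∂G.vol := by
  set J : E n → E n → ℝ≥0∞ := fun x v => ENNReal.ofReal |(G.T x v).det| with hJ
  have hJc : Continuous fun z : E n × E n => (G.T z.1 z.2).det :=
    ContinuousLinearMap.continuous_det.comp G.T_smooth.continuous
  have hJm : Measurable fun z : E n × E n => J z.1 z.2 := hJc.abs.measurable.ennreal_ofReal
  have hJ1 : ∀ x v, 1 ≤ J x v := by
    intro x v
    rw [hJ, ← ENNReal.ofReal_one]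
    exact ENNReal.ofReal_le_ofReal (G.one_le_J x v)
  have hJt : ∀ x v, J x v ≠ ⊤ := fun x v => ENNReal.ofReal_ne_top
  have hJ0 : ∀ x v, J x v ≠ 0 := fun x v h => by
    have := hJ1 x v
    rw [h] at this
    exact absurd this (by simp)
  have hlg : Continuous fun z : E n × E n => G.lg z.1 z.2 := G.lg_smooth.continuous
  -- general formula
  have key : ∀ (x : E n) (H : E n → E n → ℝ≥0∞), Measurable (Function.uncurry H) →
      ∫⁻ v, H (G.ex x v) v = ∫⁻ y, (J x (G.lg x y))⁻¹ * H y (G.lg x y) ∂G.vol := by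
    intro x H hH
    have hm : Measurable fun y => (J x (G.lg x y))⁻¹ * H y (G.lg x y) := by
      have h1 : Continuous fun y : E n => (x, G.lg x y) :=
        continuous_const.prodMk (hlg.comp (continuous_const.prodMk continuous_id))
      have h2 : Continuous fun y : E n => (y, G.lg x y) :=
        continuous_id.prodMk (hlg.comp (continuous_const.prodMk continuous_id))
      exact (hJm.comp h1.measurable).inv.mul (hH.comp h2.measurable)
    rw [G.lintegral_vol_ex x hm]
    refine lintegral_congr fun v => ?_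
    rw [G.lg_ex, ← mul_assoc]
    have : ENNReal.ofReal |(G.T x v).det| * (J x v)⁻¹ = 1 :=
      ENNReal.mul_inv_cancel (hJ0 x v) (hJt x v)
    rw [this, one_mul]
  have e1 : ∀ x, ∫⁻ v, F (G.ex x v, -G.V 1 x v) =
      ∫⁻ y, (J x (G.lg x y))⁻¹ * F (y, G.lg y x) ∂G.vol := by
    intro x
    have hH : Measurable (Function.uncurry fun y v : E n => F (y, -G.V 1 x v)) := by
      refine hF.comp ?_
      have h1 : Continuous fun z : E n × E n => (z.1, -G.V 1 x z.2) := by
        refine continuous_fst.prodMk (Continuous.neg ?_)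
        exact G.V_smooth.continuous.comp (continuous_const.prodMk
          (continuous_const.prodMk continuous_snd))
      exact h1.measurable
    rw [key x (fun y v => F (y, -G.V 1 x v)) hH]
    refine lintegral_congr fun y => ?_
    simp only [G.lg_back', neg_neg]
  have e2 : ∀ y, ∫⁻ v, F (y, v) = ∫⁻ x, (J y (G.lg y x))⁻¹ * F (y, G.lg y x) ∂G.vol := by
    intro y
    have hH : Measurable (Function.uncurry fun _x v : E n => F (y, v)) :=
      hF.comp (measurable_const.prodMk measurable_snd)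
    exact key y (fun _ v => F (y, v)) hH
  simp only [e1, e2]
  have hm2 : Measurable (Function.uncurry fun x y : E n =>
      (J x (G.lg x y))⁻¹ * F (y, G.lg y x)) := by
    have h1 : Continuous fun z : E n × E n => (z.1, G.lg z.1 z.2) := continuous_fst.prodMk hlg
    have h2 : Continuous fun z : E n × E n => (z.2, G.lg z.2 z.1) :=
      continuous_snd.prodMk (hlg.comp (continuous_snd.prodMk continuous_fst))
    exact (hJm.comp h1.measurable).inv.mul (hF.comp h2.measurable)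
  rw [lintegral_lintegral_swap hm2.aemeasurable]
  refine lintegral_congr fun y => lintegral_congr fun x => ?_
  congr 2
  simp only [hJ]
  rw [G.J_symm x y]

theorem V_eq (r : ℝ) (x u : E n) : G.V 1 x (r • u) = r • G.V r x u := by
  rw [G.V_smul, mul_one]

end Geo

end Vale.Agent.P219.TP
end

section

/-! # Nonexpansive logarithm, convexity of balls (task A1c) -/

open MeasureTheory Set Metric
open scoped ENNReal ContDiff

namespace Vale.Agent.P219.TP

variable {n : ℕ} (G : Geo n)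

namespace Geo

/-- Derivative of the logarithm along a curve of known velocity. -/
theorem lg_velocity_bound (x p u : E n) :
    ‖fderiv ℝ (G.lg x) p (G.A p u)‖ ≤ ‖u‖ := by
  have hdet := G.det_T_ne x (G.lg x p)
  have hsurj : Function.Surjective (G.T x (G.lg x p)) := by
    have hu : IsUnit ((G.T x (G.lg x p) : E n →L[ℝ] E n) : E n →ₗ[ℝ] E n) := by
      rw [LinearMap.isUnit_iff_isUnit_det]
      exact isUnit_iff_ne_zero.mpr hdet
    have hb := (Module.End.isUnit_iff _).mp hu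
    exact hb.2
  obtain ⟨ζ, hζ⟩ := hsurj u
  have h1 := G.fderiv_lg x (G.lg x p) ζ
  have h2 := G.T_spec x (G.lg x p) ζ
  rw [← h2, G.ex_lg, hζ] at h1
  rw [h1, ← hζ]
  exact G.norm_le_T x (G.lg x p) ζ

theorem differentiable_lg (x : E n) : Differentiable ℝ (G.lg x) := by
  have h : ContDiff ℝ ∞ (G.lg x) :=
    G.lg_smooth.comp (contDiff_const.prodMk contDiff_id)
  exact h.differentiable (by simp)

/-- `lg x` is `1`-Lipschitz. -/
theorem lg_nonexp (x y z : E n) : ‖G.lg x y - G.lg x z‖ ≤ ‖G.lg y z‖ := by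
  have hd : ∀ t ∈ Icc (0 : ℝ) 1, HasDerivWithinAt (fun s : ℝ => G.lg x (G.ex y (s • G.lg y z)))
      (fderiv ℝ (G.lg x) (G.ex y (t • G.lg y z))
        (G.A (G.ex y (t • G.lg y z)) (G.V t y (G.lg y z)))) (Icc 0 1) t := by
    intro t _
    have h1 := (G.differentiable_lg x (G.ex y (t • G.lg y z))).hasFDerivAt
    exact (h1.comp_hasDerivAt t (G.ex_deriv t y (G.lg y z))).hasDerivWithinAt
  have hb : ∀ t ∈ Ico (0 : ℝ) 1, ‖fderiv ℝ (G.lg x) (G.ex y (t • G.lg y z))
        (G.A (G.ex y (t • G.lg y z)) (G.V t y (G.lg y z)))‖ ≤ ‖G.lg y z‖ := by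
    intro t _
    refine (G.lg_velocity_bound x _ _).trans ?_
    rw [G.norm_V]
  have h := norm_image_sub_le_of_norm_deriv_le_segment_01' hd hb
  simp only [one_smul, zero_smul, G.ex_lg, G.ex_zero] at h
  rw [norm_sub_rev]
  exact h

/-- Geodesic balls are convex. -/
theorem ball_convex {o x y : E n} {ρ : ℝ} (hx : ‖G.lg o x‖ ≤ ρ) (hy : ‖G.lg o y‖ ≤ ρ) {s : ℝ}
    (h0 : 0 ≤ s) (h1 : s ≤ 1) : ‖G.lg o (G.ex x (s • G.lg x y))‖ ≤ ρ := by
  have e1 : G.lg (G.ex x (s • G.lg x y)) x = -(s • G.V s x (G.lg x y)) := by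
    have h := G.ex_flow s (-s) x (G.lg x y)
    rw [add_neg_cancel, zero_smul, G.ex_zero] at h
    have h' := G.lg_ex (G.ex x (s • G.lg x y)) ((-s) • G.V s x (G.lg x y))
    rw [h] at h'
    rw [h', neg_smul]
  have e2 : G.lg (G.ex x (s • G.lg x y)) y = (1 - s) • G.V s x (G.lg x y) := by
    have h := G.ex_flow s (1 - s) x (G.lg x y)
    rw [add_sub_cancel, one_smul, G.ex_lg] at h
    have h' := G.lg_ex (G.ex x (s • G.lg x y)) ((1 - s) • G.V s x (G.lg x y))
    rw [h] at h'
    exact h'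
  have n1 := G.lg_nonexp (G.ex x (s • G.lg x y)) o x
  have n2 := G.lg_nonexp (G.ex x (s • G.lg x y)) o y
  rw [e1] at n1
  rw [e2] at n2
  rw [G.norm_lg_comm]
  have key : G.lg (G.ex x (s • G.lg x y)) o =
      (1 - s) • (G.lg (G.ex x (s • G.lg x y)) o - -(s • G.V s x (G.lg x y))) +
      s • (G.lg (G.ex x (s • G.lg x y)) o - (1 - s) • G.V s x (G.lg x y)) := by
    module
  rw [key]
  refine (norm_add_le _ _).trans ?_
  rw [norm_smul, norm_smul, Real.norm_of_nonneg h0, Real.norm_of_nonneg (sub_nonneg.mpr h1)]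
  have m1 := mul_le_mul_of_nonneg_left (n1.trans hx) (sub_nonneg.mpr h1)
  have m2 := mul_le_mul_of_nonneg_left (n2.trans hy) h0
  linarith

theorem isCompact_gball (o : E n) (ρ : ℝ) : IsCompact {x | ‖G.lg o x‖ ≤ ρ} := by
  have hc : Continuous (G.ex o) :=
    (G.ex_smooth.comp (contDiff_const.prodMk contDiff_id)).continuous
  have himg : {x | ‖G.lg o x‖ ≤ ρ} = G.ex o '' closedBall 0 ρ := by
    ext x
    constructor
    · intro hx
      exact ⟨G.lg o x, by simpa using hx, G.ex_lg o x⟩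
    · rintro ⟨v, hv, rfl⟩
      simpa [G.lg_ex] using hv
  rw [himg]
  exact (isCompact_closedBall 0 ρ).image hc

end Geo

end Vale.Agent.P219.TP
end

section

/-! # The radial field -/

open MeasureTheory Set Metric
open scoped ENNReal ContDiff

namespace Vale.Agent.P219.TP

variable {n : ℕ} (G : Geo n)

end Vale.Agent.P219.TP
end

section

/-! # Quantities along geodesics -/

open MeasureTheory Set Metric
open scoped ENNReal ContDiff

namespace Vale.Agent.P219.TP

variable {n : ℕ}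

namespace Geo

variable (G : Geo n)

end Geo

end Vale.Agent.P219.TP
end

section

/-! # One-dimensional inequality (task A2) -/

open MeasureTheory Set Metric
open scoped ENNReal ContDiff

namespace Vale.Agent.P219.TP

end Vale.Agent.P219.TP
end

section

/-! # The inequality on one geodesic, on a window `(0,T)` (task A4b) -/

open MeasureTheory Set Metric
open scoped ENNReal ContDiff

namespace Vale.Agent.P219.TP

variable {n : ℕ} (G : Geo n)

/-- Clipping to `[0,1]`. -/
noncomputable def clip (a : ℝ) : ℝ := min 1 (max 0 a)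

theorem clip_mem (a : ℝ) : clip a ∈ Icc (0 : ℝ) 1 :=
  ⟨le_min zero_le_one (le_max_left _ _), min_le_left _ _⟩

theorem clip_of_mem {a : ℝ} (h0 : 0 ≤ a) (h1 : a ≤ 1) : clip a = a := by
  unfold clip
  rw [max_eq_right h0, min_eq_right h1]

theorem continuous_clip : Continuous clip := by
  unfold clip
  fun_prop

end Vale.Agent.P219.TP
end

section

/-!
# P219, two-point kernel method in curvature `≤ -k²`: definitions

Relaxed version: the model kernel may be negative; the difference between the exact kernel and the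
model kernel is used (two-ended index form).
-/

open MeasureTheory Set Metric
open scoped ENNReal ContDiff

namespace Vale.Agent.P219.TPH

open Vale.Agent.P219.TP

/-- `sn_k(r) = sinh(k r)/k`, and `r` if `k = 0`. -/
noncomputable def sn (k r : ℝ) : ℝ := if k = 0 then r else Real.sinh (k * r) / k

/-- `cs_k(r) = cosh(k r)`. -/
noncomputable def cs (k r : ℝ) : ℝ := Real.cosh (k * r)

variable {n : ℕ}

/-- `r (Δ r_x - (n-1) ct(r))` at the point `ex x v`, `r = ‖v‖`. -/
noncomputable def rtau (G : Geo n) (k : ℝ) (x v : _root_.Vale.Agent.P219.TP.E n) : ℝ :=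
  fderiv ℝ (fun u => Real.log (G.T x u).det) v v +
    ((n : ℝ) - 1) * (1 - ‖v‖ * cs k ‖v‖ / sn k ‖v‖)

/-- Curvature at most `-k²`: Rauch comparison and the two-ended index form comparison. -/
structure Curv (G : Geo n) (k : ℝ) : Prop where
  mono_sn : ∀ (x v z : _root_.Vale.Agent.P219.TP.E n) (s : ℝ), inner ℝ v z = 0 → 0 < s → s ≤ 1 →
    s * sn k ‖v‖ * ‖G.T x (s • v) z‖ ≤ sn k (s * ‖v‖) * ‖G.T x v z‖
  bonus : ∀ (x v : _root_.Vale.Agent.P219.TP.E n) (a b : ℝ), v ≠ 0 → 0 ≤ a → 0 ≤ b →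
    2 * a * b * (‖v‖ / sn k ‖v‖) *
        (1 - (sn k ‖v‖ / ‖v‖) ^ (n - 1) / |(G.T x v).det|) ≤
      b ^ 2 * rtau G k x v + a ^ 2 * rtau G k (G.ex x v) (G.lg (G.ex x v) x)

/-- The radial field `φ(r,a) = r Φ(r², ra)`. -/
noncomputable def ph (Φ : ℝ × ℝ → ℝ) (r a : ℝ) : ℝ := r * Φ (r ^ 2, r * a)

/-- First variation of area of the field `φ(r,a) ∇r` in curvature `-k²`, `m = n - 1`. -/
noncomputable def kapH (k : ℝ) (m : ℕ) (Φ : ℝ × ℝ → ℝ) (r a b : ℝ) : ℝ :=
  (Φ (r ^ 2, r * a) + 2 * r ^ 2 * fderiv ℝ Φ (r ^ 2, r * a) (1, 0) +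
      r * a * fderiv ℝ Φ (r ^ 2, r * a) (0, 1)) * (1 - b ^ 2) +
    r * cs k r / sn k r * Φ (r ^ 2, r * a) * ((m : ℝ) - 1 + b ^ 2) -
    r ^ 2 / sn k r * |fderiv ℝ Φ (r ^ 2, r * a) (0, 1)| * |b| * √((1 - a ^ 2) * (1 - b ^ 2))

/-- The even part of the symmetrised model kernel. -/
noncomputable def NH (k : ℝ) (m : ℕ) (Φ : ℝ × ℝ → ℝ) (lam r a b : ℝ) : ℝ :=
  lam + (kapH k m Φ r a b + kapH k m Φ r b a) / 2

/-- The symmetrised model kernel; `H` is the mean curvature of the model ball. -/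
noncomputable def KH (k : ℝ) (m : ℕ) (Φ : ℝ × ℝ → ℝ) (lam H r a b : ℝ) : ℝ :=
  NH k m Φ lam r a b - H / 2 * (ph Φ r a * b + ph Φ r b * a)

/-- Area of the model sphere. -/
noncomputable def AR (n : ℕ) (k R : ℝ) : ℝ := sig n * sn k R ^ (n - 1)

/-- Volume of the model ball. -/
noncomputable def VR (n : ℕ) (k R : ℝ) : ℝ := sig n * ∫ r in (0 : ℝ)..R, sn k r ^ (n - 1)

/-- Mean curvature of the model sphere. -/
noncomputable def H0 (n : ℕ) (k R : ℝ) : ℝ := ((n : ℝ) - 1) * cs k R / sn k R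

/-- The conditions on a smooth field. -/
structure Good (n : ℕ) (k : ℝ) (Φ : ℝ × ℝ → ℝ) (lam H s : ℝ) (f : ℝ → ℝ) : Prop where
  smooth : ∃ δ > 0, ContDiffOn ℝ ∞ Φ {p | -δ < p.1}
  nonneg : ∀ r a : ℝ, 0 ≤ r → |a| ≤ 1 → 0 ≤ Φ (r ^ 2, r * a)
  c1 : ∀ r a b : ℝ, 0 < r → |a| ≤ 1 → |b| ≤ 1 →
    H / 2 * (ph Φ r b * max a 0) ≤ NH k (n - 1) Φ lam r a b
  c3 : ∀ a : ℝ, |a| ≤ 1 → MonotoneOn (fun r => ph Φ r a * sn k r ^ (n - 1)) (Ioi 0)
  c7 : ∀ r a b : ℝ, 0 < r → 0 ≤ a → a ≤ 1 → 0 ≤ b → b ≤ 1 →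
    0 ≤ KH k (n - 1) Φ lam H r a b + a * b * √(ph Φ r a * ph Φ r b) / sn k r
  c6 : ∀ r a b : ℝ, 0 < r → 0 ≤ a → a ≤ 1 → 0 ≤ b → b ≤ 1 →
    a * b * (s * r - (f a + f b) / 2) ≤ KH k (n - 1) Φ lam H r a b * sn k r ^ (n - 1)

/-- Certificate for the isoperimetric inequality in dimension `n`, curvature `≤ -k²`, for the
model ball of radius `R`. -/
structure CertH (n : ℕ) (k R : ℝ) where
  lam : ℝ
  s : ℝ
  F : ℝ
  f : ℝ → ℝ
  lam_pos : 0 < lam
  s_nonneg : 0 ≤ s
  f_cont : Continuous f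
  f_nonneg : ∀ a ∈ Icc (0 : ℝ) 1, 0 ≤ f a
  hF : ∀ e : _root_.Vale.Agent.P219.TP.E n, ‖e‖ = 1 →
    ∫ u : sphere (0 : _root_.Vale.Agent.P219.TP.E n) 1, f (max 0 (inner ℝ e (u : _root_.Vale.Agent.P219.TP.E n))) * max 0 (inner ℝ e (u : _root_.Vale.Agent.P219.TP.E n))
      ∂((volume : Measure (_root_.Vale.Agent.P219.TP.E n)).toSphere) ≤ F
  balance : lam * AR n k R ^ 2 ≤ s * sig n * VR n k R - F * AR n k R
  approx : ∀ ε > 0, ∃ Φ : ℝ × ℝ → ℝ, Good n k Φ (lam + ε) (H0 n k R) s (fun a => f a + ε)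

/-! ### The pair kernels -/

/-- Volume of `{h = 1}`. -/
noncomputable def V1 (G : Geo n) (h : _root_.Vale.Agent.P219.TP.E n → ℝ) : ℝ := G.vol.real {x | h x = 1}

end Vale.Agent.P219.TPH
end

section

/-! # Divergence theorem (task A8c) -/

open MeasureTheory Set Metric
open scoped ENNReal ContDiff

namespace Vale.Agent.P219.TP

variable {n : ℕ} (G : Geo n)

theorem ibp_contDiff_lg_left (G : Geo n) (p : E n) : ContDiff ℝ ∞ (G.lg p) :=
  G.lg_smooth.comp (contDiff_const.prodMk contDiff_id)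

theorem ibp_contDiff_lg_right (G : Geo n) (p : E n) : ContDiff ℝ ∞ (fun x => G.lg x p) :=
  G.lg_smooth.comp (contDiff_id.prodMk contDiff_const)

/-- Integrals with respect to `vol`. -/
theorem ibp_integral_vol (F : E n → ℝ) : ∫ x, F x ∂G.vol = ∫ x, G.w x * F x := by
  unfold Geo.vol
  rw [integral_withDensity_eq_integral_toReal_smul₀]
  · refine integral_congr_ae (Filter.Eventually.of_forall fun x => ?_)
    simp only [smul_eq_mul]
    rw [ENNReal.toReal_ofReal (G.w_pos x).le]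
  · exact (G.w_smooth.continuous.measurable.ennreal_ofReal).aemeasurable
  · exact Filter.Eventually.of_forall fun x => ENNReal.ofReal_lt_top

/-- Euclidean divergence theorem for a field times a compactly supported function. -/
theorem ibp_euclid {X : E n → E n} (hX : ContDiff ℝ ∞ X) {h : E n → ℝ} (hh : ContDiff ℝ 1 h)
    (hc : HasCompactSupport h) :
    ∫ x, h x * ∑ i, fderiv ℝ X x (EuclideanSpace.single i 1) i = - ∫ x, fderiv ℝ h x (X x) := by
  have hXi : ∀ i, ContDiff ℝ ∞ (fun x => X x i) := fun i =>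
    (contDiff_euclidean.1 hX) i
  have hXi' : ∀ i x, fderiv ℝ (fun x => X x i) x (EuclideanSpace.single i 1) =
      fderiv ℝ X x (EuclideanSpace.single i 1) i := by
    intro i x
    have hd : HasFDerivAt X (fderiv ℝ X x) x := (hX.differentiable (by simp) x).hasFDerivAt
    have := (EuclideanSpace.proj (𝕜 := ℝ) i).hasFDerivAt.comp x hd
    have h2 : fderiv ℝ (fun x => X x i) x = (EuclideanSpace.proj (𝕜 := ℝ) i).comp (fderiv ℝ X x) :=
      this.fderiv
    rw [h2]
    rfl
  have hcont1 : ∀ i, Continuous (fun x => fderiv ℝ (fun x => X x i) x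
      (EuclideanSpace.single i 1)) := fun i =>
    ((hXi i).continuous_fderiv (by simp)).clm_apply continuous_const
  have hcont2 : ∀ v : E n, Continuous (fun x => fderiv ℝ h x v) := fun v =>
    (hh.continuous_fderiv (by simp)).clm_apply continuous_const
  have hs : HasCompactSupport (fun x => fderiv ℝ h x) := hc.fderiv ℝ
  have hint1 : ∀ i, Integrable (fun x => h x * fderiv ℝ (fun x => X x i) x
      (EuclideanSpace.single i 1)) := by
    intro i
    exact (hh.continuous.mul (hcont1 i)).integrable_of_hasCompactSupport hc.mul_right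
  have hint2 : ∀ i, Integrable (fun x => fderiv ℝ h x (EuclideanSpace.single i 1) * X x i) := by
    intro i
    refine ((hcont2 _).mul (hXi i).continuous).integrable_of_hasCompactSupport ?_
    refine HasCompactSupport.mul_right ?_
    refine hs.comp_left (g := fun L : E n →L[ℝ] ℝ => L (EuclideanSpace.single i 1)) ?_
    simp
  have hint3 : ∀ i, Integrable (fun x => h x * X x i) := by
    intro i
    exact (hh.continuous.mul (hXi i).continuous).integrable_of_hasCompactSupport hc.mul_right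
  have key : ∀ i, ∫ x, h x * fderiv ℝ X x (EuclideanSpace.single i 1) i =
      - ∫ x, fderiv ℝ h x (EuclideanSpace.single i 1) * X x i := by
    intro i
    have := integral_mul_fderiv_eq_neg_fderiv_mul_of_integrable (μ := (volume : Measure (E n)))
      (f := h) (g := fun x => X x i) (v := EuclideanSpace.single i 1) (hint2 i) (hint1 i) (hint3 i)
      (fun x _ => hh.differentiable (by simp) x)
      (fun x _ => (hXi i).differentiable (by simp) x)
    rw [← this]
    refine integral_congr_ae (Filter.Eventually.of_forall fun x => ?_)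
    simp only
    rw [hXi']
  have e1 : (fun x => h x * ∑ i, fderiv ℝ X x (EuclideanSpace.single i 1) i) =
      fun x => ∑ i, h x * fderiv ℝ X x (EuclideanSpace.single i 1) i := by
    funext x
    rw [Finset.mul_sum]
  have e2 : (fun x => fderiv ℝ h x (X x)) =
      fun x => ∑ i, fderiv ℝ h x (EuclideanSpace.single i 1) * X x i := by
    funext x
    have hx : X x = ∑ i, X x i • (EuclideanSpace.single i (1 : ℝ) : E n) := by
      have := (EuclideanSpace.basisFun (Fin n) ℝ).sum_repr (X x)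
      simpa using this.symm
    conv_lhs => rw [hx]
    rw [map_sum]
    refine Finset.sum_congr rfl fun i _ => ?_
    rw [map_smul, smul_eq_mul, mul_comm]
  rw [e1, e2, integral_finsetSum, integral_finsetSum, ← Finset.sum_neg_distrib]
  · exact Finset.sum_congr rfl fun i _ => key i
  · exact fun i _ => hint2 i
  · intro i _
    refine (hint1 i).congr (Filter.Eventually.of_forall fun x => ?_)
    simp only
    rw [hXi']

end Vale.Agent.P219.TP
end

section

/-! # Linear algebra of area elements (task A5) -/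

open MeasureTheory Set Metric
open scoped ENNReal ContDiff

namespace Vale.Agent.P219.TP

variable {n : ℕ}

theorem linAlg_det_adjoint (M : E n →L[ℝ] E n) : (ContinuousLinearMap.adjoint M).det = M.det := by
  have h1 : (ContinuousLinearMap.adjoint M).det =
      LinearMap.det (LinearMap.adjoint (M : E n →ₗ[ℝ] E n)) := by
    rfl
  have h2 := LinearMap.toMatrix_adjoint (EuclideanSpace.basisFun (Fin n) ℝ)
    (EuclideanSpace.basisFun (Fin n) ℝ) (M : E n →ₗ[ℝ] E n)
  rw [h1, ← LinearMap.det_toMatrix (EuclideanSpace.basisFun (Fin n) ℝ).toBasis, h2,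
    Matrix.det_conjTranspose, LinearMap.det_toMatrix]
  rfl

/-- Hadamard for a contraction -/
theorem linAlg_hadamard (T : E n →L[ℝ] E n) (hT : ∀ ξ, ‖T ξ‖ ≤ ‖ξ‖) (y : E n) :
    |T.det| * ‖y‖ ≤ ‖T y‖ := by
  rcases eq_or_ne y 0 with h0 | h0
  · rw [h0, map_zero, norm_zero, mul_zero]
  have hn0 : 0 < ‖y‖ := norm_pos_iff.2 h0
  have hn : 0 < n := by
    by_contra hcon
    have hn' : n = 0 := by omega
    subst hn'
    exact h0 (Subsingleton.elim _ _)
  obtain ⟨i₀⟩ : Nonempty (Fin n) := ⟨⟨0, hn⟩⟩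
  have hfr : Module.finrank ℝ (E n) = n := by simp
  have : Fact (Module.finrank ℝ (E n) = n) := ⟨hfr⟩
  have hon : Orthonormal ℝ (({i₀} : Set (Fin n)).domRestrict fun _ : Fin n => ‖y‖⁻¹ • y) := by
    rw [orthonormal_iff_ite]
    rintro ⟨i, hi⟩ ⟨j, hj⟩
    rw [mem_singleton_iff] at hi hj
    subst hi hj
    simp only [Set.domRestrict_apply, if_true]
    rw [real_inner_self_eq_norm_sq, norm_smul, norm_inv, norm_norm, inv_mul_cancel₀ hn0.ne',
      one_pow]
  obtain ⟨b, hb⟩ := hon.exists_orthonormalBasis_extension_of_card_eq (by simp)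
  have hb0 : b i₀ = ‖y‖⁻¹ • y := hb i₀ rfl
  have h1 := (b.toBasis.orientation).abs_volumeForm_apply_le (T ∘ b)
  rw [(b.toBasis.orientation).volumeForm_robust b rfl] at h1
  have h2 : b.toBasis.det (T ∘ b) = T.det := by
    have := b.toBasis.det_comp (T : E n →ₗ[ℝ] E n) b
    have h3 : b.toBasis.det b = 1 := by
      have := b.toBasis.det_self
      rwa [b.coe_toBasis] at this
    rw [h3, mul_one] at this
    exact this
  rw [h2] at h1
  have h3 : ∏ i, ‖(T ∘ b) i‖ ≤ ‖T (b i₀)‖ := by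
    rw [← Finset.mul_prod_erase Finset.univ _ (Finset.mem_univ i₀)]
    calc ‖(T ∘ b) i₀‖ * ∏ i ∈ Finset.univ.erase i₀, ‖(T ∘ b) i‖ ≤ ‖(T ∘ b) i₀‖ * 1 := by
          apply mul_le_mul_of_nonneg_left _ (norm_nonneg _)
          apply Finset.prod_le_one (fun i _ => norm_nonneg _)
          intro i _
          refine (hT (b i)).trans ?_
          rw [b.norm_eq_one]
      _ = ‖T (b i₀)‖ := mul_one _
  have h4 := h1.trans h3
  rw [hb0, map_smul, norm_smul, norm_inv, norm_norm] at h4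
  calc |T.det| * ‖y‖ ≤ ‖y‖⁻¹ * ‖T y‖ * ‖y‖ := mul_le_mul_of_nonneg_right h4 hn0.le
    _ = ‖T y‖ := by field_simp

/-- Hadamard: if `M` is a contraction then `|det M| ‖y‖ ≤ ‖Mᵀ y‖`; consequence. -/
theorem det_mul_norm_le {B C : E n →L[ℝ] E n} (hB : B.det ≠ 0) (hC : C.det ≠ 0)
    (hBC : ∀ ξ, ‖B ξ‖ ≤ ‖C ξ‖) {N y z : E n} (hy : ∀ ξ, inner ℝ y (B ξ) = inner ℝ N ξ)
    (hz : ∀ ξ, inner ℝ z (C ξ) = inner ℝ N ξ) : |B.det| * ‖y‖ ≤ |C.det| * ‖z‖ := by
  have _ := hB
  set e := C.toContinuousLinearEquivOfDetNeZero hC with he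
  have heC : ∀ ξ, e ξ = C ξ := fun ξ => rfl
  set M : E n →L[ℝ] E n := B.comp (e.symm : E n →L[ℝ] E n) with hM
  have hMC : ∀ ξ, M (C ξ) = B ξ := by
    intro ξ
    rw [hM, ContinuousLinearMap.comp_apply, ← heC]
    congr 1
    exact e.symm_apply_apply ξ
  have hMle : ∀ ξ, ‖M ξ‖ ≤ ‖ξ‖ := by
    intro ξ
    have h1 : ξ = C (e.symm ξ) := by
      rw [← heC]
      exact (e.apply_symm_apply ξ).symm
    rw [h1, hMC]
    exact hBC _
  have hdet : B.det = M.det * C.det := by
    have h1 : (B : E n →ₗ[ℝ] E n) = (M : E n →ₗ[ℝ] E n) ∘ₗ (C : E n →ₗ[ℝ] E n) := by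
      ext1 ξ
      exact (hMC ξ).symm
    have h2 : LinearMap.det (B : E n →ₗ[ℝ] E n) =
        LinearMap.det (M : E n →ₗ[ℝ] E n) * LinearMap.det (C : E n →ₗ[ℝ] E n) := by
      rw [h1, LinearMap.det_comp]
    exact h2
  set T := ContinuousLinearMap.adjoint M with hT
  have hTle : ∀ ξ, ‖T ξ‖ ≤ ‖ξ‖ := by
    intro ξ
    have h1 : ‖T‖ ≤ 1 := by
      rw [hT, LinearIsometryEquiv.norm_map]
      exact M.opNorm_le_bound zero_le_one fun ξ => by rw [one_mul]; exact hMle ξ
    calc ‖T ξ‖ ≤ ‖T‖ * ‖ξ‖ := T.le_opNorm ξ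
      _ ≤ 1 * ‖ξ‖ := mul_le_mul_of_nonneg_right h1 (norm_nonneg _)
      _ = ‖ξ‖ := one_mul _
  have hTy : T y = z := by
    refine ext_inner_right ℝ fun ξ => ?_
    have h1 : ξ = C (e.symm ξ) := by
      rw [← heC]
      exact (e.apply_symm_apply ξ).symm
    rw [hT, ContinuousLinearMap.adjoint_inner_left, h1, hMC, hy, hz]
  have hTd : T.det = M.det := linAlg_det_adjoint M
  have h1 := linAlg_hadamard T hTle y
  rw [hTd, hTy] at h1
  rw [hdet, abs_mul]
  calc |M.det| * |C.det| * ‖y‖ = |C.det| * (|M.det| * ‖y‖) := by ring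
    _ ≤ |C.det| * ‖z‖ := mul_le_mul_of_nonneg_left h1 (abs_nonneg _)

/-- the comparison map -/
noncomputable def linAlgC (e ζ : E n) (α β : ℝ) : E n →L[ℝ] E n :=
  LinearMap.toContinuousLinearMap (β • LinearMap.transvection
    (β⁻¹ • ((α - β) • (innerₗ (E n) e) - innerₗ (E n) ζ) : Module.Dual ℝ (E n)) e)

theorem linAlgC_apply (e ζ : E n) (α : ℝ) {β : ℝ} (hβ : 0 < β) (ξ : E n) :
    linAlgC e ζ α β ξ = (α * inner ℝ e ξ - inner ℝ ζ ξ) • e + β • (ξ - inner ℝ e ξ • e) := by
  have h1 : linAlgC e ζ α β ξ = β • (ξ + (β⁻¹ * ((α - β) * inner ℝ e ξ - inner ℝ ζ ξ)) • e) := rfl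
  rw [h1, smul_add, smul_smul, smul_sub, smul_smul, ← mul_assoc, mul_inv_cancel₀ hβ.ne', one_mul,
    sub_mul, sub_smul, sub_smul, sub_smul]
  abel

theorem linAlgC_det (hn : 2 ≤ n) {e ζ : E n} {α β : ℝ} (he : ‖e‖ = 1) (hζ : inner ℝ e ζ = 0)
    (hβ : 0 < β) : (linAlgC e ζ α β).det = α * β ^ (n - 1) := by
  have h1 : (linAlgC e ζ α β).det = LinearMap.det (β • LinearMap.transvection
      (β⁻¹ • ((α - β) • (innerₗ (E n) e) - innerₗ (E n) ζ) : Module.Dual ℝ (E n)) e) := rfl
  have h2 : (β⁻¹ • ((α - β) • (innerₗ (E n) e) - innerₗ (E n) ζ) : Module.Dual ℝ (E n)) e =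
      β⁻¹ * ((α - β) * inner ℝ e e - inner ℝ ζ e) := rfl
  rw [h1, LinearMap.det_smul, LinearMap.transvection.det, h2, real_inner_self_eq_norm_sq, he,
    real_inner_comm, hζ]
  have h3 : Module.finrank ℝ (E n) = n := by simp
  rw [h3]
  obtain ⟨m, rfl⟩ : ∃ m, n = m + 1 := ⟨n - 1, by omega⟩
  rw [Nat.add_sub_cancel, pow_succ]
  field_simp
  ring

end Vale.Agent.P219.TP
end

section

/-! # Cut-off and uniform bounds of the contraction rate (task A9a) -/

open MeasureTheory Set Metric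
open scoped ENNReal ContDiff

namespace Vale.Agent.P219.TP

variable {n : ℕ}

end Vale.Agent.P219.TP
end

section

/-! # Uniform Taylor formula (task A8a) -/

open MeasureTheory Set Metric
open scoped ENNReal ContDiff

namespace Vale.Agent.P219.TP

/-- One variable Taylor inequality from a Lipschitz bound on the derivative. -/
theorem taylor_one {g g' : ℝ → ℝ} {t₀ C : ℝ} (hC : 0 ≤ C)
    (hg : ∀ t ∈ Icc (0 : ℝ) t₀, HasDerivAt g (g' t) t)
    (hb : ∀ t ∈ Icc (0 : ℝ) t₀, |g' t - g' 0| ≤ C * t) {t : ℝ} (ht : t ∈ Icc (0 : ℝ) t₀) :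
    |g t - g 0 - t * g' 0| ≤ C * t ^ 2 := by
  have hsub : ∀ s ∈ Icc (0 : ℝ) t, s ∈ Icc (0 : ℝ) t₀ := fun s hs => ⟨hs.1, hs.2.trans ht.2⟩
  have h1 : ∀ s ∈ Icc (0 : ℝ) t,
      HasDerivWithinAt (fun s => g s - s * g' 0) (g' s - g' 0) (Icc 0 t) s := by
    intro s hs
    have h := (hg s (hsub s hs)).sub ((hasDerivAt_id s).mul_const (g' 0))
    simp only [id, one_mul] at h
    exact h.hasDerivWithinAt
  have h2 : ∀ s ∈ Icc (0 : ℝ) t, ‖g' s - g' 0‖ ≤ C * t := by
    intro s hs
    refine (hb s (hsub s hs)).trans ?_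
    exact mul_le_mul_of_nonneg_left hs.2 hC
  have h3 := (convex_Icc (0 : ℝ) t).norm_image_sub_le_of_norm_hasDerivWithin_le h1 h2
    (left_mem_Icc.2 ht.1) (right_mem_Icc.2 ht.1)
  have e1 : (fun s => g s - s * g' 0) t - (fun s => g s - s * g' 0) 0
      = g t - g 0 - t * g' 0 := by
    simp only []
    ring
  rw [e1, sub_zero, Real.norm_eq_abs, Real.norm_eq_abs, abs_of_nonneg ht.1] at h3
  calc |g t - g 0 - t * g' 0| ≤ C * t * t := h3
    _ = C * t ^ 2 := by ring

/-- Taylor formula with a uniform constant on a compact set of parameters. -/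
theorem taylor_uniform {Z : Type*} [NormedAddCommGroup Z] [NormedSpace ℝ Z]
    [FiniteDimensional ℝ Z] {U : Set (ℝ × Z)} (hU : IsOpen U) {f : ℝ × Z → ℝ}
    (hf : ContDiffOn ℝ ∞ f U) {K : Set Z} (hK : IsCompact K) (hKU : ∀ z ∈ K, (0, z) ∈ U) :
    ∃ C t₀ : ℝ, 0 ≤ C ∧ 0 < t₀ ∧ ∀ z ∈ K, ∀ t ∈ Icc 0 t₀,
      |f (t, z) - f (0, z) - t * fderiv ℝ f (0, z) (1, 0)| ≤ C * t ^ 2 := by
  -- the tube
  obtain ⟨u, v, hu, hv, h0u, hKv, huv⟩ := generalized_tube_lemma (isCompact_singleton (x := (0:ℝ)))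
    hK hU (by
      rintro ⟨a, z⟩ ⟨ha, hz⟩
      rw [mem_singleton_iff] at ha
      simp only at ha hz
      subst ha
      exact hKU z hz)
  obtain ⟨t₀, ht₀, hball⟩ := Metric.nhds_basis_closedBall.mem_iff.1
    (hu.mem_nhds (h0u (mem_singleton (0:ℝ))))
  have hmem : ∀ z ∈ K, ∀ t ∈ Icc 0 t₀, (t, z) ∈ U := by
    intro z hz t ht
    refine huv ⟨hball ?_, hKv hz⟩
    rw [mem_closedBall, Real.dist_eq, sub_zero, abs_of_nonneg ht.1]
    exact ht.2
  -- the first derivative in t
  set F1 : ℝ × Z → ℝ := fun p => fderiv ℝ f p (1, 0) with hF1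
  have hF1s : ContDiffOn ℝ ∞ F1 U := by
    have h := hf.fderiv_of_isOpen hU (m := ∞) (by simp)
    exact h.clm_apply contDiffOn_const
  set F2 : ℝ × Z → ℝ := fun p => fderiv ℝ F1 p (1, 0) with hF2
  have hF2s : ContDiffOn ℝ ∞ F2 U := by
    have h := hF1s.fderiv_of_isOpen hU (m := ∞) (by simp)
    exact h.clm_apply contDiffOn_const
  have hcomp : IsCompact (Icc (0:ℝ) t₀ ×ˢ K) := isCompact_Icc.prod hK
  have hsubU : Icc (0:ℝ) t₀ ×ˢ K ⊆ U := by
    rintro ⟨a, z⟩ ⟨ha, hz⟩
    exact hmem z hz a ha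
  obtain ⟨C, hC⟩ := hcomp.exists_bound_of_continuousOn (hF2s.continuousOn.mono hsubU)
  refine ⟨max C 0, t₀, le_max_right _ _, ht₀, ?_⟩
  intro z hz t ht
  have hder : ∀ (G : ℝ × Z → ℝ), ContDiffOn ℝ ∞ G U → ∀ s ∈ Icc (0:ℝ) t₀,
      HasDerivAt (fun s => G (s, z)) (fderiv ℝ G (s, z) (1, 0)) s := by
    intro G hG s hs
    have hd : DifferentiableAt ℝ G (s, z) :=
      ((hG.contDiffAt (hU.mem_nhds (hmem z hz s hs))).differentiableAt (by simp))
    have h1 : HasDerivAt (fun s : ℝ => (s, z)) ((1 : ℝ), (0 : Z)) s :=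
      (hasDerivAt_id s).prodMk (hasDerivAt_const s z)
    exact hd.hasFDerivAt.comp_hasDerivAt s h1
  have hg1 : ∀ s ∈ Icc (0:ℝ) t₀, |F1 (s, z) - F1 (0, z)| ≤ max C 0 * s := by
    intro s hs
    have h1 : ∀ r ∈ Icc (0 : ℝ) s,
        HasDerivWithinAt (fun r => F1 (r, z)) (F2 (r, z)) (Icc 0 s) r := by
      intro r hr
      exact (hder F1 hF1s r ⟨hr.1, hr.2.trans hs.2⟩).hasDerivWithinAt
    have h2 : ∀ r ∈ Icc (0 : ℝ) s, ‖F2 (r, z)‖ ≤ max C 0 := by
      intro r hr
      exact (hC (r, z) ⟨⟨hr.1, hr.2.trans hs.2⟩, hz⟩).trans (le_max_left _ _)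
    have h3 := (convex_Icc (0 : ℝ) s).norm_image_sub_le_of_norm_hasDerivWithin_le h1 h2
      (left_mem_Icc.2 hs.1) (right_mem_Icc.2 hs.1)
    rw [sub_zero, Real.norm_eq_abs, Real.norm_eq_abs, abs_of_nonneg hs.1] at h3
    exact h3
  exact taylor_one (g := fun s => f (s, z)) (g' := fun s => F1 (s, z)) (le_max_right _ _)
    (fun s hs => hder f hf s hs) hg1 ht

end Vale.Agent.P219.TP
end

section

/-! # Uniform expansion of the volume (task A8b) -/

open MeasureTheory Set Metric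
open scoped ENNReal ContDiff

namespace Vale.Agent.P219.TP

variable {n : ℕ} (G : Geo n)

lemma volExp_det_eq (L : E n →L[ℝ] E n) :
    L.det = ∑ σ : Equiv.Perm (Fin n), ((Equiv.Perm.sign σ : ℤ) : ℝ) *
      ∏ i, (L (EuclideanSpace.single i 1)) (σ i) := by
  have h1 : L.det = (LinearMap.toMatrix (EuclideanSpace.basisFun (Fin n) ℝ).toBasis
      (EuclideanSpace.basisFun (Fin n) ℝ).toBasis (L : E n →ₗ[ℝ] E n)).det := by
    rw [LinearMap.det_toMatrix]
  rw [h1, Matrix.det_apply']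
  refine Finset.sum_congr rfl fun σ _ => ?_
  congr 1

lemma volExp_contDiff_det : ContDiff ℝ ∞ (fun L : E n →L[ℝ] E n => L.det) := by
  have e : (fun L : E n →L[ℝ] E n => L.det) = fun L => ∑ σ : Equiv.Perm (Fin n),
      ((Equiv.Perm.sign σ : ℤ) : ℝ) * ∏ i, (L (EuclideanSpace.single i 1)) (σ i) :=
    funext volExp_det_eq
  rw [e]
  refine ContDiff.sum fun σ _ => contDiff_const.mul (contDiff_prod fun i _ => ?_)
  exact ((EuclideanSpace.proj (σ i)).comp
    (ContinuousLinearMap.apply ℝ (E n) (EuclideanSpace.single i (1 : ℝ)))).contDiff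

/-- The derivative of the determinant at the identity is the trace. -/
lemma volExp_hasDerivAt_det {L : ℝ → E n →L[ℝ] E n} {L' : E n →L[ℝ] E n} {t : ℝ}
    (hL : HasDerivAt L L' t) (h1 : L t = ContinuousLinearMap.id ℝ (E n)) :
    HasDerivAt (fun s => (L s).det) (∑ i, (L' (EuclideanSpace.single i 1)) i) t := by
  have e : (fun s => (L s).det) = fun s => ∑ σ : Equiv.Perm (Fin n),
      ((Equiv.Perm.sign σ : ℤ) : ℝ) * ∏ i, (L s (EuclideanSpace.single i 1)) (σ i) :=
    funext fun s => volExp_det_eq (L s)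
  rw [e]
  have hent : ∀ i j, HasDerivAt (fun s => (L s (EuclideanSpace.single i 1)) j)
      ((L' (EuclideanSpace.single i 1)) j) t := by
    intro i j
    have h : HasDerivAt (fun s => L s (EuclideanSpace.single i 1))
        (L' (EuclideanSpace.single i 1)) t := by
      simpa using hL.clm_apply (hasDerivAt_const t (EuclideanSpace.single i (1 : ℝ)))
    exact (EuclideanSpace.proj (𝕜 := ℝ) j : E n →L[ℝ] ℝ).hasFDerivAt.comp_hasDerivAt t h
  have h2 := HasDerivAt.fun_sum (u := Finset.univ) (fun (σ : Equiv.Perm (Fin n)) _ =>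
    (HasDerivAt.fun_finsetProd (u := Finset.univ) (fun i _ => hent i (σ i))).const_mul
      ((Equiv.Perm.sign σ : ℤ) : ℝ))
  refine h2.congr_deriv ?_
  rw [Finset.sum_eq_single (1 : Equiv.Perm (Fin n))]
  · simp only [Equiv.Perm.sign_one, Units.val_one, Int.cast_one, one_mul, Equiv.Perm.one_apply,
      h1, ContinuousLinearMap.id_apply]
    refine Finset.sum_congr rfl fun i _ => ?_
    rw [Finset.prod_eq_one]
    · simp
    · intro j _
      simp
  · intro σ _ hσ
    have h3 : ∀ i, ∃ j, j ≠ i ∧ σ j ≠ j := by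
      intro i
      by_contra hcon
      push Not at hcon
      apply hσ
      ext j
      by_cases hj : j = i
      · subst hj
        by_contra hne
        have h4 : σ (σ j) = σ j := hcon (σ j) (fun h => hne (by rw [h]; rfl))
        exact hne (by rw [σ.injective h4]; rfl)
      · rw [hcon j hj]
        rfl
    have h5 : ∀ i, ∏ j ∈ Finset.univ.erase i, (L t (EuclideanSpace.single j 1)) (σ j) = 0 := by
      intro i
      obtain ⟨j, hji, hj⟩ := h3 i
      refine Finset.prod_eq_zero (Finset.mem_erase.2 ⟨hji, Finset.mem_univ j⟩) ?_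
      rw [h1, ContinuousLinearMap.id_apply]
      simp [hj]
    simp [h5]
  · intro h
    exact absurd (Finset.mem_univ _) h

lemma volExp_comp_deriv {X Y Z : Type*} [NormedAddCommGroup X] [NormedSpace ℝ X]
    [NormedAddCommGroup Y] [NormedSpace ℝ Y] [NormedAddCommGroup Z] [NormedSpace ℝ Z]
    (I : X →L[ℝ] Y) {g : ℝ → Y →L[ℝ] Z} {g' : Y →L[ℝ] Z} {t : ℝ} (h : HasDerivAt g g' t) :
    HasDerivAt (fun s => (g s).comp I) (g'.comp I) t := by
  have h1 := h.clm_comp (hasDerivAt_const t I)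
  simpa using h1

lemma volExp_apply_deriv {X Y Z : Type*} [NormedAddCommGroup X] [NormedSpace ℝ X]
    [NormedAddCommGroup Y] [NormedSpace ℝ Y] [NormedAddCommGroup Z] [NormedSpace ℝ Z]
    {g : X → Y →L[ℝ] Z} {g' : X →L[ℝ] Y →L[ℝ] Z} {x : X} (h : HasFDerivAt g g' x) (y : Y) :
    HasFDerivAt (fun u => g u y) (g'.flip y) x := by
  have h2 := h.clm_apply (hasFDerivAt_const y x)
  refine h2.congr_fderiv ?_
  ext v
  simp

variable {Φ : ℝ × ℝ → ℝ} {δ : ℝ}

end Vale.Agent.P219.TP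
end

section

/-! # P219 / End : integrals of antitone radial kernels against a measure of growth `m` -/

open MeasureTheory Set Filter
open scoped ENNReal Topology

namespace Vale.Agent.P219.End.Cake

variable {X : Type*} [MeasurableSpace X]

/-- Growth of order `m` with constant `C` for the function `r`. -/
structure Gr (μ : Measure X) (r : X → ℝ) (C m : ℝ) : Prop where
  meas : Measurable r
  nonneg : ∀ x, 0 ≤ r x
  const : 0 ≤ C
  growth : ∀ t : ℝ, 0 < t → μ {x | r x ≤ t} ≤ ENNReal.ofReal (C * t ^ m)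

/-- The comparison measure on the line. -/
noncomputable def nu (C m : ℝ) : Measure ℝ :=
  (volume.restrict (Ioi 0)).withDensity fun t => ENNReal.ofReal (C * m * t ^ (m - 1))

theorem lint_pow {C T m : ℝ} (hC : 0 ≤ C) (hm : 1 ≤ m) (hT : 0 ≤ T) :
    ∫⁻ t in Ioc 0 T, ENNReal.ofReal (C * m * t ^ (m - 1)) = ENNReal.ofReal (C * T ^ m) := by
  rw [← ofReal_integral_eq_lintegral_ofReal]
  · rw [← intervalIntegral.integral_of_le hT, intervalIntegral.integral_const_mul,
      integral_rpow (Or.inl (by linarith)), sub_add_cancel, Real.zero_rpow (by linarith)]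
    congr 1
    field_simp
    ring
  · exact ((intervalIntegral.intervalIntegrable_rpow' (by linarith)).const_mul _).1
  · refine (ae_restrict_iff' measurableSet_Ioc).2 (ae_of_all _ fun t ht => ?_)
    have := ht.1.le
    show (0 : ℝ) ≤ C * m * t ^ (m - 1)
    positivity

theorem nu_Ioc {C T m : ℝ} (hC : 0 ≤ C) (hm : 1 ≤ m) (hT : 0 ≤ T) :
    nu C m (Ioc 0 T) = ENNReal.ofReal (C * T ^ m) := by
  rw [nu, withDensity_apply _ measurableSet_Ioc, Measure.restrict_restrict measurableSet_Ioc,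
    inter_eq_left.2 (fun t ht => ht.1), lint_pow hC hm hT]

/-- Lower sets of the half line. -/
theorem lower_le {μ : Measure X} {r : X → ℝ} {C m : ℝ} (h : Gr μ r C m) (hm : 1 ≤ m)
    {L : Set ℝ} (hL : L ⊆ Ioi 0) (hlow : ∀ a ∈ L, Ioc 0 a ⊆ L) :
    μ (r ⁻¹' L) ≤ nu C m L := by
  classical
  by_cases hne : L.Nonempty
  swap
  · rw [not_nonempty_iff_eq_empty.1 hne]; simp
  have key : ∀ a ∈ L, μ (r ⁻¹' Ioc 0 a) ≤ nu C m L := by
    intro a ha
    have h0 : 0 < a := hL ha
    calc μ (r ⁻¹' Ioc 0 a) ≤ μ {x | r x ≤ a} := measure_mono fun x hx => hx.2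
      _ ≤ ENNReal.ofReal (C * a ^ m) := h.growth a h0
      _ = nu C m (Ioc 0 a) := (nu_Ioc h.const hm h0.le).symm
      _ ≤ nu C m L := measure_mono (hlow a ha)
  by_cases hbd : BddAbove L
  · by_cases hmax : sSup L ∈ L
    · have : r ⁻¹' L ⊆ r ⁻¹' Ioc 0 (sSup L) := fun x hx => ⟨hL hx, le_csSup hbd hx⟩
      exact (measure_mono this).trans (key _ hmax)
    · obtain ⟨u, hu, hlim, huL⟩ := exists_seq_tendsto_sSup hne hbd
      have hsub : r ⁻¹' L ⊆ ⋃ k, r ⁻¹' Ioc 0 (u k) := by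
        intro x hx
        have hlt : r x < sSup L := lt_of_le_of_ne (le_csSup hbd hx) fun he => hmax (he ▸ hx)
        obtain ⟨k, hk⟩ := ((hlim.eventually (lt_mem_nhds hlt))).exists
        exact mem_iUnion.2 ⟨k, hL hx, hk.le⟩
      have hmono : Monotone fun k => r ⁻¹' Ioc 0 (u k) :=
        fun i j hij x hx => ⟨hx.1, hx.2.trans (hu hij)⟩
      refine (measure_mono hsub).trans ?_
      rw [hmono.measure_iUnion]
      exact iSup_le fun k => key _ (huL k)
  · have hsub : r ⁻¹' L ⊆ ⋃ k : ℕ, r ⁻¹' Ioc 0 (k : ℝ) := by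
      intro x hx
      obtain ⟨k, hk⟩ := exists_nat_ge (r x)
      exact mem_iUnion.2 ⟨k, hL hx, hk⟩
    have hmono : Monotone fun k : ℕ => r ⁻¹' Ioc 0 (k : ℝ) :=
      fun i j hij x hx => ⟨hx.1, hx.2.trans (by exact_mod_cast hij)⟩
    refine (measure_mono hsub).trans ?_
    rw [hmono.measure_iUnion]
    refine iSup_le fun k => ?_
    obtain ⟨a, ha, hka⟩ := not_bddAbove_iff.1 hbd k
    have hs : r ⁻¹' Ioc 0 (k : ℝ) ⊆ r ⁻¹' Ioc 0 a := fun x hx => ⟨hx.1, hx.2.trans hka.le⟩
    exact (measure_mono hs).trans (key a ha)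

theorem ae_pos {μ : Measure X} {r : X → ℝ} {C m : ℝ} (h : Gr μ r C m) (hm : 1 ≤ m) :
    ∀ᵐ x ∂μ, 0 < r x := by
  have h0 : μ {x | r x ≤ 0} = 0 := by
    have hle : ∀ t : ℝ, 0 < t → μ {x | r x ≤ 0} ≤ ENNReal.ofReal (C * t ^ m) := fun t ht =>
      (measure_mono fun x (hx : r x ≤ 0) => (show r x ≤ t from hx.trans ht.le)).trans
        (h.growth t ht)
    have hlim : Tendsto (fun t : ℝ => ENNReal.ofReal (C * t ^ m)) (𝓝[>] 0) (𝓝 0) := by
      have hc : ContinuousAt (fun t : ℝ => ENNReal.ofReal (C * t ^ m)) 0 :=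
        ENNReal.continuous_ofReal.continuousAt.comp
          (continuousAt_const.mul (Real.continuousAt_rpow_const _ _ (Or.inr (by linarith))))
      have := hc.tendsto
      simp only [Real.zero_rpow (show m ≠ 0 by linarith), mul_zero, ENNReal.ofReal_zero] at this
      exact this.mono_left nhdsWithin_le_nhds
    exact le_antisymm (ge_of_tendsto hlim (eventually_mem_nhdsWithin.mono fun t ht => hle t ht))
      zero_le
  rw [ae_iff]
  simpa only [not_lt] using h0

/-- Layer cake comparison. -/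
theorem lint_le {μ : Measure X} {r : X → ℝ} {C m : ℝ} (h : Gr μ r C m) (hm : 1 ≤ m)
    {φ : ℝ → ℝ} (hφ : AntitoneOn φ (Ioi 0)) (hφ0 : ∀ t, 0 < t → 0 ≤ φ t) (hφm : Measurable φ) :
    ∫⁻ x, ENNReal.ofReal (φ (r x)) ∂μ ≤
      ∫⁻ t in Ioi 0, ENNReal.ofReal (φ t) * ENNReal.ofReal (C * m * t ^ (m - 1)) := by
  have hpos := ae_pos h hm
  rw [lintegral_eq_lintegral_meas_lt μ (hpos.mono fun x hx => hφ0 _ hx)
    (hφm.comp h.meas).aemeasurable]
  have e1 : ∫⁻ t in Ioi 0, ENNReal.ofReal (φ t) * ENNReal.ofReal (C * m * t ^ (m - 1)) =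
      ∫⁻ t, ENNReal.ofReal (φ t) ∂nu C m := by
    rw [nu, lintegral_withDensity_eq_lintegral_mul _ (by fun_prop) (by fun_prop)]
    exact lintegral_congr fun t => by simp only [Pi.mul_apply]; ring
  have hnu : ∀ᵐ t ∂nu C m, (0 : ℝ) < t := by
    refine (withDensity_absolutelyContinuous _ _).ae_le ?_
    exact ae_restrict_mem measurableSet_Ioi
  rw [e1, lintegral_eq_lintegral_meas_lt _ (hnu.mono fun t ht => hφ0 t ht) hφm.aemeasurable]
  refine lintegral_mono fun l => ?_
  set L : Set ℝ := {t | 0 < t ∧ l < φ t} with hL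
  calc μ {x | l < φ (r x)} = μ (r ⁻¹' L) := by
        refine measure_congr ?_
        filter_upwards [hpos] with x hx
        exact propext ⟨fun hh => ⟨hx, hh⟩, fun hh => hh.2⟩
    _ ≤ nu C m L := lower_le h hm (fun t ht => ht.1) fun a ha b hb =>
        ⟨hb.1, ha.2.trans_le (hφ hb.1 ha.1 hb.2)⟩
    _ ≤ nu C m {t | l < φ t} := measure_mono fun t ht => ht.2

/-- the truncated kernel `(S / (S + t))^m t^(1-m)` -/
noncomputable def kr (m S t : ℝ) : ℝ := (S / (S + t)) ^ m * t ^ (1 - m)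

theorem kr_nonneg {m S t : ℝ} (hS : 0 ≤ S) (ht : 0 ≤ t) : 0 ≤ kr m S t := by
  unfold kr
  positivity

theorem kr_anti {m S : ℝ} (hm : 1 ≤ m) (hS : 0 < S) : AntitoneOn (kr m S) (Ioi 0) := by
  intro a ha b hb hab
  have ha0 : 0 < a := ha
  have hb0 : 0 < b := hb
  unfold kr
  refine mul_le_mul ?_ ?_ (by positivity) (by positivity)
  · refine Real.rpow_le_rpow (by positivity) ?_ (by linarith)
    exact div_le_div_of_nonneg_left hS.le (by linarith) (by linarith)
  · exact Real.rpow_le_rpow_of_nonpos ha0 hab (by linarith)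

theorem kr_meas (m S : ℝ) : Measurable (kr m S) := by
  unfold kr
  fun_prop

/-- Integral of the truncated kernel. -/
theorem lint_kr {μ : Measure X} {r : X → ℝ} {C m : ℝ} (h : Gr μ r C m) (hm : 1 < m)
    {S : ℝ} (hS : 0 < S) :
    ∫⁻ x, ENNReal.ofReal (kr m S (r x)) ∂μ ≤ ENNReal.ofReal (C * m * S / (m - 1)) := by
  have hC := h.const
  have hm1 : -m < -1 := by linarith
  have hm0 : 0 < m - 1 := by linarith
  have hint := integrableOn_Ioi_rpow_of_lt hm1 hS
  have hint2 : IntegrableOn (fun t : ℝ => (S + t) ^ (-m)) (Ioi 0) := by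
    have := (measurePreserving_add_left volume S).integrableOn_comp_preimage
      (MeasurableEquiv.addLeft S).measurableEmbedding (s := Ioi S) (f := fun t : ℝ => t ^ (-m))
    have h2 : (fun t : ℝ => S + t) ⁻¹' Ioi S = Ioi 0 := by
      ext t; simp
    rw [h2] at this
    exact this.2 hint
  have hval : ∫ t in Ioi 0, (S + t) ^ (-m) = S ^ (1 - m) / (m - 1) := by
    have h3 := (measurePreserving_add_left volume S).setIntegral_preimage_emb
      (MeasurableEquiv.addLeft S).measurableEmbedding (fun t : ℝ => t ^ (-m)) (Ioi S)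
    have h2 : (fun t : ℝ => S + t) ⁻¹' Ioi S = Ioi 0 := by
      ext t; simp
    rw [h2] at h3
    rw [h3, integral_Ioi_rpow_of_lt hm1 hS, neg_div, ← div_neg]
    congr 1
    · congr 1; ring
    · ring
  calc ∫⁻ x, ENNReal.ofReal (kr m S (r x)) ∂μ
      ≤ ∫⁻ t in Ioi 0, ENNReal.ofReal (kr m S t) * ENNReal.ofReal (C * m * t ^ (m - 1)) :=
        lint_le h hm.le (kr_anti hm.le hS) (fun t ht => kr_nonneg hS.le ht.le) (kr_meas m S)
    _ = ∫⁻ t in Ioi 0, ENNReal.ofReal (C * m * S ^ m * (S + t) ^ (-m)) := by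
        refine setLIntegral_congr_fun measurableSet_Ioi fun t ht => ?_
        have ht0 : 0 < t := ht
        rw [← ENNReal.ofReal_mul (kr_nonneg hS.le ht0.le)]
        congr 1
        unfold kr
        have e1 : t ^ (1 - m) * t ^ (m - 1) = 1 := by
          rw [← Real.rpow_add ht0]; simp
        have e2 : (S / (S + t)) ^ m = S ^ m * (S + t) ^ (-m) := by
          rw [Real.div_rpow hS.le (by positivity), Real.rpow_neg (by positivity), div_eq_mul_inv]
        rw [e2]
        calc S ^ m * (S + t) ^ (-m) * t ^ (1 - m) * (C * m * t ^ (m - 1))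
            = C * m * S ^ m * (S + t) ^ (-m) * (t ^ (1 - m) * t ^ (m - 1)) := by ring
          _ = _ := by rw [e1, mul_one]
    _ = ENNReal.ofReal (∫ t in Ioi 0, C * m * S ^ m * (S + t) ^ (-m)) := by
        rw [ofReal_integral_eq_lintegral_ofReal (hint2.const_mul _)]
        refine (ae_restrict_iff' measurableSet_Ioi).2 (ae_of_all _ fun t ht => ?_)
        have ht0 : (0 : ℝ) < t := ht
        show (0 : ℝ) ≤ C * m * S ^ m * (S + t) ^ (-m)
        (clear * - hC hm hS ht0; positivity)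
    _ = ENNReal.ofReal (C * m * S / (m - 1)) := by
        rw [integral_const_mul, hval]
        congr 1
        have e : S ^ m * S ^ (1 - m) = S := by
          rw [← Real.rpow_add hS]; simp
        calc C * m * S ^ m * (S ^ (1 - m) / (m - 1)) = C * m * (S ^ m * S ^ (1 - m)) / (m - 1) := by
              ring
          _ = _ := by rw [e]

end Vale.Agent.P219.End.Cake
end

section

/-!
# P219: real-variable algebra of the bubble `w = √(ε (2 - k2 ε)) / (f + ε)` for all `k2 ≥ 0`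

`wb k2 ε (f x) = bub k2 f ε x` of `End/Defs.lean` by `rfl`.  `N = 1 / (f + ε)`.
-/

namespace Vale.Agent.P219.End.Alg

open Real MeasureTheory Set

/-- the bubble as function of the value `f` of the potential -/
noncomputable def wb (k2 ε f : ℝ) : ℝ := √(ε * (2 - k2 * ε)) / (f + ε)

end Vale.Agent.P219.End.Alg
end
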