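import Mathlib

set_option linter.all false

section

/-! # Records of a function on the line (task H10) -/

open MeasureTheory Set Metric
open scoped ENNReal ContDiff

namespace Vale.Agent.P219.TPH

end Vale.Agent.P219.TPH
end

section

/-!
# P255: Christoffel symbols, curvature and covariant derivative in coordinates
-/

open scoped Manifold ContDiff Topology
open Set

noncomputable section

namespace Vale.Agent.P255

variable {E : Type} [NormedAddCommGroup E] [NormedSpace ℝ E]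

/-- Christoffel symbols of a coefficient function `G`: `chris G u v w` is the vector with
`G_u(chris, z) = 1/2 (D_v G (w,z) + D_w G (v,z) - D_z G (v,w))`. -/
def chris (G : E → E →L[ℝ] E →L[ℝ] ℝ) (u v w : E) : E :=
  (G u).inverse ((1 / 2 : ℝ) • (fderiv ℝ G u v w + fderiv ℝ G u w v
    - ((fderiv ℝ G u).flip v).flip w))

/-- Curvature tensor `R(x,y)z` in coordinates. -/
def curv (G : E → E →L[ℝ] E →L[ℝ] ℝ) (u x y z : E) : E :=
  fderiv ℝ (fun p => chris G p y z) u x - fderiv ℝ (fun p => chris G p x z) u y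
    + chris G u x (chris G u y z) - chris G u y (chris G u x z)

/-- Covariant derivative, along the curve `c`, of the field `Y`. -/
def covD (G : E → E →L[ℝ] E →L[ℝ] ℝ) (c Y : ℝ → E) (t : ℝ) : E :=
  deriv Y t + chris G (c t) (deriv c t) (Y t)


end Vale.Agent.P255
end
end

section

/-!
# P255: basic definitions (metric, Christoffel symbols, curvature, geodesics, Jacobi fields)
All notions are written in the charts `chartAt E a` of a manifold modelled on a
normed space `E`.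
-/

open scoped Manifold ContDiff Topology
open Set

noncomputable section

namespace Vale.Agent.P255

section Mfd

variable (E : Type) [NormedAddCommGroup E] [NormedSpace ℝ E]
variable (M : Type) [TopologicalSpace M] [ChartedSpace E M]

variable {M} in
/-- Coordinate change from the chart at `a` to the chart at `b`. -/
def trans (a b : M) (u : E) : E := chartAt E b ((chartAt E a).symm u)

/-- A Riemannian metric, given by its coefficients in all charts `chartAt E a`. -/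
structure Metric where
  coef : M → E → E →L[ℝ] E →L[ℝ] ℝ
  smooth : ∀ a, ContDiffOn ℝ ∞ (coef a) (chartAt E a).target
  symm : ∀ a, ∀ u ∈ (chartAt E a).target, ∀ v w, coef a u v w = coef a u w v
  pos : ∀ a, ∀ u ∈ (chartAt E a).target, ∀ v, v ≠ 0 → 0 < coef a u v v
  compat : ∀ a b, ∀ u ∈ (chartAt E a).target, (chartAt E a).symm u ∈ (chartAt E b).source →
    ∀ v w, coef b (trans E a b u) (fderiv ℝ (trans E a b) u v) (fderiv ℝ (trans E a b) u w)
      = coef a u v w

variable {E M}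

end Mfd

end Vale.Agent.P255
end
end

section

/-!
# P255: metric coefficients in one chart: Christoffel symbols, metric compatibility,
skew-symmetry of the curvature, second derivative of `|J|²`
-/

open scoped Manifold ContDiff Topology
open Set

set_option maxSynthPendingDepth 3

noncomputable section

namespace Vale.Agent.P255

variable {E : Type} [NormedAddCommGroup E] [NormedSpace ℝ E]

/-- smooth metric coefficients on an open set -/
structure IsMetricOn (G : E → E →L[ℝ] E →L[ℝ] ℝ) (U : Set E) : Prop where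
  isOpen : IsOpen U
  smooth : ContDiffOn ℝ ∞ G U
  symm : ∀ u ∈ U, ∀ v w, G u v w = G u w v
  pos : ∀ u ∈ U, ∀ v, v ≠ 0 → 0 < G u v v

namespace IsMetricOn

variable {G : E → E →L[ℝ] E →L[ℝ] ℝ} {U : Set E}

theorem contDiffAt (h : IsMetricOn G U) {u : E} (hu : u ∈ U) : ContDiffAt ℝ ∞ G u :=
  h.smooth.contDiffAt (h.isOpen.mem_nhds hu)

theorem differentiableAt (h : IsMetricOn G U) {u : E} (hu : u ∈ U) : DifferentiableAt ℝ G u :=
  (h.contDiffAt hu).differentiableAt (by simp)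

theorem contDiffAt_fderiv (h : IsMetricOn G U) {u : E} (hu : u ∈ U) :
    ContDiffAt ℝ ∞ (fderiv ℝ G) u :=
  (h.contDiffAt hu).fderiv_right (m := ∞) (by simp)

theorem nonneg (h : IsMetricOn G U) {u : E} (hu : u ∈ U) (v : E) : 0 ≤ G u v v := by
  by_cases hv : v = 0
  · simp [hv]
  · exact (h.pos u hu v hv).le

theorem eq_zero (h : IsMetricOn G U) {u : E} (hu : u ∈ U) {v : E} (hv : G u v v = 0) : v = 0 := by
  by_contra h'
  exact (h.pos u hu v h').ne' hv

theorem fderiv_symm (h : IsMetricOn G U) {u : E} (hu : u ∈ U) (x v w : E) :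
    fderiv ℝ G u x v w = fderiv ℝ G u x w v := by
  have h1 : HasFDerivAt (fun p => G p v w) ((fderiv ℝ G u).flip v |>.flip w) u := by
    have := ((h.differentiableAt hu).hasFDerivAt.clm_apply (hasFDerivAt_const v u)).clm_apply
      (hasFDerivAt_const w u)
    refine this.congr_fderiv ?_
    ext z; simp
  have h2 : HasFDerivAt (fun p => G p w v) ((fderiv ℝ G u).flip w |>.flip v) u := by
    have := ((h.differentiableAt hu).hasFDerivAt.clm_apply (hasFDerivAt_const w u)).clm_apply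
      (hasFDerivAt_const v u)
    refine this.congr_fderiv ?_
    ext z; simp
  have h3 : HasFDerivAt (fun p => G p v w) ((fderiv ℝ G u).flip w |>.flip v) u := by
    refine h2.congr_of_eventuallyEq ?_
    filter_upwards [h.isOpen.mem_nhds hu] with p hp
    exact h.symm p hp v w
  have := congr_arg (fun L => L x) (h1.unique h3)
  simpa using this

variable [FiniteDimensional ℝ E]

theorem isInvertible (h : IsMetricOn G U) {u : E} (hu : u ∈ U) : (G u).IsInvertible := by
  have hinj : Function.Injective (G u) := by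
    rw [injective_iff_map_eq_zero]
    intro v hv
    apply h.eq_zero hu
    rw [hv]; simp
  have hdim : Module.finrank ℝ E = Module.finrank ℝ (E →L[ℝ] ℝ) := by
    have h1 : Module.finrank ℝ (E →ₗ[ℝ] ℝ) = Module.finrank ℝ E := Subspace.dual_finrank_eq
    rw [← h1]
    exact (LinearMap.toContinuousLinearMap (𝕜 := ℝ) (E := E) (F' := ℝ)).finrank_eq
  let e : E ≃ₗ[ℝ] (E →L[ℝ] ℝ) :=
    LinearMap.linearEquivOfInjective (G u : E →ₗ[ℝ] (E →L[ℝ] ℝ)) hinj hdim
  refine ⟨e.toContinuousLinearEquiv, ?_⟩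
  ext v w
  rfl

theorem chris_spec (h : IsMetricOn G U) {u : E} (hu : u ∈ U) (v w z : E) :
    G u (chris G u v w) z =
      (fderiv ℝ G u v w z + fderiv ℝ G u w v z - fderiv ℝ G u z v w) / 2 := by
  unfold chris
  rw [(h.isInvertible hu).self_apply_inverse]
  simp
  ring

omit [FiniteDimensional ℝ E] in
theorem ext_of (h : IsMetricOn G U) {u : E} (hu : u ∈ U) {v w : E}
    (hvw : ∀ z, G u v z = G u w z) : v = w := by
  have : G u (v - w) (v - w) = 0 := by
    rw [map_sub]; simp [hvw]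
  exact sub_eq_zero.1 (h.eq_zero hu this)

theorem chris_symm (h : IsMetricOn G U) {u : E} (hu : u ∈ U) (v w : E) :
    chris G u v w = chris G u w v := by
  apply h.ext_of hu
  intro z
  rw [h.chris_spec hu, h.chris_spec hu, h.fderiv_symm hu z v w]
  ring

theorem chris_compat (h : IsMetricOn G U) {u : E} (hu : u ∈ U) (x v w : E) :
    fderiv ℝ G u x v w = G u (chris G u x v) w + G u v (chris G u x w) := by
  rw [h.symm u hu v, h.chris_spec hu, h.chris_spec hu, h.fderiv_symm hu w x v,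
    h.fderiv_symm hu v x w, h.fderiv_symm hu x w v]
  ring

end IsMetricOn


/-- Christoffel symbols as a bilinear map -/
def chrisB (G : E → E →L[ℝ] E →L[ℝ] ℝ) (u : E) : E →L[ℝ] E →L[ℝ] E :=
  (ContinuousLinearMap.compL ℝ E (E →L[ℝ] ℝ) E (G u).inverse) ∘L
    ((1 / 2 : ℝ) • (fderiv ℝ G u + (fderiv ℝ G u).flip
      - (ContinuousLinearMap.flipₗᵢ ℝ E E ℝ).toContinuousLinearEquiv.toContinuousLinearMap ∘L
        (fderiv ℝ G u).flip))

theorem chrisB_apply (G : E → E →L[ℝ] E →L[ℝ] ℝ) (u v w : E) :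
    chrisB G u v w = chris G u v w := by
  simp only [chrisB, chris, ContinuousLinearMap.coe_comp, Function.comp_apply,
    ContinuousLinearMap.compL_apply]
  congr 1

namespace IsMetricOn

variable [FiniteDimensional ℝ E] {G : E → E →L[ℝ] E →L[ℝ] ℝ} {U : Set E}

theorem contDiffAt_chrisB (h : IsMetricOn G U) {u : E} (hu : u ∈ U) :
    ContDiffAt ℝ ∞ (chrisB G) u := by
  unfold chrisB
  have hi : ContDiffAt ℝ ∞ (fun u => (G u).inverse) u :=
    ((h.isInvertible hu).contDiffAt_map_inverse).comp u (h.contDiffAt hu)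
  have hd := h.contDiffAt_fderiv hu
  have hf : ContDiffAt ℝ ∞ (fun u => (fderiv ℝ G u).flip) u :=
    ((ContinuousLinearMap.flipₗᵢ ℝ E E (E →L[ℝ] ℝ)).toContinuousLinearEquiv.contDiff.contDiffAt).comp
      u hd
  refine ContDiffAt.clm_comp ?_ ?_
  · exact (ContinuousLinearMap.compL ℝ E (E →L[ℝ] ℝ) E).contDiff.contDiffAt.comp u hi
  · exact ((hd.add hf).sub (contDiffAt_const.clm_comp hf)).const_smul (1 / 2 : ℝ)

theorem differentiableAt_chrisB (h : IsMetricOn G U) {u : E} (hu : u ∈ U) :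
    DifferentiableAt ℝ (chrisB G) u :=
  (h.contDiffAt_chrisB hu).differentiableAt (by simp)

theorem fderiv_chris (h : IsMetricOn G U) {u : E} (hu : u ∈ U) (v w x : E) :
    fderiv ℝ (fun p => chris G p v w) u x = fderiv ℝ (chrisB G) u x v w := by
  simp_rw [← chrisB_apply]
  have h1 := (((h.differentiableAt_chrisB hu).hasFDerivAt.clm_apply
    (hasFDerivAt_const v u)).clm_apply (hasFDerivAt_const w u)).fderiv
  rw [h1]
  simp

theorem curv_eq (h : IsMetricOn G U) {u : E} (hu : u ∈ U) (x y z : E) :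
    curv G u x y z = fderiv ℝ (chrisB G) u x y z - fderiv ℝ (chrisB G) u y x z
      + chrisB G u x (chrisB G u y z) - chrisB G u y (chrisB G u x z) := by
  unfold curv
  rw [h.fderiv_chris hu, h.fderiv_chris hu]
  simp only [chrisB_apply]

/-- the curvature is skew-symmetric in its last two arguments -/
theorem curv_skew (h : IsMetricOn G U) {u : E} (hu : u ∈ U) (x y z : E) :
    G u (curv G u x y z) z = 0 := by
  -- first derivative of `p ↦ G p z z`
  have h1 : ∀ p ∈ U, ∀ a, fderiv ℝ (fun q => G q z z) p a = 2 * G p (chrisB G p a z) z := by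
    intro p hp a
    have := (((h.differentiableAt hp).hasFDerivAt.clm_apply
      (hasFDerivAt_const z p)).clm_apply (hasFDerivAt_const z p)).fderiv
    rw [this]
    simp only [add_apply, ContinuousLinearMap.flip_apply]
    simp only [ContinuousLinearMap.comp_apply, zero_apply, map_zero,
      zero_add, add_apply, ContinuousLinearMap.flip_apply]
    rw [h.chris_compat hp, h.symm p hp z, ← chrisB_apply]
    ring
  have hsm : ContDiffAt ℝ 2 (fun q => G q z z) u :=
    (((h.contDiffAt hu).clm_apply contDiffAt_const).clm_apply contDiffAt_const).of_le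
      (by norm_cast)
  have hsym : ∀ a b, fderiv ℝ (fun p => fderiv ℝ (fun q => G q z z) p a) u b =
      fderiv ℝ (fun p => fderiv ℝ (fun q => G q z z) p b) u a := by
    intro a b
    have hs := hsm.isSymmSndFDerivAt (by simp)
    have hd : DifferentiableAt ℝ (fderiv ℝ (fun q => G q z z)) u :=
      (hsm.fderiv_right (m := 1) (by norm_num)).differentiableAt (by simp)
    have e1 : ∀ c d, fderiv ℝ (fun p => fderiv ℝ (fun q => G q z z) p c) u d =
        fderiv ℝ (fderiv ℝ (fun q => G q z z)) u d c := by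
      intro c d
      rw [(hd.hasFDerivAt.clm_apply (hasFDerivAt_const c u)).fderiv]
      simp
    rw [e1, e1]
    exact hs b a
  have hval : ∀ a b, fderiv ℝ (fun p => fderiv ℝ (fun q => G q z z) p a) u b =
      2 * (G u (chrisB G u b (chrisB G u a z)) z + G u (chrisB G u a z) (chrisB G u b z)
        + G u (fderiv ℝ (chrisB G) u b a z) z) := by
    intro a b
    have e1 : (fun p => fderiv ℝ (fun q => G q z z) p a) =ᶠ[𝓝 u]
        fun p => 2 * G p (chrisB G p a z) z := by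
      filter_upwards [h.isOpen.mem_nhds hu] with p hp
      exact h1 p hp a
    rw [e1.fderiv_eq]
    have e2 := (((h.differentiableAt_chrisB hu).hasFDerivAt.clm_apply
      (hasFDerivAt_const a u)).clm_apply (hasFDerivAt_const z u))
    have e3 := (((h.differentiableAt hu).hasFDerivAt.clm_apply e2).clm_apply
      (hasFDerivAt_const z u)).const_mul 2
    rw [e3.fderiv]
    simp only [add_apply, ContinuousLinearMap.flip_apply,
      ContinuousLinearMap.comp_apply, zero_apply, map_zero,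
      zero_add, smul_apply, smul_eq_mul]
    rw [h.chris_compat hu]
    simp only [chrisB_apply]
    ring
  have := hsym x y
  rw [hval, hval] at this
  rw [h.curv_eq hu]
  simp only [map_sub, map_add, sub_apply, add_apply]
  rw [h.symm u hu (chrisB G u x z)] at this
  linarith

/-- metric compatibility along a curve -/
theorem hasDerivAt_inner (h : IsMetricOn G U) {c X Y : ℝ → E} {t : ℝ} (ht : c t ∈ U)
    (hc : DifferentiableAt ℝ c t) (hX : DifferentiableAt ℝ X t) (hY : DifferentiableAt ℝ Y t) :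
    HasDerivAt (fun s => G (c s) (X s) (Y s))
      (G (c t) (covD G c X t) (Y t) + G (c t) (X t) (covD G c Y t)) t := by
  have h1 : HasDerivAt (fun s => G (c s)) (fderiv ℝ G (c t) (deriv c t)) t :=
    (h.differentiableAt ht).hasFDerivAt.comp_hasDerivAt t hc.hasDerivAt
  have h2 := (h1.clm_apply hX.hasDerivAt).clm_apply hY.hasDerivAt
  refine h2.congr_deriv ?_
  simp only [covD, add_apply, map_add]
  rw [h.chris_compat ht]
  ring

end IsMetricOn

end Vale.Agent.P255
end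
end

section

/-!
# P255: Riemannian geometry in one coordinate domain (continued)
-/

open scoped Manifold ContDiff Topology
open Set

set_option maxSynthPendingDepth 3

noncomputable section

namespace Vale.Agent.P255

variable {E : Type} [NormedAddCommGroup E] [NormedSpace ℝ E]

theorem chris_smul_left (G : E → E →L[ℝ] E →L[ℝ] ℝ) (u : E) (c : ℝ) (v w : E) :
    chris G u (c • v) w = c • chris G u v w := by
  simp only [← chrisB_apply, map_smul, smul_apply]
theorem chris_smul_right (G : E → E →L[ℝ] E →L[ℝ] ℝ) (u : E) (c : ℝ) (v w : E) :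
    chris G u v (c • w) = c • chris G u v w := by
  simp only [← chrisB_apply, map_smul]
theorem chris_neg_left (G : E → E →L[ℝ] E →L[ℝ] ℝ) (u v w : E) :
    chris G u (-v) w = - chris G u v w := by
  simp only [← chrisB_apply, map_neg, neg_apply]
theorem chris_neg_right (G : E → E →L[ℝ] E →L[ℝ] ℝ) (u v w : E) :
    chris G u v (-w) = - chris G u v w := by
  simp only [← chrisB_apply, map_neg]

/-- the geodesic vector field -/
def geoField (G : E → E →L[ℝ] E →L[ℝ] ℝ) (p : E × E) : E × E :=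
  (p.2, - chris G p.1 p.2 p.2)

theorem two_le_infty : (2 : ℕ∞ω) ≤ ∞ := ENat.LEInfty.out

namespace IsMetricOn

variable {G : E → E →L[ℝ] E →L[ℝ] ℝ} {U : Set E}

theorem mem_nhds (h : IsMetricOn G U) {u : E} (hu : u ∈ U) : U ∈ 𝓝 u := h.isOpen.mem_nhds hu

/-- injectivity of `G u` -/
theorem ext (h : IsMetricOn G U) {u : E} (hu : u ∈ U) {v w : E} (hvw : ∀ z, G u v z = G u w z) :
    v = w := h.ext_of hu hvw

section
variable [FiniteDimensional ℝ E] (h : IsMetricOn G U)
include h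

/-- the speed of a geodesic is constant -/
theorem hasDerivAt_speed {c : ℝ → E} {t : ℝ} (ht : c t ∈ U) (hc : DifferentiableAt ℝ c t)
    (hc' : DifferentiableAt ℝ (deriv c) t)
    (hgeo : deriv (deriv c) t = - chris G (c t) (deriv c t) (deriv c t)) :
    HasDerivAt (fun s => G (c s) (deriv c s) (deriv c s)) 0 t := by
  refine (h.hasDerivAt_inner ht hc hc' hc').congr_deriv ?_
  have : covD G c (deriv c) t = 0 := by
    simp only [covD, hgeo]; simp
  rw [this]; simp

/-- antisymmetry of the curvature operator -/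
theorem curv_antisymm {u : E} (hu : u ∈ U) (x y z w : E) :
    G u (curv G u x y z) w = - G u z (curv G u x y w) := by
  have h1 := h.curv_skew hu x y (z + w)
  have h2 := h.curv_skew hu x y z
  have h3 := h.curv_skew hu x y w
  have h4 : curv G u x y (z + w) = curv G u x y z + curv G u x y w := by
    simp only [h.curv_eq hu, map_add]
    abel
  rw [h4] at h1
  simp only [map_add, add_apply] at h1
  rw [h.symm u hu z]
  linarith

theorem contDiffAt_geoField {p : E × E} (hp : p.1 ∈ U) : ContDiffAt ℝ ∞ (geoField G) p := by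
  have h1 : ContDiffAt ℝ ∞ (fun x : E × E => chrisB G x.1) p :=
    ContDiffAt.comp p (h.contDiffAt_chrisB hp) contDiffAt_fst
  have h2 : ContDiffAt ℝ ∞ (fun x : E × E => chrisB G x.1 x.2 x.2) p :=
    (h1.clm_apply contDiffAt_snd).clm_apply contDiffAt_snd
  have h3 : ContDiffAt ℝ ∞ (fun x : E × E => chris G x.1 x.2 x.2) p := by
    simpa only [chrisB_apply] using h2
  exact contDiffAt_snd.prodMk h3.neg

theorem contDiffOn_geoField : ContDiffOn ℝ ∞ (geoField G) (U ×ˢ univ) :=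
  fun _ hp => (h.contDiffAt_geoField hp.1).contDiffWithinAt

theorem fderiv_geoField {u v : E} (hu : u ∈ U) (x y : E) :
    fderiv ℝ (geoField G) (u, v) (x, y) =
      (y, - (fderiv ℝ (fun p => chris G p v v) u x + (2 : ℝ) • chris G u v y)) := by
  have h1 : HasFDerivAt (fun x : E × E => chrisB G x.1) ((fderiv ℝ (chrisB G) u).comp
      (ContinuousLinearMap.fst ℝ E E)) (u, v) :=
    HasFDerivAt.comp (f := Prod.fst) (g := chrisB G) (u, v)
      (h.differentiableAt_chrisB hu).hasFDerivAt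
      (hasFDerivAt_fst (𝕜 := ℝ) (E := E) (F := E) (p := (u, v)))
  have h2 := (h1.clm_apply (hasFDerivAt_snd (𝕜 := ℝ) (E := E) (F := E) (p := (u, v)))).clm_apply
    (hasFDerivAt_snd (𝕜 := ℝ) (E := E) (F := E) (p := (u, v)))
  have h3 := (hasFDerivAt_snd (𝕜 := ℝ) (E := E) (F := E) (p := (u, v))).prodMk h2.neg
  have e : geoField G = fun p : E × E => (p.2, - chrisB G p.1 p.2 p.2) := by
    funext p; simp only [geoField, chrisB_apply]
  have h4 := h3.congr_of_eventuallyEq (f₁ := geoField G) (Filter.Eventually.of_forall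
    (fun p => by rw [e]; rfl))
  rw [h4.fderiv, h.fderiv_chris hu]
  simp [chrisB_apply, two_smul, h.chris_symm hu y v]
  abel

/-- a solution of the linearised geodesic equation is a Jacobi field -/
theorem jacobi_of_linearized {c J : ℝ → E} {t : ℝ}
    (ht : c t ∈ U) (hc : ∀ᶠ s in 𝓝 t, DifferentiableAt ℝ c s ∧ DifferentiableAt ℝ (deriv c) s ∧
      deriv (deriv c) s = - chris G (c s) (deriv c s) (deriv c s))
    (_hJ : ∀ᶠ s in 𝓝 t, DifferentiableAt ℝ J s)
    (hJ' : HasDerivAt (deriv J) (- (fderiv ℝ (fun p => chris G p (deriv c t) (deriv c t)) (c t) (J t)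
      + (2 : ℝ) • chris G (c t) (deriv c t) (deriv J t))) t) :
    DifferentiableAt ℝ (covD G c J) t ∧
    covD G c (covD G c J) t + curv G (c t) (J t) (deriv c t) (deriv c t) = 0 := by
  obtain ⟨hc0, hc1, hc2⟩ := hc.self_of_nhds
  have hJ0 := _hJ.self_of_nhds
  have hB : HasDerivAt (fun s => chrisB G (c s)) (fderiv ℝ (chrisB G) (c t) (deriv c t)) t :=
    (h.differentiableAt_chrisB ht).hasFDerivAt.comp_hasDerivAt t hc0.hasDerivAt
  have hA := hJ'.add ((hB.clm_apply hc1.hasDerivAt).clm_apply hJ0.hasDerivAt)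
  have e : covD G c J = (deriv J + fun s => chrisB G (c s) (deriv c s) (J s)) := by
    funext s; simp only [covD, Pi.add_apply, chrisB_apply]
  rw [← e] at hA
  refine ⟨hA.differentiableAt, ?_⟩
  have e2 : covD G c (covD G c J) t = deriv (covD G c J) t
      + chrisB G (c t) (deriv c t) (covD G c J t) := by
    simp only [covD, chrisB_apply]
  rw [e2, hA.deriv, h.curv_eq ht, h.fderiv_chris ht, hc2]
  simp only [covD, map_add, map_neg, neg_apply, add_apply, chrisB_apply]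
  have s1 : fderiv ℝ (chrisB G) (c t) (deriv c t) (J t) (deriv c t)
      = fderiv ℝ (chrisB G) (c t) (deriv c t) (deriv c t) (J t) := by
    rw [← h.fderiv_chris ht, ← h.fderiv_chris ht]
    have : (fun p => chris G p (J t) (deriv c t)) =ᶠ[𝓝 (c t)]
        fun p => chris G p (deriv c t) (J t) := by
      filter_upwards [h.mem_nhds ht] with p hp using h.chris_symm hp _ _
    rw [this.fderiv_eq]
  rw [s1, h.chris_symm ht (J t) (chris G (c t) (deriv c t) (deriv c t)),
    h.chris_symm ht (J t) (deriv c t), two_smul]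
  abel


end
end IsMetricOn

end Vale.Agent.P255
end
end

section

/-!
# P219, generalized Cartan-Hadamard conjecture in all dimensions: the limit object

`Lim n` is what a minimising family leaves behind, in a Cartan-Hadamard geometry on `E n`:
a measure `V` on the unit tangent bundle (in a frame `A`) which is stationary, on one side, for all
radial contractions towards points of the compact set `K`.

`m = n - 1` is the dimension of the hypersurfaces, `k2 = -κ ≥ 0`, `F c x = (cosh (k r) - 1) / k ^ 2`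
with `r = d(c, x)`, `k = √k2` (`r ^ 2 / 2` if `k2 = 0`); `1 + k2 F = cosh (k r)`.
`tri` is the triangle inequality `sinh (k (r + r') / 2) = ...`.
-/

open MeasureTheory Set Metric
open scoped ENNReal ContDiff

namespace Vale.Agent.P219.End

/-- Euclidean space. -/
abbrev E (n : ℕ) := EuclideanSpace ℝ (Fin n)

variable {n : ℕ}

/-- Gradient of `u` at `x`, in the frame `A`. -/
noncomputable def D (A : E n → E n →L[ℝ] E n) (u : E n → ℝ) (x : E n) : E n :=
  (InnerProductSpace.toDual ℝ (E n)).symm ((fderiv ℝ u x).comp (A x))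

/-- Scalar product of the tangential gradients of `u` and `v` at `z.1`, for the hyperplane
orthogonal to `z.2`. -/
noncomputable def Gam (A : E n → E n →L[ℝ] E n) (u v : E n → ℝ) (z : E n × E n) : ℝ :=
  inner ℝ (D A u z.1) (D A v z.1) - inner ℝ (D A u z.1) z.2 * inner ℝ (D A v z.1) z.2

/-- The area of the unit sphere of dimension `m`: `2^m π^{m/2} Γ(m/2) / Γ(m)`. -/
noncomputable def sg (m : ℝ) : ℝ :=
  2 ^ m * Real.pi ^ (m / 2) * Real.Gamma (m / 2) / Real.Gamma m

/-- The bubble `w = √(ε (2 - k2 ε)) / (F + ε)`. -/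
noncomputable def bub (k2 : ℝ) (f : E n → ℝ) (ε : ℝ) (x : E n) : ℝ :=
  √(ε * (2 - k2 * ε)) / (f x + ε)

/-- The limit of a minimising family. -/
structure Lim (n : ℕ) where
  /-- dimension of the hypersurfaces -/
  m : ℝ
  /-- minus the upper bound of the curvature -/
  k2 : ℝ
  /-- the mean curvature (slope of the model isoperimetric profile) -/
  H0 : ℝ
  /-- orthonormal frame -/
  A : E n → E n →L[ℝ] E n
  /-- `F c x = (cosh (k r) - 1) / k ^ 2` -/
  F : E n → E n → ℝ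
  /-- closed geodesic ball containing everything -/
  K : Set (E n)
  /-- the measure on the unit tangent bundle -/
  V : Measure (E n × E n)
  three_le : 3 ≤ m
  k2_nonneg : 0 ≤ k2
  A_cont : Continuous A
  F_smooth : ContDiff ℝ ∞ fun z : E n × E n => F z.1 z.2
  F_nonneg : ∀ c x, 0 ≤ F c x
  F_self : ∀ c, F c c = 0
  F_comm : ∀ c x, F c x = F x c
  F_pos : ∀ c x, c ≠ x → 0 < F c x
  tri : ∀ c p x, √(F c x) ≤ √(F p x) * √(1 + k2 * F c p / 2) + √(1 + k2 * F p x / 2) * √(F c p)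
  grad : ∀ c x, ‖D A (F c) x‖ ^ 2 = 2 * F c x + k2 * F c x ^ 2
  K_compact : IsCompact K
  V_fin : IsFiniteMeasure V
  V_supp : ∀ᵐ z ∂V, z.1 ∈ K ∧ ‖z.2‖ = 1
  V_ne : V ≠ 0
  /-- one-sided stationarity -/
  stat : ∀ c ∈ K, ∀ ψ : E n → ℝ, ContDiff ℝ ∞ ψ → (∀ x, 0 ≤ ψ x) →
    0 ≤ ∫ z, (H0 * ψ z.1 * inner ℝ (D A (F c) z.1) z.2 -
      m * (1 + k2 * F c z.1) * ψ z.1 - Gam A ψ (F c) z) ∂V
  /-- density at least one, in the limit, at the points of the support -/
  dens : ∀ p, (∀ e > 0, 0 < V {z | F p z.1 < e}) → ∀ e > 0, ∃ ε₀ > 0, ∀ ε, 0 < ε → ε < ε₀ →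
    sg m - e ≤ ∫ z, bub k2 (F p) ε z.1 ^ m ∂V
  /-- conformal barycentre -/
  bary : ∀ f : E n → ℝ, ContDiff ℝ ∞ f → (∀ x, 0 < f x) → ∃ c ∈ K, ∃ ε : ℝ, 0 < ε ∧ k2 * ε < 2 ∧
    ∃ θ : Fin (n + 1) → E n → ℝ, (∀ i, ContDiff ℝ ∞ (θ i)) ∧ (∀ x, ∑ i, θ i x ^ 2 = 1) ∧
      (∀ᵐ z ∂V, ∑ i, Gam A (θ i) (θ i) z ≤ m * bub k2 (F c) ε z.1 ^ 2) ∧
      ∀ i, ∫ z, θ i z.1 * f z.1 ∂V = 0

namespace Lim

variable (L : Lim n)

/-- `⟨∇F_c, ν⟩` -/
noncomputable def nc (c : E n) (z : E n × E n) : ℝ := inner ℝ (D L.A (L.F c) z.1) z.2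

/-- tangential scalar product -/
noncomputable def G (u v : E n → ℝ) (z : E n × E n) : ℝ := Gam L.A u v z

/-- The positive functional `ψ ↦ ∫ [H₀ ψ ⟨∇F_c, ν⟩ - m (1 + k2 F_c) ψ - ⟨∇ψ, ∇F_c⟩_S] dV`. -/
noncomputable def Dl (c : E n) (ψ : E n → ℝ) : ℝ :=
  ∫ z, (L.H0 * ψ z.1 * L.nc c z - L.m * (1 + L.k2 * L.F c z.1) * ψ z.1 - L.G ψ (L.F c) z) ∂L.V

/-- The energy `4 / (m (m - 2)) ∫ |∇_S u|² + (H₀² / m² - k2) ∫ u²`. -/
noncomputable def En (u : E n → ℝ) : ℝ :=
  4 / (L.m * (L.m - 2)) * ∫ z, L.G u u z ∂L.V +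
    (L.H0 ^ 2 / L.m ^ 2 - L.k2) * ∫ z, u z.1 ^ 2 ∂L.V

/-- The bubble of frame `(c, ε)`. -/
noncomputable def w (c : E n) (ε : ℝ) (x : E n) : ℝ := bub L.k2 (L.F c) ε x

/-- The defect `E(u) - ∫ u² w²`. -/
noncomputable def Def (c : E n) (ε : ℝ) (u : E n → ℝ) : ℝ :=
  L.En u - ∫ z, u z.1 ^ 2 * L.w c ε z.1 ^ 2 ∂L.V

/-- The critical exponent `2 m / (m - 2)`. -/
noncomputable def ps : ℝ := 2 * L.m / (L.m - 2)

/-- `J_Φ(c, ε) = ∫ Φ w_{c,ε}^m dμ`. -/
noncomputable def J (Φ : E n → ℝ) (c : E n) (ε : ℝ) : ℝ := ∫ z, Φ z.1 * L.w c ε z.1 ^ L.m ∂L.V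

end Lim

end Vale.Agent.P219.End
end

section

/-!
# P219 / End : calculus of the frame gradient, integrability, the positive functional `Dl`
-/

open MeasureTheory Set Metric
open scoped ENNReal ContDiff

namespace Vale.Agent.P219.End

variable {n : ℕ}

section frame

variable {A : E n → E n →L[ℝ] E n} {u v : E n → ℝ} {x : E n}

theorem inner_D (A : E n → E n →L[ℝ] E n) (u : E n → ℝ) (x y : E n) :
    inner ℝ (D A u x) y = fderiv ℝ u x (A x y) := by
  unfold D
  rw [InnerProductSpace.toDual_symm_apply]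
  rfl

theorem D_continuous (hA : Continuous A) (hu : ContDiff ℝ 1 u) : Continuous (D A u) := by
  unfold D
  refine (InnerProductSpace.toDual ℝ (E n)).symm.continuous.comp ?_
  exact (hu.continuous_fderiv (by norm_num)).clm_comp hA

theorem D_add (hu : DifferentiableAt ℝ u x) (hv : DifferentiableAt ℝ v x) :
    D A (fun y => u y + v y) x = D A u x + D A v x := by
  unfold D
  have : fderiv ℝ (fun y => u y + v y) x = fderiv ℝ u x + fderiv ℝ v x := fderiv_fun_add hu hv
  rw [this, ContinuousLinearMap.add_comp, map_add]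

theorem D_sub (hu : DifferentiableAt ℝ u x) (hv : DifferentiableAt ℝ v x) :
    D A (fun y => u y - v y) x = D A u x - D A v x := by
  unfold D
  have : fderiv ℝ (fun y => u y - v y) x = fderiv ℝ u x - fderiv ℝ v x := fderiv_fun_sub hu hv
  rw [this, ContinuousLinearMap.sub_comp, map_sub]

theorem D_mul (hu : DifferentiableAt ℝ u x) (hv : DifferentiableAt ℝ v x) :
    D A (fun y => u y * v y) x = u x • D A v x + v x • D A u x := by
  unfold D
  have : fderiv ℝ (fun y => u y * v y) x = u x • fderiv ℝ v x + v x • fderiv ℝ u x :=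
    fderiv_fun_mul hu hv
  rw [this, ContinuousLinearMap.add_comp, map_add, ContinuousLinearMap.smul_comp,
    ContinuousLinearMap.smul_comp, map_smul, map_smul]

theorem D_const (A : E n → E n →L[ℝ] E n) (a : ℝ) (x : E n) : D A (fun _ => a) x = 0 := by
  unfold D
  have : fderiv ℝ (fun _ : E n => a) x = 0 := fderiv_const_apply a
  rw [this, ContinuousLinearMap.zero_comp, map_zero]

theorem D_const_mul (a : ℝ) (hu : DifferentiableAt ℝ u x) :
    D A (fun y => a * u y) x = a • D A u x := by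
  rw [D_mul (differentiableAt_const a) hu, D_const, smul_zero, add_zero]

/-- chain rule -/
theorem D_comp {f : ℝ → ℝ} {f' : ℝ} (hf : HasDerivAt f f' (u x)) (hu : DifferentiableAt ℝ u x) :
    D A (fun y => f (u y)) x = f' • D A u x := by
  unfold D
  have : fderiv ℝ (fun y => f (u y)) x = f' • fderiv ℝ u x :=
    (hf.comp_hasFDerivAt x hu.hasFDerivAt).fderiv
  rw [this, ContinuousLinearMap.smul_comp, map_smul]

theorem D_congr (h : u =ᶠ[nhds x] v) : D A u x = D A v x := by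
  unfold D
  rw [h.fderiv_eq]

end frame

/-- The tangential scalar product of two vectors. -/
noncomputable def gv (a b ν : E n) : ℝ := inner ℝ a b - inner ℝ a ν * inner ℝ b ν

theorem Gam_eq (A : E n → E n →L[ℝ] E n) (u v : E n → ℝ) (z : E n × E n) :
    Gam A u v z = gv (D A u z.1) (D A v z.1) z.2 := rfl

theorem gv_comm (a b ν : E n) : gv a b ν = gv b a ν := by
  unfold gv
  rw [real_inner_comm b a]
  ring

theorem gv_add_left (a a' b ν : E n) : gv (a + a') b ν = gv a b ν + gv a' b ν := by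
  unfold gv
  rw [inner_add_left, inner_add_left]
  ring

theorem gv_smul_left (r : ℝ) (a b ν : E n) : gv (r • a) b ν = r * gv a b ν := by
  unfold gv
  rw [real_inner_smul_left, real_inner_smul_left]
  ring

theorem gv_add_right (a b b' ν : E n) : gv a (b + b') ν = gv a b ν + gv a b' ν := by
  rw [gv_comm, gv_add_left, gv_comm b, gv_comm b']

theorem gv_smul_right (r : ℝ) (a b ν : E n) : gv a (r • b) ν = r * gv a b ν := by
  rw [gv_comm, gv_smul_left, gv_comm b]

theorem gv_sub_left (a a' b ν : E n) : gv (a - a') b ν = gv a b ν - gv a' b ν := by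
  unfold gv
  rw [inner_sub_left, inner_sub_left]
  ring

theorem gv_zero_left (b ν : E n) : gv 0 b ν = 0 := by
  unfold gv
  simp

theorem gv_sum_left {ι : Type*} (s : Finset ι) (a : ι → E n) (b ν : E n) :
    gv (∑ i ∈ s, a i) b ν = ∑ i ∈ s, gv (a i) b ν := by
  unfold gv
  rw [sum_inner, sum_inner, Finset.sum_mul, ← Finset.sum_sub_distrib]

theorem gv_self (a ν : E n) : gv a a ν = ‖a‖ ^ 2 - inner ℝ a ν ^ 2 := by
  unfold gv
  rw [real_inner_self_eq_norm_sq]
  ring

theorem gv_self_nonneg {ν : E n} (hν : ‖ν‖ ≤ 1) (a : E n) : 0 ≤ gv a a ν := by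
  rw [gv_self]
  have h1 : |inner ℝ a ν| ≤ ‖a‖ := by
    refine (abs_real_inner_le_norm a ν).trans ?_
    exact mul_le_of_le_one_right (norm_nonneg a) hν
  have h2 := sq_le_sq' (by linarith [neg_abs_le (inner ℝ a ν)]) ((le_abs_self _).trans h1)
  linarith [sq_abs (inner ℝ a ν)]

theorem gv_self_le (a ν : E n) : gv a a ν ≤ ‖a‖ ^ 2 := by
  rw [gv_self]
  linarith [sq_nonneg (inner ℝ a ν)]

/-- Cauchy-Schwarz for the tangential scalar product -/
theorem gv_sq_le {ν : E n} (hν : ‖ν‖ ≤ 1) (a b : E n) : gv a b ν ^ 2 ≤ gv a a ν * gv b b ν := by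
  have key : ∀ t : ℝ, 0 ≤ gv b b ν * (t * t) + 2 * gv a b ν * t + gv a a ν := by
    intro t
    have h := gv_self_nonneg hν (a + t • b)
    rw [gv_add_left, gv_add_right, gv_add_right, gv_smul_left, gv_smul_left, gv_smul_right,
      gv_smul_right, gv_comm b a] at h
    linarith
  have h := discrim_le_zero key
  unfold discrim at h
  linarith only [h]

theorem gv_abs_le {ν : E n} (hν : ‖ν‖ ≤ 1) (a b : E n) :
    |gv a b ν| ≤ √(gv a a ν) * √(gv b b ν) := by
  rw [← Real.sqrt_mul (gv_self_nonneg hν a)]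
  exact Real.abs_le_sqrt (gv_sq_le hν a b)

theorem Gam_continuous {A : E n → E n →L[ℝ] E n} {u v : E n → ℝ} (hA : Continuous A)
    (hu : ContDiff ℝ 1 u) (hv : ContDiff ℝ 1 v) : Continuous (Gam A u v) := by
  have h1 := (D_continuous hA hu).comp (continuous_fst (X := E n) (Y := E n))
  have h2 := (D_continuous hA hv).comp (continuous_fst (X := E n) (Y := E n))
  unfold Gam
  exact (h1.inner h2).sub ((h1.inner continuous_snd).mul (h2.inner continuous_snd))

namespace Lim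

variable (L : Lim n)

instance : IsFiniteMeasure L.V := L.V_fin

/-- a continuous function is integrable -/
theorem integrable_of_cont {f : E n × E n → ℝ} (hf : Continuous f) : Integrable f L.V := by
  have hK : IsCompact (L.K ×ˢ sphere (0 : E n) 1) := L.K_compact.prod (isCompact_sphere 0 1)
  obtain ⟨C, hC⟩ := hK.exists_bound_of_continuousOn hf.continuousOn
  refine Integrable.of_bound hf.aestronglyMeasurable C ?_
  filter_upwards [L.V_supp] with z hz
  exact hC z ⟨hz.1, by simpa using hz.2⟩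

/-- two continuous functions which are comparable over `K` and unit vectors -/
theorem integral_mono_of {f g : E n × E n → ℝ} (hf : Continuous f) (hg : Continuous g)
    (h : ∀ z : E n × E n, z.1 ∈ L.K → ‖z.2‖ = 1 → f z ≤ g z) :
    ∫ z, f z ∂L.V ≤ ∫ z, g z ∂L.V := by
  refine integral_mono_ae (L.integrable_of_cont hf) (L.integrable_of_cont hg) ?_
  filter_upwards [L.V_supp] with z hz
  exact h z hz.1 hz.2

theorem integral_nonneg_of {f : E n × E n → ℝ}
    (h : ∀ z : E n × E n, z.1 ∈ L.K → ‖z.2‖ = 1 → 0 ≤ f z) : 0 ≤ ∫ z, f z ∂L.V := by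
  refine integral_nonneg_of_ae ?_
  filter_upwards [L.V_supp] with z hz
  exact h z hz.1 hz.2

theorem m_pos : 0 < L.m := by linarith [L.three_le]

theorem m_sub_pos : 0 < L.m - 2 := by linarith [L.three_le]

theorem Fc_smooth (c : E n) : ContDiff ℝ ∞ (L.F c) :=
  L.F_smooth.comp (contDiff_const.prodMk contDiff_id)

theorem Fc_smooth1 (c : E n) : ContDiff ℝ 1 (L.F c) := (L.Fc_smooth c).of_le (by exact_mod_cast le_top)

theorem Fc_cont (c : E n) : Continuous (L.F c) := (L.Fc_smooth c).continuous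

theorem D_cont {u : E n → ℝ} (hu : ContDiff ℝ 1 u) : Continuous (D L.A u) :=
  D_continuous L.A_cont hu

theorem G_cont {u v : E n → ℝ} (hu : ContDiff ℝ 1 u) (hv : ContDiff ℝ 1 v) :
    Continuous (L.G u v) := Gam_continuous L.A_cont hu hv

theorem nc_cont (c : E n) : Continuous (L.nc c) := by
  unfold nc
  exact ((L.D_cont (L.Fc_smooth1 c)).comp continuous_fst).inner continuous_snd

theorem G_self_nonneg (u : E n → ℝ) {z : E n × E n} (hz : ‖z.2‖ = 1) : 0 ≤ L.G u u z :=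
  gv_self_nonneg hz.le _

/-- `|∇F_c|² = G(F_c, F_c) + n_c²` -/
theorem G_FF (c : E n) (z : E n × E n) :
    L.G (L.F c) (L.F c) z = 2 * L.F c z.1 + L.k2 * L.F c z.1 ^ 2 - L.nc c z ^ 2 := by
  have h : L.G (L.F c) (L.F c) z = ‖D L.A (L.F c) z.1‖ ^ 2 - L.nc c z ^ 2 := gv_self _ _
  rw [h, L.grad]

/-- the integrand of `Dl` -/
noncomputable def dl (c : E n) (ψ : E n → ℝ) (z : E n × E n) : ℝ :=
  L.H0 * ψ z.1 * L.nc c z - L.m * (1 + L.k2 * L.F c z.1) * ψ z.1 - L.G ψ (L.F c) z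

theorem Dl_eq (c : E n) (ψ : E n → ℝ) : L.Dl c ψ = ∫ z, L.dl c ψ z ∂L.V := rfl

theorem dl_cont (c : E n) {ψ : E n → ℝ} (hψ : ContDiff ℝ 1 ψ) : Continuous (L.dl c ψ) := by
  have h1 := L.nc_cont c
  have h2 := L.G_cont hψ (L.Fc_smooth1 c)
  have h3 : Continuous fun z : E n × E n => ψ z.1 := hψ.continuous.comp continuous_fst
  have h4 : Continuous fun z : E n × E n => L.F c z.1 := (L.Fc_cont c).comp continuous_fst
  unfold dl
  continuity

theorem dl_integrable (c : E n) {ψ : E n → ℝ} (hψ : ContDiff ℝ 1 ψ) :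
    Integrable (L.dl c ψ) L.V := L.integrable_of_cont (L.dl_cont c hψ)

theorem Dl_nonneg {c : E n} (hc : c ∈ L.K) {ψ : E n → ℝ} (hψ : ContDiff ℝ ∞ ψ)
    (h0 : ∀ x, 0 ≤ ψ x) : 0 ≤ L.Dl c ψ := L.stat c hc ψ hψ h0

theorem Dl_sub (c : E n) {ψ ψ' : E n → ℝ} (h : ContDiff ℝ 1 ψ) (h' : ContDiff ℝ 1 ψ') :
    L.Dl c (fun x => ψ x - ψ' x) = L.Dl c ψ - L.Dl c ψ' := by
  rw [Dl_eq, Dl_eq, Dl_eq, ← integral_sub (L.dl_integrable c h) (L.dl_integrable c h')]
  refine integral_congr_ae (Filter.Eventually.of_forall fun z => ?_)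
  have e : L.G (fun x => ψ x - ψ' x) (L.F c) z = L.G ψ (L.F c) z - L.G ψ' (L.F c) z := by
    show gv _ _ _ = gv _ _ _ - gv _ _ _
    rw [D_sub (h.differentiable (by norm_num) _) (h'.differentiable (by norm_num) _), gv_sub_left]
  simp only [dl, e]
  ring

theorem Dl_smul (c : E n) (a : ℝ) {ψ : E n → ℝ} (h : ContDiff ℝ 1 ψ) :
    L.Dl c (fun x => a * ψ x) = a * L.Dl c ψ := by
  rw [Dl_eq, Dl_eq, ← integral_const_mul]
  refine integral_congr_ae (Filter.Eventually.of_forall fun z => ?_)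
  have e : L.G (fun x => a * ψ x) (L.F c) z = a * L.G ψ (L.F c) z := by
    show gv _ _ _ = a * gv _ _ _
    rw [D_const_mul a (h.differentiable (by norm_num) _), gv_smul_left]
  simp only [dl, e]
  ring

/-- `Dl` is monotone -/
theorem Dl_mono {c : E n} (hc : c ∈ L.K) {ψ ψ' : E n → ℝ} (h : ContDiff ℝ ∞ ψ)
    (h' : ContDiff ℝ ∞ ψ') (hle : ∀ x, ψ x ≤ ψ' x) : L.Dl c ψ ≤ L.Dl c ψ' := by
  have h1 := L.Dl_nonneg hc (h'.sub h) (fun x => sub_nonneg.2 (hle x))
  have h2 := L.Dl_sub c (h'.of_le (by exact_mod_cast le_top) : ContDiff ℝ 1 ψ')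
    (h.of_le (by exact_mod_cast le_top) : ContDiff ℝ 1 ψ)
  rw [h2] at h1
  linarith

end Lim

end Vale.Agent.P219.End
end

section

/-!
# P219, all dimensions: from Gaussian densities to bubble densities

`(f + ε) ^ (-m) = Γ(m)⁻¹ ∫ t ^ (m - 1) exp (- t (f + ε)) dt`, so `∫ w ^ m dμ` is a mixture of the
Gaussian integrals `∫ exp (- t f) dμ`.
-/

open MeasureTheory Set Metric Filter Topology

namespace Vale.Agent.P219.End

section
variable {X : Type*} [MeasurableSpace X]

lemma integrableOn_gam {a r : ℝ} (ha : 0 < a) (hr : 0 < r) :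
    IntegrableOn (fun t : ℝ => t ^ (a - 1) * Real.exp (-(r * t))) (Ioi 0) := by
  have h := integrableOn_rpow_mul_exp_neg_mul_rpow (s := a - 1) (p := 1) (b := r) (by linarith)
    one_pos hr
  refine h.congr_fun (fun t _ => ?_) measurableSet_Ioi
  simp only [Real.rpow_one, neg_mul]

lemma integrable_gam_prod (μ : Measure X) [IsFiniteMeasure μ] {f : X → ℝ} (hf : Measurable f)
    (h0 : ∀ x, 0 ≤ f x) {m ε : ℝ} (hm : 0 < m) (hε : 0 < ε) :
    Integrable (fun p : X × ℝ => p.2 ^ (m - 1) * Real.exp (-((f p.1 + ε) * p.2)))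
      (μ.prod (volume.restrict (Ioi 0))) := by
  have h1 : Integrable (fun p : X × ℝ => (1 : ℝ) * (p.2 ^ (m - 1) * Real.exp (-(ε * p.2))))
      (μ.prod (volume.restrict (Ioi 0))) :=
    (integrable_const (1 : ℝ)).mul_prod (integrableOn_gam hm hε)
  refine h1.mono' ?_ ?_
  · refine Measurable.aestronglyMeasurable ?_
    have hf1 : Measurable fun p : X × ℝ => f p.1 := hf.comp measurable_fst
    fun_prop
  · have hpos : ∀ᵐ p ∂(μ.prod (volume.restrict (Ioi (0 : ℝ)))), 0 < p.2 := by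
      have h2 : ∀ᵐ t ∂(volume.restrict (Ioi (0 : ℝ))), 0 < t := by
        filter_upwards [ae_restrict_mem measurableSet_Ioi] with t ht using ht
      exact (Measure.quasiMeasurePreserving_snd (μ := μ)
        (ν := volume.restrict (Ioi (0 : ℝ)))).ae h2
    filter_upwards [hpos] with p hp
    have h3 : 0 ≤ p.2 ^ (m - 1) := Real.rpow_nonneg hp.le _
    rw [norm_mul, Real.norm_of_nonneg h3, Real.norm_of_nonneg (Real.exp_pos _).le, one_mul]
    refine mul_le_mul_of_nonneg_left (Real.exp_le_exp.2 ?_) h3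
    linarith only [mul_nonneg (h0 p.1) hp.le]

/-- The mixture formula. -/
theorem mix_eq (μ : Measure X) [IsFiniteMeasure μ] {f : X → ℝ} (hf : Measurable f)
    (h0 : ∀ x, 0 ≤ f x) {m ε : ℝ} (hm : 0 < m) (hε : 0 < ε) :
    Real.Gamma m * ∫ x, (f x + ε) ^ (-m) ∂μ =
      ∫ t in Ioi (0 : ℝ), t ^ (m - 1) * Real.exp (-(ε * t)) * ∫ x, Real.exp (-(t * f x)) ∂μ := by
  have h1 : ∀ x, Real.Gamma m * (f x + ε) ^ (-m) =
      ∫ t in Ioi (0 : ℝ), t ^ (m - 1) * Real.exp (-((f x + ε) * t)) := by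
    intro x
    have hx : 0 < f x + ε := by linarith [h0 x]
    rw [Real.integral_rpow_mul_exp_neg_mul_Ioi hm hx, one_div, Real.inv_rpow hx.le,
      Real.rpow_neg hx.le, mul_comm]
  rw [← integral_const_mul]
  simp_rw [h1]
  rw [integral_integral_swap (integrable_gam_prod μ hf h0 hm hε)]
  refine integral_congr_ae (Eventually.of_forall fun t => ?_)
  simp only
  rw [← integral_const_mul]
  refine integral_congr_ae (Eventually.of_forall fun x => ?_)
  simp only
  rw [mul_assoc, ← Real.exp_add]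
  congr 2
  ring

lemma integrableOn_mix (μ : Measure X) [IsFiniteMeasure μ] {f : X → ℝ} (hf : Measurable f)
    (h0 : ∀ x, 0 ≤ f x) {m ε : ℝ} (hm : 0 < m) (hε : 0 < ε) :
    IntegrableOn (fun t : ℝ => t ^ (m - 1) * Real.exp (-(ε * t)) *
      ∫ x, Real.exp (-(t * f x)) ∂μ) (Ioi 0) := by
  have h := (integrable_gam_prod μ hf h0 hm hε).integral_prod_right
  refine h.congr (Eventually.of_forall fun t => ?_)
  simp only
  rw [← integral_const_mul]
  refine integral_congr_ae (Eventually.of_forall fun x => ?_)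
  simp only
  rw [mul_assoc, ← Real.exp_add]
  congr 2
  ring

lemma sg_pos {m : ℝ} (hm : 0 < m) : 0 < sg m := by
  unfold sg
  have := Real.Gamma_pos_of_pos hm
  have := Real.Gamma_pos_of_pos (half_pos hm)
  positivity

/-- lower bound of the mixture, if the Gaussian densities at scale `t ≥ t₀` are at least `a` -/
theorem mix_lower (μ : Measure X) [IsFiniteMeasure μ] {f : X → ℝ} (hf : Measurable f)
    (h0 : ∀ x, 0 ≤ f x) {m ε t₀ a : ℝ} (hm : 0 < m) (hε : 0 < ε) (ht₀ : 0 < t₀) (ha : 0 ≤ a)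
    (h : ∀ t ≥ t₀, a ≤ (t / (2 * Real.pi)) ^ (m / 2) * ∫ x, Real.exp (-(t * f x)) ∂μ) :
    a * (2 * Real.pi) ^ (m / 2) * (ε ^ (-(m / 2)) * Real.Gamma (m / 2) - t₀ ^ (m / 2) / (m / 2)) ≤
      Real.Gamma m * ∫ x, (f x + ε) ^ (-m) ∂μ := by
  have hm2 : 0 < m / 2 := half_pos hm
  rw [mix_eq μ hf h0 hm hε]
  have hint := integrableOn_mix μ hf h0 hm hε
  have hg := integrableOn_gam hm2 hε
  -- restrict to `t > t₀`
  have h1 : ∫ t in Ioi t₀, t ^ (m - 1) * Real.exp (-(ε * t)) * ∫ x, Real.exp (-(t * f x)) ∂μ ≤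
      ∫ t in Ioi (0 : ℝ), t ^ (m - 1) * Real.exp (-(ε * t)) *
        ∫ x, Real.exp (-(t * f x)) ∂μ := by
    refine setIntegral_mono_set hint ?_ (Ioi_subset_Ioi ht₀.le).eventuallyLE
    filter_upwards [ae_restrict_mem measurableSet_Ioi] with t ht
    have : 0 ≤ ∫ x, Real.exp (-(t * f x)) ∂μ := integral_nonneg fun x => (Real.exp_pos _).le
    have h3 : 0 ≤ t ^ (m - 1) := Real.rpow_nonneg (le_of_lt ht) _
    simp only [Pi.zero_apply]
    positivity
  refine le_trans ?_ h1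
  have h2 : ∫ t in Ioi t₀, a * (2 * Real.pi) ^ (m / 2) *
      (t ^ (m / 2 - 1) * Real.exp (-(ε * t))) ≤
      ∫ t in Ioi t₀, t ^ (m - 1) * Real.exp (-(ε * t)) * ∫ x, Real.exp (-(t * f x)) ∂μ := by
    refine setIntegral_mono_on ((hg.mono_set (Ioi_subset_Ioi ht₀.le)).const_mul _)
      (hint.mono_set (Ioi_subset_Ioi ht₀.le)) measurableSet_Ioi ?_
    intro t ht
    have ht' : 0 < t := ht₀.trans ht
    have h3 := h t (le_of_lt ht)
    rw [Real.div_rpow ht'.le (by positivity), div_mul_eq_mul_div, le_div_iff₀ (by positivity)] at h3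
    have e1 : t ^ (m - 1) = t ^ (m / 2 - 1) * t ^ (m / 2) := by
      rw [← Real.rpow_add ht']
      congr 1
      ring
    rw [e1]
    calc a * (2 * Real.pi) ^ (m / 2) * (t ^ (m / 2 - 1) * Real.exp (-(ε * t)))
        ≤ (t ^ (m / 2) * ∫ x, Real.exp (-(t * f x)) ∂μ) *
          (t ^ (m / 2 - 1) * Real.exp (-(ε * t))) :=
          mul_le_mul_of_nonneg_right h3 (by positivity)
      _ = _ := by ring
  refine le_trans ?_ h2
  rw [integral_const_mul]
  refine mul_le_mul_of_nonneg_left ?_ (by positivity)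
  have h4 : ∫ t in Ioi (0 : ℝ), t ^ (m / 2 - 1) * Real.exp (-(ε * t)) =
      (∫ t in Ioc 0 t₀, t ^ (m / 2 - 1) * Real.exp (-(ε * t))) +
        ∫ t in Ioi t₀, t ^ (m / 2 - 1) * Real.exp (-(ε * t)) := by
    rw [← Ioc_union_Ioi_eq_Ioi ht₀.le]
    refine setIntegral_union (Ioc_disjoint_Ioi le_rfl) measurableSet_Ioi
      (hg.mono_set Ioc_subset_Ioi_self) (hg.mono_set (Ioi_subset_Ioi ht₀.le))
  rw [Real.integral_rpow_mul_exp_neg_mul_Ioi hm2 hε, one_div, Real.inv_rpow hε.le,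
    ← Real.rpow_neg hε.le] at h4
  have h5 : ∫ t in Ioc 0 t₀, t ^ (m / 2 - 1) * Real.exp (-(ε * t)) ≤ t₀ ^ (m / 2) / (m / 2) := by
    have h6 : ∫ t in Ioc 0 t₀, t ^ (m / 2 - 1) = t₀ ^ (m / 2) / (m / 2) := by
      rw [← intervalIntegral.integral_of_le ht₀.le, integral_rpow (Or.inl (by linarith)),
        Real.zero_rpow (by linarith only [hm2])]
      simp
    rw [← h6]
    have h7 : IntegrableOn (fun t : ℝ => t ^ (m / 2 - 1)) (Ioc 0 t₀) := by
      rw [← intervalIntegrable_iff_integrableOn_Ioc_of_le ht₀.le]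
      exact intervalIntegral.intervalIntegrable_rpow' (by linarith only [hm2])
    refine setIntegral_mono_on (hg.mono_set Ioc_subset_Ioi_self) h7 measurableSet_Ioc ?_
    intro t ht
    have h8 : 0 ≤ t ^ (m / 2 - 1) := Real.rpow_nonneg ht.1.le _
    have h9 : Real.exp (-(ε * t)) ≤ 1 := Real.exp_le_one_iff.2 (by linarith only [mul_pos (sub_pos.2 hε) (sub_pos.2 ht.1)])
    linarith only [mul_nonneg (sub_nonneg.2 h8) (sub_nonneg.2 h9)]
  linarith only [h5, h4]

/-- **Gaussian density at least one implies bubble density at least `σ_m`.** -/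
theorem dens_of_gauss (μ : Measure X) [IsFiniteMeasure μ] {f : X → ℝ} (hf : Measurable f)
    (h0 : ∀ x, 0 ≤ f x) {m : ℝ} (k2 : ℝ) (hm : 0 < m)
    (h : ∀ e > 0, ∃ t₀ > 0, ∀ t ≥ t₀,
      1 - e ≤ (t / (2 * Real.pi)) ^ (m / 2) * ∫ x, Real.exp (-(t * f x)) ∂μ) :
    ∀ e > 0, ∃ ε₀ > 0, ∀ ε, 0 < ε → ε < ε₀ →
      sg m - e ≤ ∫ x, (√(ε * (2 - k2 * ε)) / (f x + ε)) ^ m ∂μ := by
  intro e he
  have hm2 : 0 < m / 2 := half_pos hm
  have hG : 0 < Real.Gamma m := Real.Gamma_pos_of_pos hm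
  have hG2 : 0 < Real.Gamma (m / 2) := Real.Gamma_pos_of_pos hm2
  have hs := sg_pos hm
  set e' : ℝ := min (e / (2 * sg m)) 1 with he'
  have he'0 : 0 < e' := by positivity
  have he'1 : e' ≤ 1 := min_le_right _ _
  have he'2 : e' * sg m ≤ e / 2 := by
    calc e' * sg m ≤ e / (2 * sg m) * sg m :=
          mul_le_mul_of_nonneg_right (min_le_left _ _) hs.le
      _ = e / 2 := by field_simp
  obtain ⟨t₀, ht₀, ht⟩ := h e' he'0
  -- the limit function
  let g : ℝ → ℝ := fun ε => (2 - k2 * ε) ^ (m / 2) * ((1 - e') * (2 * Real.pi) ^ (m / 2) *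
    (Real.Gamma (m / 2) - ε ^ (m / 2) * (t₀ ^ (m / 2) / (m / 2)))) / Real.Gamma m
  have hgc : ContinuousAt g 0 := by
    refine ContinuousAt.div_const (ContinuousAt.mul ?_ ?_) _
    · refine ContinuousAt.rpow_const (by fun_prop) (Or.inl (by norm_num))
    · refine continuousAt_const.mul (continuousAt_const.sub (ContinuousAt.mul ?_ continuousAt_const))
      exact Real.continuousAt_rpow_const _ _ (Or.inr hm2.le)
  have hg0 : g 0 = (1 - e') * sg m := by
    simp only [g, mul_zero, sub_zero, Real.zero_rpow hm2.ne', zero_mul]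
    unfold sg
    rw [Real.mul_rpow (by norm_num) Real.pi_pos.le]
    have : (2 : ℝ) ^ m = 2 ^ (m / 2) * 2 ^ (m / 2) := by
      rw [← Real.rpow_add (by norm_num)]
      congr 1
      ring
    rw [this]
    ring
  have hev1 : ∀ᶠ ε in 𝓝 (0 : ℝ), sg m - e < g ε := by
    refine hgc.eventually_const_lt ?_
    rw [hg0]
    linarith only [he'2, he]
  have hev2 : ∀ᶠ ε in 𝓝 (0 : ℝ), 0 < 2 - k2 * ε := by
    have : ContinuousAt (fun ε : ℝ => 2 - k2 * ε) 0 := by fun_prop
    refine this.eventually_const_lt ?_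
    norm_num
  obtain ⟨ε₀, hε₀, hb⟩ := Metric.eventually_nhds_iff.1 (hev1.and hev2)
  refine ⟨ε₀, hε₀, fun ε hε hεε => ?_⟩
  obtain ⟨hb1, hb2⟩ := hb (y := ε) (by rw [Real.dist_eq, sub_zero, abs_of_pos hε]; exact hεε)
  refine hb1.le.trans ?_
  have hlow := mix_lower μ hf h0 hm hε ht₀ (by linarith only [he'1]) ht
  have e1 : ∫ x, (√(ε * (2 - k2 * ε)) / (f x + ε)) ^ m ∂μ =
      (ε * (2 - k2 * ε)) ^ (m / 2) * ∫ x, (f x + ε) ^ (-m) ∂μ := by
    rw [← integral_const_mul]
    refine integral_congr_ae (Eventually.of_forall fun x => ?_)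
    have hx : 0 < f x + ε := by linarith only [h0 x, hε]
    simp only
    rw [Real.div_rpow (Real.sqrt_nonneg _) hx.le, Real.sqrt_eq_rpow, ← Real.rpow_mul (by (clear * - hε hb2; positivity)),
      Real.rpow_neg hx.le, div_eq_mul_inv]
    congr 2
    ring
  rw [e1]
  have hC : 0 ≤ (ε * (2 - k2 * ε)) ^ (m / 2) := Real.rpow_nonneg (by (clear * - hε hb2; positivity)) _
  have h3 := mul_le_mul_of_nonneg_left hlow hC
  have h4 : g ε * Real.Gamma m = (ε * (2 - k2 * ε)) ^ (m / 2) * ((1 - e') *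
      (2 * Real.pi) ^ (m / 2) *
      (ε ^ (-(m / 2)) * Real.Gamma (m / 2) - t₀ ^ (m / 2) / (m / 2))) := by
    simp only [g]
    rw [div_mul_cancel₀ _ hG.ne', Real.mul_rpow hε.le hb2.le, Real.rpow_neg hε.le]
    have : ε ^ (m / 2) ≠ 0 := (Real.rpow_pos_of_pos hε _).ne'
    field_simp
  rw [← h4] at h3
  have h5 : g ε * Real.Gamma m ≤ (ε * (2 - k2 * ε)) ^ (m / 2) *
      (∫ x, (f x + ε) ^ (-m) ∂μ) * Real.Gamma m := by
    exact h3.trans (le_of_eq (by ring))
  exact le_of_mul_le_mul_right h5 hG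

end

variable {n : ℕ}

/-- The form of the field `dens` of `Lim`. -/
theorem dens_field (V : Measure (E n × E n)) [IsFiniteMeasure V] {F : E n → E n → ℝ}
    (hF : ∀ p, Measurable (F p)) (h0 : ∀ p x, 0 ≤ F p x) {m : ℝ} (k2 : ℝ) (hm : 0 < m) (p : E n)
    (h : ∀ e > 0, ∃ t₀ > 0, ∀ t ≥ t₀,
      1 - e ≤ (t / (2 * Real.pi)) ^ (m / 2) * ∫ z, Real.exp (-(t * F p z.1)) ∂V) :
    ∀ e > 0, ∃ ε₀ > 0, ∀ ε, 0 < ε → ε < ε₀ → sg m - e ≤ ∫ z, bub k2 (F p) ε z.1 ^ m ∂V :=
  dens_of_gauss V ((hF p).comp measurable_fst) (fun z => h0 p z.1) k2 hm h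

/-- `sg (n - 1)` is the area of the unit sphere of `ℝⁿ`. -/
theorem sg_sub_one (hn : 2 ≤ n) :
    sg ((n : ℝ) - 1) = 2 * Real.pi ^ ((n : ℝ) / 2) / Real.Gamma (n / 2) := by
  have hn' : (2 : ℝ) ≤ n := by exact_mod_cast hn
  unfold sg
  have hd := Real.Gamma_mul_Gamma_add_half (((n : ℝ) - 1) / 2)
  have h1 : ((n : ℝ) - 1) / 2 + 1 / 2 = n / 2 := by ring
  have h2 : 2 * (((n : ℝ) - 1) / 2) = n - 1 := by ring
  rw [h1, h2] at hd
  have hG1 : 0 < Real.Gamma ((n : ℝ) - 1) := Real.Gamma_pos_of_pos (by linarith only [hn'])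
  have hG2 : 0 < Real.Gamma ((n : ℝ) / 2) := Real.Gamma_pos_of_pos (by positivity)
  rw [div_eq_div_iff hG1.ne' hG2.ne', mul_assoc, hd]
  have e1 : (2 : ℝ) ^ ((n : ℝ) - 1) * 2 ^ (1 - ((n : ℝ) - 1)) = 2 := by
    rw [← Real.rpow_add (by norm_num)]
    norm_num
  have e2 : Real.pi ^ (((n : ℝ) - 1) / 2) * √Real.pi = Real.pi ^ ((n : ℝ) / 2) := by
    rw [Real.sqrt_eq_rpow, ← Real.rpow_add Real.pi_pos, h1]
  calc 2 ^ ((n : ℝ) - 1) * Real.pi ^ (((n : ℝ) - 1) / 2) *
        (Real.Gamma ((n : ℝ) - 1) * 2 ^ (1 - ((n : ℝ) - 1)) * √Real.pi)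
      = (2 ^ ((n : ℝ) - 1) * 2 ^ (1 - ((n : ℝ) - 1))) *
        (Real.pi ^ (((n : ℝ) - 1) / 2) * √Real.pi) * Real.Gamma ((n : ℝ) - 1) := by ring
    _ = _ := by rw [e1, e2]

end Vale.Agent.P219.End
end

section

/-!
# P219 / End : the exact identity for the energy and its consequences

`E(u) - ∫ u² w² = 4/(m(m-2)) ∫ w^{m-2} |∇_S g|² + ∫ u² (H₀/m - n_c/(F_c+ε))² + (2/m) Dl_c[u²/(F_c+ε)]`
for `u = g w^{(m-2)/2}`.
-/

open MeasureTheory Set Metric
open scoped ContDiff

namespace Vale.Agent.P219.End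

variable {n : ℕ}

/-- the pointwise algebra of the exact identity; `gaa`, `gaf` and `ff - nc ^ 2` are the products of
the tangential parts of the gradients of `u` and `F`. -/
theorem ident_alg {m u F ε k2 H gaa gaf nc ff : ℝ} (hm : 2 < m) (hG : 0 < F + ε)
    (hf : ff = 2 * F + k2 * F ^ 2) :
    (4 / (m * (m - 2))) * (gaa + 2 * ((m - 2) / 2 * (u / (F + ε))) * gaf +
        ((m - 2) / 2 * (u / (F + ε))) ^ 2 * (ff - nc ^ 2)) +
      u ^ 2 * (H / m - nc / (F + ε)) ^ 2 +
      (2 / m) * (H * (u ^ 2 / (F + ε)) * nc - m * (1 + k2 * F) * (u ^ 2 / (F + ε)) -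
        ((2 * u / (F + ε)) * gaf - (u ^ 2 / (F + ε) ^ 2) * (ff - nc ^ 2))) =
    (4 / (m * (m - 2))) * gaa + (H ^ 2 / m ^ 2 - k2) * u ^ 2 -
      u ^ 2 * (ε * (2 - k2 * ε) / (F + ε) ^ 2) := by
  have h1 : m ≠ 0 := by linarith
  have h2 : m - 2 ≠ 0 := by linarith
  have h3 : F + ε ≠ 0 := hG.ne'
  rw [hf]
  field_simp
  ring

namespace Lim

variable (L : Lim n)

/-- `γ = (m - 2) / 2` -/
noncomputable def gm : ℝ := (L.m - 2) / 2

section bubble

variable {c : E n} {ε : ℝ} (hε : 0 < ε) (hk : L.k2 * ε < 2)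

include hε in
theorem Fe_pos (x : E n) : 0 < L.F c x + ε := by linarith [L.F_nonneg c x]

include hε hk in
theorem sqrt_pos' : 0 < √(ε * (2 - L.k2 * ε)) := Real.sqrt_pos.2 (mul_pos hε (by linarith))

include hε hk in
theorem w_pos (x : E n) : 0 < L.w c ε x := div_pos (L.sqrt_pos' hε hk) (L.Fe_pos hε x)

include hε hk in
theorem w_sq (x : E n) : L.w c ε x ^ 2 = ε * (2 - L.k2 * ε) / (L.F c x + ε) ^ 2 := by
  unfold w bub
  rw [div_pow, Real.sq_sqrt (mul_pos hε (by linarith)).le]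

include hε in
theorem w_smooth : ContDiff ℝ ∞ (L.w c ε) := by
  unfold w bub
  exact contDiff_const.div ((L.Fc_smooth c).add contDiff_const) fun x => (L.Fe_pos hε x).ne'

include hε hk in
theorem w_rpow_smooth (r : ℝ) : ContDiff ℝ ∞ fun x => L.w c ε x ^ r :=
  (L.w_smooth hε).rpow_const_of_ne fun x => (L.w_pos hε hk x).ne'

/-- the quotient `g = u / w^γ` -/
noncomputable def gq (c : E n) (ε : ℝ) (u : E n → ℝ) (x : E n) : ℝ := u x / L.w c ε x ^ L.gm

include hε hk in
theorem gq_smooth {u : E n → ℝ} {k : WithTop ℕ∞} (hu : ContDiff ℝ k u) (hk' : k ≤ ∞) :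
    ContDiff ℝ k (L.gq c ε u) :=
  hu.div ((L.w_rpow_smooth hε hk L.gm).of_le hk')
    fun x => (Real.rpow_pos_of_pos (L.w_pos hε hk x) _).ne'

include hε hk in
theorem gq_mul (u : E n → ℝ) (x : E n) : L.gq c ε u x * L.w c ε x ^ L.gm = u x :=
  div_mul_cancel₀ _ (Real.rpow_pos_of_pos (L.w_pos hε hk x) _).ne'

include hε hk in
/-- `∇ w^{-γ} = γ w^{-γ} ∇F / (F + ε)` -/
theorem D_w_rpow (r : ℝ) (x : E n) : D L.A (fun y => L.w c ε y ^ r) x =
    (-r * (L.w c ε x ^ r / (L.F c x + ε))) • D L.A (L.F c) x := by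
  have hF := (L.Fc_smooth1 c).differentiable (by norm_num) x
  have hp := L.Fe_pos (c := c) hε x
  have hs := L.sqrt_pos' hε hk
  have hw := L.w_pos (c := c) hε hk x
  have h1 : HasDerivAt (fun f : ℝ => (√(ε * (2 - L.k2 * ε)) / (f + ε)) ^ r)
      (-r * (L.w c ε x ^ r / (L.F c x + ε))) (L.F c x) := by
    have h2 : HasDerivAt (fun f : ℝ => √(ε * (2 - L.k2 * ε)) / (f + ε))
        (-(√(ε * (2 - L.k2 * ε)) / (L.F c x + ε) ^ 2)) (L.F c x) := by
      have h3 := ((hasDerivAt_id (L.F c x)).add_const ε).inv hp.ne'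
      have h4 := h3.const_mul (√(ε * (2 - L.k2 * ε)))
      refine (h4.congr_deriv ?_).congr_of_eventuallyEq ?_
      · simp only [id]
        ring
      · exact Filter.Eventually.of_forall fun f => by simp [div_eq_mul_inv]
    have h5 := h2.rpow_const (p := r) (Or.inl hw.ne')
    refine h5.congr_deriv ?_
    have h6 : √(ε * (2 - L.k2 * ε)) / (L.F c x + ε) = L.w c ε x := rfl
    have h7 : √(ε * (2 - L.k2 * ε)) / (L.F c x + ε) ^ 2 = L.w c ε x / (L.F c x + ε) := by
      rw [← h6, div_div, sq]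
    rw [h6, h7, Real.rpow_sub_one hw.ne']
    field_simp
  exact D_comp (A := L.A) (u := L.F c) (f := fun f : ℝ => (√(ε * (2 - L.k2 * ε)) / (f + ε)) ^ r)
    h1 hF

include hε hk in
/-- the gradient of the quotient -/
theorem D_gq {u : E n → ℝ} (hu : ContDiff ℝ 1 u) (x : E n) : D L.A (L.gq c ε u) x =
    (L.w c ε x ^ (-L.gm)) • (D L.A u x + (L.gm * (u x / (L.F c x + ε))) • D L.A (L.F c) x) := by
  have hw := L.w_pos (c := c) hε hk
  have e : L.gq c ε u = fun y => u y * L.w c ε y ^ (-L.gm) := by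
    funext y
    unfold gq
    rw [Real.rpow_neg (hw y).le, div_eq_mul_inv]
  have hd : DifferentiableAt ℝ (fun y => L.w c ε y ^ (-L.gm)) x :=
    ((L.w_rpow_smooth hε hk (-L.gm)).differentiable (by norm_num)) x
  rw [e, D_mul (hu.differentiable (by norm_num) x) hd, L.D_w_rpow hε hk, smul_add, smul_smul,
    smul_smul, add_comm]
  congr 2
  ring

include hε hk in
/-- first defect, pointwise -/
theorem G_gq {u : E n → ℝ} (hu : ContDiff ℝ 1 u) (z : E n × E n) :
    L.w c ε z.1 ^ (L.m - 2) * L.G (L.gq c ε u) (L.gq c ε u) z =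
      L.G u u z + 2 * ((L.m - 2) / 2 * (u z.1 / (L.F c z.1 + ε))) * L.G u (L.F c) z +
        ((L.m - 2) / 2 * (u z.1 / (L.F c z.1 + ε))) ^ 2 *
          (‖D L.A (L.F c) z.1‖ ^ 2 - L.nc c z ^ 2) := by
  have hw := L.w_pos (c := c) hε hk z.1
  have e1 : L.G (L.gq c ε u) (L.gq c ε u) z =
      gv (D L.A (L.gq c ε u) z.1) (D L.A (L.gq c ε u) z.1) z.2 := rfl
  have e2 : gv (D L.A (L.F c) z.1) (D L.A (L.F c) z.1) z.2 =
      ‖D L.A (L.F c) z.1‖ ^ 2 - L.nc c z ^ 2 := gv_self _ _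
  have e3 : L.G u (L.F c) z = gv (D L.A u z.1) (D L.A (L.F c) z.1) z.2 := rfl
  have e4 : L.G u u z = gv (D L.A u z.1) (D L.A u z.1) z.2 := rfl
  have e5 : L.w c ε z.1 ^ (L.m - 2) * (L.w c ε z.1 ^ (-L.gm) * L.w c ε z.1 ^ (-L.gm)) = 1 := by
    rw [← Real.rpow_add hw, ← Real.rpow_add hw]
    have : L.m - 2 + (-L.gm + -L.gm) = 0 := by
      unfold gm
      ring
    rw [this, Real.rpow_zero]
  rw [e1, L.D_gq hε hk hu, gv_smul_left, gv_smul_right, gv_add_left, gv_add_right, gv_add_right,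
    gv_smul_left, gv_smul_left, gv_smul_right, gv_smul_right, e2, ← e4, ← e3,
    gv_comm (D L.A (L.F c) z.1) (D L.A u z.1), ← e3]
  have e6 : ∀ X : ℝ, L.w c ε z.1 ^ (L.m - 2) * (L.w c ε z.1 ^ (-L.gm) *
      (L.w c ε z.1 ^ (-L.gm) * X)) = X := by
    intro X
    calc _ = (L.w c ε z.1 ^ (L.m - 2) * (L.w c ε z.1 ^ (-L.gm) * L.w c ε z.1 ^ (-L.gm))) * X := by
          ring
      _ = X := by rw [e5, one_mul]
  rw [e6]
  unfold gm
  ring

/-- the test function `u² / (F_c + ε)` -/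
noncomputable def tf (c : E n) (ε : ℝ) (u : E n → ℝ) (x : E n) : ℝ := u x ^ 2 / (L.F c x + ε)

include hε in
theorem tf_smooth {u : E n → ℝ} {k : WithTop ℕ∞} (hu : ContDiff ℝ k u) (hk' : k ≤ ∞) :
    ContDiff ℝ k (L.tf c ε u) :=
  (hu.pow 2).div (((L.Fc_smooth c).of_le hk').add contDiff_const) fun x => (L.Fe_pos hε x).ne'

include hε in
theorem tf_nonneg (u : E n → ℝ) (x : E n) : 0 ≤ L.tf c ε u x :=
  div_nonneg (sq_nonneg _) (L.Fe_pos hε x).le

include hε in
theorem G_tf {u : E n → ℝ} (hu : ContDiff ℝ 1 u) (z : E n × E n) :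
    L.G (L.tf c ε u) (L.F c) z = (2 * u z.1 / (L.F c z.1 + ε)) * L.G u (L.F c) z -
      (u z.1 ^ 2 / (L.F c z.1 + ε) ^ 2) * (‖D L.A (L.F c) z.1‖ ^ 2 - L.nc c z ^ 2) := by
  have hp := L.Fe_pos (c := c) hε z.1
  have hud := hu.differentiable (by norm_num) z.1
  have hF := (L.Fc_smooth1 c).differentiable (by norm_num) z.1
  have e2 : gv (D L.A (L.F c) z.1) (D L.A (L.F c) z.1) z.2 =
      ‖D L.A (L.F c) z.1‖ ^ 2 - L.nc c z ^ 2 := gv_self _ _
  have e : L.tf c ε u = fun y => u y ^ 2 * (L.F c y + ε)⁻¹ := by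
    funext y
    exact div_eq_mul_inv _ _
  have h1 : D L.A (fun y => u y ^ 2) z.1 = (2 * u z.1) • D L.A u z.1 := by
    have h := (hasDerivAt_pow 2 (u z.1))
    refine D_comp (A := L.A) (u := u) (f := fun t : ℝ => t ^ 2) (h.congr_deriv ?_) hud
    simp
  have h2 : D L.A (fun y => (L.F c y + ε)⁻¹) z.1 =
      (-((L.F c z.1 + ε) ^ 2)⁻¹) • D L.A (L.F c) z.1 := by
    have h := ((hasDerivAt_id (L.F c z.1)).add_const ε).inv hp.ne'
    refine D_comp (A := L.A) (u := L.F c) (f := fun t : ℝ => (t + ε)⁻¹) ?_ hF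
    refine (h.congr_deriv ?_).congr_of_eventuallyEq ?_
    · simp only [id]
      rw [neg_div, one_div]
    · exact Filter.Eventually.of_forall fun f => by simp
  have h3 : DifferentiableAt ℝ (fun y => (L.F c y + ε)⁻¹) z.1 :=
    (hF.add_const ε).inv hp.ne'
  have e3 : L.G (L.tf c ε u) (L.F c) z =
      gv (D L.A (L.tf c ε u) z.1) (D L.A (L.F c) z.1) z.2 := rfl
  have e4 : L.G u (L.F c) z = gv (D L.A u z.1) (D L.A (L.F c) z.1) z.2 := rfl
  rw [e3, e, D_mul (u := fun y => u y ^ 2) (hud.pow 2) h3, h1, h2, gv_add_left, gv_smul_left, gv_smul_left, gv_smul_left,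
    gv_smul_left, e2, e4]
  field_simp
  ring

end bubble

/-- THE EXACT IDENTITY -/
theorem ident {c : E n} {ε : ℝ} (hε : 0 < ε) (hk : L.k2 * ε < 2) {u : E n → ℝ}
    (hu : ContDiff ℝ 1 u) : L.Def c ε u =
      4 / (L.m * (L.m - 2)) *
          ∫ z, L.w c ε z.1 ^ (L.m - 2) * L.G (L.gq c ε u) (L.gq c ε u) z ∂L.V +
        ∫ z, u z.1 ^ 2 * (L.H0 / L.m - L.nc c z / (L.F c z.1 + ε)) ^ 2 ∂L.V +
        2 / L.m * L.Dl c (L.tf c ε u) := by
  have hp : ∀ z : E n × E n, L.F c z.1 + ε ≠ 0 := fun z => (L.Fe_pos hε z.1).ne'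
  have cu : Continuous fun z : E n × E n => u z.1 := hu.continuous.comp continuous_fst
  have cF : Continuous fun z : E n × E n => L.F c z.1 := (L.Fc_cont c).comp continuous_fst
  have cn := L.nc_cont c
  have cw : Continuous fun z : E n × E n => L.w c ε z.1 :=
    (L.w_smooth hε).continuous.comp continuous_fst
  have cwr : Continuous fun z : E n × E n => L.w c ε z.1 ^ (L.m - 2) :=
    (L.w_rpow_smooth hε hk (L.m - 2)).continuous.comp continuous_fst
  have h1i : (1 : WithTop ℕ∞) ≤ ∞ := by exact_mod_cast le_top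
  have cg : Continuous (L.G (L.gq c ε u) (L.gq c ε u)) :=
    L.G_cont (L.gq_smooth hε hk hu h1i) (L.gq_smooth hε hk hu h1i)
  have cG := L.G_cont hu hu
  have i1 : Integrable (fun z : E n × E n => L.w c ε z.1 ^ (L.m - 2) *
      L.G (L.gq c ε u) (L.gq c ε u) z) L.V := L.integrable_of_cont (cwr.mul cg)
  have i2 : Integrable (fun z : E n × E n => u z.1 ^ 2 *
      (L.H0 / L.m - L.nc c z / (L.F c z.1 + ε)) ^ 2) L.V :=
    L.integrable_of_cont ((cu.pow 2).mul ((continuous_const.sub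
      (cn.div (cF.add continuous_const) hp)).pow 2))
  have i3 := L.dl_integrable c (L.tf_smooth (c := c) hε hu h1i)
  have i4 := L.integrable_of_cont cG
  have i5 : Integrable (fun z : E n × E n => u z.1 ^ 2) L.V := L.integrable_of_cont (cu.pow 2)
  have i6 : Integrable (fun z : E n × E n => u z.1 ^ 2 * L.w c ε z.1 ^ 2) L.V :=
    L.integrable_of_cont ((cu.pow 2).mul (cw.pow 2))
  have i12 : Integrable (fun z : E n × E n => 4 / (L.m * (L.m - 2)) *
      (L.w c ε z.1 ^ (L.m - 2) * L.G (L.gq c ε u) (L.gq c ε u) z) + u z.1 ^ 2 *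
      (L.H0 / L.m - L.nc c z / (L.F c z.1 + ε)) ^ 2) L.V := (i1.const_mul _).add i2
  have i45 : Integrable (fun z : E n × E n => 4 / (L.m * (L.m - 2)) * L.G u u z +
      (L.H0 ^ 2 / L.m ^ 2 - L.k2) * u z.1 ^ 2) L.V := (i4.const_mul _).add (i5.const_mul _)
  unfold Def En
  rw [Dl_eq, ← integral_const_mul, ← integral_const_mul, ← integral_const_mul,
    ← integral_const_mul, ← integral_add (i1.const_mul _) i2,
    ← integral_add i12 (i3.const_mul _), ← integral_add (i4.const_mul _) (i5.const_mul _),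
    ← integral_sub i45 i6]
  refine integral_congr_ae (Filter.Eventually.of_forall fun z => ?_)
  have h1 := ident_alg (m := L.m) (u := u z.1) (F := L.F c z.1) (ε := ε) (k2 := L.k2) (H := L.H0)
    (gaa := L.G u u z) (gaf := L.G u (L.F c) z) (nc := L.nc c z)
    (ff := ‖D L.A (L.F c) z.1‖ ^ 2) (by linarith [L.three_le]) (L.Fe_pos hε z.1) (L.grad c z.1)
  have h2 := L.G_gq (c := c) hε hk hu z
  have h3 := L.G_tf (c := c) hε hu z
  simp only [dl]
  rw [h2, h3, L.w_sq hε hk]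
  have h4 : L.tf c ε u z.1 = u z.1 ^ 2 / (L.F c z.1 + ε) := rfl
  rw [h4, ← h1]

end Lim

end Vale.Agent.P219.End
end

section

/-!
# P219 / End : bubbles with their scale, the functional `J`, the truncated kernel (definitions)
-/

open MeasureTheory Set Metric
open scoped ENNReal ContDiff Topology

namespace Vale.Agent.P219.End

variable {n : ℕ}

namespace Lim

variable (L : Lim n)

/-- the bubble of centre `c` and scale `s` (`ε = s² / 2`): `s √(1 - k2 s²/4) / (F + s²/2)` -/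
noncomputable def ws (c : E n) (s : ℝ) (x : E n) : ℝ := L.w c (s ^ 2 / 2) x

/-- `√(2 F)`, the distance if `k2 = 0` -/
noncomputable def ds (c x : E n) : ℝ := √(2 * L.F c x)

/-- admissible scales -/
def Ad (s : ℝ) : Prop := 0 < s ∧ s ≤ 1 ∧ L.k2 * s ^ 2 ≤ 1

/-- `J_Φ(c, s) = ∫ Φ w^m`, as a function of the scale `s` (`= L.J Φ c (s ^ 2 / 2)` by `rfl`) -/
noncomputable def Js (Φ : E n → ℝ) (c : E n) (s : ℝ) : ℝ :=
  ∫ z, Φ z.1 * L.ws c s z.1 ^ L.m ∂L.V

/-- the truncated kernel, comparable with `min (d^(1-m)) (S^m d^(1-2m))` -/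
noncomputable def kS (S d : ℝ) : ℝ := (S / (S + d)) ^ L.m * d ^ (1 - L.m)

/-- smooth positive functions -/
def SP (u : E n → ℝ) : Prop := ContDiff ℝ ∞ u ∧ ∀ x, 0 < u x

/-- `g = u / w^((m-2)/2)` in the frame `(c, s)` -/
noncomputable def gs (c : E n) (s : ℝ) (u : E n → ℝ) (x : E n) : ℝ :=
  u x / L.ws c s x ^ ((L.m - 2) / 2)

theorem Js_eq (Φ : E n → ℝ) (c : E n) (s : ℝ) : L.Js Φ c s = L.J Φ c (s ^ 2 / 2) := rfl

end Lim

end Vale.Agent.P219.End
end

section

/-!
# P219 / End : bubble monotonicity, exact derivative of `ε ↦ ∫ Φ w_{c,ε}^m`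
-/

open MeasureTheory Set Metric
open scoped ContDiff Topology

namespace Vale.Agent.P219.End

variable {n : ℕ}

namespace Lim

variable (L : Lim n)

/-- `a² = ε (2 - k2 ε)` -/
noncomputable def a2 (ε : ℝ) : ℝ := ε * (2 - L.k2 * ε)

theorem a2_pos {ε : ℝ} (hε : 0 < ε) (hk : L.k2 * ε < 2) : 0 < L.a2 ε :=
  mul_pos hε (by linarith)

theorem a2_le (ε : ℝ) : L.a2 ε ≤ 2 * ε := by
  unfold a2
  linarith only [mul_nonneg L.k2_nonneg (sq_nonneg ε)]

theorem le_a2 {ε : ℝ} (hε : 0 < ε) (hk : L.k2 * ε ≤ 1) : ε ≤ L.a2 ε := by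
  unfold a2
  linarith only [mul_nonneg (le_of_lt (sub_pos.2 hε)) (sub_nonneg.2 hk)]

/-- admissible parameters -/
def Adm : Set ℝ := {ε | 0 < ε ∧ L.k2 * ε < 2}

theorem Adm_open : IsOpen L.Adm :=
  (isOpen_lt continuous_const continuous_id).inter
    (isOpen_lt (continuous_const.mul continuous_id) continuous_const)

/-- derivative under the integral sign for jointly continuous families -/
theorem hasDerivAt_int {f f' : ℝ → E n × E n → ℝ} {I : Set ℝ} (hI : IsOpen I)
    (hf : ∀ ε ∈ I, Continuous (f ε))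
    (hf' : ContinuousOn (fun q : ℝ × (E n × E n) => f' q.1 q.2) (I ×ˢ univ))
    (hd : ∀ ε ∈ I, ∀ z, HasDerivAt (fun e => f e z) (f' ε z) ε) {ε : ℝ} (hε : ε ∈ I) :
    HasDerivAt (fun e => ∫ z, f e z ∂L.V) (∫ z, f' ε z ∂L.V) ε := by
  obtain ⟨δ, hδ, hball⟩ := Metric.nhds_basis_closedBall.mem_iff.1 (hI.mem_nhds hε)
  have hK : IsCompact (closedBall ε δ ×ˢ (L.K ×ˢ sphere (0 : E n) 1)) :=
    (isCompact_closedBall ε δ).prod (L.K_compact.prod (isCompact_sphere 0 1))
  obtain ⟨C, hC⟩ := hK.exists_bound_of_continuousOn (hf'.mono (by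
    rintro ⟨e, z⟩ hq
    exact ⟨hball hq.1, mem_univ _⟩))
  have hcont : ∀ e ∈ I, Continuous (f' e) := by
    intro e he
    have h1 : Continuous fun z : E n × E n => ((e, z) : ℝ × (E n × E n)) := by fun_prop
    have h2 := hf'.comp_continuous h1 (fun z => ⟨he, mem_univ _⟩)
    exact h2
  have h := hasDerivAt_integral_of_dominated_loc_of_deriv_le (μ := L.V)
    (F := f) (F' := f') (x₀ := ε) (s := ball ε δ) (bound := fun _ => C)
    (ball_mem_nhds ε hδ)
    (by
      filter_upwards [hI.mem_nhds hε] with e he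
      exact (hf e he).aestronglyMeasurable)
    (L.integrable_of_cont (hf ε hε))
    (hcont ε hε).aestronglyMeasurable
    (by
      filter_upwards [L.V_supp] with z hz e he
      exact hC (e, z) ⟨ball_subset_closedBall he, hz.1, by simpa using hz.2⟩)
    (integrable_const _)
    (Filter.Eventually.of_forall fun z e he => hd e (hball (ball_subset_closedBall he)) z)
  exact h.2

/-- pointwise derivative of the bubble power -/
theorem hasDerivAt_w_rpow {c x : E n} {ε : ℝ} (hε : 0 < ε) (hk : L.k2 * ε < 2) :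
    HasDerivAt (fun e => L.w c e x ^ L.m)
      (L.m * L.w c ε x ^ L.m * (((1 - L.k2 * ε) * L.F c x - ε) /
        (L.a2 ε * (L.F c x + ε)))) ε := by
  have hp := L.Fe_pos (c := c) hε x
  have ha := L.a2_pos hε hk
  have hw := L.w_pos (c := c) hε hk x
  have h1 : HasDerivAt (fun e : ℝ => e * (2 - L.k2 * e)) (2 - 2 * L.k2 * ε) ε := by
    have h := (hasDerivAt_id ε).mul (((hasDerivAt_id ε).const_mul L.k2).const_sub 2)
    refine (h.congr_deriv ?_)
    simp only [id]
    ring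
  have h2 : HasDerivAt (fun e : ℝ => √(e * (2 - L.k2 * e)))
      ((2 - 2 * L.k2 * ε) / (2 * √(ε * (2 - L.k2 * ε)))) ε := h1.sqrt ha.ne'
  have h3 : HasDerivAt (fun e : ℝ => L.F c x + e) 1 ε := (hasDerivAt_id ε).const_add _
  have h4 := (h2.div h3 hp.ne').rpow_const (p := L.m) (Or.inl hw.ne')
  refine h4.congr_deriv ?_
  have hs : 0 < √(ε * (2 - L.k2 * ε)) := Real.sqrt_pos.2 ha
  have hss : √(ε * (2 - L.k2 * ε)) ^ 2 = L.a2 ε := Real.sq_sqrt ha.le
  have e1 : √(ε * (2 - L.k2 * ε)) / (L.F c x + ε) = L.w c ε x := rfl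
  have e2 : L.w c ε x ^ L.m = L.w c ε x ^ (L.m - 1) * L.w c ε x := by
    rw [Real.rpow_sub_one hw.ne', div_mul_cancel₀ _ hw.ne']
  have e3 : L.w c ε x * (L.F c x + ε) = √(ε * (2 - L.k2 * ε)) := by
    rw [← e1, div_mul_cancel₀ _ hp.ne']
  simp only [Pi.div_apply]
  rw [e1, e2]
  set s := √(ε * (2 - L.k2 * ε)) with hs'
  rw [← hss]
  have e4 : L.w c ε x = s / (L.F c x + ε) := rfl
  rw [e4]
  field_simp
  have e5 : s ^ 2 = ε * (2 - L.k2 * ε) := hss
  rw [e5]
  ring

/-- the derivative of the integrand, in closed form -/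
noncomputable def jd (Φ : E n → ℝ) (c : E n) (ε : ℝ) (z : E n × E n) : ℝ :=
  Φ z.1 * (L.m * L.w c ε z.1 ^ L.m * (((1 - L.k2 * ε) * L.F c z.1 - ε) /
        (L.a2 ε * (L.F c z.1 + ε))))

theorem w_joint (c : E n) (r : ℝ) : ContinuousOn
    (fun q : ℝ × (E n × E n) => L.w c q.1 q.2.1 ^ r) (L.Adm ×ˢ univ) := by
  have hF : Continuous fun q : ℝ × (E n × E n) => L.F c q.2.1 :=
    (L.Fc_cont c).comp (continuous_fst.comp continuous_snd)
  refine ContinuousOn.rpow_const ?_ ?_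
  · unfold w bub
    refine ContinuousOn.div ?_ ?_ ?_
    · exact Continuous.continuousOn (by fun_prop)
    · exact (hF.add continuous_fst).continuousOn
    · rintro ⟨e, z⟩ ⟨he, -⟩
      exact (L.Fe_pos (c := c) he.1 z.1).ne'
  · rintro ⟨e, z⟩ ⟨he, -⟩
    exact Or.inl (L.w_pos (c := c) he.1 he.2 z.1).ne'

theorem jd_joint {Φ : E n → ℝ} (hΦ : Continuous Φ) (c : E n) : ContinuousOn
    (fun q : ℝ × (E n × E n) => L.jd Φ c q.1 q.2) (L.Adm ×ˢ univ) := by
  have hF : Continuous fun q : ℝ × (E n × E n) => L.F c q.2.1 :=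
    (L.Fc_cont c).comp (continuous_fst.comp continuous_snd)
  have hP : Continuous fun q : ℝ × (E n × E n) => Φ q.2.1 :=
    hΦ.comp (continuous_fst.comp continuous_snd)
  unfold jd
  refine hP.continuousOn.mul ((continuousOn_const.mul (L.w_joint c L.m)).mul ?_)
  refine ContinuousOn.div ?_ ?_ ?_
  · exact Continuous.continuousOn (by fun_prop)
  · unfold a2
    exact Continuous.continuousOn (by fun_prop)
  · rintro ⟨e, z⟩ ⟨he, -⟩
    exact (mul_pos (L.a2_pos he.1 he.2) (L.Fe_pos (c := c) he.1 z.1)).ne'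

theorem hasDerivAt_Jb' {Φ : E n → ℝ} (hΦ : Continuous Φ) (c : E n) {ε : ℝ} (hε : 0 < ε)
    (hk : L.k2 * ε < 2) : HasDerivAt (L.J Φ c) (∫ z, L.jd Φ c ε z ∂L.V) ε := by
  refine L.hasDerivAt_int (f := fun e z => Φ z.1 * L.w c e z.1 ^ L.m) (f' := L.jd Φ c)
    (I := L.Adm) L.Adm_open ?_ (L.jd_joint hΦ c) ?_ ⟨hε, hk⟩
  · intro e he
    have h1 : Continuous fun x => L.w c e x ^ L.m := (L.w_rpow_smooth he.1 he.2 L.m).continuous
    exact (hΦ.comp continuous_fst).mul (h1.comp continuous_fst)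
  · intro e he z
    exact (L.hasDerivAt_w_rpow he.1 he.2).const_mul (Φ z.1)

/-- the density of the non-`Dl` part of the monotonicity formula -/
noncomputable def mp (Φ : E n → ℝ) (c : E n) (ε : ℝ) (z : E n × E n) : ℝ :=
  L.w c ε z.1 ^ L.m * (L.H0 * Φ z.1 * L.nc c z
    - L.m * Φ z.1 * L.nc c z ^ 2 / (L.F c z.1 + ε) - L.G Φ (L.F c) z)

theorem mp_cont {Φ : E n → ℝ} (hΦ : ContDiff ℝ 1 Φ) (c : E n) {ε : ℝ} (hε : 0 < ε)
    (hk : L.k2 * ε < 2) : Continuous (L.mp Φ c ε) := by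
  have h1 : Continuous fun z : E n × E n => L.w c ε z.1 ^ L.m :=
    (L.w_rpow_smooth hε hk L.m).continuous.comp continuous_fst
  have h2 := L.nc_cont c
  have h3 := L.G_cont hΦ (L.Fc_smooth1 c)
  have h4 : Continuous fun z : E n × E n => Φ z.1 := hΦ.continuous.comp continuous_fst
  have h5 : Continuous fun z : E n × E n => L.F c z.1 + ε :=
    ((L.Fc_cont c).comp continuous_fst).add continuous_const
  unfold mp
  refine h1.mul (((((continuous_const.mul h4).mul h2)).sub ?_).sub h3)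
  exact (((continuous_const.mul h4).mul (h2.pow 2))).div h5
    fun z => (L.Fe_pos (c := c) hε z.1).ne'

/-- pointwise form of the exact monotonicity formula -/
theorem a2_jd {Φ : E n → ℝ} (hΦ : ContDiff ℝ 1 Φ) (c : E n) {ε : ℝ} (hε : 0 < ε)
    (hk : L.k2 * ε < 2) (z : E n × E n) :
    L.a2 ε * L.jd Φ c ε z = L.dl c (fun x => Φ x * L.w c ε x ^ L.m) z - L.mp Φ c ε z := by
  have hp := L.Fe_pos (c := c) hε z.1
  have ha := L.a2_pos hε hk
  have hwd : DifferentiableAt ℝ (fun x => L.w c ε x ^ L.m) z.1 :=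
    ((L.w_rpow_smooth hε hk L.m).differentiable (by norm_num)) z.1
  have hG : L.G (fun x => Φ x * L.w c ε x ^ L.m) (L.F c) z =
      L.w c ε z.1 ^ L.m * L.G Φ (L.F c) z
        - L.m * Φ z.1 * (L.w c ε z.1 ^ L.m / (L.F c z.1 + ε)) *
          (2 * L.F c z.1 + L.k2 * L.F c z.1 ^ 2 - L.nc c z ^ 2) := by
    rw [← L.G_FF c z]
    show gv _ _ _ = _ * gv _ _ _ - _ * gv _ _ _
    rw [D_mul (hΦ.differentiable (by norm_num) z.1) hwd, L.D_w_rpow hε hk, gv_add_left,
      gv_smul_left, gv_smul_left, gv_smul_left]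
    ring
  simp only [dl, mp, jd, hG]
  field_simp
  ring

/-- **exact bubble monotonicity formula** -/
theorem hasDerivAt_Jb {Φ : E n → ℝ} (hΦ : ContDiff ℝ 1 Φ) (c : E n) {ε : ℝ} (hε : 0 < ε)
    (hk : L.k2 * ε < 2) : HasDerivAt (L.J Φ c)
      ((L.a2 ε)⁻¹ * (L.Dl c (fun x => Φ x * L.w c ε x ^ L.m) - ∫ z, L.mp Φ c ε z ∂L.V)) ε := by
  have ha := L.a2_pos hε hk
  refine (L.hasDerivAt_Jb' hΦ.continuous c hε hk).congr_deriv ?_
  have hψ : ContDiff ℝ 1 (fun x => Φ x * L.w c ε x ^ L.m) :=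
    hΦ.mul ((L.w_rpow_smooth hε hk L.m).of_le (by exact_mod_cast le_top))
  rw [Dl_eq, ← integral_sub (L.dl_integrable c hψ) (L.integrable_of_cont (L.mp_cont hΦ c hε hk)),
    ← integral_const_mul]
  refine integral_congr_ae (Filter.Eventually.of_forall fun z => ?_)
  simp only
  rw [← L.a2_jd hΦ c hε hk z, inv_mul_cancel_left₀ ha.ne']

end Lim

end Vale.Agent.P219.End
end

section

/-!
# P219 / End : bubble monotonicity (integrated, one-sided) and the upper density bound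
-/

open MeasureTheory Set Metric
open scoped ContDiff Topology

namespace Vale.Agent.P219.End

variable {n : ℕ}

namespace Lim

variable (L : Lim n)

/-- the error density of the one-sided bubble monotonicity -/
noncomputable def er (Φ : E n → ℝ) (c : E n) (ε : ℝ) : ℝ :=
  L.H0 ^ 2 / (4 * L.m) * (√(L.a2 ε))⁻¹ * ∫ z, Φ z.1 * L.w c ε z.1 ^ (L.m - 1) ∂L.V +
    (L.a2 ε)⁻¹ * ∫ z, L.w c ε z.1 ^ L.m * |L.G Φ (L.F c) z| ∂L.V

/-- the square completion -/
theorem sq_bound_eps {H m F nc : ℝ} (hm : 0 < m) (hF : 0 < F) :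
    H * nc - m * nc ^ 2 / F ≤ H ^ 2 * F / (4 * m) := by
  have h : H ^ 2 * F / (4 * m) - (H * nc - m * nc ^ 2 / F)
      = m / F * (nc - H * F / (2 * m)) ^ 2 := by
    field_simp
    ring
  have h2 : 0 ≤ m / F * (nc - H * F / (2 * m)) ^ 2 := by positivity
  linarith only [h2, h]

/-- bound of the non-`Dl` part -/
theorem int_mp_le {Φ : E n → ℝ} (hΦ : ContDiff ℝ 1 Φ) (h0 : ∀ x, 0 ≤ Φ x) (c : E n) {ε : ℝ}
    (hε : 0 < ε) (hk : L.k2 * ε < 2) :
    ∫ z, L.mp Φ c ε z ∂L.V ≤ L.a2 ε * L.er Φ c ε := by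
  have ha := L.a2_pos hε hk
  have hs : 0 < √(L.a2 ε) := Real.sqrt_pos.2 ha
  have hm := L.m_pos
  have hc1 : Continuous fun z : E n × E n => Φ z.1 * L.w c ε z.1 ^ (L.m - 1) :=
    (hΦ.continuous.comp continuous_fst).mul
      ((L.w_rpow_smooth hε hk (L.m - 1)).continuous.comp continuous_fst)
  have hc2 : Continuous fun z : E n × E n => L.w c ε z.1 ^ L.m * |L.G Φ (L.F c) z| :=
    ((L.w_rpow_smooth hε hk L.m).continuous.comp continuous_fst).mul
      (L.G_cont hΦ (L.Fc_smooth1 c)).abs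
  have e1 : L.a2 ε * L.er Φ c ε = ∫ z, (L.H0 ^ 2 / (4 * L.m) * √(L.a2 ε) *
      (Φ z.1 * L.w c ε z.1 ^ (L.m - 1)) + L.w c ε z.1 ^ L.m * |L.G Φ (L.F c) z|) ∂L.V := by
    have i1 : Integrable (fun z : E n × E n => L.H0 ^ 2 / (4 * L.m) * √(L.a2 ε) *
        (Φ z.1 * L.w c ε z.1 ^ (L.m - 1))) L.V := L.integrable_of_cont (continuous_const.mul hc1)
    rw [integral_add i1 (L.integrable_of_cont hc2), integral_const_mul]
    unfold er
    have e2 : L.a2 ε * (√(L.a2 ε))⁻¹ = √(L.a2 ε) := by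
      nth_rewrite 1 [← Real.mul_self_sqrt ha.le]
      rw [mul_assoc, mul_inv_cancel₀ hs.ne', mul_one]
    rw [mul_add, mul_inv_cancel_left₀ ha.ne']
    congr 1
    calc L.a2 ε * (L.H0 ^ 2 / (4 * L.m) * (√(L.a2 ε))⁻¹ *
          ∫ z, Φ z.1 * L.w c ε z.1 ^ (L.m - 1) ∂L.V)
        = L.H0 ^ 2 / (4 * L.m) * (L.a2 ε * (√(L.a2 ε))⁻¹) *
          ∫ z, Φ z.1 * L.w c ε z.1 ^ (L.m - 1) ∂L.V := by ring
      _ = _ := by rw [e2]
  rw [e1]
  refine L.integral_mono_of (L.mp_cont hΦ c hε hk) ((continuous_const.mul hc1).add hc2) ?_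
  intro z _ _
  have hp := L.Fe_pos (c := c) hε z.1
  have hw := L.w_pos (c := c) hε hk z.1
  have hwm : 0 < L.w c ε z.1 ^ L.m := Real.rpow_pos_of_pos hw _
  have e3 : L.w c ε z.1 ^ L.m * (L.F c z.1 + ε) = √(L.a2 ε) * L.w c ε z.1 ^ (L.m - 1) := by
    have e4 : L.w c ε z.1 * (L.F c z.1 + ε) = √(L.a2 ε) := by
      unfold w bub a2
      rw [div_mul_cancel₀ _ hp.ne']
    rw [← e4, Real.rpow_sub_one hw.ne']
    field_simp
  have h1 := mul_le_mul_of_nonneg_left (sq_bound_eps (H := L.H0) (nc := L.nc c z) hm hp)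
    (mul_nonneg hwm.le (h0 z.1))
  have h2 : -(L.G Φ (L.F c) z) ≤ |L.G Φ (L.F c) z| := neg_le_abs _
  have h3 := mul_le_mul_of_nonneg_left h2 hwm.le
  have e5 : L.w c ε z.1 ^ L.m * Φ z.1 * (L.H0 ^ 2 * (L.F c z.1 + ε) / (4 * L.m))
      = L.H0 ^ 2 / (4 * L.m) * √(L.a2 ε) * (Φ z.1 * L.w c ε z.1 ^ (L.m - 1)) := by
    calc _ = L.H0 ^ 2 / (4 * L.m) * Φ z.1 * (L.w c ε z.1 ^ L.m * (L.F c z.1 + ε)) := by ring
      _ = _ := by rw [e3]; ring
  have e6 : L.mp Φ c ε z = L.w c ε z.1 ^ L.m * Φ z.1 *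
      (L.H0 * L.nc c z - L.m * L.nc c z ^ 2 / (L.F c z.1 + ε)) +
      L.w c ε z.1 ^ L.m * (-(L.G Φ (L.F c) z)) := by
    unfold mp
    ring
  rw [e6]
  linarith only [e5, h3, h1]

/-- **one-sided bubble monotonicity**, differential form -/
theorem deriv_J_ge {c : E n} (hc : c ∈ L.K) {Φ : E n → ℝ} (hΦ : ContDiff ℝ ∞ Φ)
    (h0 : ∀ x, 0 ≤ Φ x) {ε : ℝ} (hε : 0 < ε) (hk : L.k2 * ε < 2) :
    ∃ J' : ℝ, HasDerivAt (L.J Φ c) J' ε ∧ -(L.er Φ c ε) ≤ J' := by
  have ha := L.a2_pos hε hk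
  have hΦ1 : ContDiff ℝ 1 Φ := hΦ.of_le (by exact_mod_cast le_top)
  refine ⟨_, L.hasDerivAt_Jb hΦ1 c hε hk, ?_⟩
  have h1 : 0 ≤ L.Dl c (fun x => Φ x * L.w c ε x ^ L.m) :=
    L.Dl_nonneg hc (hΦ.mul (L.w_rpow_smooth hε hk L.m)) fun x =>
      mul_nonneg (h0 x) (Real.rpow_nonneg (L.w_pos hε hk x).le _)
  have h2 := L.int_mp_le hΦ1 h0 c hε hk
  rw [le_inv_mul_iff₀ ha]
  linarith

end Lim

end Vale.Agent.P219.End
end

section

/-!
# P219 / End : uniform bounds of the bubble integrals and upper density (`ε` form)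
-/

open MeasureTheory Set Metric
open scoped ContDiff Topology

namespace Vale.Agent.P219.End

variable {n : ℕ}

namespace Lim

variable (L : Lim n)

theorem G_const_left (a : ℝ) (u : E n → ℝ) (z : E n × E n) : L.G (fun _ => a) u z = 0 := by
  have e1 : L.G (fun _ => a) u z = gv (D L.A (fun _ => a) z.1) (D L.A u z.1) z.2 := rfl
  rw [e1, D_const, gv_zero_left]

/-- `w^(m-1) ≤ w^m + 1` -/
theorem w_rpow_sub_le {c x : E n} {ε : ℝ} (hε : 0 < ε) (hk : L.k2 * ε < 2) :
    L.w c ε x ^ (L.m - 1) ≤ L.w c ε x ^ L.m + 1 := by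
  have hw := L.w_pos (c := c) hε hk x
  have hm := L.three_le
  rcases le_total (L.w c ε x) 1 with h | h
  · have h1 := Real.rpow_le_one hw.le h (show 0 ≤ L.m - 1 by linarith)
    have h2 := Real.rpow_nonneg hw.le L.m
    linarith
  · have h1 := Real.rpow_le_rpow_of_exponent_le h (show L.m - 1 ≤ L.m by linarith)
    linarith

/-- the error for `Φ = 1` -/
theorem er_one_le (c : E n) {ε : ℝ} (hε : 0 < ε) (hk : L.k2 * ε ≤ 1) :
    L.er (fun _ => 1) c ε ≤
      L.H0 ^ 2 / (4 * L.m) * (√ε)⁻¹ * (L.J (fun _ => 1) c ε + L.V.real univ) := by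
  have hk' : L.k2 * ε < 2 := by linarith
  have hm := L.m_pos
  have hcw : ∀ r : ℝ, Continuous fun z : E n × E n => L.w c ε z.1 ^ r := fun r =>
    (L.w_rpow_smooth hε hk' r).continuous.comp continuous_fst
  have e1 : L.er (fun _ => 1) c ε = L.H0 ^ 2 / (4 * L.m) * (√(L.a2 ε))⁻¹ *
      ∫ z, L.w c ε z.1 ^ (L.m - 1) ∂L.V := by
    unfold er
    simp [G_const_left]
  have e2 : L.J (fun _ => 1) c ε + L.V.real univ = ∫ z, (L.w c ε z.1 ^ L.m + 1) ∂L.V := by
    rw [integral_add (L.integrable_of_cont (hcw _)) (integrable_const _)]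
    unfold J
    simp
  have h1 : ∫ z, L.w c ε z.1 ^ (L.m - 1) ∂L.V ≤ ∫ z, (L.w c ε z.1 ^ L.m + 1) ∂L.V :=
    L.integral_mono_of (hcw _) ((hcw _).add continuous_const) fun z _ _ =>
      L.w_rpow_sub_le hε hk'
  have h2 : 0 ≤ ∫ z, L.w c ε z.1 ^ (L.m - 1) ∂L.V := L.integral_nonneg_of fun z _ _ =>
    Real.rpow_nonneg (L.w_pos hε hk' _).le _
  have h3 : (√(L.a2 ε))⁻¹ ≤ (√ε)⁻¹ := by
    have := Real.sqrt_pos.2 hε
    gcongr
    exact L.le_a2 hε hk
  have hβ : 0 ≤ L.H0 ^ 2 / (4 * L.m) := by positivity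
  rw [e1, e2]
  have h4 : 0 ≤ (√(L.a2 ε))⁻¹ := by positivity
  gcongr

/-- the modified bubble integral is monotone -/
theorem Y_mono {c : E n} (hc : c ∈ L.K) {e1 e2 : ℝ} (h1 : 0 < e1) (h12 : e1 ≤ e2)
    (hk : L.k2 * e2 ≤ 1) :
    Real.exp (L.H0 ^ 2 / (2 * L.m) * √e1) * (L.J (fun _ => 1) c e1 + L.V.real univ) ≤
      Real.exp (L.H0 ^ 2 / (2 * L.m) * √e2) * (L.J (fun _ => 1) c e2 + L.V.real univ) := by
  have hm := L.m_pos
  set β : ℝ := L.H0 ^ 2 / (2 * L.m) with hβ
  have hP : ContDiff ℝ ∞ fun _ : E n => (1 : ℝ) := contDiff_const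
  have hk' : ∀ e, e1 ≤ e → e ≤ e2 → L.k2 * e ≤ 1 := fun e _ he =>
    (mul_le_mul_of_nonneg_left he L.k2_nonneg).trans hk
  have hder : ∀ e ∈ Icc e1 e2, ∃ Y' : ℝ, HasDerivAt (fun e => Real.exp (β * √e) *
      (L.J (fun _ => 1) c e + L.V.real univ)) Y' e ∧ 0 ≤ Y' := by
    intro e he
    have he0 : 0 < e := h1.trans_le he.1
    have hke := hk' e he.1 he.2
    obtain ⟨J', hJ', hle⟩ := L.deriv_J_ge hc hP (fun _ => zero_le_one) he0 (by linarith)
    have hs : 0 < √e := Real.sqrt_pos.2 he0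
    have hd1 : HasDerivAt (fun e => Real.exp (β * √e)) (Real.exp (β * √e) * (β * (1 / (2 * √e)))) e :=
      ((Real.hasDerivAt_sqrt he0.ne').const_mul β).exp
    refine ⟨_, hd1.mul (hJ'.add_const _), ?_⟩
    have h5 := L.er_one_le c he0 hke
    have h6 : Real.exp (β * √e) * (β * (1 / (2 * √e))) * (L.J (fun _ => 1) c e + L.V.real univ) +
        Real.exp (β * √e) * J' = Real.exp (β * √e) * (L.H0 ^ 2 / (4 * L.m) * (√e)⁻¹ *
          (L.J (fun _ => 1) c e + L.V.real univ) + J') := by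
      rw [hβ]
      field_simp
      ring
    rw [h6]
    refine mul_nonneg (Real.exp_pos _).le ?_
    linarith only [h5, hle]
  have hmono : MonotoneOn (fun e => Real.exp (β * √e) *
      (L.J (fun _ => 1) c e + L.V.real univ)) (Icc e1 e2) := by
    refine monotoneOn_of_deriv_nonneg (convex_Icc _ _) (fun e he => ?_) (fun e he => ?_)
      (fun e he => ?_)
    · obtain ⟨Y', hY, -⟩ := hder e he
      exact hY.continuousAt.continuousWithinAt
    · obtain ⟨Y', hY, -⟩ := hder e (interior_subset he)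
      exact hY.differentiableAt.differentiableWithinAt
    · obtain ⟨Y', hY, h0⟩ := hder e (interior_subset he)
      rw [hY.deriv]
      exact h0
  exact hmono (left_mem_Icc.2 h12) (right_mem_Icc.2 h12) h12

theorem w_le (c x : E n) {ε : ℝ} (hε : 0 < ε) : L.w c ε x ≤ √(2 / ε) := by
  have h1 : L.w c ε x ≤ √(2 * ε) / ε := by
    unfold w bub
    have h2 : ε * (2 - L.k2 * ε) ≤ 2 * ε := L.a2_le ε
    have h3 := L.F_nonneg c x
    have h4 : ε ≤ L.F c x + ε := by linarith
    gcongr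
  refine h1.trans (le_of_eq ?_)
  rw [eq_comm, Real.sqrt_eq_iff_mul_self_eq (by positivity) (by positivity), div_mul_div_comm,
    Real.mul_self_sqrt (by positivity)]
  field_simp

theorem w_ge {c x : E n} {ε a : ℝ} (hε : 0 < ε) (hk : L.k2 * ε ≤ 1) (ha : L.F c x ≤ a) :
    √ε / (a + ε) ≤ L.w c ε x := by
  unfold w bub
  have h2 : ε ≤ ε * (2 - L.k2 * ε) := L.le_a2 hε hk
  have h3 := L.F_nonneg c x
  have h4 : 0 < L.F c x + ε := by linarith
  gcongr

/-- the reference scale -/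
noncomputable def es : ℝ := 1 / (1 + L.k2)

theorem es_pos : 0 < L.es := by
  have := L.k2_nonneg
  unfold es
  positivity

theorem es_le_one : L.es ≤ 1 := by
  have := L.k2_nonneg
  unfold es
  rw [div_le_one (by positivity)]
  linarith

theorem k2_es : L.k2 * L.es ≤ 1 := by
  have := L.k2_nonneg
  unfold es
  rw [mul_one_div, div_le_one (by positivity)]
  linarith

/-- bound of the bubble integrals -/
noncomputable def Cb : ℝ := Real.exp (L.H0 ^ 2 / (2 * L.m)) *
  (√(2 / L.es) ^ L.m * L.V.real univ + L.V.real univ)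

theorem V_univ_pos : 0 < L.V.real univ := by
  have := L.V_fin
  rw [measureReal_def, ENNReal.toReal_pos_iff]
  exact ⟨by simpa [pos_iff_ne_zero] using L.V_ne, measure_lt_top _ _⟩

theorem Cb_pos : 0 < L.Cb := by
  have h1 := L.V_univ_pos
  have h2 := L.es_pos
  unfold Cb
  positivity

/-- **uniform bound of the bubble integrals** -/
theorem J_one_le {c : E n} (hc : c ∈ L.K) {ε : ℝ} (hε : 0 < ε) (hε' : ε ≤ L.es) :
    ∫ z, L.w c ε z.1 ^ L.m ∂L.V ≤ L.Cb := by
  have hes := L.es_pos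
  have hm := L.m_pos
  have h1 := L.Y_mono hc hε hε' L.k2_es
  have hv := L.V_univ_pos
  have e1 : L.J (fun _ => 1) c ε = ∫ z, L.w c ε z.1 ^ L.m ∂L.V := by
    unfold J
    simp
  have hk' : L.k2 * L.es < 2 := by linarith [L.k2_es]
  have h2 : L.J (fun _ => 1) c L.es ≤ √(2 / L.es) ^ L.m * L.V.real univ := by
    have h3 : L.J (fun _ => 1) c L.es ≤ ∫ _z, √(2 / L.es) ^ L.m ∂L.V := by
      unfold J
      refine L.integral_mono_of (continuous_const.mul
        ((L.w_rpow_smooth hes hk' L.m).continuous.comp continuous_fst)) continuous_const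
        fun z _ _ => ?_
      rw [one_mul]
      exact Real.rpow_le_rpow (L.w_pos hes hk' _).le (L.w_le c z.1 hes) hm.le
    refine h3.trans (le_of_eq ?_)
    rw [integral_const, smul_eq_mul, mul_comm]
  have h0 : 0 ≤ L.J (fun _ => 1) c ε := by
    have hk : L.k2 * ε < 2 := (mul_le_mul_of_nonneg_left hε' L.k2_nonneg).trans_lt hk'
    exact L.integral_nonneg_of fun z _ _ =>
      mul_nonneg zero_le_one (Real.rpow_nonneg (L.w_pos hε hk _).le _)
  have h3 : (1 : ℝ) ≤ Real.exp (L.H0 ^ 2 / (2 * L.m) * √ε) := Real.one_le_exp (by (clear * - hm hε; positivity))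
  have h4 : Real.exp (L.H0 ^ 2 / (2 * L.m) * √L.es) ≤ Real.exp (L.H0 ^ 2 / (2 * L.m)) := by
    rw [Real.exp_le_exp]
    have h5 : √L.es ≤ 1 := Real.sqrt_le_one.2 L.es_le_one
    exact mul_le_of_le_one_right (by positivity) h5
  have h5 : L.J (fun _ => 1) c ε + L.V.real univ ≤
      Real.exp (L.H0 ^ 2 / (2 * L.m) * √ε) * (L.J (fun _ => 1) c ε + L.V.real univ) :=
    le_mul_of_one_le_left (by positivity) h3
  have h6 : Real.exp (L.H0 ^ 2 / (2 * L.m) * √L.es) * (L.J (fun _ => 1) c L.es + L.V.real univ) ≤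
      L.Cb := by
    have h7 : 0 ≤ L.J (fun _ => 1) c L.es := L.integral_nonneg_of fun z _ _ =>
      mul_nonneg zero_le_one (Real.rpow_nonneg (L.w_pos hes hk' _).le _)
    unfold Cb
    gcongr
  rw [← e1]
  linarith only [h6, h5, hv, h1]

/-- constant of the upper density bound -/
noncomputable def Cu : ℝ := L.Cb * 4 ^ (L.m / 2) + L.V.real univ * L.es ^ (-(L.m / 2))

theorem Cu_pos : 0 < L.Cu := by
  have h1 := L.V_univ_pos
  have h2 := L.es_pos
  have h3 := L.Cb_pos
  unfold Cu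
  positivity

/-- **upper density**, `ε` form -/
theorem upper {c : E n} (hc : c ∈ L.K) {a : ℝ} (ha : 0 < a) :
    L.V.real {z | L.F c z.1 ≤ a} ≤ L.Cu * a ^ (L.m / 2) := by
  have := L.V_fin
  have hm := L.m_pos
  have hes := L.es_pos
  have hv := L.V_univ_pos
  have hCb := L.Cb_pos
  have hap : 0 < a ^ (L.m / 2) := Real.rpow_pos_of_pos ha _
  rcases le_total a L.es with h | h
  · have hk : L.k2 * a ≤ 1 := (mul_le_mul_of_nonneg_left h L.k2_nonneg).trans L.k2_es
    have h1 := L.J_one_le hc ha h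
    set S : Set (E n × E n) := {z | L.F c z.1 ≤ a} with hS
    have hSm : MeasurableSet S :=
      (isClosed_le ((L.Fc_cont c).comp continuous_fst) continuous_const).measurableSet
    have hcw : Continuous fun z : E n × E n => L.w c a z.1 ^ L.m :=
      (L.w_rpow_smooth ha (by linarith) L.m).continuous.comp continuous_fst
    have h2 : (4 * a) ^ (-(L.m / 2)) * L.V.real S ≤ ∫ z in S, L.w c a z.1 ^ L.m ∂L.V := by
      have h3 : ∫ _z in S, (4 * a) ^ (-(L.m / 2)) ∂L.V ≤ ∫ z in S, L.w c a z.1 ^ L.m ∂L.V := by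
        refine setIntegral_mono_on (integrableOn_const (measure_ne_top _ _))
          (L.integrable_of_cont hcw).integrableOn hSm fun z hz => ?_
        have h4 := L.w_ge ha hk (show L.F c z.1 ≤ a from hz)
        have h5 : (4 * a) ^ (-(L.m / 2)) = (√a / (a + a)) ^ L.m := by
          have h6 : √a / (a + a) = (4 * a) ^ (-(1 / 2 : ℝ)) := by
            rw [Real.rpow_neg (by positivity), ← Real.sqrt_eq_rpow, div_eq_iff (by positivity),
              Real.sqrt_mul (by norm_num), show √(4 : ℝ) = 2 by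
                rw [show (4 : ℝ) = 2 ^ 2 by norm_num]; exact Real.sqrt_sq (by norm_num)]
            have h7 := Real.mul_self_sqrt ha.le
            have h8 : 0 < √a := Real.sqrt_pos.2 ha
            field_simp
            linarith
          rw [h6, ← Real.rpow_mul (by positivity)]
          congr 1
          ring
        rw [h5]
        exact Real.rpow_le_rpow (by positivity) h4 hm.le
      rw [setIntegral_const, smul_eq_mul, mul_comm] at h3
      exact h3
    have h3 : ∫ z in S, L.w c a z.1 ^ L.m ∂L.V ≤ ∫ z, L.w c a z.1 ^ L.m ∂L.V :=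
      setIntegral_le_integral (L.integrable_of_cont hcw) (Filter.Eventually.of_forall fun z =>
        Real.rpow_nonneg (L.w_pos ha (by linarith) _).le _)
    have h4 : (4 * a) ^ (-(L.m / 2)) * L.V.real S ≤ L.Cb := by linarith only [h3, h2, h1]
    have h5 : L.V.real S ≤ L.Cb * (4 * a) ^ (L.m / 2) := by
      rw [Real.rpow_neg (by positivity), inv_mul_le_iff₀ (by positivity)] at h4
      linarith only [h4]
    rw [Real.mul_rpow (by norm_num) ha.le] at h5
    refine h5.trans ?_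
    unfold Cu
    have h6 : 0 ≤ L.V.real univ * L.es ^ (-(L.m / 2)) * a ^ (L.m / 2) := by positivity
    linarith only [h6]
  · have h1 : L.V.real {z | L.F c z.1 ≤ a} ≤ L.V.real univ := measureReal_mono (subset_univ _)
    have h2 : 1 ≤ L.es ^ (-(L.m / 2)) * a ^ (L.m / 2) := by
      rw [Real.rpow_neg hes.le, ← Real.inv_rpow hes.le, ← Real.mul_rpow (by positivity) ha.le]
      refine Real.one_le_rpow ?_ (by positivity)
      rw [inv_mul_eq_div, one_le_div hes]
      exact h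
    have h3 : 0 ≤ L.Cb * 4 ^ (L.m / 2) * a ^ (L.m / 2) := by positivity
    unfold Cu
    linarith only [mul_nonneg (le_of_lt (sub_pos.2 hv)) (sub_nonneg.2 h2), mul_nonneg (mul_self_nonneg (1 : ℝ)) (sub_nonneg.2 h3), mul_nonneg (mul_self_nonneg (1 : ℝ)) (sub_nonneg.2 h1)]

end Lim

end Vale.Agent.P219.End
end

section

/-!
# P219 / End : upper density (leaf B3b), in the scale `s`
-/

open MeasureTheory Set Metric
open scoped ContDiff Topology

namespace Vale.Agent.P219.End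

variable {n : ℕ}

namespace Lim

variable (L : Lim n)

theorem Ad.es {s : ℝ} (hs : L.Ad s) : 0 < s ^ 2 / 2 ∧ s ^ 2 / 2 ≤ L.es := by
  obtain ⟨h0, h1, h2⟩ := hs
  have hk := L.k2_nonneg
  refine ⟨by positivity, ?_⟩
  unfold Lim.es
  rw [le_div_iff₀ (by positivity)]
  nlinarith

/-- B3b upper density -/
theorem upper_density : ∃ C > 0, (∀ c ∈ L.K, ∀ s : ℝ, 0 < s →
      L.V.real {z | L.ds c z.1 ≤ s} ≤ C * s ^ L.m) ∧
    ∀ c ∈ L.K, ∀ s : ℝ, L.Ad s → ∫ z, L.ws c s z.1 ^ L.m ∂L.V ≤ C := by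
  have h1 := L.Cu_pos
  have h2 := L.Cb_pos
  refine ⟨L.Cu + L.Cb, by positivity, fun c hc s hs => ?_, fun c hc s hs => ?_⟩
  · have hset : {z : E n × E n | L.ds c z.1 ≤ s} = {z | L.F c z.1 ≤ s ^ 2 / 2} := by
      ext z
      simp only [mem_ofPred_eq, ds]
      rw [Real.sqrt_le_left hs.le]
      constructor <;> intro h <;> linarith only [h]
    rw [hset]
    have h3 := L.upper hc (a := s ^ 2 / 2) (by positivity)
    have h4 : (s ^ 2 / 2) ^ (L.m / 2) ≤ s ^ L.m := by
      have h5 : s ^ L.m = (s ^ 2) ^ (L.m / 2) := by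
        rw [← Real.rpow_natCast, ← Real.rpow_mul hs.le]
        congr 1
        push_cast
        ring
      rw [h5]
      have hm := L.m_pos
      have h6 : s ^ 2 / 2 ≤ s ^ 2 := by linarith only [sq_nonneg s]
      gcongr
    have h5 : 0 < s ^ L.m := Real.rpow_pos_of_pos hs _
    calc L.V.real {z | L.F c z.1 ≤ s ^ 2 / 2} ≤ L.Cu * (s ^ 2 / 2) ^ (L.m / 2) := h3
      _ ≤ L.Cu * s ^ L.m := by gcongr
      _ ≤ (L.Cu + L.Cb) * s ^ L.m := by gcongr; linarith
  · have h3 := L.J_one_le hc (hs.es L).1 (hs.es L).2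
    have h4 : ∫ z, L.ws c s z.1 ^ L.m ∂L.V = ∫ z, L.w c (s ^ 2 / 2) z.1 ^ L.m ∂L.V := rfl
    rw [h4]
    linarith

end Lim

end Vale.Agent.P219.End
end

section

/-!
# P219 / End : density of the bubbles at almost every point
-/

open MeasureTheory Set Metric Filter
open scoped ENNReal ContDiff Topology

namespace Vale.Agent.P219.End

variable {n : ℕ}

namespace Lim

variable (L : Lim n)

/-- `V`-almost every point is in the support -/
theorem ae_supp : ∀ᵐ z ∂L.V, ∀ e > 0, 0 < L.V {z' | L.F z.1 z'.1 < e} := by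
  set μ : Measure (E n) := L.V.map Prod.fst with hμ
  have hset : ∀ (p : E n) (e : ℝ), MeasurableSet {x | L.F p x < e} := fun p e =>
    (isOpen_lt (L.Fc_cont p) continuous_const).measurableSet
  have hval : ∀ (p : E n) (e : ℝ), μ {x | L.F p x < e} = L.V {z' | L.F p z'.1 < e} := by
    intro p e
    rw [hμ, Measure.map_apply measurable_fst (hset p e)]
    rfl
  have h1 : μ {p : E n | ∃ e > 0, μ {x | L.F p x < e} = 0} = 0 := by
    refine measure_null_of_locally_null _ ?_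
    rintro p ⟨e, he, hpe⟩
    refine ⟨{x | L.F p x < e}, mem_nhdsWithin_of_mem_nhds ?_, hpe⟩
    refine (isOpen_lt (L.Fc_cont p) continuous_const).mem_nhds ?_
    show L.F p p < e
    rw [L.F_self]
    exact he
  have h2 : ∀ᵐ p ∂μ, ¬ ∃ e > 0, μ {x | L.F p x < e} = 0 := by
    rw [ae_iff]
    simpa using h1
  have h3 := ae_of_ae_map (measurable_fst.aemeasurable) h2
  filter_upwards [h3] with z hz e he
  rw [← hval]
  exact pos_iff_ne_zero.2 fun h => hz ⟨e, he, h⟩

/-- B3c, with `L.w c (s ^ 2 / 2)` in place of `L.ws c s` -/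
theorem dens_w : ∀ᵐ z ∂L.V, ∀ δ > 0, ∀ᶠ s in 𝓝[>] (0 : ℝ),
    sg L.m - δ ≤ ∫ y, L.w z.1 (s ^ 2 / 2) y.1 ^ L.m ∂L.V := by
  filter_upwards [L.ae_supp] with z hz δ hδ
  obtain ⟨ε₀, hε₀, h⟩ := L.dens z.1 hz δ hδ
  have h1 : Tendsto (fun s : ℝ => s ^ 2 / 2) (𝓝[>] 0) (𝓝 0) := by
    have : Tendsto (fun s : ℝ => s ^ 2 / 2) (𝓝 0) (𝓝 (0 ^ 2 / 2)) :=
      (Continuous.tendsto (by fun_prop) 0)
    simp only [ne_eq, OfNat.ofNat_ne_zero, not_false_eq_true, zero_pow, zero_div] at this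
    exact this.mono_left nhdsWithin_le_nhds
  filter_upwards [self_mem_nhdsWithin, h1.eventually_lt_const hε₀] with s hs hs'
  have hs0 : (0 : ℝ) < s := hs
  exact h (s ^ 2 / 2) (by positivity) hs'

/-- B3c density of the bubbles -/
theorem dens_bub : ∀ᵐ z ∂L.V, ∀ δ > 0, ∀ᶠ s in 𝓝[>] (0 : ℝ),
    sg L.m - δ ≤ ∫ y, L.ws z.1 s y.1 ^ L.m ∂L.V := L.dens_w

end Lim

end Vale.Agent.P219.End
end

section

/-!
# P219 / End : almost monotonicity of the bubble integral with the truncated kernel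
-/

open MeasureTheory Set Metric Filter
open scoped ContDiff Topology

namespace Vale.Agent.P219.End

variable {n : ℕ}

/-- the truncated kernel -/
noncomputable def kk (m s d : ℝ) : ℝ := (s / (s + d)) ^ m * d ^ (1 - m)

theorem kk_nonneg {m s d : ℝ} (hs : 0 ≤ s) (hd : 0 ≤ d) : 0 ≤ kk m s d := by
  unfold kk
  positivity

theorem kk_zero {m : ℝ} (hm : 1 < m) (s : ℝ) : kk m s 0 = 0 := by
  unfold kk
  rw [Real.zero_rpow (by linarith), mul_zero]

theorem hasDerivAt_kk {m s d : ℝ} (hm : 1 < m) (hs : 0 < s) (hd : 0 ≤ d) :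
    HasDerivAt (fun s => kk m s d) (m * kk m s d * (d / (s * (s + d)))) s := by
  rcases hd.eq_or_lt with rfl | hd
  · rw [kk_zero hm, mul_zero, zero_mul]
    have : (fun s => kk m s 0) = fun _ => (0 : ℝ) := funext fun s => kk_zero hm s
    rw [this]
    exact hasDerivAt_const s 0
  have h1 : 0 < s + d := by linarith
  have h2 : 0 < s / (s + d) := div_pos hs h1
  have h3 : HasDerivAt (fun s => s / (s + d)) (d / (s + d) ^ 2) s := by
    have h := (hasDerivAt_id s).fun_div ((hasDerivAt_id s).add_const d) (by simpa using h1.ne')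
    refine h.congr_deriv ?_
    simp only [id_eq]
    ring
  have h4 := (h3.rpow_const (p := m) (Or.inl h2.ne')).mul_const (d ^ (1 - m))
  refine h4.congr_deriv ?_
  unfold kk
  rw [Real.rpow_sub_one h2.ne']
  have hs' := hs.ne'
  have h1' := h1.ne'
  generalize (s / (s + d)) ^ m = Q
  field_simp

theorem kk_mono {m s t d : ℝ} (hm : 0 ≤ m) (hs : 0 ≤ s) (hst : s ≤ t) (hd : 0 ≤ d) :
    kk m s d ≤ kk m t d := by
  unfold kk
  refine mul_le_mul_of_nonneg_right ?_ (by positivity)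
  refine Real.rpow_le_rpow (by positivity) ?_ hm
  rcases hs.eq_or_lt with rfl | hs
  · simp only [zero_div]
    positivity
  rw [div_le_div_iff₀ (by linarith) (by linarith)]
  linarith only [mul_nonneg (sub_nonneg.2 hst) (sub_nonneg.2 hd)]

/-- the bubble is at most `4 s / (s + d)^2` -/
theorem bub_le {k2 F s d : ℝ} (hk2 : 0 ≤ k2) (hF : 0 ≤ F) (hs : 0 < s) (hk : k2 * s ^ 2 ≤ 1)
    (hd : d ^ 2 = 2 * F) (hd0 : 0 ≤ d) :
    √(s ^ 2 / 2 * (2 - k2 * (s ^ 2 / 2))) / (F + s ^ 2 / 2) ≤ 4 * s / (s + d) ^ 2 := by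
  have h1 : √(s ^ 2 / 2 * (2 - k2 * (s ^ 2 / 2))) ≤ s := by
    refine Real.sqrt_le_iff.2 ⟨hs.le, ?_⟩
    have : 0 ≤ k2 * s ^ 4 := by positivity
    linarith only [this]
  have h2 : 0 < F + s ^ 2 / 2 := by positivity
  have h3 : 0 < s + d := by linarith only [hd0, hs]
  rw [div_le_div_iff₀ h2 (by positivity)]
  have h4 : (s + d) ^ 2 ≤ 4 * (F + s ^ 2 / 2) := by linarith only [sq_nonneg (s - d), hd]
  calc √(s ^ 2 / 2 * (2 - k2 * (s ^ 2 / 2))) * (s + d) ^ 2 ≤ s * (4 * (F + s ^ 2 / 2)) :=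
        mul_le_mul h1 h4 (by positivity) hs.le
    _ = 4 * s * (F + s ^ 2 / 2) := by ring

/-- (K1) -/
theorem bub_rpow_le {m w s d : ℝ} (hm : 1 ≤ m) (hw : 0 ≤ w) (hs : 0 < s) (hd : 0 < d)
    (h : w ≤ 4 * s / (s + d) ^ 2) : w ^ m ≤ 4 ^ m * kk m s d / (s + d) := by
  have h1 : 0 < s + d := by linarith
  have h2 : w ^ m ≤ (4 * s / (s + d) ^ 2) ^ m := Real.rpow_le_rpow hw h (by linarith)
  have h3 : 4 * s / (s + d) ^ 2 = 4 * (s / (s + d)) * (s + d)⁻¹ := by
    field_simp
  have h4 : (4 * (s / (s + d)) * (s + d)⁻¹) ^ m =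
      4 ^ m * (s / (s + d)) ^ m * (s + d) ^ (-m) := by
    rw [Real.mul_rpow (by positivity) (by positivity), Real.mul_rpow (by norm_num) (by positivity),
      Real.inv_rpow h1.le, Real.rpow_neg h1.le]
  have h5 : (s + d) ^ (-m) ≤ d ^ (1 - m) / (s + d) := by
    rw [le_div_iff₀ h1]
    have e : (s + d) ^ (-m) * (s + d) = (s + d) ^ (1 - m) := by
      rw [← Real.rpow_add_one h1.ne']
      congr 1
      ring
    rw [e]
    exact Real.rpow_le_rpow_of_nonpos hd (by linarith only [hs]) (by linarith only [hm])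
  rw [h3, h4] at h2
  refine h2.trans ?_
  unfold kk
  calc 4 ^ m * (s / (s + d)) ^ m * (s + d) ^ (-m) ≤
      4 ^ m * (s / (s + d)) ^ m * (d ^ (1 - m) / (s + d)) :=
        mul_le_mul_of_nonneg_left h5 (by positivity)
    _ = 4 ^ m * ((s / (s + d)) ^ m * d ^ (1 - m)) / (s + d) := by ring

/-- (K2) -/
theorem bub_rpow_le2 {m w s d F : ℝ} (hm : 3 ≤ m) (hw : 0 ≤ w) (hs : 0 < s) (hd : 0 < d)
    (hF : d ^ 2 = 2 * F) (h : w ≤ 4 * s / (s + d) ^ 2) :
    (F + s ^ 2 / 2) * w ^ m ≤ 4 ^ m / 2 * kk m s d * d ^ 2 / (s + d) := by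
  have h1 : 0 < s + d := by linarith
  have h2 : w ^ m ≤ (4 * s / (s + d) ^ 2) ^ m := Real.rpow_le_rpow hw h (by linarith)
  have h3 : 4 * s / (s + d) ^ 2 = 4 * (s / (s + d)) * (s + d)⁻¹ := by
    field_simp
  have h4 : (4 * (s / (s + d)) * (s + d)⁻¹) ^ m =
      4 ^ m * (s / (s + d)) ^ m * (s + d) ^ (-m) := by
    rw [Real.mul_rpow (by positivity) (by positivity), Real.mul_rpow (by norm_num) (by positivity),
      Real.inv_rpow h1.le, Real.rpow_neg h1.le]
  rw [h3, h4] at h2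
  have h5 : (s + d) ^ (2 : ℝ) * (s + d) ^ (-m) ≤ d ^ (1 - m) * d ^ 2 / (s + d) := by
    rw [le_div_iff₀ h1]
    have e : (s + d) ^ (2 : ℝ) * (s + d) ^ (-m) * (s + d) = (s + d) ^ (3 - m) := by
      rw [← Real.rpow_add h1, ← Real.rpow_add_one h1.ne']
      congr 1
      ring
    have e2 : d ^ (1 - m) * d ^ 2 = d ^ (3 - m) := by
      rw [← Real.rpow_natCast d 2, ← Real.rpow_add hd]
      congr 1
      push_cast
      ring
    rw [e, e2]
    exact Real.rpow_le_rpow_of_nonpos hd (by linarith only [hs]) (by linarith)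
  have h6 : F + s ^ 2 / 2 ≤ (s + d) ^ (2 : ℝ) / 2 := by
    rw [Real.rpow_two]
    linarith only [mul_pos hs hd, hF]
  have h7 : 0 ≤ F + s ^ 2 / 2 := by nlinarith [sq_nonneg d]
  calc (F + s ^ 2 / 2) * w ^ m ≤
      ((s + d) ^ (2 : ℝ) / 2) * (4 ^ m * (s / (s + d)) ^ m * (s + d) ^ (-m)) :=
        mul_le_mul h6 h2 (by positivity) (by positivity)
    _ = 4 ^ m / 2 * (s / (s + d)) ^ m * ((s + d) ^ (2 : ℝ) * (s + d) ^ (-m)) := by ring
    _ ≤ 4 ^ m / 2 * (s / (s + d)) ^ m * (d ^ (1 - m) * d ^ 2 / (s + d)) :=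
        mul_le_mul_of_nonneg_left h5 (by positivity)
    _ = 4 ^ m / 2 * kk m s d * d ^ 2 / (s + d) := by
        unfold kk
        ring

end Vale.Agent.P219.End
end
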