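import Mathlib
import Vale.Agent.P219.Bdl.B2

set_option linter.all false

section

/-! # Area element of a radial contraction (task A6) -/

open MeasureTheory Set Metric
open scoped ENNReal ContDiff

namespace Vale.Agent.P219.TP

variable {n : ℕ} (G : Geo n)

/-- The radial map towards `p` with rate `θ`. -/
noncomputable def Geo.rad (G : Geo n) (θ : E n → ℝ) (p : E n) (t : ℝ) (x : E n) : E n :=
  G.ex p ((1 - t * θ (G.lg p x)) • G.lg p x)

/-! ### Derivative of `th` -/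

/-! ### The area element -/

namespace Geo

theorem T_inj (p v : E n) {z : E n} (h : G.T p v z = 0) : z = 0 := by
  have := G.norm_le_T p v z
  rw [h, norm_zero] at this
  exact norm_le_zero_iff.1 this

theorem exists_T_inv (p v : E n) : ∃ Ti : E n →L[ℝ] E n, (∀ z, Ti (G.T p v z) = z) ∧
    ∀ ξ, G.T p v (Ti ξ) = ξ := by
  have hinj : Function.Injective ((G.T p v : E n →L[ℝ] E n) : E n →ₗ[ℝ] E n) := by
    rw [injective_iff_map_eq_zero]
    exact fun z hz => G.T_inj p v hz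
  let Te := LinearEquiv.ofInjectiveEndo ((G.T p v : E n →L[ℝ] E n) : E n →ₗ[ℝ] E n) hinj
  refine ⟨LinearMap.toContinuousLinearMap (Te.symm : E n →ₗ[ℝ] E n), fun z => ?_, fun ξ => ?_⟩
  · exact Te.symm_apply_apply z
  · exact Te.apply_symm_apply ξ

theorem differentiable_ex (p : E n) : Differentiable ℝ (G.ex p) := by
  have h : ContDiff ℝ ∞ (fun v => G.ex p v) :=
    G.ex_smooth.comp (contDiff_const.prodMk contDiff_id)
  exact h.differentiable (by simp)

theorem differentiable_lg_ae (p : E n) : Differentiable ℝ (G.lg p) := by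
  have h : ContDiff ℝ ∞ (fun v => G.lg p v) :=
    G.lg_smooth.comp (contDiff_const.prodMk contDiff_id)
  exact h.differentiable (by simp)

end Geo

/-- the differential of `v ↦ (1 - t θ(v)) v` -/
noncomputable def radF (θ : E n → ℝ) (t : ℝ) (v : E n) : E n →L[ℝ] E n :=
  (1 - t * θ v) • ContinuousLinearMap.id ℝ (E n) - t • (fderiv ℝ θ v).smulRight v

theorem radF_apply (θ : E n → ℝ) (t : ℝ) (v z : E n) :
    radF θ t v z = (1 - t * θ v) • z - (t * fderiv ℝ θ v z) • v := by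
  simp [radF, smul_smul]

theorem hasFDerivAt_radF {θ : E n → ℝ} {v : E n} (t : ℝ) (hθ : DifferentiableAt ℝ θ v) :
    HasFDerivAt (fun u => (1 - t * θ u) • u) (radF θ t v) v := by
  have h1 : HasFDerivAt (fun u => 1 - t * θ u) (-(t • fderiv ℝ θ v)) v := by
    have := (hθ.hasFDerivAt.const_mul t).const_sub 1
    exact this
  have h2 := h1.smul (hasFDerivAt_id v)
  refine h2.congr_fderiv ?_
  ext1 z
  rw [radF_apply]
  simp
  abel

/-- the frame matrix of the differential of `rad` -/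
noncomputable def Geo.radB (θ : E n → ℝ) (p : E n) (t : ℝ) (v : E n) (Ti : E n →L[ℝ] E n) :
    E n →L[ℝ] E n :=
  (G.T p ((1 - t * θ v) • v)).comp ((radF θ t v).comp Ti)

theorem Geo.fderiv_rad {θ : E n → ℝ} {p x : E n} {t : ℝ} (hθ : DifferentiableAt ℝ θ (G.lg p x))
    {Ti : E n →L[ℝ] E n} (hTi : ∀ ξ, G.T p (G.lg p x) (Ti ξ) = ξ) (ξ : E n) :
    G.A (G.rad θ p t x) (G.radB θ p t (G.lg p x) Ti ξ) =
      fderiv ℝ (G.rad θ p t) x (G.A x ξ) := by
  have h1 : HasFDerivAt (G.rad θ p t)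
      ((fderiv ℝ (G.ex p) ((1 - t * θ (G.lg p x)) • G.lg p x)).comp
        ((radF θ t (G.lg p x)).comp (fderiv ℝ (G.lg p) x))) x :=
    HasFDerivAt.comp x
      (G.differentiable_ex p ((1 - t * θ (G.lg p x)) • G.lg p x)).hasFDerivAt
      (HasFDerivAt.comp x (hasFDerivAt_radF t hθ) (G.differentiable_lg_ae p x).hasFDerivAt)
  have hx : G.ex p (G.lg p x) = x := G.ex_lg p x
  have h2 : G.A x ξ = fderiv ℝ (G.ex p) (G.lg p x) (Ti ξ) := by
    rw [← G.T_spec, hx, hTi]
  have h3 : fderiv ℝ (G.lg p) x (G.A x ξ) = Ti ξ := by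
    have h4 := G.fderiv_lg p (G.lg p x) (Ti ξ)
    rw [hx] at h4
    rw [h2, h4]
  rw [h1.fderiv]
  show _ = fderiv ℝ (G.ex p) ((1 - t * θ (G.lg p x)) • G.lg p x)
    (radF θ t (G.lg p x) (fderiv ℝ (G.lg p) x (G.A x ξ)))
  rw [h3, ← G.T_spec]
  rfl

/-- Pythagoras for `T p v` -/
theorem Geo.pyth {p v z : E n} (hv : v ≠ 0) :
    ‖G.T p v z‖ ^ 2 = (inner ℝ v z / ‖v‖) ^ 2 +
      ‖G.T p v (z - (inner ℝ v z / ‖v‖ ^ 2) • v)‖ ^ 2 := by
  have hr : ‖v‖ ≠ 0 := norm_ne_zero_iff.2 hv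
  have h1 : inner ℝ (G.T p v v) (G.T p v (z - (inner ℝ v z / ‖v‖ ^ 2) • v)) = 0 := by
    rw [G.gauss, inner_sub_right, real_inner_smul_right, real_inner_self_eq_norm_sq]
    field_simp
    ring
  have h2 : ‖G.T p v v‖ ^ 2 = ‖v‖ ^ 2 := by
    rw [← real_inner_self_eq_norm_sq, G.gauss, real_inner_self_eq_norm_sq]
  have h3 : G.T p v z = (inner ℝ v z / ‖v‖ ^ 2) • G.T p v v +
      G.T p v (z - (inner ℝ v z / ‖v‖ ^ 2) • v) := by
    rw [← map_smul, ← map_add]
    congr 1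
    abel
  rw [h3, norm_add_sq_real, real_inner_smul_left, h1, norm_smul, mul_pow, h2, Real.norm_eq_abs,
    sq_abs]
  field_simp
  ring

theorem Geo.gauss_smul {p v w : E n} {c : ℝ} (hc : c ≠ 0) :
    inner ℝ (G.T p (c • v) v) (G.T p (c • v) w) = inner ℝ v w := by
  have h := G.gauss p (c • v) w
  rw [map_smul, real_inner_smul_left, real_inner_smul_left] at h
  exact mul_left_cancel₀ hc h

/-- Change of the volume density: `w (rad x) |det| = w x |det B|`. -/
theorem Geo.w_det_rad {x y : E n} {D B : E n →L[ℝ] E n} (hAB : ∀ ξ, G.A y (B ξ) = D (G.A x ξ)) :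
    G.w y * |D.det| = G.w x * |B.det| := by
  have hdet : |D.det| * |(G.A x).det| = |(G.A y).det| * |B.det| := by
    rw [← abs_mul, ← abs_mul]
    congr 1
    have h1 : (D.comp (G.A x) : E n →L[ℝ] E n) = (G.A y).comp B := by
      ext1 ξ
      exact (hAB ξ).symm
    have h2 := congrArg ContinuousLinearMap.det h1
    unfold ContinuousLinearMap.det at h2 ⊢
    rw [ContinuousLinearMap.toLinearMap_comp, ContinuousLinearMap.toLinearMap_comp,
      LinearMap.det_comp, LinearMap.det_comp] at h2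
    exact h2
  have h1 := G.w_det x
  have h2 := G.w_det y
  calc G.w y * |D.det| = G.w y * |D.det| * (G.w x * |(G.A x).det|) := by rw [h1, mul_one]
    _ = G.w x * (G.w y * (|D.det| * |(G.A x).det|)) := by ring
    _ = G.w x * (G.w y * |(G.A y).det| * |B.det|) := by rw [hdet]; ring
    _ = G.w x * |B.det| := by rw [h2, one_mul]

end Vale.Agent.P219.TP
end

section

/-! # Scalar expansion (task A5b) -/

namespace Vale.Agent.P219.TP

end Vale.Agent.P219.TP
end

section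

/-! # Radial diffeomorphisms and change of variables (task A7) -/

open MeasureTheory Set Metric
open scoped ENNReal ContDiff NNReal

namespace Vale.Agent.P219.TP

variable {n : ℕ} (G : Geo n)

/-- `v ↦ (1 - tθ(v)) v` is a diffeomorphism for small `t`. PROOF: Lipschitz perturbation of the
identity (`ApproximatesLinearOn.toHomeomorph`), then `Homeomorph.contDiff_symm`. -/
theorem exists_diffeo {θ : E n → ℝ} (hθ : ContDiff ℝ ∞ θ) {M : ℝ} (hM : 0 ≤ M)
    (hL : ∀ v v', ‖θ v • v - θ v' • v'‖ ≤ M * ‖v - v'‖) {t : ℝ} (ht : |t| * M < 1) :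
    ∃ F : E n ≃ₜ E n, (∀ v, F v = (1 - t * θ v) • v) ∧ ContDiff ℝ ∞ F ∧
      ContDiff ℝ ∞ F.symm := by
  set f : E n → E n := fun v => (1 - t * θ v) • v with hf
  set g : E n → E n := fun v => θ v • v with hg
  have hgs : ContDiff ℝ ∞ g := hθ.smul contDiff_id
  have hfs : ContDiff ℝ ∞ f := (contDiff_const.sub (contDiff_const.mul hθ)).smul contDiff_id
  have hfg : ∀ v, f v = v - t • g v := by
    intro v
    simp only [hf, hg, sub_smul, one_smul, mul_smul]
  have hlip : ∀ c : ℝ≥0, (c : ℝ) = |t| * M →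
      ApproximatesLinearOn f ((ContinuousLinearEquiv.refl ℝ (E n)) : E n →L[ℝ] E n) univ c := by
    intro c hc x _ y _
    have h1 : f x - f y - ((ContinuousLinearEquiv.refl ℝ (E n)) : E n →L[ℝ] E n) (x - y)
        = -(t • (g x - g y)) := by
      rw [hfg, hfg, smul_sub]
      simp only [ContinuousLinearEquiv.coe_refl, ContinuousLinearMap.coe_id', id]
      abel
    rw [h1, norm_neg, norm_smul, Real.norm_eq_abs, hc, mul_assoc]
    exact mul_le_mul_of_nonneg_left (hL x y) (abs_nonneg _)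
  have hc0 : 0 ≤ |t| * M := mul_nonneg (abs_nonneg _) hM
  obtain ⟨c, hc⟩ : ∃ c : ℝ≥0, (c : ℝ) = |t| * M := ⟨⟨|t| * M, hc0⟩, rfl⟩
  have hN : Subsingleton (E n) ∨
      c < ‖((ContinuousLinearEquiv.refl ℝ (E n)).symm : E n →L[ℝ] E n)‖₊⁻¹ := by
    by_cases hs : Subsingleton (E n)
    · exact Or.inl hs
    · right
      have : Nontrivial (E n) := not_subsingleton_iff_nontrivial.1 hs
      have h1 : ‖((ContinuousLinearEquiv.refl ℝ (E n)).symm : E n →L[ℝ] E n)‖₊ = 1 := by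
        have : ((ContinuousLinearEquiv.refl ℝ (E n)).symm : E n →L[ℝ] E n)
            = ContinuousLinearMap.id ℝ (E n) := rfl
        rw [this]
        exact ContinuousLinearMap.nnnorm_id
      rw [h1, inv_one, ← NNReal.coe_lt_coe, hc]
      exact ht
  let F : E n ≃ₜ E n := (hlip c hc).toHomeomorph f hN
  have hF : ∀ v, F v = f v := fun v => rfl
  refine ⟨F, hF, hfs, ?_⟩
  have hgl : ∀ v, ‖fderiv ℝ g v‖ ≤ M := by
    intro v
    have hl : LipschitzWith ⟨M, hM⟩ g := LipschitzWith.of_dist_le_mul (fun x y => by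
      rw [dist_eq_norm, dist_eq_norm]
      exact hL x y)
    exact norm_fderiv_le_of_lipschitz ℝ hl
  have hu : ∀ v, ∃ e : E n ≃L[ℝ] E n, HasFDerivAt f (e : E n →L[ℝ] E n) v := by
    intro v
    have h1 : ‖t • fderiv ℝ g v‖ < 1 := by
      rw [norm_smul, Real.norm_eq_abs]
      exact (mul_le_mul_of_nonneg_left (hgl v) (abs_nonneg _)).trans_lt ht
    refine ⟨ContinuousLinearEquiv.unitsEquiv ℝ (E n) (Units.oneSub (t • fderiv ℝ g v) h1), ?_⟩
    have h2 : HasFDerivAt f (ContinuousLinearMap.id ℝ (E n) - t • fderiv ℝ g v) v := by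
      have h3 : HasFDerivAt g (fderiv ℝ g v) v :=
        ((hgs.differentiable (by simp)) v).hasFDerivAt
      have h4 := (hasFDerivAt_id (𝕜 := ℝ) v).sub (h3.const_smul t)
      refine h4.congr_of_eventuallyEq (Filter.Eventually.of_forall fun w => ?_)
      simp [hfg]
    have h5 : ((ContinuousLinearEquiv.unitsEquiv ℝ (E n)
        (Units.oneSub (t • fderiv ℝ g v) h1) : E n ≃L[ℝ] E n) : E n →L[ℝ] E n) =
        ContinuousLinearMap.id ℝ (E n) - t • fderiv ℝ g v := by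
      ext x
      rw [ContinuousLinearEquiv.coe_coe, ContinuousLinearEquiv.unitsEquiv_apply,
        Units.val_oneSub]
      rfl
    rw [h5]
    exact h2
  choose e he using hu
  exact Homeomorph.contDiff_symm F he hfs

/-- The corresponding diffeomorphism of the manifold. -/
theorem exists_diffeo_geo {θ : E n → ℝ} (hθ : ContDiff ℝ ∞ θ) {M : ℝ} (hM : 0 ≤ M)
    (hL : ∀ v v', ‖θ v • v - θ v' • v'‖ ≤ M * ‖v - v'‖) {t : ℝ} (ht : |t| * M < 1) (p : E n) :
    ∃ Ψ : E n ≃ₜ E n, (∀ x, Ψ x = G.ex p ((1 - t * θ (G.lg p x)) • G.lg p x)) ∧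
      ContDiff ℝ ∞ Ψ ∧ ContDiff ℝ ∞ Ψ.symm := by
  obtain ⟨F, hF, hF1, hF2⟩ := exists_diffeo hθ hM hL ht
  have hex : ContDiff ℝ ∞ (G.ex p) := G.ex_smooth.comp (contDiff_const.prodMk contDiff_id)
  have hlg : ContDiff ℝ ∞ (G.lg p) := G.lg_smooth.comp (contDiff_const.prodMk contDiff_id)
  let X : E n ≃ₜ E n :=
    { toFun := G.ex p
      invFun := G.lg p
      left_inv := G.lg_ex p
      right_inv := G.ex_lg p
      continuous_toFun := hex.continuous
      continuous_invFun := hlg.continuous }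
  refine ⟨X.symm.trans (F.trans X), fun x => ?_, ?_, ?_⟩
  · change G.ex p (F (G.lg p x)) = _
    rw [hF]
  · exact hex.comp (hF1.comp hlg)
  · exact hex.comp (hF2.comp hlg)

/-- Change of variables. -/
theorem integral_vol_comp {Ψ : E n ≃ₜ E n} (hΨ : ContDiff ℝ ∞ Ψ) (F : E n → ℝ) :
    ∫ y, F y ∂G.vol =
      ∫ x, F (Ψ x) * (G.w (Ψ x) * |(fderiv ℝ Ψ x).det| / G.w x) ∂G.vol := by
  have hm : Measurable fun x => ENNReal.ofReal (G.w x) :=
    G.w_smooth.continuous.measurable.ennreal_ofReal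
  have hfin : ∀ᵐ x ∂(volume : Measure (E n)), ENNReal.ofReal (G.w x) < ⊤ :=
    Filter.Eventually.of_forall fun x => ENNReal.ofReal_lt_top
  rw [Geo.vol, integral_withDensity_eq_integral_toReal_smul hm hfin,
    integral_withDensity_eq_integral_toReal_smul hm hfin]
  have h1 := integral_image_eq_integral_abs_det_fderiv_smul (volume : Measure (E n))
    (s := univ) (f := Ψ) (f' := fun x => fderiv ℝ Ψ x) MeasurableSet.univ
    (fun x _ => ((hΨ.differentiable (by simp)) x).hasFDerivAt.hasFDerivWithinAt)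
    (Ψ.injective.injOn) (fun y => (ENNReal.ofReal (G.w y)).toReal • F y)
  rw [image_univ, Ψ.surjective.range_eq, setIntegral_univ, setIntegral_univ] at h1
  rw [h1]
  refine integral_congr_ae (Filter.Eventually.of_forall fun x => ?_)
  have hx := G.w_pos x
  have hy := G.w_pos (Ψ x)
  simp only [smul_eq_mul, ENNReal.toReal_ofReal hx.le, ENNReal.toReal_ofReal hy.le]
  field_simp

/-- The gradient of `h ∘ Ψ⁻¹`. -/
theorem D_comp_symm {Ψ : E n ≃ₜ E n} (hΨ : ContDiff ℝ ∞ Ψ) (hΨ' : ContDiff ℝ ∞ Ψ.symm)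
    {h : E n → ℝ} (hh : ContDiff ℝ 1 h) (x ξ η : E n)
    (hη : G.A (Ψ x) η = fderiv ℝ Ψ x (G.A x ξ)) :
    inner ℝ (G.D (h ∘ Ψ.symm) (Ψ x)) η = inner ℝ (G.D h x) ξ := by
  rw [G.inner_D, G.inner_D, hη]
  have h1 : HasFDerivAt Ψ (fderiv ℝ Ψ x) x :=
    ((hΨ.differentiable (by simp)) x).hasFDerivAt
  have h2 : HasFDerivAt (h ∘ Ψ.symm) (fderiv ℝ (h ∘ Ψ.symm) (Ψ x)) (Ψ x) :=
    (((hh.comp (hΨ'.of_le (by simp))).differentiable (by simp)) (Ψ x)).hasFDerivAt
  have h3 := h2.comp x h1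
  have h4 : (h ∘ Ψ.symm) ∘ Ψ = h := by
    ext y; simp
  rw [h4] at h3
  rw [h3.fderiv]
  rfl

end Vale.Agent.P219.TP
end

section

/-! # Total variation of a contracted function (task A9b) -/

open MeasureTheory Set Metric
open scoped ENNReal ContDiff

namespace Vale.Agent.P219.TP

variable {n : ℕ} (G : Geo n)

/-- The contracted function stays in the class. -/
theorem cls_contract {o p : E n} {ρ t : ℝ} (hp : ‖G.lg o p‖ ≤ ρ) {θ : E n → ℝ}
    (hθ : ∀ x, ‖G.lg o x‖ ≤ ρ → 0 ≤ 1 - t * θ (G.lg p x) ∧ 1 - t * θ (G.lg p x) ≤ 1)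
    {Ψ : E n ≃ₜ E n} (hΨ : ∀ x, Ψ x = G.rad θ p t x) (hΨ2 : ContDiff ℝ ∞ Ψ.symm) {h : E n → ℝ}
    (hh : G.Cls o ρ h) : G.Cls o ρ (h ∘ Ψ.symm) where
  smooth := hh.smooth.comp (hΨ2.of_le (by exact_mod_cast le_top))
  nonneg x := hh.nonneg _
  le_one x := hh.le_one _
  supp y hy := by
    have h1 : ‖G.lg o (Ψ.symm y)‖ ≤ ρ := hh.supp _ hy
    have h2 : Ψ (Ψ.symm y) = y := Ψ.apply_symm_apply y
    rw [← h2, hΨ, Geo.rad]
    exact G.ball_convex hp h1 (hθ _ h1).1 (hθ _ h1).2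

theorem Cls.hasCompactSupport {o : E n} {ρ : ℝ} {h : E n → ℝ} (hh : G.Cls o ρ h) :
    HasCompactSupport h :=
  HasCompactSupport.intro (G.isCompact_gball o ρ) fun x hx => by
    by_contra h1
    exact hx (hh.supp x h1)

theorem perc_norm_lg_le {o p x : E n} {ρ : ℝ} (hp : ‖G.lg o p‖ ≤ ρ) (hx : ‖G.lg o x‖ ≤ ρ) :
    ‖G.lg p x‖ ≤ 2 * ρ := by
  have h1 := G.lg_nonexp p x o
  rw [G.norm_lg_comm x o] at h1
  have h2 : ‖G.lg p o‖ ≤ ρ := by rw [G.norm_lg_comm]; exact hp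
  calc ‖G.lg p x‖ = ‖(G.lg p x - G.lg p o) + G.lg p o‖ := by rw [sub_add_cancel]
    _ ≤ ‖G.lg p x - G.lg p o‖ + ‖G.lg p o‖ := norm_add_le _ _
    _ ≤ 2 * ρ := by linarith

theorem perc_D_zero {o : E n} {ρ : ℝ} {h : E n → ℝ} (hh : G.Cls o ρ h) {x : E n}
    (hx : ρ < ‖G.lg o x‖) : h =ᶠ[nhds x] fun _ => 0 := by
  have hc : Continuous fun y => ‖G.lg o y‖ :=
    (G.lg_smooth.continuous.comp (continuous_const.prodMk continuous_id)).norm
  filter_upwards [(isOpen_lt continuous_const hc).mem_nhds hx] with y hy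
  by_contra h1
  exact absurd (hh.supp y h1) (not_le.mpr hy)

theorem perc_D_of_eventually {h : E n → ℝ} {x : E n} (hx : h =ᶠ[nhds x] fun _ => 0) :
    G.D h x = 0 := by
  have h1 : fderiv ℝ h x = 0 := by
    rw [hx.fderiv_eq, fderiv_fun_const]
    rfl
  rw [Geo.D, h1, ContinuousLinearMap.zero_comp, map_zero]

theorem perc_D_cont {h : E n → ℝ} (hh : ContDiff ℝ 1 h) : Continuous (G.D h) := by
  have h1 : Continuous fun x => (fderiv ℝ h x).comp (G.A x) :=
    (hh.continuous_fderiv (by simp)).clm_comp G.A_smooth.continuous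
  exact (InnerProductSpace.toDual ℝ (E n)).symm.continuous.comp h1

theorem perc_D_integrable {o : E n} {ρ : ℝ} {h : E n → ℝ} (hh : G.Cls o ρ h) :
    Integrable (fun x => ‖G.D h x‖) G.vol := by
  refine (perc_D_cont G hh.smooth).norm.integrable_of_hasCompactSupport ?_
  refine HasCompactSupport.intro (G.isCompact_gball o ρ) fun x hx => ?_
  rw [perc_D_of_eventually G (perc_D_zero G hh (not_le.mp hx)), norm_zero]

end Vale.Agent.P219.TP
end

section

/-! # Volume of a contracted function (task A9c) -/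

open MeasureTheory Set Metric
open scoped ENNReal ContDiff

namespace Vale.Agent.P219.TP

variable {n : ℕ} (G : Geo n)

theorem vpc_norm_lg_le {o p x : E n} {ρ : ℝ} (hp : ‖G.lg o p‖ ≤ ρ) (hx : ‖G.lg o x‖ ≤ ρ) :
    ‖G.lg p x‖ ≤ 2 * ρ := by
  have h1 := G.lg_nonexp p x o
  rw [G.norm_lg_comm x o] at h1
  have h2 : ‖G.lg p o‖ ≤ ρ := by rw [G.norm_lg_comm]; exact hp
  calc ‖G.lg p x‖ = ‖(G.lg p x - G.lg p o) + G.lg p o‖ := by rw [sub_add_cancel]
    _ ≤ ‖G.lg p x - G.lg p o‖ + ‖G.lg p o‖ := norm_add_le _ _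
    _ ≤ 2 * ρ := by linarith

theorem vpc_hasCompactSupport {o : E n} {ρ : ℝ} {h : E n → ℝ} (hh : G.Cls o ρ h) :
    HasCompactSupport h := by
  refine HasCompactSupport.of_support_subset_isCompact (G.isCompact_gball o ρ) ?_
  intro x hx
  exact hh.supp x hx

end Vale.Agent.P219.TP
end

section

/-! # First variation with uniform second order bounds (task A9d) -/

open MeasureTheory Set Metric
open scoped ENNReal ContDiff

namespace Vale.Agent.P219.TP

variable {n : ℕ} (G : Geo n)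

end Vale.Agent.P219.TP
end

section

/-! # P219, curvature `≤ -1`: the abstract geometry -/

open MeasureTheory Set Metric
open scoped ENNReal ContDiff

namespace Vale.Agent.P219.TP

variable {n : ℕ}

/-- The hyperbolic cotangent. -/
noncomputable def cth (r : ℝ) : ℝ := Real.cosh r / Real.sinh r

/-- `d/dr log (J / sinh^{n-1})` at `v`, `r = |v|`: the trace of the Hessian of the distance from
`x`, at `ex x v`, minus its value `(n-1) coth r` in curvature `-1`. -/
noncomputable def Geo.tau (G : Geo n) (x v : E n) : ℝ :=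
  fderiv ℝ (fun w => Real.log |(G.T x w).det|) v (‖v‖⁻¹ • v) +
    ((n : ℝ) - 1) / ‖v‖ - ((n : ℝ) - 1) * cth ‖v‖

/-- Abstract geometry of a complete metric on `ℝⁿ` with `Sec ≤ -1`. -/
structure GeoH (n : ℕ) extends Geo n where
  /-- Rauch comparison -/
  monoH : ∀ (x v z : E n) (s : ℝ), inner ℝ v z = 0 → 0 ≤ s → s ≤ 1 →
    s * Real.sinh ‖v‖ * ‖T x (s • v) z‖ ≤ Real.sinh (s * ‖v‖) * ‖T x v z‖
  /-- two-ended comparison -/
  bonus : ∀ (x v : E n) (a b : ℝ), v ≠ 0 → 0 ≤ a → 0 ≤ b →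
    2 * a * b / Real.sinh ‖v‖ * (1 - (Real.sinh ‖v‖ / ‖v‖) ^ (n - 1) / |(T x v).det|) ≤
      b ^ 2 * toGeo.tau x v + a ^ 2 * toGeo.tau (ex x v) (lg (ex x v) x)

end Vale.Agent.P219.TP
end

section

/-!
# P255: lifting a path through a local homeomorphism when all partial lifts stay in a compact set
-/

open Topology Set Filter

namespace Vale.Agent.P255

variable {E X : Type*} [TopologicalSpace E] [TopologicalSpace X] {p : E → X} {γ : ℝ → X} {e : E}

/-- `Γ` lifts `γ` on `[0,T]`, starting at `e`. -/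
def IsLiftOn (p : E → X) (γ : ℝ → X) (e : E) (T : ℝ) (Γ : ℝ → E) : Prop :=
  ContinuousOn Γ (Icc 0 T) ∧ (∀ t ∈ Icc 0 T, p (Γ t) = γ t) ∧ Γ 0 = e

omit [TopologicalSpace X] in
theorem IsLiftOn.mono {T T' : ℝ} {Γ : ℝ → E} (h : IsLiftOn p γ e T Γ) (hT : T' ≤ T) :
    IsLiftOn p γ e T' Γ :=
  ⟨h.1.mono (Icc_subset_Icc_right hT), fun t ht => h.2.1 t (Icc_subset_Icc_right hT ht), h.2.2⟩

theorem IsLiftOn.extend (q : OpenPartialHomeomorph E X) (hq : p = q) {s T : ℝ} (h0 : 0 ≤ s)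
    (hsT : s ≤ T) {Γ : ℝ → E} (hΓ : IsLiftOn p γ e s Γ) (hV : Γ s ∈ q.source)
    (hW : ∀ t ∈ Icc s T, γ t ∈ q.target) (hγ : ContinuousOn γ (Icc s T)) :
    ∃ Γ', IsLiftOn p γ e T Γ' := by
  have hs : γ s = q (Γ s) := by rw [← hΓ.2.1 s ⟨h0, le_rfl⟩, hq]
  have hs' : q.symm (γ s) = Γ s := by rw [hs, q.left_inv hV]
  refine ⟨fun t => if t ≤ s then Γ t else q.symm (γ t), ?_, ?_, ?_⟩
  · have h1 : ContinuousOn (fun t => if t ≤ s then Γ t else q.symm (γ t)) (Icc 0 s) :=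
      hΓ.1.congr (fun t ht => by simp [ht.2])
    have h2 : ContinuousOn (fun t => if t ≤ s then Γ t else q.symm (γ t)) (Icc s T) := by
      refine (q.continuousOn_symm.comp hγ (fun t ht => hW t ht)).congr (fun t ht => ?_)
      by_cases h : t ≤ s
      · have : t = s := le_antisymm h ht.1
        subst this
        simp [hs']
      · simp [h]
    have h3 := h1.union_of_isClosed h2 isClosed_Icc isClosed_Icc
    rwa [Icc_union_Icc_eq_Icc h0 hsT] at h3
  · intro t ht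
    by_cases h : t ≤ s
    · simp only [h, if_true]
      exact hΓ.2.1 t ⟨ht.1, h⟩
    · simp only [h, if_false]
      rw [hq]
      exact q.right_inv (hW t ⟨(not_le.1 h).le, ht.2⟩)
  · simp [h0, hΓ.2.2]

theorem exists_lift [T2Space X] (hp : IsLocalHomeomorph p) (hγ : ContinuousOn γ (Icc 0 1))
    (he : p e = γ 0) {K : Set E} (hK : IsCompact K)
    (hb : ∀ T ∈ Icc (0 : ℝ) 1, ∀ Γ, IsLiftOn p γ e T Γ → ∀ t ∈ Icc 0 T, Γ t ∈ K) :
    ∃ Γ, IsLiftOn p γ e 1 Γ := by
  set S : Set ℝ := {T | ∃ Γ, IsLiftOn p γ e T Γ} with hS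
  have h0 : (0 : ℝ) ∈ S := by
    refine ⟨fun _ => e, continuousOn_const, fun t ht => ?_, rfl⟩
    have : t = 0 := le_antisymm ht.2 ht.1
    rw [this, he]
  have hclosed : IsClosed (S ∩ Icc 0 1) := by
    rw [isClosed_iff_frequently]
    intro T hT
    have hT01 : T ∈ Icc (0 : ℝ) 1 := by
      have : ∃ᶠ y in 𝓝 T, y ∈ Icc (0 : ℝ) 1 := hT.mono (fun y hy => hy.2)
      exact isClosed_iff_frequently.1 isClosed_Icc T this
    refine ⟨?_, hT01⟩
    -- endpoints
    have : Nonempty E := ⟨e⟩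
    choose! Γ hΓ using (fun T (h : T ∈ S) => h)
    have hne : (𝓝[S ∩ Icc 0 1] T).NeBot := by
      rw [← mem_closure_iff_nhdsWithin_neBot, mem_closure_iff_frequently]
      exact hT
    have hmem : ∀ᶠ s in 𝓝[S ∩ Icc 0 1] T, Γ s s ∈ K := by
      filter_upwards [self_mem_nhdsWithin] with s hs
      exact hb s hs.2 (Γ s) (hΓ s hs.1) s ⟨hs.2.1, le_rfl⟩
    obtain ⟨v, hvK, hv⟩ := hK.exists_clusterPt (f := map (fun s => Γ s s) (𝓝[S ∩ Icc 0 1] T))
      (le_principal_iff.2 (mem_map.2 hmem))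
    have hpv : p v = γ T := by
      have h1 : ClusterPt (p v) (map p (map (fun s => Γ s s) (𝓝[S ∩ Icc 0 1] T))) :=
        hv.map hp.continuous.continuousAt tendsto_map
      have h2 : Tendsto (fun s => p (Γ s s)) (𝓝[S ∩ Icc 0 1] T) (𝓝 (γ T)) := by
        have h3 : Tendsto γ (𝓝[S ∩ Icc 0 1] T) (𝓝 (γ T)) :=
          (hγ T hT01).mono_left (nhdsWithin_mono _ inter_subset_right)
        refine h3.congr' ?_
        filter_upwards [self_mem_nhdsWithin] with s hs
        exact ((hΓ s hs.1).2.1 s ⟨hs.2.1, le_rfl⟩).symm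
      rw [map_map] at h1
      have h4 : ClusterPt (p v) (𝓝 (γ T)) := h1.mono h2
      exact eq_of_nhds_neBot h4
    obtain ⟨q, hvq, hq⟩ := hp v
    have hW : q.target ∈ 𝓝 (γ T) := by
      rw [← hpv, hq]
      exact q.open_target.mem_nhds (q.map_source hvq)
    have hγT : ∀ᶠ s in 𝓝[Icc 0 1] T, γ s ∈ q.target := (hγ T hT01) hW
    obtain ⟨ε, hε, hεW⟩ := Metric.mem_nhdsWithin_iff.1 hγT
    have hfr : ∃ᶠ s in 𝓝[S ∩ Icc 0 1] T, Γ s s ∈ q.source := by
      have := hv.frequently (q.open_source.mem_nhds hvq)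
      exact this
    have hev1 : ∀ᶠ s in 𝓝[S ∩ Icc 0 1] T, s ∈ S ∩ Icc 0 1 := self_mem_nhdsWithin
    have hev2 : ∀ᶠ s in 𝓝[S ∩ Icc 0 1] T, s ∈ Metric.ball T ε :=
      nhdsWithin_le_nhds (Metric.ball_mem_nhds T hε)
    obtain ⟨s, hs1, hs2, hs3⟩ := (hfr.and_eventually (hev1.and hev2)).exists
    rcases le_or_gt T s with h | h
    · exact ⟨Γ s, (hΓ s hs2.1).mono h⟩
    · refine (hΓ s hs2.1).extend q hq hs2.2.1 h.le hs1 (fun t ht => hεW ⟨?_, ?_⟩)
        (hγ.mono (Icc_subset_Icc hs2.2.1 hT01.2))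
      · rw [Metric.mem_ball, Real.dist_eq, abs_lt] at hs3 ⊢
        constructor <;> linarith [ht.1, ht.2, hs3.1]
      · exact ⟨hs2.2.1.trans ht.1, ht.2.trans hT01.2⟩
  have hmain : Icc (0 : ℝ) 1 ⊆ S := by
    refine hclosed.Icc_subset_of_forall_mem_nhdsWithin h0 ?_
    rintro T ⟨⟨Γ, hΓ⟩, hT0, hT1⟩
    obtain ⟨q, hvq, hq⟩ := hp (Γ T)
    have hW : q.target ∈ 𝓝 (γ T) := by
      rw [← hΓ.2.1 T ⟨hT0, le_rfl⟩, hq]
      exact q.open_target.mem_nhds (q.map_source hvq)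
    have hγT : ∀ᶠ s in 𝓝[Icc 0 1] T, γ s ∈ q.target := (hγ T ⟨hT0, hT1.le⟩) hW
    obtain ⟨ε, hε, hεW⟩ := Metric.mem_nhdsWithin_iff.1 hγT
    have : Ioo T (min (T + ε) 1) ∈ 𝓝[>] T := Ioo_mem_nhdsGT (by simp [hε, hT1])
    filter_upwards [this] with s hs
    refine hΓ.extend q hq hT0 hs.1.le hvq (fun t ht => hεW ⟨?_, ?_⟩)
        (hγ.mono (Icc_subset_Icc hT0 (hs.2.le.trans (min_le_right _ _))))
    · rw [Metric.mem_ball, Real.dist_eq, abs_lt]
      have := hs.2.trans_le (min_le_left _ _)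
      constructor <;> linarith [ht.1, ht.2]
    · exact ⟨hT0.trans ht.1, ht.2.trans (hs.2.le.trans (min_le_right _ _))⟩
  exact hmain ⟨zero_le_one, le_rfl⟩

end Vale.Agent.P255
end

section

/-! # P219: the entire function `shs`, `sinh x = x shs (x²)` -/

open MeasureTheory Set Metric Filter
open scoped ENNReal ContDiff Nat

namespace Vale.Agent.P219.End

/-- `shs s = ∑ sʲ/(2j+1)!`, so that `sinh x = x shs (x²)`. -/
noncomputable def shs (s : ℝ) : ℝ := ∑' j : ℕ, s ^ j / (2 * j + 1)!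

/-- The power series of `shs`. -/
noncomputable def shsP : FormalMultilinearSeries ℝ ℝ ℝ :=
  FormalMultilinearSeries.ofScalars ℝ (fun j : ℕ => (((2 * j + 1)! : ℝ))⁻¹)

theorem shsP_radius : shsP.radius = ⊤ := by
  refine FormalMultilinearSeries.ofScalars_radius_eq_top_of_tendsto _ _ ?_ ?_
  · exact Filter.Eventually.of_forall fun j => by positivity
  · have h : (fun n : ℕ => ‖(((2 * n.succ + 1)! : ℝ))⁻¹‖ / ‖(((2 * n + 1)! : ℝ))⁻¹‖) =
        fun n : ℕ => (((2 * (n : ℝ) + 3) * (2 * n + 2)))⁻¹ := by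
      funext n
      rw [norm_inv, norm_inv, Real.norm_of_nonneg (by positivity),
        Real.norm_of_nonneg (by positivity)]
      have e : (2 * n.succ + 1)! = (2 * n + 3) * ((2 * n + 2) * (2 * n + 1)!) := by
        have : 2 * n.succ + 1 = (2 * n + 2) + 1 := by omega
        rw [this, Nat.factorial_succ, Nat.factorial_succ]
      rw [e]
      push_cast
      have : ((2 * n + 1)! : ℝ) ≠ 0 := by positivity
      field_simp
    rw [h]
    refine tendsto_inv_atTop_zero.comp ?_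
    refine tendsto_atTop_mono (f := fun n : ℕ => (n : ℝ)) (fun n => ?_)
      tendsto_natCast_atTop_atTop
    have : (0 : ℝ) ≤ n := Nat.cast_nonneg n
    linarith only [mul_nonneg (sub_nonneg.2 this) (sub_nonneg.2 this), this]

theorem shs_eq (s : ℝ) : shs s = shsP.sum s := by
  unfold shs shsP
  rw [FormalMultilinearSeries.sum]
  congr 1
  funext j
  rw [FormalMultilinearSeries.ofScalars_apply_eq]
  rw [smul_eq_mul, div_eq_mul_inv, mul_comm]

theorem contDiff_shs : ContDiff ℝ ∞ shs := by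
  have h : shs = shsP.sum := funext shs_eq
  rw [h]
  have h1 : HasFPowerSeriesOnBall shsP.sum shsP 0 ⊤ := by
    rw [← shsP_radius]
    exact shsP.hasFPowerSeriesOnBall (by rw [shsP_radius]; exact ENNReal.zero_lt_top)
  have h2 : AnalyticOnNhd ℝ shsP.sum univ := by
    intro x _
    exact h1.analyticOnNhd x (by simp)
  exact contDiffOn_univ.1 (h2.contDiffOn (by exact uniqueDiffOn_univ))

theorem shs_mul (x : ℝ) : x * shs (x ^ 2) = Real.sinh x := by
  have h := Real.hasSum_sinh x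
  rw [← h.tsum_eq, shs, ← tsum_mul_left]
  congr 1
  funext j
  rw [pow_succ x (2 * j), pow_mul]
  ring

theorem shs_zero : shs 0 = 1 := by
  unfold shs
  rw [tsum_eq_single 0]
  · simp
  · intro j hj
    simp [hj]

theorem one_le_shs {s : ℝ} (hs : 0 ≤ s) : 1 ≤ shs s := by
  rcases eq_or_lt_of_le hs with h | h
  · rw [← h, shs_zero]
  · have h1 := shs_mul (√s)
    rw [Real.sq_sqrt hs] at h1
    have h2 : 0 < √s := Real.sqrt_pos.2 h
    have h3 : √s ≤ Real.sinh √s := Real.self_le_sinh_iff.2 h2.le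
    rw [← h1] at h3
    (by_contra nlg; linarith [mul_pos (sub_pos.2 (not_le.1 nlg)) (sub_pos.2 h2), h3])

/-- `sn k r = r shs (k² r²)`. -/
theorem sn_eq_shs (k r : ℝ) : TPH.sn k r = r * shs (k ^ 2 * r ^ 2) := by
  unfold TPH.sn
  split_ifs with hk
  · rw [hk]
    simp [shs_zero]
  · rw [← mul_pow, div_eq_iff hk, ← shs_mul (k * r)]
    ring

/-- `cs k r - 1 = k² (r²/2) shs(k² r²/4)²`. -/
theorem cs_eq_shs (k r : ℝ) :
    TPH.cs k r = 1 + k ^ 2 * (r ^ 2 / 2 * shs (k ^ 2 * r ^ 2 / 4) ^ 2) := by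
  unfold TPH.cs
  have h1 : Real.cosh (k * r) = 1 + 2 * Real.sinh (k * r / 2) ^ 2 := by
    have := Real.cosh_two_mul (k * r / 2)
    rw [Real.cosh_sq] at this
    rw [show 2 * (k * r / 2) = k * r by ring] at this
    rw [this]; ring
  rw [h1, ← shs_mul, mul_pow, show (k * r / 2) ^ 2 = k ^ 2 * r ^ 2 / 4 by ring]
  ring

end Vale.Agent.P219.End
end
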