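import Mathlib
import Vale.Agent.P219.Bdl.B2
import Vale.Agent.P219.Bdl.B1
import Vale.Agent.P219.Bdl.B3

set_option linter.all false

section

/-! # The functions `sn`, `cs` (task H1) -/

open MeasureTheory Set Metric
open scoped ENNReal ContDiff

namespace Vale.Agent.P219.TPH

theorem sn_zero (k : ℝ) : sn k 0 = 0 := by
  unfold sn
  split_ifs <;> simp

theorem cs_zero (k : ℝ) : cs k 0 = 1 := by
  simp [cs]

theorem h1_sn_z : sn 0 = fun r => r := by
  funext r
  simp [sn]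

theorem h1_sn_nz {k : ℝ} (hk : k ≠ 0) : sn k = fun r => Real.sinh (k * r) / k := by
  funext r
  simp [sn, hk]

theorem hasDerivAt_sn (k r : ℝ) : HasDerivAt (sn k) (cs k r) r := by
  by_cases hk : k = 0
  · subst hk
    rw [h1_sn_z]
    have h : cs 0 r = 1 := by simp [cs]
    rw [h]
    exact hasDerivAt_id r
  · rw [h1_sn_nz hk]
    have h1 : HasDerivAt (fun r : ℝ => k * r) k r := by
      simpa using (hasDerivAt_id r).const_mul k
    have h2 := ((Real.hasDerivAt_sinh (k * r)).comp r h1).div_const k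
    refine h2.congr_deriv ?_
    unfold cs
    field_simp

theorem hasDerivAt_cs (k r : ℝ) : HasDerivAt (cs k) (k ^ 2 * sn k r) r := by
  have h1 : HasDerivAt (fun r : ℝ => k * r) k r := by
    simpa using (hasDerivAt_id r).const_mul k
  have h2 := (Real.hasDerivAt_cosh (k * r)).comp r h1
  have h3 : HasDerivAt (cs k) (Real.sinh (k * r) * k) r := h2
  refine h3.congr_deriv ?_
  by_cases hk : k = 0
  · subst hk
    simp
  · rw [h1_sn_nz hk]
    field_simp

theorem contDiff_sn (k : ℝ) : ContDiff ℝ ∞ (sn k) := by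
  by_cases hk : k = 0
  · subst hk
    rw [h1_sn_z]
    exact contDiff_id
  · rw [h1_sn_nz hk]
    exact (Real.contDiff_sinh.comp (contDiff_const.mul contDiff_id)).div_const k

theorem contDiff_cs (k : ℝ) : ContDiff ℝ ∞ (cs k) :=
  Real.contDiff_cosh.comp (contDiff_const.mul contDiff_id)

theorem h1_sinh (k r : ℝ) : k * sn k r = Real.sinh (k * r) := by
  by_cases hk : k = 0
  · subst hk
    simp
  · rw [h1_sn_nz hk]
    field_simp

theorem cs_sq (k r : ℝ) : cs k r ^ 2 = 1 + k ^ 2 * sn k r ^ 2 := by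
  rw [← mul_pow, h1_sinh, cs, Real.cosh_sq]
  ring

theorem one_le_cs (k r : ℝ) : 1 ≤ cs k r := Real.one_le_cosh _

theorem cs_mono {k r r' : ℝ} (hk : 0 ≤ k) (hr : 0 ≤ r) (h : r ≤ r') : cs k r ≤ cs k r' := by
  unfold cs
  rw [Real.cosh_le_cosh, abs_of_nonneg (mul_nonneg hk hr),
    abs_of_nonneg (mul_nonneg hk (hr.trans h))]
  exact mul_le_mul_of_nonneg_left h hk

/-- upper bound of the increments -/
theorem h1_up {k x y : ℝ} (hk : 0 ≤ k) (hx : 0 ≤ x) (h : x ≤ y) :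
    sn k y - sn k x ≤ cs k y * (y - x) := by
  refine (convex_Icc x y).image_sub_le_mul_sub_of_deriv_le (f := sn k)
    (fun t _ => (hasDerivAt_sn k t).continuousAt.continuousWithinAt)
    (fun t _ => (hasDerivAt_sn k t).differentiableAt.differentiableWithinAt) ?_ x
    (left_mem_Icc.2 h) y (right_mem_Icc.2 h) h
  intro t ht
  rw [interior_Icc] at ht
  rw [(hasDerivAt_sn k t).deriv]
  exact cs_mono hk (hx.trans ht.1.le) ht.2.le

/-- lower bound of the increments -/
theorem h1_low {k x y : ℝ} (hk : 0 ≤ k) (hx : 0 ≤ x) (h : x ≤ y) :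
    cs k x * (y - x) ≤ sn k y - sn k x := by
  refine (convex_Icc x y).mul_sub_le_image_sub_of_le_deriv (f := sn k)
    (fun t _ => (hasDerivAt_sn k t).continuousAt.continuousWithinAt)
    (fun t _ => (hasDerivAt_sn k t).differentiableAt.differentiableWithinAt) ?_ x
    (left_mem_Icc.2 h) y (right_mem_Icc.2 h) h
  intro t ht
  rw [interior_Icc] at ht
  rw [(hasDerivAt_sn k t).deriv]
  exact cs_mono hk hx ht.1.le

theorem le_sn {k r : ℝ} (hk : 0 ≤ k) (hr : 0 ≤ r) : r ≤ sn k r := by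
  have h := h1_low hk le_rfl hr
  rw [cs_zero, sn_zero] at h
  linarith

theorem sn_pos {k r : ℝ} (hk : 0 ≤ k) (hr : 0 < r) : 0 < sn k r :=
  hr.trans_le (le_sn hk hr.le)

theorem sn_strictMono {k : ℝ} (hk : 0 ≤ k) : StrictMono (sn k) := by
  refine strictMono_of_deriv_pos fun r => ?_
  rw [(hasDerivAt_sn k r).deriv]
  exact one_pos.trans_le (one_le_cs k r)

theorem h1_sn_le {k r : ℝ} (hk : 0 ≤ k) (hr : 0 ≤ r) : sn k r ≤ r * cs k r := by
  have h := h1_up hk le_rfl hr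
  rw [sn_zero, sub_zero, sub_zero] at h
  linarith

theorem ctr_bounds {k r : ℝ} (hk : 0 ≤ k) (hr : 0 < r) :
    1 ≤ r * cs k r / sn k r ∧ r * cs k r / sn k r ≤ cs k r := by
  have hp := sn_pos hk hr
  constructor
  · rw [le_div_iff₀ hp, one_mul]
    exact h1_sn_le hk hr.le
  · rw [div_le_iff₀ hp, mul_comm]
    exact mul_le_mul_of_nonneg_left (le_sn hk hr.le) (zero_le_one.trans (one_le_cs k r))

theorem h1_sub (k r t : ℝ) : sn k (r - t) = sn k r * cs k t - cs k r * sn k t := by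
  by_cases hk : k = 0
  · subst hk
    simp [h1_sn_z, cs]
  · rw [h1_sn_nz hk, cs, cs]
    simp only
    rw [mul_sub, Real.sinh_sub]
    field_simp

theorem h1_cs_half (k t : ℝ) : cs k t = 1 + 2 * (k ^ 2 * sn k (t / 2) ^ 2) := by
  rw [← mul_pow, h1_sinh, cs]
  have h := Real.cosh_two_mul (k * (t / 2))
  rw [show 2 * (k * (t / 2)) = k * t by ring, Real.cosh_sq] at h
  rw [h]
  ring

/-- `sn((1-u)r)/sn(r)`, upper Taylor bound in `u`, uniform for `0 < r ≤ L`. PROOF: the function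
`u ↦ sn((1-u)r)` has second derivative `r²k² sn((1-u)r) ≤ r²k² sn(r)`. -/
theorem bh_expand {k : ℝ} (hk : 0 ≤ k) (L : ℝ) : ∃ C : ℝ, 0 ≤ C ∧ ∀ r u : ℝ, 0 < r → r ≤ L →
    0 ≤ u → u ≤ 1 / 2 → sn k ((1 - u) * r) / sn k r ≤ 1 - u * (r * cs k r / sn k r) + C * u ^ 2 := by
  refine ⟨k ^ 2 * L ^ 2 * cs k L ^ 2 / 2, by positivity, fun r u hr hrL hu hu2 => ?_⟩
  have hp := sn_pos hk hr
  have hL : 0 < L := hr.trans_le hrL
  have hur : 0 ≤ u * r := mul_nonneg hu hr.le
  have e1 : sn k ((1 - u) * r) / sn k r = cs k (u * r) - cs k r / sn k r * sn k (u * r) := by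
    rw [show (1 - u) * r = r - u * r by ring, h1_sub]
    field_simp
  have h1 : u * r ≤ sn k (u * r) := le_sn hk hur
  have h2 : cs k (u * r) ≤ 1 + k ^ 2 * L ^ 2 * cs k L ^ 2 / 2 * u ^ 2 := by
    rw [h1_cs_half]
    have h3 : 0 ≤ u * r / 2 := by linarith only [hur]
    have h4 : sn k (u * r / 2) ≤ (u * r / 2) * cs k (u * r / 2) := h1_sn_le hk h3
    have h5 : u * r / 2 ≤ L := by (by_contra nlg; linarith only [nlg, mul_nonneg (sub_nonneg.2 hu2) (sub_nonneg.2 h3), mul_nonneg (sub_nonneg.2 hrL) (sub_nonneg.2 hu), mul_nonneg (le_of_lt (sub_pos.2 (not_le.1 nlg))) (sub_nonneg.2 hu2), mul_nonneg (le_of_lt (sub_pos.2 (not_le.1 nlg))) (sub_nonneg.2 hu), hL])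
    have h6 : cs k (u * r / 2) ≤ cs k L := cs_mono hk h3 h5
    have h7 : 0 ≤ sn k (u * r / 2) := h3.trans (le_sn hk h3)
    have h8 : sn k (u * r / 2) ≤ (u * L / 2) * cs k L := by
      refine h4.trans (mul_le_mul ?_ h6 (zero_le_one.trans (one_le_cs k _)) ?_)
      · (by_contra nlg; linarith only [mul_pos (sub_pos.2 (not_le.1 nlg)) (sub_pos.2 hr), mul_nonneg (sub_nonneg.2 hrL) (sub_nonneg.2 h3)])
      · positivity
    have h9 : sn k (u * r / 2) ^ 2 ≤ ((u * L / 2) * cs k L) ^ 2 := pow_le_pow_left₀ h7 h8 2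
    have h10 := mul_le_mul_of_nonneg_left h9 (sq_nonneg k)
    linarith only [h10]
  have h3 : 0 ≤ cs k r / sn k r := div_nonneg (zero_le_one.trans (one_le_cs k r)) hp.le
  have h4 : cs k r / sn k r * (u * r) ≤ cs k r / sn k r * sn k (u * r) :=
    mul_le_mul_of_nonneg_left h1 h3
  have e2 : u * (r * cs k r / sn k r) = cs k r / sn k r * (u * r) := by ring
  rw [e1, e2]
  linarith only [h4, h2]

end Vale.Agent.P219.TPH
end

section

/-! # Lower bound of the pair integral (task A4a) -/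

open MeasureTheory Set Metric
open scoped ENNReal ContDiff

namespace Vale.Agent.P219.TP

variable {n : ℕ} (G : Geo n)

namespace PairGe

theorem continuous_D {h : E n → ℝ} (hh : ContDiff ℝ 1 h) : Continuous (G.D h) := by
  have h1 : Continuous fun x => fderiv ℝ h x := hh.continuous_fderiv (by norm_num)
  have h2 : Continuous fun x => G.A x := G.A_smooth.continuous
  unfold Geo.D
  exact (LinearIsometryEquiv.continuous _).comp (h1.clm_comp h2)

end PairGe

open PairGe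

namespace PairGe

end PairGe

end Vale.Agent.P219.TP
end

section

/-! # Consequences of the curvature bound (task H2) -/

open MeasureTheory Set Metric
open scoped ENNReal ContDiff

namespace Vale.Agent.P219.TPH

open Vale.Agent.P219.TP

variable {n : ℕ} {G : Geo n} {k : ℝ}

/-! ### Auxiliary lemmas -/

/-- Comparison of determinants. -/
theorem curvh_det_le (hn : 1 ≤ n) {B C : _root_.Vale.Agent.P219.TP.E n →L[ℝ] _root_.Vale.Agent.P219.TP.E n} (hC : C.det ≠ 0)
    (hBC : ∀ ξ, ‖B ξ‖ ≤ ‖C ξ‖) : |B.det| ≤ |C.det| := by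
  set e := C.toContinuousLinearEquivOfDetNeZero hC with he
  have heC : ∀ ξ, e ξ = C ξ := fun ξ => rfl
  set M : _root_.Vale.Agent.P219.TP.E n →L[ℝ] _root_.Vale.Agent.P219.TP.E n := B.comp (e.symm : _root_.Vale.Agent.P219.TP.E n →L[ℝ] _root_.Vale.Agent.P219.TP.E n) with hM
  have hMC : ∀ ξ, M (C ξ) = B ξ := by
    intro ξ
    rw [hM, ContinuousLinearMap.comp_apply, ← heC]
    congr 1
    exact e.symm_apply_apply ξ
  have hMle : ∀ ξ, ‖M ξ‖ ≤ ‖ξ‖ := by
    intro ξ
    have h1 : ξ = C (e.symm ξ) := by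
      rw [← heC]
      exact (e.apply_symm_apply ξ).symm
    rw [h1, hMC]
    exact hBC _
  have hdet : B.det = M.det * C.det := by
    have h1 : (B : _root_.Vale.Agent.P219.TP.E n →ₗ[ℝ] _root_.Vale.Agent.P219.TP.E n) = (M : _root_.Vale.Agent.P219.TP.E n →ₗ[ℝ] _root_.Vale.Agent.P219.TP.E n) ∘ₗ (C : _root_.Vale.Agent.P219.TP.E n →ₗ[ℝ] _root_.Vale.Agent.P219.TP.E n) := by
      ext1 ξ
      exact (hMC ξ).symm
    have h2 : LinearMap.det (B : _root_.Vale.Agent.P219.TP.E n →ₗ[ℝ] _root_.Vale.Agent.P219.TP.E n) =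
        LinearMap.det (M : _root_.Vale.Agent.P219.TP.E n →ₗ[ℝ] _root_.Vale.Agent.P219.TP.E n) * LinearMap.det (C : _root_.Vale.Agent.P219.TP.E n →ₗ[ℝ] _root_.Vale.Agent.P219.TP.E n) := by
      rw [h1, LinearMap.det_comp]
    exact h2
  have hMd : |M.det| ≤ 1 := by
    set y : _root_.Vale.Agent.P219.TP.E n := EuclideanSpace.single (⟨0, hn⟩ : Fin n) (1 : ℝ) with hy
    have hy1 : ‖y‖ = 1 := by rw [hy, PiLp.norm_single, norm_one]
    have h1 := linAlg_hadamard M hMle y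
    have h2 := hMle y
    rw [hy1] at h1 h2
    rw [mul_one] at h1
    exact h1.trans h2
  rw [hdet, abs_mul]
  exact mul_le_of_le_one_left (abs_nonneg _) hMd

/-- The map which is the identity along `e` and `β` on the complement of `e`. -/
noncomputable def curvhL (e : _root_.Vale.Agent.P219.TP.E n) (β : ℝ) : _root_.Vale.Agent.P219.TP.E n →L[ℝ] _root_.Vale.Agent.P219.TP.E n := linAlgC e 0 1 β

theorem curvhL_det (hn : 1 ≤ n) {e : _root_.Vale.Agent.P219.TP.E n} {β : ℝ} (he : ‖e‖ = 1) (hβ : 0 < β) :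
    (curvhL e β).det = β ^ (n - 1) := by
  have h1 : (curvhL e β).det = LinearMap.det (β • LinearMap.transvection
      (β⁻¹ • ((1 - β) • (innerₗ (_root_.Vale.Agent.P219.TP.E n) e) - innerₗ (_root_.Vale.Agent.P219.TP.E n) 0) : Module.Dual ℝ (_root_.Vale.Agent.P219.TP.E n)) e) := rfl
  have h2 : (β⁻¹ • ((1 - β) • (innerₗ (_root_.Vale.Agent.P219.TP.E n) e) - innerₗ (_root_.Vale.Agent.P219.TP.E n) 0) : Module.Dual ℝ (_root_.Vale.Agent.P219.TP.E n)) e =
      β⁻¹ * ((1 - β) * inner ℝ e e - inner ℝ (0 : _root_.Vale.Agent.P219.TP.E n) e) := rfl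
  rw [h1, LinearMap.det_smul, LinearMap.transvection.det, h2, real_inner_self_eq_norm_sq, he,
    inner_zero_left]
  have h3 : Module.finrank ℝ (_root_.Vale.Agent.P219.TP.E n) = n := by simp
  rw [h3]
  obtain ⟨m, rfl⟩ : ∃ m, n = m + 1 := ⟨n - 1, by omega⟩
  rw [Nat.add_sub_cancel, pow_succ]
  field_simp
  ring

/-- Decomposition along `v`. -/
theorem curvh_decomp {v : _root_.Vale.Agent.P219.TP.E n} (hv : v ≠ 0) (β : ℝ) (hβ : 0 < β) (ξ : _root_.Vale.Agent.P219.TP.E n) :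
    ∃ (c : ℝ) (z : _root_.Vale.Agent.P219.TP.E n), inner ℝ v z = 0 ∧ ξ = c • v + z ∧
      curvhL (‖v‖⁻¹ • v) β ξ = c • v + β • z := by
  have hv0 : ‖v‖ ≠ 0 := norm_ne_zero_iff.2 hv
  refine ⟨‖v‖⁻¹ * inner ℝ (‖v‖⁻¹ • v) ξ, ξ - (‖v‖⁻¹ * inner ℝ (‖v‖⁻¹ • v) ξ) • v, ?_, ?_, ?_⟩
  · rw [inner_sub_right, real_inner_smul_right, real_inner_smul_left, real_inner_self_eq_norm_sq]
    field_simp
    ring
  · abel
  · rw [curvhL, linAlgC_apply _ _ _ hβ, inner_zero_left, sub_zero, one_mul, smul_smul, mul_comm]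

theorem curvh_norm_add {v z a : _root_.Vale.Agent.P219.TP.E n} (c : ℝ) (ha : ‖a‖ = ‖v‖) (hz : inner ℝ a z = 0) :
    ‖c • a + z‖ ^ 2 = c ^ 2 * ‖v‖ ^ 2 + ‖z‖ ^ 2 := by
  rw [← ha, ← real_inner_self_eq_norm_sq, inner_add_left, inner_add_right, inner_add_right,
    real_inner_smul_left, real_inner_smul_right, real_inner_smul_left, real_inner_smul_right, hz,
    real_inner_comm a z, hz, real_inner_self_eq_norm_sq, real_inner_self_eq_norm_sq]
  ring

theorem curvh_norm_T_smul (x v : _root_.Vale.Agent.P219.TP.E n) {s : ℝ} (hs : 0 < s) : ‖G.T x (s • v) v‖ = ‖v‖ := by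
  have h := G.gauss x (s • v) (s • v)
  rw [real_inner_self_eq_norm_sq, real_inner_self_eq_norm_sq, map_smul, norm_smul, norm_smul,
    mul_pow, mul_pow] at h
  have h1 : ‖s‖ ^ 2 ≠ 0 := pow_ne_zero 2 (norm_ne_zero_iff.2 hs.ne')
  have h2 := mul_left_cancel₀ h1 h
  exact (pow_left_inj₀ (norm_nonneg _) (norm_nonneg _) two_ne_zero).1 h2

theorem curvh_inner_T_smul (x : _root_.Vale.Agent.P219.TP.E n) {v z : _root_.Vale.Agent.P219.TP.E n} (hz : inner ℝ v z = 0) {s : ℝ} (hs : 0 < s) :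
    inner ℝ (G.T x (s • v) v) (G.T x (s • v) z) = 0 := by
  have h := G.gauss x (s • v) z
  rw [map_smul, real_inner_smul_left, real_inner_smul_left, hz, mul_zero] at h
  exact (mul_eq_zero.1 h).resolve_left hs.ne'

/-- PROOF: `mono_sn` and `s → 0` (`T x 0 z = z`, `T_smooth`, `sn k (s r)/s → r`). -/
theorem norm_T_sn (hk : 0 ≤ k) (hG : Curv G k) {x v z : _root_.Vale.Agent.P219.TP.E n} (hv : v ≠ 0)
    (hz : inner ℝ v z = 0) : sn k ‖v‖ * ‖z‖ ≤ ‖v‖ * ‖G.T x v z‖ := by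
  have _ := hk
  have _ := hv
  have h1 : Filter.Tendsto (fun s : ℝ => sn k ‖v‖ * ‖G.T x (s • v) z‖) (nhdsWithin 0 (Ioi 0))
      (nhds (sn k ‖v‖ * ‖z‖)) := by
    have hc : Continuous fun s : ℝ => sn k ‖v‖ * ‖G.T x (s • v) z‖ := by
      have hT : Continuous fun s : ℝ => G.T x (s • v) :=
        G.T_smooth.continuous.comp (continuous_const.prodMk (continuous_id.smul continuous_const))
      exact continuous_const.mul (hT.clm_apply continuous_const).norm
    have h2 := hc.tendsto 0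
    simp only [zero_smul, G.T_zero] at h2
    exact h2.mono_left nhdsWithin_le_nhds
  have h2 : Filter.Tendsto (fun s : ℝ => (sn k (s * ‖v‖) / s) * ‖G.T x v z‖)
      (nhdsWithin 0 (Ioi 0)) (nhds (‖v‖ * ‖G.T x v z‖)) := by
    refine Filter.Tendsto.mul_const _ ?_
    have h30 : HasDerivAt (fun s : ℝ => s * ‖v‖) (1 * ‖v‖) 0 := (hasDerivAt_id' 0).mul_const ‖v‖
    have h3 : HasDerivAt (fun s : ℝ => sn k (s * ‖v‖)) (cs k (0 * ‖v‖) * (1 * ‖v‖)) 0 :=
      HasDerivAt.comp (h₂ := sn k) (h := fun s : ℝ => s * ‖v‖) 0 (hasDerivAt_sn k (0 * ‖v‖)) h30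
    rw [zero_mul, cs_zero, one_mul, one_mul, hasDerivAt_iff_tendsto_slope] at h3
    have h4 := h3.mono_left (nhdsWithin_mono (0 : ℝ) (fun s (hs : s ∈ Ioi (0 : ℝ)) =>
      (ne_of_gt hs : s ∈ ({0}ᶜ : Set ℝ))))
    refine h4.congr' ?_
    filter_upwards [self_mem_nhdsWithin] with s _
    rw [slope_def_field, zero_mul, sn_zero, sub_zero, sub_zero]
  refine le_of_tendsto_of_tendsto h1 h2 ?_
  have h5 : Ioc (0 : ℝ) 1 ∈ nhdsWithin (0 : ℝ) (Ioi 0) := Ioc_mem_nhdsGT zero_lt_one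
  filter_upwards [h5] with s hs
  have h6 := hG.mono_sn x v z s hz hs.1 hs.2
  rw [div_mul_eq_mul_div, le_div_iff₀ hs.1]
  linarith only [h6]

theorem sn_le_J (hn : 1 ≤ n) (hk : 0 ≤ k) (hG : Curv G k) {x v : _root_.Vale.Agent.P219.TP.E n} (hv : v ≠ 0) :
    sn k ‖v‖ ^ (n - 1) ≤ ‖v‖ ^ (n - 1) * |(G.T x v).det| := by
  have hv0 : 0 < ‖v‖ := norm_pos_iff.2 hv
  have hsn : 0 < sn k ‖v‖ := sn_pos hk hv0
  set β : ℝ := sn k ‖v‖ / ‖v‖ with hβ
  have hβ0 : 0 < β := div_pos hsn hv0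
  have he : ‖‖v‖⁻¹ • v‖ = 1 := by
    rw [norm_smul, norm_inv, norm_norm, inv_mul_cancel₀ hv0.ne']
  have h2 := curvh_det_le hn (B := curvhL (‖v‖⁻¹ • v) β) (C := G.T x v)
    (G.det_T_ne x v) (by
      intro ξ
      obtain ⟨c, z, hz, hξ, hL⟩ := curvh_decomp hv β hβ0 ξ
      rw [hL, hξ, map_add, map_smul]
      have h3 : ‖c • v + β • z‖ ^ 2 = c ^ 2 * ‖v‖ ^ 2 + ‖β • z‖ ^ 2 :=
        curvh_norm_add c rfl (by rw [real_inner_smul_right, hz, mul_zero])
      have h4 : ‖c • G.T x v v + G.T x v z‖ ^ 2 = c ^ 2 * ‖v‖ ^ 2 + ‖G.T x v z‖ ^ 2 := by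
        have e1 := curvh_norm_T_smul (G := G) x v one_pos
        have e2 := curvh_inner_T_smul (G := G) x hz one_pos
        rw [one_smul] at e1 e2
        exact curvh_norm_add c e1 e2
      have h5 : ‖β • z‖ ≤ ‖G.T x v z‖ := by
        rw [norm_smul, Real.norm_eq_abs, abs_of_pos hβ0, hβ, div_mul_eq_mul_div, div_le_iff₀ hv0]
        have := norm_T_sn (x := x) hk hG hv hz
        linarith only [this]
      have h6 := pow_le_pow_left₀ (norm_nonneg _) h5 2
      exact le_of_sq_le_sq (by rw [h3, h4]; linarith only [h6]) (norm_nonneg _))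
  rw [curvhL_det hn he hβ0, abs_of_pos (pow_pos hβ0 _), hβ, div_pow,
    div_le_iff₀ (pow_pos hv0 _)] at h2
  linarith

/-- `det T > 0`. PROOF: continuous, nowhere zero, `= 1` at `v = 0`. -/
theorem det_T_pos (G : Geo n) (x v : _root_.Vale.Agent.P219.TP.E n) : 0 < (G.T x v).det := by
  have hc : Continuous fun t : ℝ => (G.T x (t • v)).det := by
    have hT : Continuous fun s : ℝ => G.T x (s • v) :=
      G.T_smooth.continuous.comp (continuous_const.prodMk (continuous_id.smul continuous_const))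
    exact ContinuousLinearMap.continuous_det.comp hT
  have h0 : (G.T x ((0 : ℝ) • v)).det = 1 := by
    have h1 : G.T x ((0 : ℝ) • v) = ContinuousLinearMap.id ℝ (_root_.Vale.Agent.P219.TP.E n) := by
      ext1 z
      rw [zero_smul, G.T_zero, ContinuousLinearMap.id_apply]
    rw [h1]
    exact LinearMap.det_id
  by_contra hcon
  have h1 : (G.T x ((1 : ℝ) • v)).det ≤ 0 := by
    rw [one_smul]
    exact not_lt.1 hcon
  have h2 : (0 : ℝ) ∈ (fun t : ℝ => (G.T x (t • v)).det) '' Icc 0 1 := by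
    refine intermediate_value_Icc' zero_le_one hc.continuousOn ⟨h1, ?_⟩
    show (0 : ℝ) ≤ (G.T x ((0 : ℝ) • v)).det
    rw [h0]
    exact zero_le_one
  obtain ⟨t, _, ht⟩ := h2
  exact G.det_T_ne x (t • v) ht

end Vale.Agent.P219.TPH
end

section

/-! # Uniform expansion of the Jacobian determinant (task H5) -/

open MeasureTheory Set Metric
open scoped ENNReal ContDiff

namespace Vale.Agent.P219.TPH

open Vale.Agent.P219.TP

variable {n : ℕ}

/-! ### Auxiliary lemmas -/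

theorem detExp_smooth (G : Geo n) :
    ContDiff ℝ ∞ (fun z : _root_.Vale.Agent.P219.TP.E n × _root_.Vale.Agent.P219.TP.E n => (G.T z.1 z.2).det) :=
  volExp_contDiff_det.comp G.T_smooth

/-! ### Products of expansions -/

theorem detExp_mul {x y t a b A B C D : ℝ} (ht : 0 ≤ t) (ht1 : t ≤ 1) (hx : 0 ≤ x) (hy : 0 ≤ y)
    (hC : 0 ≤ C) (hD : 0 ≤ D) (hA : |a| ≤ A) (hB : |b| ≤ B) (h1 : x ≤ 1 + t * a + C * t ^ 2)
    (h2 : y ≤ 1 + t * b + D * t ^ 2) :
    x * y ≤ 1 + t * (a + b) + (A * B + C + D + A * D + B * C + C * D) * t ^ 2 := by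
  have hA0 : 0 ≤ A := (abs_nonneg a).trans hA
  have hB0 : 0 ≤ B := (abs_nonneg b).trans hB
  have h3 : x * y ≤ (1 + t * a + C * t ^ 2) * (1 + t * b + D * t ^ 2) :=
    mul_le_mul h1 h2 hy (hx.trans h1)
  have e : (1 + t * a + C * t ^ 2) * (1 + t * b + D * t ^ 2) = 1 + t * (a + b) +
      (a * b + C + D) * t ^ 2 + (t * (a * D)) * t ^ 2 + (t * (b * C)) * t ^ 2 +
        (t ^ 2 * (C * D)) * t ^ 2 := by ring
  have i1 : a * b ≤ A * B := by
    refine (le_abs_self _).trans ?_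
    rw [abs_mul]
    exact mul_le_mul hA hB (abs_nonneg _) hA0
  have i2 : t * (a * D) ≤ A * D := by
    have j1 : a * D ≤ A * D := mul_le_mul_of_nonneg_right ((le_abs_self a).trans hA) hD
    have j2 : 0 ≤ A * D := mul_nonneg hA0 hD
    calc t * (a * D) ≤ t * (A * D) := mul_le_mul_of_nonneg_left j1 ht
      _ ≤ 1 * (A * D) := mul_le_mul_of_nonneg_right ht1 j2
      _ = A * D := one_mul _
  have i3 : t * (b * C) ≤ B * C := by
    have j1 : b * C ≤ B * C := mul_le_mul_of_nonneg_right ((le_abs_self b).trans hB) hC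
    have j2 : 0 ≤ B * C := mul_nonneg hB0 hC
    calc t * (b * C) ≤ t * (B * C) := mul_le_mul_of_nonneg_left j1 ht
      _ ≤ 1 * (B * C) := mul_le_mul_of_nonneg_right ht1 j2
      _ = B * C := one_mul _
  have i4 : t ^ 2 * (C * D) ≤ C * D := by
    have j2 : 0 ≤ C * D := mul_nonneg hC hD
    have j3 : t ^ 2 ≤ 1 := pow_le_one₀ ht ht1
    calc t ^ 2 * (C * D) ≤ 1 * (C * D) := mul_le_mul_of_nonneg_right j3 j2
      _ = C * D := one_mul _
  have ht2 : 0 ≤ t ^ 2 := sq_nonneg t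
  have i5 : (a * b + C + D + t * (a * D) + t * (b * C) + t ^ 2 * (C * D)) * t ^ 2 ≤
      (A * B + C + D + A * D + B * C + C * D) * t ^ 2 :=
    mul_le_mul_of_nonneg_right (by linarith) ht2
  calc x * y ≤ _ := h3
    _ = 1 + t * (a + b) +
        (a * b + C + D + t * (a * D) + t * (b * C) + t ^ 2 * (C * D)) * t ^ 2 := by rw [e]; ring
    _ ≤ _ := by linarith only [i5]

theorem detExp_pow (m : ℕ) (A C : ℝ) (hA0 : 0 ≤ A) (hC : 0 ≤ C) : ∃ D : ℝ, 0 ≤ D ∧
    ∀ x t a : ℝ, 0 ≤ t → t ≤ 1 → 0 ≤ x → |a| ≤ A → x ≤ 1 + t * a + C * t ^ 2 →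
      x ^ m ≤ 1 + t * ((m : ℝ) * a) + D * t ^ 2 := by
  induction m with
  | zero =>
    refine ⟨0, le_rfl, fun x t a _ _ _ _ _ => ?_⟩
    simp
  | succ m ih =>
    obtain ⟨D, hD, ih⟩ := ih
    refine ⟨(m * A) * A + D + C + (m * A) * C + A * D + D * C, by (clear * - hA0 hD hC; positivity),
      fun x t a h0 h1 hx ha hxa => ?_⟩
    have h2 := ih x t a h0 h1 hx ha hxa
    have h3 : |(m : ℝ) * a| ≤ m * A := by
      rw [abs_mul, abs_of_nonneg (Nat.cast_nonneg m)]
      exact mul_le_mul_of_nonneg_left ha (Nat.cast_nonneg m)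
    have h4 := detExp_mul h0 h1 (pow_nonneg hx m) hx hD hC h3 ha h2 hxa
    rw [pow_succ]
    refine h4.trans (le_of_eq ?_)
    push_cast
    ring

end Vale.Agent.P219.TPH
end

section

/-! # Sphere moments (task A12) -/

open MeasureTheory Set Metric
open scoped ENNReal ContDiff

namespace Vale.Agent.P219.TP

variable {n : ℕ}

/-- Polar coordinates for functions that separate. -/
theorem polar_sep (hn : 1 ≤ n) (h : E n → ℝ) (F : sphere (0 : E n) 1 → ℝ) (g : ℝ → ℝ)
    (hh : ∀ (u : sphere (0 : E n) 1) (r : ℝ), 0 < r → h (r • (u : E n)) = F u * g r) :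
    ∫ x, h x = (∫ u, F u ∂((volume : Measure (E n)).toSphere)) *
      ∫ r in Ioi (0 : ℝ), r ^ (n - 1) * g r := by
  have : Nonempty (Fin n) := ⟨⟨0, by omega⟩⟩
  have : Nontrivial (E n) := inferInstance
  have hfr : Module.finrank ℝ (E n) = n := by simp
  calc
    ∫ x, h x = ∫ x : ({(0)}ᶜ : Set (E n)), h x.1 ∂((volume : Measure (E n)).comap (↑)) := by
      rw [integral_subtype_comap (measurableSet_singleton _).compl fun x ↦ h x,
        restrict_compl_singleton]
    _ = ∫ x : ({(0)}ᶜ : Set (E n)),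
        (fun p : sphere (0 : E n) 1 × Ioi (0 : ℝ) => F p.1 * g p.2)
          (homeomorphUnitSphereProd (E n) x) ∂((volume : Measure (E n)).comap (↑)) := by
      apply integral_congr_ae
      refine .of_forall fun x => ?_
      have hx : 0 < ‖(x : E n)‖ := norm_pos_iff.2 x.2
      have h1 := hh (homeomorphUnitSphereProd (E n) x).1 (homeomorphUnitSphereProd (E n) x).2
        (homeomorphUnitSphereProd (E n) x).2.2
      change h x = _
      refine Eq.trans ?_ h1
      congr 1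
      simp [homeomorphUnitSphereProd, smul_smul, hx.ne']
    _ = ∫ p : sphere (0 : E n) 1 × Ioi (0 : ℝ), F p.1 * g p.2
          ∂(((volume : Measure (E n)).toSphere).prod (.volumeIoiPow (n - 1))) := by
      have := (volume : Measure (E n)).measurePreserving_homeomorphUnitSphereProd.integral_comp
        (Homeomorph.measurableEmbedding _)
        (fun p : sphere (0 : E n) 1 × Ioi (0 : ℝ) => F p.1 * g p.2)
      rw [hfr] at this
      exact this
    _ = (∫ u, F u ∂((volume : Measure (E n)).toSphere)) *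
          ∫ r : Ioi (0 : ℝ), g r ∂(.volumeIoiPow (n - 1)) := by
      exact integral_prod_mul F (fun r : Ioi (0 : ℝ) => g r)
    _ = _ := by
      congr 1
      simp only [Measure.volumeIoiPow, ENNReal.ofReal]
      rw [integral_withDensity_eq_integral_smul,
        integral_subtype_comap measurableSet_Ioi fun a ↦ Real.toNNReal (a ^ (n - 1)) • g a,
        setIntegral_congr_fun measurableSet_Ioi fun x hx ↦ ?_]
      · rw [NNReal.smul_def, Real.coe_toNNReal _ (pow_nonneg hx.out.le _), smul_eq_mul]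
      · exact (measurable_subtype_coe.pow_const _).real_toNNReal

/-- An orthonormal basis starting with `e`. -/
theorem exists_basis (m : ℕ) {e : E (m + 1)} (he : ‖e‖ = 1) :
    ∃ b : OrthonormalBasis (Fin (m + 1)) ℝ (E (m + 1)), b 0 = e := by
  have h1 : Orthonormal ℝ (({(0 : Fin (m + 1))} : Set (Fin (m + 1))).domRestrict
      (fun _ : Fin (m + 1) => e)) := by
    constructor
    · intro i; exact he
    · intro i j hij
      exact absurd (Subsingleton.elim i j) hij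
  obtain ⟨b, hb⟩ := h1.exists_orthonormalBasis_extension_of_card_eq (by simp)
  exact ⟨b, hb 0 rfl⟩

theorem integral_half_gauss {k : ℕ} :
    ∫ t : ℝ, max 0 t ^ (k + 1) * Real.exp (-t ^ 2) = Real.Gamma (((k + 1 : ℕ) + 1) / 2) / 2 := by
  have h0 : ∀ t : ℝ, max 0 t ^ (k + 1) * Real.exp (-t ^ 2) =
      (Ioi (0 : ℝ)).indicator (fun t => t ^ (((k + 1 : ℕ)) : ℝ) * Real.exp (-t ^ (2 : ℝ))) t := by
    intro t
    by_cases ht : 0 < t
    · rw [indicator_of_mem (show t ∈ Ioi (0:ℝ) from ht), max_eq_right ht.le, Real.rpow_natCast]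
      norm_num
    · rw [indicator_of_notMem (show t ∉ Ioi (0:ℝ) from ht), max_eq_left (not_lt.1 ht)]
      simp
  simp_rw [h0]
  rw [integral_indicator measurableSet_Ioi,
    integral_rpow_mul_exp_neg_rpow (by norm_num)
      ((by norm_num : (-1 : ℝ) < 0).trans_le (Nat.cast_nonneg _))]
  ring

theorem integral_gauss_one : ∫ t : ℝ, Real.exp (-t ^ 2) = √Real.pi := by
  have := integral_gaussian 1
  simpa using this

/-- Gaussian moment in coordinates. -/
theorem gauss_moment (m : ℕ) {k : ℕ} (hk : 1 ≤ k) {e : E (m + 1)} (he : ‖e‖ = 1) :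
    ∫ x : E (m + 1), max 0 (inner ℝ e x) ^ k * Real.exp (-‖x‖ ^ 2) =
      Real.pi ^ ((m : ℝ) / 2) * (Real.Gamma ((k + 1) / 2) / 2) := by
  obtain ⟨b, hb⟩ := exists_basis m he
  have h1 : ∫ x : E (m + 1), max 0 (inner ℝ e x) ^ k * Real.exp (-‖x‖ ^ 2) =
      ∫ y : E (m + 1), max 0 (y 0) ^ k * Real.exp (-‖y‖ ^ 2) := by
    have := b.repr.measurePreserving.integral_comp
      b.repr.toHomeomorph.measurableEmbedding
      (fun y : E (m + 1) => max 0 (y 0) ^ k * Real.exp (-‖y‖ ^ 2))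
    rw [← this]
    apply integral_congr_ae
    refine .of_forall fun x => ?_
    simp only [LinearIsometryEquiv.norm_map]
    rw [OrthonormalBasis.repr_apply_apply, hb]
  rw [h1]
  have h2 : ∫ y : E (m + 1), max 0 (y 0) ^ k * Real.exp (-‖y‖ ^ 2) =
      ∫ y : Fin (m + 1) → ℝ, max 0 (y 0) ^ k * Real.exp (-∑ i, y i ^ 2) := by
    have := (PiLp.volume_preserving_ofLp (Fin (m + 1))).integral_comp
      (MeasurableEquiv.toLp 2 (Fin (m + 1) → ℝ)).symm.measurableEmbedding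
      (fun y : Fin (m + 1) → ℝ => max 0 (y 0) ^ k * Real.exp (-∑ i, y i ^ 2))
    rw [← this]
    apply integral_congr_ae
    refine .of_forall fun x => ?_
    simp only [EuclideanSpace.norm_sq_eq, Real.norm_eq_abs, sq_abs]
  rw [h2]
  obtain ⟨j, rfl⟩ : ∃ j, k = j + 1 := ⟨k - 1, by omega⟩
  have h3 : ∀ y : Fin (m + 1) → ℝ, max 0 (y 0) ^ (j + 1) * Real.exp (-∑ i, y i ^ 2) =
      ∏ i : Fin (m + 1), (if i = 0 then (fun t : ℝ => max 0 t ^ (j + 1) * Real.exp (-t ^ 2))
        else fun t : ℝ => Real.exp (-t ^ 2)) (y i) := by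
    intro y
    rw [Fin.prod_univ_succ, Fin.sum_univ_succ, neg_add, Real.exp_add]
    simp only [if_true, Fin.succ_ne_zero, if_false]
    rw [← Finset.sum_neg_distrib, Real.exp_sum]
    ring
  simp_rw [h3]
  rw [integral_fintype_prod_volume_eq_prod, Fin.prod_univ_succ]
  simp only [if_true, Fin.succ_ne_zero, if_false]
  rw [integral_half_gauss, integral_gauss_one, Finset.prod_const, Finset.card_univ,
    Fintype.card_fin, Real.sqrt_eq_rpow, ← Real.rpow_natCast, ← Real.rpow_mul Real.pi_pos.le]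
  rw [show (1 : ℝ) / 2 * (m : ℝ) = m / 2 by ring]
  ring

theorem sig_eq (hn : 1 ≤ n) : sig n = n * Geo.om n := by
  rw [sig, Measure.toSphere_real_apply_univ, Geo.om]
  simp

theorem sig_pos (hn : 1 ≤ n) : 0 < sig n := by
  rw [sig_eq hn, Geo.om]
  have : 0 < (volume : Measure (E n)).real (ball 0 1) :=
    ENNReal.toReal_pos (measure_ball_pos _ _ one_pos).ne' measure_ball_lt_top.ne
  have hn' : (0 : ℝ) < n := by exact_mod_cast hn
  positivity

/-- The total measure. -/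
theorem sig_eq_gamma (hn : 1 ≤ n) :
    sig n = 2 * Real.pi ^ ((n : ℝ) / 2) / Real.Gamma (n / 2) := by
  have : Nonempty (Fin n) := ⟨⟨0, by omega⟩⟩
  rw [sig_eq hn, Geo.om, measureReal_def, EuclideanSpace.volume_ball]
  have hn' : (0 : ℝ) < n := by exact_mod_cast hn
  have hG : 0 < Real.Gamma ((n : ℝ) / 2) := Real.Gamma_pos_of_pos (by positivity)
  have h1 : Real.Gamma ((n : ℝ) / 2 + 1) = n / 2 * Real.Gamma (n / 2) :=
    Real.Gamma_add_one (by positivity)
  simp only [Fintype.card_fin, ENNReal.ofReal_one, one_pow, one_mul]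
  rw [ENNReal.toReal_ofReal (by positivity), h1, Real.sqrt_eq_rpow, ← Real.rpow_natCast,
    ← Real.rpow_mul Real.pi_pos.le]
  rw [show (1 : ℝ) / 2 * (n : ℝ) = n / 2 by ring]
  field_simp

end Vale.Agent.P219.TP
end

section

/-! # The model isoperimetric profile (task H16) -/

open MeasureTheory Set Metric
open scoped ENNReal ContDiff

namespace Vale.Agent.P219.TPH

open Vale.Agent.P219.TP

variable {n : ℕ} {k : ℝ}

theorem AR_pos (hn : 1 ≤ n) (hk : 0 ≤ k) {R : ℝ} (hR : 0 < R) : 0 < AR n k R :=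
  mul_pos (sig_pos hn) (pow_pos (sn_pos hk hR) _)

theorem modelH_sn_nonneg (hk : 0 ≤ k) {R : ℝ} (hR : 0 ≤ R) : 0 ≤ sn k R :=
  hR.trans (le_sn hk hR)

theorem AR_mono (hn : 1 ≤ n) (hk : 0 ≤ k) {R R' : ℝ} (hR : 0 ≤ R) (h : R ≤ R') :
    AR n k R ≤ AR n k R' :=
  mul_le_mul_of_nonneg_left
    (pow_le_pow_left₀ (modelH_sn_nonneg hk hR) ((sn_strictMono hk).monotone h) _) (sig_pos hn).le

theorem VR_zero : VR n k 0 = 0 := by
  simp [VR]

theorem modelH_cont (n : ℕ) (k : ℝ) : Continuous fun r => sn k r ^ (n - 1) :=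
  (contDiff_sn k).continuous.pow _

theorem modelH_intg (n : ℕ) (k a b : ℝ) :
    IntervalIntegrable (fun r => sn k r ^ (n - 1)) volume a b :=
  (modelH_cont n k).intervalIntegrable a b

theorem VR_strictMonoOn (hn : 1 ≤ n) (hk : 0 ≤ k) : StrictMonoOn (VR n k) (Ici 0) := by
  intro a ha b hb hab
  have ha' : (0 : ℝ) ≤ a := ha
  have h1 : (∫ r in (0 : ℝ)..a, sn k r ^ (n - 1)) + ∫ r in a..b, sn k r ^ (n - 1) =
      ∫ r in (0 : ℝ)..b, sn k r ^ (n - 1) :=
    intervalIntegral.integral_add_adjacent_intervals (modelH_intg n k _ _) (modelH_intg n k _ _)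
  have h2 : 0 < ∫ r in a..b, sn k r ^ (n - 1) := by
    refine intervalIntegral.intervalIntegral_pos_of_pos_on (modelH_intg n k _ _) ?_ hab
    intro x hx
    exact pow_pos (sn_pos hk (ha'.trans_lt hx.1)) _
  unfold VR
  rw [← h1]
  have h3 := sig_pos hn
  linarith only [mul_pos h3 h2]

theorem hasStrictDerivAt_VR (hn : 1 ≤ n) (k R : ℝ) :
    HasStrictDerivAt (VR n k) (AR n k R) R := by
  have h1 := intervalIntegral.integral_hasStrictDerivAt_right (modelH_intg n k 0 R)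
    (modelH_cont n k).stronglyMeasurable.stronglyMeasurableAtFilter (modelH_cont n k).continuousAt
  exact h1.const_mul (sig n)

theorem hasStrictDerivAt_AR (hn : 1 ≤ n) (hk : 0 ≤ k) {R : ℝ} (hR : 0 < R) :
    HasStrictDerivAt (AR n k) (H0 n k R * AR n k R) R := by
  have h0 : HasStrictDerivAt (sn k) (cs k R) R :=
    ((contDiff_sn k).contDiffAt.hasStrictDerivAt' (hasDerivAt_sn k R) (by simp))
  have h1 := (h0.pow (n - 1)).const_mul (sig n)
  have hs := sn_pos hk hR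
  refine h1.congr_deriv ?_
  rcases Nat.lt_or_ge 1 n with h | h
  · obtain ⟨m, rfl⟩ : ∃ m, n = m + 2 := ⟨n - 2, by omega⟩
    simp only [H0, AR, show m + 2 - 1 = m + 1 by omega, Nat.add_sub_cancel]
    push_cast
    field_simp
    ring
  · have : n = 1 := le_antisymm h hn
    subst this
    simp [H0]

theorem exists_VR (hn : 1 ≤ n) (hk : 0 ≤ k) {V : ℝ} (hV : 0 ≤ V) : ∃ R, 0 ≤ R ∧ VR n k R = V := by
  have hs := sig_pos hn
  have hcont : Continuous (VR n k) := continuous_iff_continuousAt.2 fun R =>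
    (hasStrictDerivAt_VR hn k R).hasDerivAt.continuousAt
  set M : ℝ := V / sig n + 1 with hM
  have hM1 : 1 ≤ M := by
    have : 0 ≤ V / sig n := div_nonneg hV hs.le
    linarith only [this]
  have h1 : V ≤ VR n k M := by
    have e1 : (∫ r in (0 : ℝ)..1, sn k r ^ (n - 1)) + ∫ r in (1 : ℝ)..M, sn k r ^ (n - 1) =
        ∫ r in (0 : ℝ)..M, sn k r ^ (n - 1) :=
      intervalIntegral.integral_add_adjacent_intervals (modelH_intg n k _ _) (modelH_intg n k _ _)
    have e2 : 0 ≤ ∫ r in (0 : ℝ)..1, sn k r ^ (n - 1) :=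
      intervalIntegral.integral_nonneg zero_le_one fun x hx =>
        pow_nonneg (modelH_sn_nonneg hk hx.1) _
    have e3 : (∫ _ in (1 : ℝ)..M, (1 : ℝ)) ≤ ∫ r in (1 : ℝ)..M, sn k r ^ (n - 1) := by
      refine intervalIntegral.integral_mono_on hM1 (by simp) (modelH_intg n k _ _) fun x hx => ?_
      exact one_le_pow₀ (hx.1.trans (le_sn hk (zero_le_one.trans hx.1)))
    rw [intervalIntegral.integral_const, smul_eq_mul, mul_one] at e3
    have e4 : V = sig n * (M - 1) := by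
      rw [hM]
      field_simp
      ring
    rw [e4, VR]
    exact mul_le_mul_of_nonneg_left (by linarith only [e3, e2, e1]) hs.le
  have h2 := intermediate_value_Icc (f := VR n k) (zero_le_one.trans hM1) hcont.continuousOn
  rw [VR_zero] at h2
  obtain ⟨R, hR, hRV⟩ := h2 ⟨hV, h1⟩
  exact ⟨R, hR.1, hRV⟩

/-- The extended volume function. -/
noncomputable def modelHF (n : ℕ) (k : ℝ) (R : ℝ) : ℝ := if 0 ≤ R then VR n k R else R

theorem modelH_VR_nonneg (hn : 1 ≤ n) (hk : 0 ≤ k) {R : ℝ} (hR : 0 ≤ R) : 0 ≤ VR n k R := by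
  have := (VR_strictMonoOn hn hk).monotoneOn (mem_Ici.2 le_rfl) (mem_Ici.2 hR) hR
  rwa [VR_zero] at this

theorem modelHF_strictMono (hn : 1 ≤ n) (hk : 0 ≤ k) : StrictMono (modelHF n k) := by
  intro a b hab
  unfold modelHF
  by_cases ha : 0 ≤ a
  · have hb : 0 ≤ b := ha.trans hab.le
    rw [if_pos ha, if_pos hb]
    exact VR_strictMonoOn hn hk ha hb hab
  · rw [if_neg ha]
    by_cases hb : 0 ≤ b
    · rw [if_pos hb]
      exact (not_le.1 ha).trans_le (modelH_VR_nonneg hn hk hb)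
    · rw [if_neg hb]
      exact hab

theorem modelHF_surj (hn : 1 ≤ n) (hk : 0 ≤ k) : Function.Surjective (modelHF n k) := by
  intro V
  by_cases hV : 0 ≤ V
  · obtain ⟨R, hR, h⟩ := exists_VR hn hk hV
    exact ⟨R, by rw [modelHF, if_pos hR, h]⟩
  · exact ⟨V, by rw [modelHF, if_neg hV]⟩

/-- The profile `I = A ∘ V⁻¹`. PROOF: choose `V⁻¹` by `exists_VR`; inverse function theorem
(`HasStrictDerivAt.of_local_left_inverse` or `to_localInverse`). -/
theorem exists_profile (hn : 2 ≤ n) (hk : 0 ≤ k) : ∃ I : ℝ → ℝ, MonotoneOn I (Ici 0) ∧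
    ContinuousOn I (Ici 0) ∧ (∀ V, 0 ≤ V → 0 ≤ I V) ∧ I 0 = 0 ∧
    (∀ R, 0 ≤ R → I (VR n k R) = AR n k R) ∧
    ∀ R, 0 < R → HasStrictDerivAt I (H0 n k R) (VR n k R) := by
  have hn1 : 1 ≤ n := by omega
  set e : ℝ ≃o ℝ := (modelHF_strictMono hn1 hk).orderIsoOfSurjective _ (modelHF_surj hn1 hk) with he
  have he1 : ∀ R, e R = modelHF n k R := fun R => rfl
  have hV : ∀ R, 0 ≤ R → e.symm (VR n k R) = R := by
    intro R hR
    rw [OrderIso.symm_apply_eq, he1, modelHF, if_pos hR]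
  have h0 : e.symm 0 = 0 := by
    have := hV 0 le_rfl
    rwa [VR_zero] at this
  have hnn : ∀ V, 0 ≤ V → 0 ≤ e.symm V := by
    intro V hV0
    rw [← h0]
    exact e.symm.monotone hV0
  have hVR : ∀ V, 0 ≤ V → VR n k (e.symm V) = V := by
    intro V hV0
    have h1 := e.apply_symm_apply V
    rwa [he1, modelHF, if_pos (hnn V hV0)] at h1
  have hARc : Continuous (AR n k) := continuous_const.mul (modelH_cont n k)
  refine ⟨fun V => AR n k (e.symm V), ?_, ?_, ?_, ?_, ?_, ?_⟩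
  · intro a ha b hb hab
    exact AR_mono hn1 hk (hnn a ha) (e.symm.monotone hab)
  · exact (hARc.comp e.symm.continuous).continuousOn
  · intro V hV0
    exact mul_nonneg (sig_pos hn1).le (pow_nonneg (modelH_sn_nonneg hk (hnn V hV0)) _)
  · simp only [h0, AR, sn_zero]
    rw [zero_pow (by omega), mul_zero]
  · intro R hR
    simp only [hV R hR]
  · intro R hR
    have hA := AR_pos hn1 hk hR
    have hpos : 0 < VR n k R := by
      have := VR_strictMonoOn hn1 hk (mem_Ici.2 le_rfl) (mem_Ici.2 hR.le) hR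
      rwa [VR_zero] at this
    have h1 : HasStrictDerivAt (fun V => e.symm V) (AR n k R)⁻¹ (VR n k R) := by
      refine HasStrictDerivAt.of_local_left_inverse (f := VR n k) e.symm.continuous.continuousAt
        ?_ hA.ne' ?_
      · rw [hV R hR.le]
        exact hasStrictDerivAt_VR hn1 k R
      · filter_upwards [lt_mem_nhds hpos] with V hV0
        exact hVR V hV0.le
    have h2 : HasStrictDerivAt (AR n k) (H0 n k R * AR n k R) (e.symm (VR n k R)) := by
      rw [hV R hR.le]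
      exact hasStrictDerivAt_AR hn1 hk hR
    have h3 := h2.comp (VR n k R) h1
    have h4 : H0 n k R * AR n k R * (AR n k R)⁻¹ = H0 n k R := by
      field_simp
    rw [h4] at h3
    exact h3

end Vale.Agent.P219.TPH
end

section

open MeasureTheory
open scoped ENNReal ContDiff

namespace Vale.Agent.P219

/-- recursively defined volume of the unit ball -/
noncomputable def om : ℕ → ℝ
  | 0 => 1
  | (k + 1) => om k * ∫ τ in (-1 : ℝ)..1, (1 - τ ^ 2) ^ ((k : ℝ) / 2)

end Vale.Agent.P219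
end

section

set_option maxSynthPendingDepth 3

namespace Vale.Agent.P219

open scoped ContDiff

variable {n : ℕ}

section

variable {M : RiemMetric n} {Γ : E n → E n →L[ℝ] E n →L[ℝ] E n}

variable {e : Fin n → E n → E n}

end

end Vale.Agent.P219
end

section

/-! # The functional isoperimetric inequality in an abstract Cartan-Hadamard geometry -/

open MeasureTheory Set Metric
open scoped ENNReal ContDiff

namespace Vale.Agent.P219.TPH

open Vale.Agent.P219.TP

variable {n : ℕ}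

/-- Rauch comparison with curvature `-k²`. -/
def MonoSn (G : Geo n) (k : ℝ) : Prop :=
  ∀ (x v z : _root_.Vale.Agent.P219.TP.E n) (s : ℝ), inner ℝ v z = 0 → 0 < s → s ≤ 1 →
    s * sn k ‖v‖ * ‖G.T x (s • v) z‖ ≤ sn k (s * ‖v‖) * ‖G.T x v z‖

theorem MonoSn.zero (G : Geo n) : MonoSn G 0 := by
  intro x v z s hz hs hs1
  have h := G.mono x v z s hz hs.le hs1
  simp only [h1_sn_z]
  exact mul_le_mul_of_nonneg_left h (mul_nonneg hs.le (norm_nonneg v))

theorem Curv.monoSn {G : Geo n} {k : ℝ} (h : Curv G k) : MonoSn G k := h.mono_sn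

/-- The isoperimetric inequality for functions, in all geometries of curvature at most `-k²`. -/
def FuncIso (n : ℕ) (k : ℝ) : Prop :=
  ∀ G : Geo n, MonoSn G k → ∀ h : _root_.Vale.Agent.P219.TP.E n → ℝ, ContDiff ℝ 1 h → HasCompactSupport h →
    (∀ x, 0 ≤ h x ∧ h x ≤ 1) → ∀ R : ℝ, 0 ≤ R → VR n k R ≤ G.vol.real {x | h x = 1} →
    AR n k R ≤ G.per h

end Vale.Agent.P219.TPH
end

section

/-! # Smoothness of `sn k r / r` as a function of `r²`, and the function `f = (cosh(kr)-1)/k²` -/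

open MeasureTheory Set Metric Filter Topology
open scoped ENNReal ContDiff Nat

namespace Vale.Agent.P219.End

open Vale.Agent.P219.TP Vale.Agent.P219.TPH

/-- coefficients of `sinh √s / √s` -/
noncomputable def chiC (j : ℕ) : ℝ := ((2 * j + 1)! : ℝ)⁻¹

/-- `chi0 s = sinh √s / √s` -/
noncomputable def chi0 : ℝ → ℝ := FormalMultilinearSeries.ofScalarsSum (E := ℝ) chiC

theorem chiC_ne (j : ℕ) : chiC j ≠ 0 := by
  unfold chiC
  positivity

theorem chi_radius : (FormalMultilinearSeries.ofScalars ℝ chiC).radius = ⊤ := by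
  refine FormalMultilinearSeries.ofScalars_radius_eq_top_of_tendsto ℝ chiC
    (Eventually.of_forall chiC_ne) ?_
  have h1 : ∀ j : ℕ, ‖chiC j.succ‖ / ‖chiC j‖ ≤ 1 / ((j : ℝ) + 1) := by
    intro j
    have hf : ((2 * j.succ + 1)! : ℝ) = (2 * j + 3) * ((2 * j + 2) * ((2 * j + 1)! : ℝ)) := by
      have e : 2 * j.succ + 1 = (2 * j + 1 + 1) + 1 := by omega
      rw [e, Nat.factorial_succ, Nat.factorial_succ]
      push_cast
      ring
    have hp : (0 : ℝ) < ((2 * j + 1)! : ℝ) := by positivity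
    unfold chiC
    rw [norm_inv, norm_inv, Real.norm_of_nonneg (by positivity), Real.norm_of_nonneg hp.le, hf]
    rw [div_le_div_iff₀ (by positivity) (by positivity)]
    rw [inv_mul_le_iff₀ (by positivity), one_mul]
    have : (2 * (j : ℝ) + 3) * ((2 * j + 2) * ((2 * j + 1)! : ℝ)) * ((2 * j + 1)! : ℝ)⁻¹ =
        (2 * (j : ℝ) + 3) * (2 * j + 2) := by
      field_simp
    rw [this]
    have hj : (0 : ℝ) ≤ j := j.cast_nonneg
    linarith only [mul_nonneg (sub_nonneg.2 hj) (sub_nonneg.2 hj), hj]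
  refine squeeze_zero (fun j => by positivity) h1 ?_
  exact tendsto_one_div_add_atTop_nhds_zero_nat

theorem chi0_smooth : ContDiff ℝ ∞ chi0 := by
  have h1 : HasFPowerSeriesOnBall chi0 (FormalMultilinearSeries.ofScalars ℝ chiC) 0 ⊤ := by
    have h := (FormalMultilinearSeries.ofScalars ℝ chiC).hasFPowerSeriesOnBall
      (by rw [chi_radius]; exact ENNReal.zero_lt_top)
    rw [chi_radius] at h
    exact h
  have h2 : AnalyticOnNhd ℝ chi0 univ := by
    have := h1.analyticOnNhd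
    simpa using this
  exact h2.contDiff

theorem chi0_sq (r : ℝ) : r * chi0 (r ^ 2) = Real.sinh r := by
  have h1 : chi0 (r ^ 2) = ∑' j, chiC j * (r ^ 2) ^ j := by
    unfold chi0
    rw [FormalMultilinearSeries.ofScalars_sum_eq]
    simp [smul_eq_mul]
  have h2 := Real.hasSum_sinh r
  rw [h1, ← h2.tsum_eq, ← tsum_mul_left]
  congr 1
  funext j
  unfold chiC
  have e : r ^ (2 * j + 1) = r * (r ^ 2) ^ j := by
    rw [← pow_mul, pow_succ]
    ring
  rw [e]
  field_simp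

theorem chi0_zero : chi0 0 = 1 := by
  unfold chi0
  rw [FormalMultilinearSeries.ofScalarsSum_zero]
  simp [chiC]

/-- `chi k (r²) = sn k r / r` -/
noncomputable def chi (k s : ℝ) : ℝ := chi0 (k ^ 2 * s)

theorem chi_smooth (k : ℝ) : ContDiff ℝ ∞ (chi k) :=
  chi0_smooth.comp (contDiff_const.mul contDiff_id)

theorem sn_eq_chi (k r : ℝ) : _root_.Vale.Agent.P219.TPH.sn k r = r * chi k (r ^ 2) := by
  unfold chi
  by_cases hk : k = 0
  · subst hk
    simp [_root_.Vale.Agent.P219.TPH.sn, chi0_zero]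
  · have h1 := chi0_sq (k * r)
    have h2 := h1_sinh k r
    have e : k ^ 2 * r ^ 2 = (k * r) ^ 2 := by ring
    rw [e]
    have h3 : k * _root_.Vale.Agent.P219.TPH.sn k r = k * (r * chi0 ((k * r) ^ 2)) := by
      rw [h2, ← h1]
      ring
    exact mul_left_cancel₀ hk h3

theorem chi_zero (k : ℝ) : chi k 0 = 1 := by
  unfold chi
  rw [mul_zero, chi0_zero]

theorem chi_pos {k r : ℝ} (hk : 0 ≤ k) : 0 < chi k (r ^ 2) := by
  rcases eq_or_ne r 0 with h | h
  · subst h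
    rw [zero_pow two_ne_zero, chi_zero]
    exact one_pos
  · have h1 := _root_.Vale.Agent.P219.TPH.sn_pos hk (abs_pos.2 h)
    rw [sn_eq_chi, sq_abs] at h1
    exact (mul_pos_iff_of_pos_left (abs_pos.2 h)).1 h1

theorem one_le_chi {k r : ℝ} (hk : 0 ≤ k) : 1 ≤ chi k (r ^ 2) := by
  rcases eq_or_ne r 0 with h | h
  · subst h
    rw [zero_pow two_ne_zero, chi_zero]
  · have h1 := le_sn hk (abs_nonneg r)
    rw [sn_eq_chi, sq_abs] at h1
    exact le_of_mul_le_mul_left (by linarith) (abs_pos.2 h)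

/-- `ff k (r²) = (cosh(kr) - 1)/k² = 2 sn_k(r/2)²` -/
noncomputable def ff (k s : ℝ) : ℝ := s / 2 * chi k (s / 4) ^ 2

theorem ff_smooth (k : ℝ) : ContDiff ℝ ∞ (ff k) :=
  (contDiff_id.div_const 2).mul (((chi_smooth k).comp (contDiff_id.div_const 4)).pow 2)

theorem ff_sq (k r : ℝ) : ff k (r ^ 2) = 2 * _root_.Vale.Agent.P219.TPH.sn k (r / 2) ^ 2 := by
  unfold ff
  rw [sn_eq_chi k (r / 2)]
  have e : (r / 2) ^ 2 = r ^ 2 / 4 := by ring
  rw [mul_pow, e]
  ring

theorem cs_eq_ff (k r : ℝ) : _root_.Vale.Agent.P219.TPH.cs k r = 1 + k ^ 2 * ff k (r ^ 2) := by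
  rw [h1_cs_half, ff_sq]
  ring

theorem ff_nonneg (k r : ℝ) : 0 ≤ ff k (r ^ 2) := by
  rw [ff_sq]
  positivity

/-- `sn² = 2 f + k² f²` -/
theorem sn_sq_eq_ff (k r : ℝ) : _root_.Vale.Agent.P219.TPH.sn k r ^ 2 = 2 * ff k (r ^ 2) + k ^ 2 * ff k (r ^ 2) ^ 2 := by
  have h1 : _root_.Vale.Agent.P219.TPH.sn k r = 2 * _root_.Vale.Agent.P219.TPH.sn k (r / 2) * _root_.Vale.Agent.P219.TPH.cs k (r / 2) := by
    by_cases hk : k = 0
    · subst hk
      simp [_root_.Vale.Agent.P219.TPH.sn, _root_.Vale.Agent.P219.TPH.cs]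
      ring
    · have h2 := h1_sinh k r
      have h3 := h1_sinh k (r / 2)
      have h4 : Real.sinh (k * r) = 2 * Real.sinh (k * (r / 2)) * Real.cosh (k * (r / 2)) := by
        rw [← Real.sinh_two_mul]
        congr 1
        ring
      have h5 : k * _root_.Vale.Agent.P219.TPH.sn k r = k * (2 * _root_.Vale.Agent.P219.TPH.sn k (r / 2) * _root_.Vale.Agent.P219.TPH.cs k (r / 2)) := by
        rw [h2, h4, ← h3]
        unfold _root_.Vale.Agent.P219.TPH.cs
        ring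
      exact mul_left_cancel₀ hk h5
  have h6 := cs_sq k (r / 2)
  rw [h1, mul_pow, h6, ff_sq]
  ring

theorem hasDerivAt_ff (k r : ℝ) : HasDerivAt (fun r => ff k (r ^ 2)) (_root_.Vale.Agent.P219.TPH.sn k r) r := by
  have h1 : (fun r => ff k (r ^ 2)) = fun r => 2 * _root_.Vale.Agent.P219.TPH.sn k (r / 2) ^ 2 := by
    funext r
    exact ff_sq k r
  rw [h1]
  have h2 : HasDerivAt (fun r : ℝ => _root_.Vale.Agent.P219.TPH.sn k (r / 2)) (_root_.Vale.Agent.P219.TPH.cs k (r / 2) * (1 / 2)) r := by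
    exact HasDerivAt.comp (h₂ := _root_.Vale.Agent.P219.TPH.sn k) (h := fun r : ℝ => r / 2) r (_root_.Vale.Agent.P219.TPH.hasDerivAt_sn k (r / 2))
      ((hasDerivAt_id r).div_const 2)
  have h3 := (h2.pow 2).const_mul 2
  refine h3.congr_deriv ?_
  by_cases hk : k = 0
  · subst hk
    simp [_root_.Vale.Agent.P219.TPH.sn, _root_.Vale.Agent.P219.TPH.cs]
    ring
  · have h4 := h1_sinh k r
    have h5 := h1_sinh k (r / 2)
    have h6 : Real.sinh (k * r) = 2 * Real.sinh (k * (r / 2)) * Real.cosh (k * (r / 2)) := by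
      rw [← Real.sinh_two_mul]
      congr 1
      ring
    refine mul_left_cancel₀ hk ?_
    rw [h4, h6, ← h5]
    unfold _root_.Vale.Agent.P219.TPH.cs
    push_cast
    ring

/-- derivative of `ff k` at `r²`: `f' = chi/2` -/
theorem hasDerivAt_ff_sq (k : ℝ) {s : ℝ} (hs : 0 ≤ s) : HasDerivAt (ff k) (chi k s / 2) s := by
  have hd : DifferentiableAt ℝ (ff k) s := (ff_smooth k).differentiable (by simp) s
  have hcl : ∀ s, 0 < s → deriv (ff k) s = chi k s / 2 := by
    intro s hs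
    have hd : DifferentiableAt ℝ (ff k) s := (ff_smooth k).differentiable (by simp) s
    have hr : (√s) ^ 2 = s := Real.sq_sqrt hs.le
    have h0 : HasDerivAt (fun r : ℝ => r ^ 2) (2 * √s) (√s) := by
      simpa using hasDerivAt_pow 2 (√s)
    have h1 : HasDerivAt (fun r => ff k (r ^ 2)) (deriv (ff k) s * (2 * √s)) (√s) := by
      have h2 : HasDerivAt (ff k) (deriv (ff k) s) ((√s) ^ 2) := by
        rw [hr]
        exact hd.hasDerivAt
      exact HasDerivAt.comp (h₂ := ff k) (h := fun r : ℝ => r ^ 2) (√s) h2 h0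
    have h3 := h1.unique (hasDerivAt_ff k (√s))
    rw [sn_eq_chi, hr] at h3
    have h4 : √s ≠ 0 := (Real.sqrt_pos.2 hs).ne'
    have h5 : √s * (deriv (ff k) s * 2) = √s * chi k s := by linarith
    have h6 := mul_left_cancel₀ h4 h5
    linarith
  have hc1 : Continuous (deriv (ff k)) := (ff_smooth k).continuous_deriv (by simp)
  have hc2 : Continuous fun s => chi k s / 2 := (chi_smooth k).continuous.div_const 2
  have heq : deriv (ff k) s = chi k s / 2 := by
    rcases hs.eq_or_lt with h | h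
    · subst h
      have t1 : Tendsto (deriv (ff k)) (𝓝[>] 0) (𝓝 (deriv (ff k) 0)) :=
        (hc1.tendsto 0).mono_left nhdsWithin_le_nhds
      have t2 : Tendsto (fun s => chi k s / 2) (𝓝[>] 0) (𝓝 (chi k 0 / 2)) :=
        (hc2.tendsto 0).mono_left nhdsWithin_le_nhds
      have t3 : (deriv (ff k)) =ᶠ[𝓝[>] 0] fun s => chi k s / 2 := by
        filter_upwards [self_mem_nhdsWithin] with s hs
        exact hcl s hs
      exact tendsto_nhds_unique t1 (t2.congr' t3.symm)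
    · exact hcl s h
  rw [← heq]
  exact hd.hasDerivAt

end Vale.Agent.P219.End
end

section

/-!
# P219 / End : derivative in ε of the bubble integral `J_Φ(c, ε) = ∫ Φ w_{c,ε}^m dμ`

Exact formula for the derivative in `ε`, monotonicity, upper density.
-/

open MeasureTheory Set Metric Filter
open scoped ContDiff Topology

namespace Vale.Agent.P219.End

variable {n : ℕ}

/-- derivative of `w^m` in `ε` -/
theorem hasDerivAt_bm {k2 m f ε : ℝ} (hf : 0 ≤ f) (hε : 0 < ε) (hk : k2 * ε < 2) :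
    HasDerivAt (fun ε => (√(ε * (2 - k2 * ε)) / (f + ε)) ^ m)
      (m * (√(ε * (2 - k2 * ε)) / (f + ε)) ^ m * (f * (1 - k2 * ε) - ε) /
        ((f + ε) * (ε * (2 - k2 * ε)))) ε := by
  have h2 : 0 < f + ε := by linarith
  have hq : 0 < ε * (2 - k2 * ε) := mul_pos hε (by linarith)
  have hb : 0 < √(ε * (2 - k2 * ε)) / (f + ε) := div_pos (Real.sqrt_pos.2 hq) h2
  have h0 : HasDerivAt (fun ε : ℝ => ε * (2 - k2 * ε)) (2 - 2 * k2 * ε) ε := by
    have h := (hasDerivAt_id ε).mul (((hasDerivAt_id ε).const_mul k2).const_sub 2)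
    refine h.congr_deriv ?_
    simp only [id_eq]
    ring
  have h1 := (h0.sqrt hq.ne').fun_div ((hasDerivAt_id ε).const_add f) (by simpa using h2.ne')
  have h4 := h1.rpow_const (p := m) (Or.inl (by simpa using hb.ne'))
  refine h4.congr_deriv ?_
  simp only [id_eq]
  rw [Real.rpow_sub_one hb.ne']
  have hs : √(ε * (2 - k2 * ε)) ≠ 0 := (Real.sqrt_pos.2 hq).ne'
  have hss : √(ε * (2 - k2 * ε)) ^ 2 = ε * (2 - k2 * ε) := Real.sq_sqrt hq.le
  have h2k : 2 - k2 * ε ≠ 0 := by linarith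
  have hε' := hε.ne'
  generalize hS : √(ε * (2 - k2 * ε)) = S at *
  generalize (S / (f + ε)) ^ m = Q
  field_simp
  rw [hss]
  ring

/-- the pointwise algebra of the derivative formula; `ff = |∇F|²`, `gff = ff - nc²` -/
theorem bub_alg {m Φ q F ε k2 H gf nc ff : ℝ} (hG : 0 < F + ε) (hε : 0 < ε) (hk : k2 * ε < 2)
    (hf : ff = 2 * F + k2 * F ^ 2) :
    Φ * (m * q * (F * (1 - k2 * ε) - ε) / ((F + ε) * (ε * (2 - k2 * ε)))) =
      (ε * (2 - k2 * ε))⁻¹ * ((H * (Φ * q) * nc - m * (1 + k2 * F) * (Φ * q) -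
        (q * gf - (m * (Φ * q) / (F + ε)) * (ff - nc ^ 2))) + q * gf +
        Φ * q * (m * nc ^ 2 / (F + ε) - H * nc)) := by
  have h1 : F + ε ≠ 0 := hG.ne'
  have h2 : 2 - k2 * ε ≠ 0 := by linarith
  have h3 := hε.ne'
  rw [hf]
  field_simp
  ring

namespace Lim

variable (L : Lim n)

section

variable {c : E n} {ε : ℝ} (hε : 0 < ε) (hk : L.k2 * ε < 2)

include hε hk in
theorem wm_smooth {Φ : E n → ℝ} {k : WithTop ℕ∞} (hΦ : ContDiff ℝ k Φ) (hk' : k ≤ ∞) (r : ℝ) :
    ContDiff ℝ k fun x => Φ x * L.w c ε x ^ r :=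
  hΦ.mul ((L.w_rpow_smooth hε hk r).of_le hk')

include hε hk in
theorem G_wm {Φ : E n → ℝ} (hΦ : ContDiff ℝ 1 Φ) (z : E n × E n) :
    L.G (fun x => Φ x * L.w c ε x ^ L.m) (L.F c) z =
      L.w c ε z.1 ^ L.m * L.G Φ (L.F c) z -
        (L.m * (Φ z.1 * L.w c ε z.1 ^ L.m) / (L.F c z.1 + ε)) *
          (‖D L.A (L.F c) z.1‖ ^ 2 - L.nc c z ^ 2) := by
  have h1 := hΦ.differentiable (by norm_num) z.1
  have h2 : DifferentiableAt ℝ (fun y => L.w c ε y ^ L.m) z.1 :=
    (L.w_rpow_smooth hε hk L.m).differentiable (by norm_num) z.1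
  have e1 : L.G (fun x => Φ x * L.w c ε x ^ L.m) (L.F c) z =
      gv (D L.A (fun x => Φ x * L.w c ε x ^ L.m) z.1) (D L.A (L.F c) z.1) z.2 := rfl
  have e2 : gv (D L.A (L.F c) z.1) (D L.A (L.F c) z.1) z.2 =
      ‖D L.A (L.F c) z.1‖ ^ 2 - L.nc c z ^ 2 := gv_self _ _
  have e3 : L.G Φ (L.F c) z = gv (D L.A Φ z.1) (D L.A (L.F c) z.1) z.2 := rfl
  rw [e1, D_mul h1 h2, L.D_w_rpow hε hk, gv_add_left, gv_smul_left, gv_smul_left, gv_smul_left,
    e2, e3]
  ring

/-- the integrand of the derivative of `J` -/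
noncomputable def dJ (Φ : E n → ℝ) (c : E n) (ε : ℝ) (x : E n) : ℝ :=
  Φ x * (L.m * L.w c ε x ^ L.m * (L.F c x * (1 - L.k2 * ε) - ε) /
    ((L.F c x + ε) * (ε * (2 - L.k2 * ε))))

include hε hk in
theorem dJ_eq {Φ : E n → ℝ} (hΦ : ContDiff ℝ 1 Φ) (z : E n × E n) :
    L.dJ Φ c ε z.1 = (ε * (2 - L.k2 * ε))⁻¹ *
      (L.dl c (fun x => Φ x * L.w c ε x ^ L.m) z + L.w c ε z.1 ^ L.m * L.G Φ (L.F c) z +
        Φ z.1 * L.w c ε z.1 ^ L.m *
          (L.m * L.nc c z ^ 2 / (L.F c z.1 + ε) - L.H0 * L.nc c z)) := by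
  unfold dJ dl
  rw [L.G_wm hε hk hΦ]
  exact bub_alg (L.Fe_pos hε z.1) hε hk (L.grad c z.1)

theorem dJ_contOn {Φ : E n → ℝ} (hΦ : Continuous Φ) (c : E n) :
    ContinuousOn (fun p : ℝ × E n => L.dJ Φ c p.1 p.2) ({ε | 0 < ε ∧ L.k2 * ε < 2} ×ˢ univ) := by
  have hF : Continuous fun p : ℝ × E n => L.F c p.2 := (L.Fc_cont c).comp continuous_snd
  have h1 : Continuous fun p : ℝ × E n => p.1 * (2 - L.k2 * p.1) := by fun_prop
  have h2 : ∀ p ∈ ({ε | 0 < ε ∧ L.k2 * ε < 2} ×ˢ univ : Set (ℝ × E n)), 0 < p.1 * (2 - L.k2 * p.1) := by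
    rintro p ⟨⟨h3, h4⟩, -⟩
    exact mul_pos h3 (by linarith)
  have h3 : ∀ p ∈ ({ε | 0 < ε ∧ L.k2 * ε < 2} ×ˢ univ : Set (ℝ × E n)), 0 < L.F c p.2 + p.1 := by
    rintro p ⟨⟨h3, h4⟩, -⟩
    exact L.Fe_pos h3 p.2
  have h4 : ContinuousOn (fun p : ℝ × E n => L.w c p.1 p.2)
      ({ε | 0 < ε ∧ L.k2 * ε < 2} ×ˢ univ) := by
    unfold w bub
    exact (h1.sqrt.continuousOn).div (by fun_prop) fun p hp => (h3 p hp).ne'
  have h5 : ContinuousOn (fun p : ℝ × E n => L.w c p.1 p.2 ^ L.m)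
      ({ε | 0 < ε ∧ L.k2 * ε < 2} ×ˢ univ) :=
    h4.rpow_const fun p hp => Or.inl (L.w_pos hp.1.1 hp.1.2 p.2).ne'
  unfold dJ
  refine (hΦ.comp continuous_snd).continuousOn.mul ?_
  refine ((continuousOn_const.mul h5).mul (by fun_prop)).div (by fun_prop) fun p hp => ?_
  exact mul_ne_zero (h3 p hp).ne' (h2 p hp).ne'

include hε hk in
/-- differentiation under the integral sign -/
theorem hasDerivAt_J {Φ : E n → ℝ} (hΦ : Continuous Φ) :
    HasDerivAt (fun ε => L.J Φ c ε) (∫ z, L.dJ Φ c ε z.1 ∂L.V) ε := by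
  -- a compact neighbourhood of `ε`
  obtain ⟨δ, hδ, hδ'⟩ : ∃ δ > 0, closedBall ε δ ⊆ {ε | 0 < ε ∧ L.k2 * ε < 2} := by
    have hopen : IsOpen {ε : ℝ | 0 < ε ∧ L.k2 * ε < 2} :=
      (isOpen_lt continuous_const continuous_id).inter
        (isOpen_lt (continuous_const.mul continuous_id) continuous_const)
    exact (nhds_basis_closedBall.mem_iff).1 (hopen.mem_nhds ⟨hε, hk⟩)
  have hcomp : IsCompact (closedBall ε δ ×ˢ L.K) := (isCompact_closedBall ε δ).prod L.K_compact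
  have hsub : closedBall ε δ ×ˢ L.K ⊆ ({ε | 0 < ε ∧ L.k2 * ε < 2} ×ˢ univ : Set (ℝ × E n)) :=
    prod_mono hδ' (subset_univ _)
  obtain ⟨B, hB⟩ := hcomp.exists_bound_of_continuousOn ((L.dJ_contOn hΦ c).mono hsub)
  have hmeas : ∀ ε', 0 < ε' → L.k2 * ε' < 2 →
      Continuous fun z : E n × E n => Φ z.1 * L.w c ε' z.1 ^ L.m := by
    intro ε' h1 h2
    exact (hΦ.comp continuous_fst).mul ((L.w_rpow_smooth h1 h2 L.m).continuous.comp continuous_fst)
  have hmain := hasDerivAt_integral_of_dominated_loc_of_deriv_le (μ := L.V)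
    (F := fun ε z => Φ z.1 * L.w c ε z.1 ^ L.m) (F' := fun ε z => L.dJ Φ c ε z.1)
    (x₀ := ε) (s := ball ε δ) (bound := fun _ => B) (ball_mem_nhds ε hδ)
    (by
      filter_upwards [ball_mem_nhds ε hδ] with x hx
      have := hδ' (ball_subset_closedBall hx)
      exact (hmeas x this.1 this.2).aestronglyMeasurable)
    (L.integrable_of_cont (hmeas ε hε hk))
    (by
      have h1 : Continuous fun z : E n × E n => L.dJ Φ c ε z.1 := by
        have h2 : Continuous fun x => L.dJ Φ c ε x := by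
          rw [← continuousOn_univ]
          exact (L.dJ_contOn hΦ c).comp (f := fun x : E n => (ε, x)) (by fun_prop)
            fun x _ => ⟨⟨hε, hk⟩, mem_univ _⟩
        exact h2.comp continuous_fst
      exact h1.aestronglyMeasurable)
    (by
      filter_upwards [L.V_supp] with z hz x hx
      exact hB (x, z.1) ⟨ball_subset_closedBall hx, hz.1⟩)
    (integrable_const _)
    (by
      refine Eventually.of_forall fun z x hx => ?_
      have h3 := hδ' (ball_subset_closedBall hx)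
      exact (hasDerivAt_bm (m := L.m) (L.F_nonneg c z.1) h3.1 h3.2).const_mul (Φ z.1))
  exact hmain.2

include hε hk in
/-- THE EXACT DERIVATIVE FORMULA -/
theorem dJ_int {Φ : E n → ℝ} (hΦ : ContDiff ℝ 1 Φ) :
    ∫ z, L.dJ Φ c ε z.1 ∂L.V = (ε * (2 - L.k2 * ε))⁻¹ *
      (L.Dl c (fun x => Φ x * L.w c ε x ^ L.m) +
        ∫ z, L.w c ε z.1 ^ L.m * L.G Φ (L.F c) z ∂L.V +
        ∫ z, Φ z.1 * L.w c ε z.1 ^ L.m *
          (L.m * L.nc c z ^ 2 / (L.F c z.1 + ε) - L.H0 * L.nc c z) ∂L.V) := by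
  have h1i : (1 : WithTop ℕ∞) ≤ ∞ := by exact_mod_cast le_top
  have cw : Continuous fun z : E n × E n => L.w c ε z.1 ^ L.m :=
    (L.w_rpow_smooth hε hk L.m).continuous.comp continuous_fst
  have cΦ : Continuous fun z : E n × E n => Φ z.1 := hΦ.continuous.comp continuous_fst
  have cF : Continuous fun z : E n × E n => L.F c z.1 := (L.Fc_cont c).comp continuous_fst
  have cn := L.nc_cont c
  have i1 := L.dl_integrable c (L.wm_smooth hε hk hΦ h1i L.m (c := c))
  have i2 : Integrable (fun z : E n × E n => L.w c ε z.1 ^ L.m * L.G Φ (L.F c) z) L.V :=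
    L.integrable_of_cont (cw.mul (L.G_cont hΦ (L.Fc_smooth1 c)))
  have i3 : Integrable (fun z : E n × E n => Φ z.1 * L.w c ε z.1 ^ L.m *
      (L.m * L.nc c z ^ 2 / (L.F c z.1 + ε) - L.H0 * L.nc c z)) L.V :=
    L.integrable_of_cont ((cΦ.mul cw).mul (((continuous_const.mul (cn.pow 2)).div
      (cF.add continuous_const) fun z => (L.Fe_pos hε z.1).ne').sub (continuous_const.mul cn)))
  have i12 : Integrable (fun z : E n × E n => L.dl c (fun x => Φ x * L.w c ε x ^ L.m) z +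
      L.w c ε z.1 ^ L.m * L.G Φ (L.F c) z) L.V := i1.add i2
  rw [Dl_eq, ← integral_add i1 i2, ← integral_add i12 i3, ← integral_const_mul]
  refine integral_congr_ae (Eventually.of_forall fun z => ?_)
  exact L.dJ_eq hε hk hΦ z

end

end Lim

end Vale.Agent.P219.End
end

section

/-!
# P219 / End : derivative of `J_Φ(c, s)` in the scale `s`
-/

open MeasureTheory Set Metric Filter
open scoped ContDiff Topology

namespace Vale.Agent.P219.End

variable {n : ℕ}

namespace Lim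

variable (L : Lim n)

/-- B3a -/
theorem hasDerivAt_Js {s : ℝ} (hs : 0 < s) (hs' : L.k2 * s ^ 2 < 4) (c : E n) {Φ : E n → ℝ}
    (hΦ : ContDiff ℝ ∞ Φ) : HasDerivAt (L.Js Φ c)
      (1 / (s * (1 - L.k2 * s ^ 2 / 4)) * (L.Dl c (fun x => Φ x * L.ws c s x ^ L.m) -
        (∫ z, Φ z.1 * L.ws c s z.1 ^ L.m * (L.H0 * L.nc c z -
          2 * L.m * L.nc c z ^ 2 / (s ^ 2 + 2 * L.F c z.1)) ∂L.V) +
        ∫ z, L.ws c s z.1 ^ L.m * L.G Φ (L.F c) z ∂L.V)) s := by
  have hε : 0 < s ^ 2 / 2 := by positivity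
  have hk : L.k2 * (s ^ 2 / 2) < 2 := by linarith
  have h1 := L.hasDerivAt_J (c := c) hε hk hΦ.continuous
  rw [L.dJ_int hε hk (hΦ.of_le (by exact_mod_cast le_top))] at h1
  have h2 : HasDerivAt (fun s : ℝ => s ^ 2 / 2) s s := by
    refine ((hasDerivAt_pow 2 s).div_const 2).congr_deriv ?_
    simp
  have h3 := h1.comp s h2
  have h4 : 1 - L.k2 * s ^ 2 / 4 ≠ 0 := by linarith only [hk]
  have e1 : ∫ z, Φ z.1 * L.w c (s ^ 2 / 2) z.1 ^ L.m *
      (L.m * L.nc c z ^ 2 / (L.F c z.1 + s ^ 2 / 2) - L.H0 * L.nc c z) ∂L.V =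
      -∫ z, Φ z.1 * L.ws c s z.1 ^ L.m * (L.H0 * L.nc c z -
          2 * L.m * L.nc c z ^ 2 / (s ^ 2 + 2 * L.F c z.1)) ∂L.V := by
    rw [← integral_neg]
    refine integral_congr_ae (Eventually.of_forall fun z => ?_)
    have h5 : L.F c z.1 + s ^ 2 / 2 ≠ 0 := (L.Fe_pos hε z.1).ne'
    have e2 : L.m * L.nc c z ^ 2 / (L.F c z.1 + s ^ 2 / 2) =
        2 * L.m * L.nc c z ^ 2 / (s ^ 2 + 2 * L.F c z.1) := by
      have h6 : s ^ 2 + 2 * L.F c z.1 ≠ 0 := by
        intro h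
        apply h5
        linarith
      rw [div_eq_div_iff h5 h6]
      ring
    simp only [ws, e2]
    ring
  have h6 : HasDerivAt (L.Js Φ c) _ s := h3
  refine h6.congr_deriv ?_
  rw [e1]
  have e3 : (s ^ 2 / 2 * (2 - L.k2 * (s ^ 2 / 2)))⁻¹ * s = 1 / (s * (1 - L.k2 * s ^ 2 / 4)) := by
    have h7 : 2 - L.k2 * (s ^ 2 / 2) ≠ 0 := by linarith only [hk]
    have hs0 := hs.ne'
    have h8 : s ^ 2 / 2 * (2 - L.k2 * (s ^ 2 / 2)) = s * (s * (1 - L.k2 * s ^ 2 / 4)) := by ring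
    rw [h8]
    field_simp
  rw [← e3]
  simp only [ws]
  ring

end Lim

end Vale.Agent.P219.End
end

section

/-!
# P219 / End : `J_Φ(p, s) + C ∫ ρ k_s` is nondecreasing in `s`
-/

open MeasureTheory Set Metric Filter
open scoped ContDiff Topology

namespace Vale.Agent.P219.End

variable {n : ℕ}

namespace Lim

variable (L : Lim n)

theorem potB_ds_sq (c x : E n) : L.ds c x ^ 2 = 2 * L.F c x :=
  Real.sq_sqrt (mul_nonneg two_pos.le (L.F_nonneg c x))

theorem potB_ds_nonneg (c x : E n) : 0 ≤ L.ds c x := Real.sqrt_nonneg _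

theorem potB_ds_cont (c : E n) : Continuous (L.ds c) := (continuous_const.mul (L.Fc_cont c)).sqrt

theorem potB_F_bound : ∃ B : ℝ, 0 ≤ B ∧ ∀ c ∈ L.K, ∀ x ∈ L.K, L.F c x ≤ B := by
  have h1 : Continuous fun z : E n × E n => L.F z.1 z.2 := L.F_smooth.continuous
  obtain ⟨B, hB⟩ := (L.K_compact.prod L.K_compact).exists_bound_of_continuousOn h1.continuousOn
  refine ⟨|B|, abs_nonneg B, fun c hc x hx => ?_⟩
  exact (le_abs_self _).trans ((hB (c, x) ⟨hc, hx⟩).trans (le_abs_self B))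

theorem potB_Ad_of_le {L : Lim n} {s S : ℝ} (h : L.Ad S) (hs : 0 < s) (hsS : s ≤ S) : L.Ad s := by
  refine ⟨hs, hsS.trans h.2.1, ?_⟩
  have h1 : s ^ 2 ≤ S ^ 2 := pow_le_pow_left₀ hs.le hsS 2
  exact (mul_le_mul_of_nonneg_left h1 L.k2_nonneg).trans h.2.2

/-- the weight `ρ = Φ d + |∇_S Φ|` -/
noncomputable def rhoP (Φ : E n → ℝ) (p : E n) (z : E n × E n) : ℝ :=
  Φ z.1 * L.ds p z.1 + √(L.G Φ Φ z)

theorem rhoP_cont {Φ : E n → ℝ} (hΦ : ContDiff ℝ 1 Φ) (p : E n) : Continuous (L.rhoP Φ p) := by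
  unfold rhoP
  exact ((hΦ.continuous.comp continuous_fst).mul ((L.potB_ds_cont p).comp continuous_fst)).add
    (L.G_cont hΦ hΦ).sqrt

theorem rhoP_nonneg {Φ : E n → ℝ} (h0 : ∀ x, 0 ≤ Φ x) (p : E n) (z : E n × E n) :
    0 ≤ L.rhoP Φ p z := add_nonneg (mul_nonneg (h0 _) (L.potB_ds_nonneg p _)) (Real.sqrt_nonneg _)

theorem rhoP_bound {Φ : E n → ℝ} (hΦ : ContDiff ℝ 1 Φ) (p : E n) :
    ∃ R : ℝ, 0 ≤ R ∧ ∀ᵐ z ∂L.V, |L.rhoP Φ p z| ≤ R := by
  have hK : IsCompact (L.K ×ˢ sphere (0 : E n) 1) := L.K_compact.prod (isCompact_sphere 0 1)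
  obtain ⟨C, hC⟩ := hK.exists_bound_of_continuousOn (L.rhoP_cont hΦ p).continuousOn
  refine ⟨|C|, abs_nonneg C, ?_⟩
  filter_upwards [L.V_supp] with z hz
  exact (hC z ⟨hz.1, by simpa using hz.2⟩).trans (le_abs_self C)

/-- the constant -/
noncomputable def cP (B : ℝ) : ℝ :=
  4 * 4 ^ L.m / (3 * L.m) * (L.H0 ^ 2 / (8 * L.m) + √(1 + L.k2 * B / 2))

theorem cP_pos {B : ℝ} (hB : 0 ≤ B) : 0 < L.cP B := by
  have h1 := L.m_pos
  have h2 : 0 < √(1 + L.k2 * B / 2) := by
    apply Real.sqrt_pos.2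
    have := mul_nonneg L.k2_nonneg hB
    linarith only [this]
  unfold cP
  positivity

/-- pointwise bound of the error -/
theorem potB_err_le {B : ℝ} {p : E n} {s : ℝ} (hs : L.Ad s) {Φ : E n → ℝ}
    (h0 : ∀ x, 0 ≤ Φ x) {z : E n × E n} (hFB : L.F p z.1 ≤ B) (hz : ‖z.2‖ = 1)
    (hd : 0 < L.ds p z.1) :
    1 / (s * (1 - L.k2 * s ^ 2 / 4)) * (Φ z.1 * L.ws p s z.1 ^ L.m * (L.H0 * L.nc p z -
          2 * L.m * L.nc p z ^ 2 / (s ^ 2 + 2 * L.F p z.1)) -
        L.ws p s z.1 ^ L.m * L.G Φ (L.F p) z) ≤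
      L.cP B * (L.rhoP Φ p z * (L.m * kk L.m s (L.ds p z.1) *
        (L.ds p z.1 / (s * (s + L.ds p z.1))))) := by
  obtain ⟨hs0, hs1, hs2⟩ := hs
  have hm := L.m_pos
  have hm3 := L.three_le
  have hF := L.F_nonneg p z.1
  have hε : 0 < s ^ 2 / 2 := by positivity
  have hk : L.k2 * (s ^ 2 / 2) < 2 := by linarith
  have hdd := L.potB_ds_sq p z.1
  set d := L.ds p z.1 with hdef
  have hsd : 0 < s + d := by linarith
  have hw : 0 < L.ws p s z.1 := L.w_pos hε hk z.1
  have hwle : L.ws p s z.1 ≤ 4 * s / (s + d) ^ 2 := by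
    have h := bub_le L.k2_nonneg hF hs0 hs2 hdd hd.le
    exact h
  have hK1 := bub_rpow_le (by linarith only [hm3]) hw.le hs0 hd hwle (m := L.m)
  have hK2 := bub_rpow_le2 hm3 hw.le hs0 hd hdd hwle
  have hkk : 0 ≤ kk L.m s d := kk_nonneg hs0.le hd.le
  -- the square
  have hsq : L.H0 * L.nc p z - 2 * L.m * L.nc p z ^ 2 / (s ^ 2 + 2 * L.F p z.1) ≤
      L.H0 ^ 2 * (L.F p z.1 + s ^ 2 / 2) / (4 * L.m) := by
    have h1 : 0 < L.F p z.1 + s ^ 2 / 2 := by linarith only [hF, hε]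
    have h2 : 0 < s ^ 2 + 2 * L.F p z.1 := by linarith only [h1]
    rw [← sub_nonneg]
    have : L.H0 ^ 2 * (L.F p z.1 + s ^ 2 / 2) / (4 * L.m) - (L.H0 * L.nc p z -
        2 * L.m * L.nc p z ^ 2 / (s ^ 2 + 2 * L.F p z.1)) =
        L.m / (L.F p z.1 + s ^ 2 / 2) *
          (L.nc p z - L.H0 * (L.F p z.1 + s ^ 2 / 2) / (2 * L.m)) ^ 2 := by
      field_simp
      ring
    rw [this]
    (clear * - hm hF hs0; positivity)
  -- the gradient term
  have hG : |L.G Φ (L.F p) z| ≤ √(L.G Φ Φ z) * (d * √(1 + L.k2 * B / 2)) := by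
    have h1 : |L.G Φ (L.F p) z| ≤ √(L.G Φ Φ z) * √(L.G (L.F p) (L.F p) z) :=
      gv_abs_le hz.le _ _
    have h2 : L.G (L.F p) (L.F p) z ≤ (d * √(1 + L.k2 * B / 2)) ^ 2 := by
      rw [L.G_FF, mul_pow, hdd, Real.sq_sqrt (by
        have := mul_nonneg L.k2_nonneg (hF.trans hFB)
        linarith only [this])]
      have h3 : L.k2 * L.F p z.1 ^ 2 ≤ L.F p z.1 * (L.k2 * B) := by
        have := mul_le_mul_of_nonneg_left hFB (mul_nonneg L.k2_nonneg hF)
        linarith only [this]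
      linarith only [sq_nonneg (L.nc p z), h3]
    have h3 : √(L.G (L.F p) (L.F p) z) ≤ d * √(1 + L.k2 * B / 2) :=
      Real.sqrt_le_iff.2 ⟨by positivity, h2⟩
    exact h1.trans (mul_le_mul_of_nonneg_left h3 (Real.sqrt_nonneg _))
  have hg : 3 / 4 ≤ 1 - L.k2 * s ^ 2 / 4 := by linarith only [hs2]
  have hΦ0 := h0 z.1
  have hwm : 0 ≤ L.ws p s z.1 ^ L.m := by positivity
  set CF := √(1 + L.k2 * B / 2) with hCF
  have hCF0 : 0 ≤ CF := Real.sqrt_nonneg _
  set Gr := √(L.G Φ Φ z) with hGr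
  have hGr0 : 0 ≤ Gr := Real.sqrt_nonneg _
  -- the bracket
  have hbr : Φ z.1 * L.ws p s z.1 ^ L.m * (L.H0 * L.nc p z -
          2 * L.m * L.nc p z ^ 2 / (s ^ 2 + 2 * L.F p z.1)) -
        L.ws p s z.1 ^ L.m * L.G Φ (L.F p) z ≤
      4 ^ L.m * (kk L.m s d * d / (s + d)) *
        (L.H0 ^ 2 / (8 * L.m) * (Φ z.1 * d) + CF * Gr) := by
    have h1 : Φ z.1 * L.ws p s z.1 ^ L.m * (L.H0 * L.nc p z -
          2 * L.m * L.nc p z ^ 2 / (s ^ 2 + 2 * L.F p z.1)) ≤
        4 ^ L.m * (kk L.m s d * d / (s + d)) * (L.H0 ^ 2 / (8 * L.m) * (Φ z.1 * d)) := by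
      calc Φ z.1 * L.ws p s z.1 ^ L.m * (L.H0 * L.nc p z -
          2 * L.m * L.nc p z ^ 2 / (s ^ 2 + 2 * L.F p z.1)) ≤
          Φ z.1 * L.ws p s z.1 ^ L.m * (L.H0 ^ 2 * (L.F p z.1 + s ^ 2 / 2) / (4 * L.m)) :=
            mul_le_mul_of_nonneg_left hsq (by (clear * - hΦ0 hw; positivity))
        _ = Φ z.1 * (L.H0 ^ 2 / (4 * L.m)) *
            ((L.F p z.1 + s ^ 2 / 2) * L.ws p s z.1 ^ L.m) := by ring
        _ ≤ Φ z.1 * (L.H0 ^ 2 / (4 * L.m)) * (4 ^ L.m / 2 * kk L.m s d * d ^ 2 / (s + d)) :=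
            mul_le_mul_of_nonneg_left hK2 (by (clear * - hΦ0 hm; positivity))
        _ = 4 ^ L.m * (kk L.m s d * d / (s + d)) * (L.H0 ^ 2 / (8 * L.m) * (Φ z.1 * d)) := by
            field_simp
            ring
    have h2 : -(L.ws p s z.1 ^ L.m * L.G Φ (L.F p) z) ≤
        4 ^ L.m * (kk L.m s d * d / (s + d)) * (CF * Gr) := by
      calc -(L.ws p s z.1 ^ L.m * L.G Φ (L.F p) z) ≤
          L.ws p s z.1 ^ L.m * |L.G Φ (L.F p) z| := by
            rw [← mul_neg]
            exact mul_le_mul_of_nonneg_left (neg_le_abs _) hwm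
        _ ≤ (4 ^ L.m * kk L.m s d / (s + d)) * (Gr * (d * CF)) :=
            mul_le_mul hK1 hG (abs_nonneg _) (by (clear * - hkk hs0 hd; positivity))
        _ = 4 ^ L.m * (kk L.m s d * d / (s + d)) * (CF * Gr) := by ring
    rw [mul_add]
    linarith only [h2, h1]
  have hrhs0 : 0 ≤ 4 ^ L.m * (kk L.m s d * d / (s + d)) *
        (L.H0 ^ 2 / (8 * L.m) * (Φ z.1 * d) + CF * Gr) := by (clear * - hkk hd hs0 hm hΦ0; positivity)
  have hinv : 1 / (s * (1 - L.k2 * s ^ 2 / 4)) ≤ 4 / 3 * (1 / s) := by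
    rw [show 4 / 3 * (1 / s) = 1 / (s * (3 / 4)) by field_simp]
    exact one_div_le_one_div_of_le (by positivity) (mul_le_mul_of_nonneg_left hg hs0.le)
  have hinv0 : 0 ≤ 1 / (s * (1 - L.k2 * s ^ 2 / 4)) := by
    have : 0 < 1 - L.k2 * s ^ 2 / 4 := by linarith only [hg]
    positivity
  have hlast : L.H0 ^ 2 / (8 * L.m) * (Φ z.1 * d) + CF * Gr ≤
      (L.H0 ^ 2 / (8 * L.m) + CF) * L.rhoP Φ p z := by
    unfold rhoP
    rw [← hdef, ← hGr]
    have h1 : 0 ≤ L.H0 ^ 2 / (8 * L.m) := by positivity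
    linarith only [mul_nonneg hCF0 (mul_nonneg hΦ0 hd.le), mul_nonneg h1 hGr0]
  calc _ ≤ 1 / (s * (1 - L.k2 * s ^ 2 / 4)) * (4 ^ L.m * (kk L.m s d * d / (s + d)) *
        (L.H0 ^ 2 / (8 * L.m) * (Φ z.1 * d) + CF * Gr)) := mul_le_mul_of_nonneg_left hbr hinv0
    _ ≤ 4 / 3 * (1 / s) * (4 ^ L.m * (kk L.m s d * d / (s + d)) *
        (L.H0 ^ 2 / (8 * L.m) * (Φ z.1 * d) + CF * Gr)) := mul_le_mul_of_nonneg_right hinv hrhs0
    _ ≤ 4 / 3 * (1 / s) * (4 ^ L.m * (kk L.m s d * d / (s + d)) *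
        ((L.H0 ^ 2 / (8 * L.m) + CF) * L.rhoP Φ p z)) := by
          refine mul_le_mul_of_nonneg_left (mul_le_mul_of_nonneg_left hlast ?_) (by positivity)
          (clear * - hkk hd hs0; positivity)
    _ = _ := by
          unfold cP
          rw [← hCF]
          field_simp

/-- the potential `A(s) = ∫ ρ k_s` -/
noncomputable def Apot (Φ : E n → ℝ) (p : E n) (s : ℝ) : ℝ :=
  ∫ z, L.rhoP Φ p z * L.kS s (L.ds p z.1) ∂L.V

theorem potB_kk_meas (s : ℝ) (p : E n) : Measurable fun z : E n × E n => kk L.m s (L.ds p z.1) := by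
  have h1 : Measurable fun z : E n × E n => L.ds p z.1 :=
    ((L.potB_ds_cont p).comp continuous_fst).measurable
  unfold kk
  exact ((measurable_const.div (measurable_const.add h1)).pow_const _).mul (h1.pow_const _)

theorem hasDerivAt_Apot {p : E n} {s : ℝ} (hs : 0 < s)
    (hkS : ∀ S : ℝ, 0 < S → Integrable (fun z => L.kS S (L.ds p z.1)) L.V) {Φ : E n → ℝ}
    (hΦ : ContDiff ℝ 1 Φ) :
    Integrable (fun z => L.rhoP Φ p z * (L.m * kk L.m s (L.ds p z.1) *
      (L.ds p z.1 / (s * (s + L.ds p z.1))))) L.V ∧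
    HasDerivAt (L.Apot Φ p) (∫ z, L.rhoP Φ p z * (L.m * kk L.m s (L.ds p z.1) *
      (L.ds p z.1 / (s * (s + L.ds p z.1)))) ∂L.V) s := by
  have hm1 : 1 < L.m := by linarith [L.three_le]
  obtain ⟨R, hR0, hR⟩ := L.rhoP_bound hΦ p
  have hρm : Measurable (L.rhoP Φ p) := (L.rhoP_cont hΦ p).measurable
  have hdm : Measurable fun z : E n × E n => L.ds p z.1 :=
    ((L.potB_ds_cont p).comp continuous_fst).measurable
  have hint : ∀ x : ℝ, 0 < x → Integrable (fun z => L.rhoP Φ p z * L.kS x (L.ds p z.1)) L.V := by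
    intro x hx
    refine ((hkS x hx).norm.const_mul R).mono' ?_ ?_
    · exact (hρm.mul (L.potB_kk_meas x p)).aestronglyMeasurable
    · filter_upwards [hR] with z hz
      rw [norm_mul]
      exact mul_le_mul_of_nonneg_right hz (norm_nonneg _)
  have hmain := hasDerivAt_integral_of_dominated_loc_of_deriv_le (μ := L.V)
    (F := fun s z => L.rhoP Φ p z * L.kS s (L.ds p z.1))
    (F' := fun s z => L.rhoP Φ p z * (L.m * kk L.m s (L.ds p z.1) *
      (L.ds p z.1 / (s * (s + L.ds p z.1)))))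
    (x₀ := s) (s := ball s (s / 2))
    (bound := fun z => R * (L.m * L.kS (2 * s) (L.ds p z.1) * (2 / s)))
    (ball_mem_nhds s (by positivity))
    (by
      filter_upwards [ball_mem_nhds s (half_pos hs)] with x hx
      exact (hρm.mul (L.potB_kk_meas x p)).aestronglyMeasurable)
    (hint s hs)
    (by
      refine (hρm.mul (((L.potB_kk_meas s p).const_mul L.m).mul ?_)).aestronglyMeasurable
      exact hdm.div ((hdm.const_add s).const_mul s))
    (by
      filter_upwards [hR] with z hz x hx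
      have hx' : s / 2 < x ∧ x < 3 * s / 2 := by
        rw [Real.ball_eq_Ioo] at hx
        constructor <;> linarith [hx.1, hx.2]
      have hd := L.potB_ds_nonneg p z.1
      have hx0 : 0 < x := by linarith
      have h1 : L.ds p z.1 / (x * (x + L.ds p z.1)) ≤ 2 / s := by
        rw [div_le_div_iff₀ (by positivity) hs]
        nlinarith
      have h2 : kk L.m x (L.ds p z.1) ≤ L.kS (2 * s) (L.ds p z.1) :=
        kk_mono L.m_pos.le hx0.le (by linarith) hd
      have h3 : 0 ≤ kk L.m x (L.ds p z.1) := kk_nonneg hx0.le hd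
      have h4 : 0 ≤ L.ds p z.1 / (x * (x + L.ds p z.1)) := by positivity
      have hm := L.m_pos
      rw [norm_mul]
      refine mul_le_mul hz ?_ (norm_nonneg _) hR0
      rw [Real.norm_eq_abs, abs_of_nonneg (by (clear * - hm1 h3 hd hx0; positivity))]
      exact mul_le_mul (mul_le_mul_of_nonneg_left h2 hm.le) h1 h4
        (mul_nonneg hm.le (h3.trans h2)))
    ((((hkS (2 * s) (by positivity)).const_mul L.m).mul_const (2 / s)).const_mul R)
    (by
      refine Eventually.of_forall fun z x hx => ?_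
      have hx0 : 0 < x := by
        rw [Real.ball_eq_Ioo] at hx
        linarith [hx.1]
      exact (hasDerivAt_kk hm1 hx0 (L.potB_ds_nonneg p z.1)).const_mul _)
  exact hmain

/-- `J + C A` has nonnegative derivative -/
theorem potB_deriv_nonneg {B : ℝ} {p : E n} (hp : p ∈ L.K) (hB : ∀ x ∈ L.K, L.F p x ≤ B)
    (hd : ∀ᵐ z ∂L.V, 0 < L.ds p z.1)
    (hkS : ∀ S : ℝ, 0 < S → Integrable (fun z => L.kS S (L.ds p z.1)) L.V) {Φ : E n → ℝ}
    (hΦ : ContDiff ℝ ∞ Φ) (h0 : ∀ x, 0 ≤ Φ x) {s : ℝ} (hs : L.Ad s) :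
    ∃ D : ℝ, 0 ≤ D ∧ HasDerivAt (fun s => L.Js Φ p s + L.cP B * L.Apot Φ p s) D s := by
  obtain ⟨hs0, hs1, hs2⟩ := id hs
  have hΦ1 : ContDiff ℝ 1 Φ := hΦ.of_le (by exact_mod_cast le_top)
  have hε : 0 < s ^ 2 / 2 := by positivity
  have hk : L.k2 * (s ^ 2 / 2) < 2 := by linarith
  obtain ⟨hI, hA⟩ := L.hasDerivAt_Apot hs0 hkS hΦ1
  have hJ := L.hasDerivAt_Js hs0 (by linarith only [hs2]) p hΦ
  refine ⟨_, ?_, hJ.add (hA.const_mul (L.cP B))⟩
  have hg : 0 < 1 - L.k2 * s ^ 2 / 4 := by linarith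
  have hD : 0 ≤ L.Dl p (fun x => Φ x * L.ws p s x ^ L.m) := by
    refine L.Dl_nonneg hp (L.wm_smooth hε hk hΦ le_rfl L.m) fun x => ?_
    exact mul_nonneg (h0 x) (Real.rpow_nonneg (L.w_pos hε hk x).le _)
  have cw : Continuous fun z : E n × E n => L.ws p s z.1 ^ L.m :=
    (L.w_rpow_smooth hε hk L.m).continuous.comp continuous_fst
  have cΦ : Continuous fun z : E n × E n => Φ z.1 := hΦ.continuous.comp continuous_fst
  have cF : Continuous fun z : E n × E n => L.F p z.1 := (L.Fc_cont p).comp continuous_fst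
  have cn := L.nc_cont p
  have i1 : Integrable (fun z : E n × E n => Φ z.1 * L.ws p s z.1 ^ L.m * (L.H0 * L.nc p z -
          2 * L.m * L.nc p z ^ 2 / (s ^ 2 + 2 * L.F p z.1))) L.V :=
    L.integrable_of_cont ((cΦ.mul cw).mul ((continuous_const.mul cn).sub
      ((continuous_const.mul (cn.pow 2)).div (continuous_const.add (continuous_const.mul cF))
        fun z => by
          have := L.F_nonneg p z.1
          (clear * - hs0 this; positivity))))
  have i2 : Integrable (fun z : E n × E n => L.ws p s z.1 ^ L.m * L.G Φ (L.F p) z) L.V :=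
    L.integrable_of_cont (cw.mul (L.G_cont hΦ1 (L.Fc_smooth1 p)))
  have hcmp : 1 / (s * (1 - L.k2 * s ^ 2 / 4)) *
      ((∫ z, Φ z.1 * L.ws p s z.1 ^ L.m * (L.H0 * L.nc p z -
          2 * L.m * L.nc p z ^ 2 / (s ^ 2 + 2 * L.F p z.1)) ∂L.V) -
        ∫ z, L.ws p s z.1 ^ L.m * L.G Φ (L.F p) z ∂L.V) ≤
      L.cP B * ∫ z, L.rhoP Φ p z * (L.m * kk L.m s (L.ds p z.1) *
        (L.ds p z.1 / (s * (s + L.ds p z.1)))) ∂L.V := by
    rw [← integral_sub i1 i2, ← integral_const_mul, ← integral_const_mul]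
    refine integral_mono_ae ((i1.sub i2).const_mul _) (hI.const_mul _) ?_
    filter_upwards [L.V_supp, hd] with z hz hdz
    exact L.potB_err_le hs h0 (hB z.1 hz.1) hz.2 hdz
  have hpos : 0 ≤ 1 / (s * (1 - L.k2 * s ^ 2 / 4)) := by positivity
  have h1 := mul_nonneg hpos hD
  have e : 1 / (s * (1 - L.k2 * s ^ 2 / 4)) * (L.Dl p (fun x => Φ x * L.ws p s x ^ L.m) -
        (∫ z, Φ z.1 * L.ws p s z.1 ^ L.m * (L.H0 * L.nc p z -
          2 * L.m * L.nc p z ^ 2 / (s ^ 2 + 2 * L.F p z.1)) ∂L.V) +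
        ∫ z, L.ws p s z.1 ^ L.m * L.G Φ (L.F p) z ∂L.V) =
      1 / (s * (1 - L.k2 * s ^ 2 / 4)) * L.Dl p (fun x => Φ x * L.ws p s x ^ L.m) -
      1 / (s * (1 - L.k2 * s ^ 2 / 4)) *
      ((∫ z, Φ z.1 * L.ws p s z.1 ^ L.m * (L.H0 * L.nc p z -
          2 * L.m * L.nc p z ^ 2 / (s ^ 2 + 2 * L.F p z.1)) ∂L.V) -
        ∫ z, L.ws p s z.1 ^ L.m * L.G Φ (L.F p) z ∂L.V) := by ring
  rw [e]
  linarith only [h1, hcmp]

/-- **almost monotonicity** of the bubble integral, with the truncated kernel -/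
theorem Js_le {B : ℝ} {p : E n} (hp : p ∈ L.K) (hB0 : 0 ≤ B) (hB : ∀ x ∈ L.K, L.F p x ≤ B)
    (hd : ∀ᵐ z ∂L.V, 0 < L.ds p z.1)
    (hkS : ∀ S : ℝ, 0 < S → Integrable (fun z => L.kS S (L.ds p z.1)) L.V) {Φ : E n → ℝ}
    (hΦ : ContDiff ℝ ∞ Φ) (h0 : ∀ x, 0 ≤ Φ x) {s S : ℝ} (hs : 0 < s) (hsS : s ≤ S)
    (hS : L.Ad S) : L.Js Φ p s ≤ L.Js Φ p S + L.cP B * L.Apot Φ p S := by
  have hmono : MonotoneOn (fun s => L.Js Φ p s + L.cP B * L.Apot Φ p s) (Icc s S) := by
    have hder : ∀ x ∈ Icc s S, ∃ D : ℝ, 0 ≤ D ∧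
        HasDerivAt (fun s => L.Js Φ p s + L.cP B * L.Apot Φ p s) D x := by
      intro x hx
      exact L.potB_deriv_nonneg hp hB hd hkS hΦ h0 (potB_Ad_of_le hS (lt_of_lt_of_le hs hx.1) hx.2)
    refine monotoneOn_of_deriv_nonneg (convex_Icc s S) ?_ ?_ ?_
    · intro x hx
      obtain ⟨D, -, hD⟩ := hder x hx
      exact hD.continuousAt.continuousWithinAt
    · intro x hx
      obtain ⟨D, -, hD⟩ := hder x (interior_subset hx)
      exact hD.differentiableAt.differentiableWithinAt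
    · intro x hx
      obtain ⟨D, hD0, hD⟩ := hder x (interior_subset hx)
      rw [hD.deriv]
      exact hD0
  have h1 := hmono (left_mem_Icc.2 hsS) (right_mem_Icc.2 hsS) hsS
  have h2 : 0 ≤ L.cP B * L.Apot Φ p s := by
    refine mul_nonneg (L.cP_pos hB0).le (integral_nonneg fun z => ?_)
    exact mul_nonneg (L.rhoP_nonneg h0 p z) (kk_nonneg hs.le (L.potB_ds_nonneg p z.1))
  simp only at h1
  linarith

end Lim

end Vale.Agent.P219.End
end

section

/-!
# P219 / End : lower limit of `J_Φ(p, s)` as `s → 0`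
-/

open MeasureTheory Set Metric Filter
open scoped ENNReal ContDiff Topology

namespace Vale.Agent.P219.End

variable {n : ℕ}

theorem potL_sg_pos {m : ℝ} (hm : 0 < m) : 0 < sg m := by
  unfold sg
  have h1 := Real.Gamma_pos_of_pos (show 0 < m / 2 by positivity)
  have h2 := Real.Gamma_pos_of_pos hm
  have h3 := Real.pi_pos
  positivity

namespace Lim

variable (L : Lim n)

theorem potL_ws_nonneg {s : ℝ} (c x : E n) : 0 ≤ L.ws c s x := by
  unfold ws w bub
  exact div_nonneg (Real.sqrt_nonneg _) (by have := L.F_nonneg c x; positivity)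

/-- `w ≤ s / F` -/
theorem potL_ws_le {s f : ℝ} (hs : 0 < s) (hf : 0 < f) (c x : E n) (hx : f ≤ L.F c x) :
    L.ws c s x ≤ s / f := by
  unfold ws w bub
  have h1 : √(s ^ 2 / 2 * (2 - L.k2 * (s ^ 2 / 2))) ≤ s := by
    refine Real.sqrt_le_iff.2 ⟨hs.le, ?_⟩
    have : 0 ≤ L.k2 * (s ^ 2 / 2) := mul_nonneg L.k2_nonneg (by positivity)
    linarith only [mul_nonneg (sub_nonneg.2 this) (sq_nonneg s)]
  have h2 : f ≤ L.F c x + s ^ 2 / 2 := by linarith only [sq_nonneg s, hx]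
  exact div_le_div₀ hs.le h1 hf h2

theorem potL_ws_cont {s : ℝ} (hs : 0 < s) (c : E n) : Continuous (L.ws c s) := by
  unfold ws w bub
  refine continuous_const.div ((L.Fc_cont c).add continuous_const) ?_
  intro x
  have := L.F_nonneg c x
  positivity

/-- B3e, the limit `s → 0` -/
theorem liminf_Js {p : E n} (hdens : ∀ δ > 0, ∀ᶠ s in 𝓝[>] (0 : ℝ),
      sg L.m - δ ≤ ∫ y, L.ws p s y.1 ^ L.m ∂L.V)
    {Φ : E n → ℝ} (hΦ : Continuous Φ) (h0 : ∀ x, 0 ≤ Φ x) {δ : ℝ} (hδ : 0 < δ) :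
    ∀ᶠ s in 𝓝[>] (0 : ℝ), sg L.m * Φ p - δ ≤ L.Js Φ p s := by
  have hm := L.m_pos
  have hsg : 0 < sg L.m := potL_sg_pos hm
  rcases (h0 p).eq_or_lt with ha | ha
  · refine Eventually.of_forall fun s => ?_
    rw [← ha, mul_zero, zero_sub]
    refine (neg_nonpos.2 hδ.le).trans ?_
    unfold Js
    refine integral_nonneg fun z => ?_
    exact mul_nonneg (h0 _) (Real.rpow_nonneg (L.potL_ws_nonneg _ _) _)
  set a : ℝ := Φ p with hadef
  obtain ⟨η, hη0, hηa, hη⟩ : ∃ η > 0, η ≤ a ∧ η * sg L.m ≤ δ / 4 := by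
    refine ⟨min a (δ / 4 / sg L.m), lt_min ha (by positivity), min_le_left _ _, ?_⟩
    calc min a (δ / 4 / sg L.m) * sg L.m ≤ δ / 4 / sg L.m * sg L.m :=
          mul_le_mul_of_nonneg_right (min_le_right _ _) hsg.le
      _ = δ / 4 := by field_simp
  -- the far region
  obtain ⟨f, hf0, hf⟩ : ∃ f > 0, ∀ x ∈ L.K, Φ x ≤ a - η → f ≤ L.F p x := by
    have hcl : IsClosed {x | Φ x ≤ a - η} := isClosed_le hΦ continuous_const
    have hc : IsCompact (L.K ∩ {x | Φ x ≤ a - η}) := L.K_compact.inter_right hcl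
    rcases (L.K ∩ {x | Φ x ≤ a - η}).eq_empty_or_nonempty with he | hne
    · refine ⟨1, one_pos, fun x hx hx' => ?_⟩
      have : x ∈ L.K ∩ {x | Φ x ≤ a - η} := ⟨hx, hx'⟩
      rw [he] at this
      exact this.elim
    · obtain ⟨x₀, hx₀, hmin⟩ := hc.exists_isMinOn hne (L.Fc_cont p).continuousOn
      refine ⟨L.F p x₀, ?_, fun x hx hx' => hmin ⟨hx, hx'⟩⟩
      refine L.F_pos p x₀ fun h => ?_
      have h2 : Φ x₀ ≤ a - η := hx₀.2
      rw [← h] at h2
      linarith only [h2, hη0]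
  set T : ℝ := L.V.real univ with hT
  have hT0 : 0 ≤ T := measureReal_nonneg
  have hM : Tendsto (fun s : ℝ => a * (s / f) ^ L.m * T) (𝓝[>] 0) (𝓝 0) := by
    have h1 : Tendsto (fun s : ℝ => (s / f) ^ L.m) (𝓝 0) (𝓝 ((0 / f) ^ L.m)) := by
      have h2 : ContinuousAt (fun s : ℝ => s / f) 0 := by fun_prop
      exact h2.rpow_const (Or.inr hm.le)
    rw [zero_div, Real.zero_rpow hm.ne'] at h1
    have h3 := (h1.const_mul a).mul_const T
    rw [mul_zero, zero_mul] at h3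
    exact h3.mono_left nhdsWithin_le_nhds
  filter_upwards [self_mem_nhdsWithin, hdens (δ / 4 / (a + 1)) (by positivity),
    hM.eventually_le_const (show (0 : ℝ) < δ / 4 by positivity)] with s hs hd hMs
  have hs0 : (0 : ℝ) < s := hs
  have hwc : Continuous fun z : E n × E n => L.ws p s z.1 ^ L.m :=
    ((L.potL_ws_cont hs0 p).comp continuous_fst).rpow_const fun _ => Or.inr hm.le
  have key : (a - η) * (∫ z, L.ws p s z.1 ^ L.m ∂L.V) - a * (s / f) ^ L.m * T ≤ L.Js Φ p s := by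
    have e : (a - η) * (∫ z, L.ws p s z.1 ^ L.m ∂L.V) - a * (s / f) ^ L.m * T =
        ∫ z, ((a - η) * L.ws p s z.1 ^ L.m - a * (s / f) ^ L.m) ∂L.V := by
      rw [integral_sub ((L.integrable_of_cont hwc).const_mul _) (integrable_const _),
        integral_const_mul, integral_const, smul_eq_mul]
      ring
    rw [e]
    unfold Js
    refine integral_mono_ae
      (((L.integrable_of_cont hwc).const_mul _).sub (integrable_const _))
      (L.integrable_of_cont ((hΦ.comp continuous_fst).mul hwc)) ?_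
    filter_upwards [L.V_supp] with z hz
    have hw0 : 0 ≤ L.ws p s z.1 ^ L.m := Real.rpow_nonneg (L.potL_ws_nonneg _ _) _
    have hM0 : 0 ≤ a * (s / f) ^ L.m := by positivity
    show (a - η) * L.ws p s z.1 ^ L.m - a * (s / f) ^ L.m ≤ Φ z.1 * L.ws p s z.1 ^ L.m
    rcases le_or_gt (Φ z.1) (a - η) with hx | hx
    · have h1 := L.potL_ws_le hs0 hf0 p z.1 (hf z.1 hz.1 hx)
      have h2 : L.ws p s z.1 ^ L.m ≤ (s / f) ^ L.m :=
        Real.rpow_le_rpow (L.potL_ws_nonneg _ _) h1 hm.le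
      have h3 : (a - η) * L.ws p s z.1 ^ L.m ≤ a * (s / f) ^ L.m :=
        mul_le_mul (by linarith only [hη0]) h2 hw0 ha.le
      have h4 : 0 ≤ Φ z.1 * L.ws p s z.1 ^ L.m := mul_nonneg (h0 _) hw0
      linarith only [h4, h3]
    · have := mul_le_mul_of_nonneg_right hx.le hw0
      linarith only [this, hM0]
  have h5 : (a - η) * (sg L.m - δ / 4 / (a + 1)) ≤
      (a - η) * ∫ z, L.ws p s z.1 ^ L.m ∂L.V :=
    mul_le_mul_of_nonneg_left hd (by linarith only [hηa])
  have h6 : (a - η) * (δ / 4 / (a + 1)) ≤ δ / 4 := by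
    have h7 : (a - η) * (δ / 4 / (a + 1)) ≤ (a + 1) * (δ / 4 / (a + 1)) :=
      mul_le_mul_of_nonneg_right (by linarith only [hη0]) (by positivity)
    refine h7.trans (le_of_eq ?_)
    field_simp
  linarith only [hη, hMs, h6, h5, key, hδ]

end Lim

end Vale.Agent.P219.End
end

section

/-!
# P219 / End : potential estimate (B3e)
-/

open MeasureTheory Set Metric Filter
open scoped ContDiff Topology

namespace Vale.Agent.P219.End

variable {n : ℕ}

namespace Lim

variable (L : Lim n)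

theorem pot_of
    (upper_density : ∃ C > 0, (∀ c ∈ L.K, ∀ s : ℝ, 0 < s →
        L.V.real {z | L.ds c z.1 ≤ s} ≤ C * s ^ L.m) ∧
      ∀ c ∈ L.K, ∀ s : ℝ, L.Ad s → ∫ z, L.ws c s z.1 ^ L.m ∂L.V ≤ C)
    (dens_bub : ∀ᵐ z ∂L.V, ∀ δ > 0, ∀ᶠ s in 𝓝[>] (0 : ℝ),
      sg L.m - δ ≤ ∫ y, L.ws z.1 s y.1 ^ L.m ∂L.V)
    (kS_integrable : ∀ {c : E n}, c ∈ L.K → ∀ {S : ℝ}, 0 < S →
      Integrable (fun z => L.kS S (L.ds c z.1)) L.V) :
    ∃ C > 0, ∀ᵐ z₀ ∂L.V, ∀ Φ : E n → ℝ, ContDiff ℝ ∞ Φ → (∀ x, 0 ≤ Φ x) →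
    ∀ S, L.Ad S → sg L.m * Φ z₀.1 ≤ L.Js Φ z₀.1 S +
      C * ∫ z, (Φ z.1 * L.ds z₀.1 z.1 + √(L.G Φ Φ z)) * L.kS S (L.ds z₀.1 z.1) ∂L.V := by
  obtain ⟨B, hB0, hB⟩ := L.potB_F_bound
  refine ⟨L.cP B, L.cP_pos hB0, ?_⟩
  filter_upwards [L.V_supp, dens_bub] with z₀ hz₀ hdens
  intro Φ hΦ h0 S hS
  have hp := hz₀.1
  have hd : ∀ᵐ z ∂L.V, 0 < L.ds z₀.1 z.1 := by
    obtain ⟨C, hC, hu, -⟩ := upper_density
    have h1 : L.V.real {z | L.ds z₀.1 z.1 = 0} = 0 := by
      refine le_antisymm (le_of_forall_pos_le_add fun e he => ?_) measureReal_nonneg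
      have hm := L.m_pos
      have h2 : Tendsto (fun s : ℝ => C * s ^ L.m) (𝓝[>] 0) (𝓝 0) := by
        have h3 : Tendsto (fun s : ℝ => C * s ^ L.m) (𝓝 0) (𝓝 (C * 0 ^ L.m)) :=
          ((Real.continuousAt_rpow_const 0 L.m (Or.inr hm.le)).const_mul C).tendsto
        rw [Real.zero_rpow hm.ne', mul_zero] at h3
        exact h3.mono_left nhdsWithin_le_nhds
      obtain ⟨s, hs1, hs2⟩ := ((h2.eventually (gt_mem_nhds he)).and self_mem_nhdsWithin).exists
      have hs2' : 0 < s := hs2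
      have h4 : L.V.real {z | L.ds z₀.1 z.1 = 0} ≤ L.V.real {z | L.ds z₀.1 z.1 ≤ s} := by
        refine measureReal_mono (fun z hz => ?_)
        have : L.ds z₀.1 z.1 = 0 := hz
        simp only [mem_setOf_eq, this]
        exact hs2'.le
      have h5 := hu z₀.1 hp s hs2'
      linarith
    have h6 : L.V {z | L.ds z₀.1 z.1 = 0} = 0 := (measureReal_eq_zero_iff).1 h1
    have h7 : ∀ᵐ z ∂L.V, ¬ L.ds z₀.1 z.1 = 0 := by
      rw [ae_iff]
      simpa using h6
    filter_upwards [h7] with z hz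
    exact lt_of_le_of_ne (L.potB_ds_nonneg _ _) (Ne.symm hz)
  have hkS : ∀ S : ℝ, 0 < S → Integrable (fun z => L.kS S (L.ds z₀.1 z.1)) L.V :=
    fun S hS => kS_integrable hp hS
  refine le_of_forall_pos_le_add fun δ hδ => ?_
  have h1 := L.liminf_Js (p := z₀.1) hdens hΦ.continuous h0 hδ
  have h2 : ∀ᶠ s in 𝓝[>] (0 : ℝ), 0 < s ∧ s ≤ S := by
    filter_upwards [Ioc_mem_nhdsGT hS.1] with s hs
    exact ⟨hs.1, hs.2⟩
  obtain ⟨s, hs1, hs2, hs3⟩ := (h1.and h2).exists
  have h3 := L.Js_le hp hB0 (fun x hx => hB z₀.1 hp x hx) hd hkS hΦ h0 hs2 hs3 hS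
  have h4 : L.Apot Φ z₀.1 S =
      ∫ z, (Φ z.1 * L.ds z₀.1 z.1 + √(L.G Φ Φ z)) * L.kS S (L.ds z₀.1 z.1) ∂L.V := rfl
  rw [h4] at h3
  linarith only [h3, hs1]

end Lim

end Vale.Agent.P219.End
end

section

/-!
# P219 / End : potential estimate (B3e), final form
-/

open MeasureTheory Set Metric Filter
open scoped ContDiff Topology

namespace Vale.Agent.P219.End

variable {n : ℕ}

namespace Lim

variable (L : Lim n)

theorem potF_kS_integrable {c : E n} (hc : c ∈ L.K) {S : ℝ} (hS : 0 < S) :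
    Integrable (fun z => L.kS S (L.ds c z.1)) L.V := by
  have hm : 1 < L.m := by linarith [L.three_le]
  obtain ⟨C, hC, hu, -⟩ := L.upper_density
  have hmeas : Measurable fun z : E n × E n => L.ds c z.1 :=
    ((L.potB_ds_cont c).comp continuous_fst).measurable
  have hGr : Cake.Gr L.V (fun z => L.ds c z.1) C L.m := by
    refine ⟨hmeas, fun z => L.potB_ds_nonneg c z.1, hC.le, fun t ht => ?_⟩
    rw [← ofReal_measureReal]
    exact ENNReal.ofReal_le_ofReal (hu c hc t ht)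
  have h1 := Cake.lint_kr hGr hm hS
  have hm1 : Measurable fun z : E n × E n => L.kS S (L.ds c z.1) := L.potB_kk_meas S c
  refine ⟨hm1.aestronglyMeasurable, ?_⟩
  rw [hasFiniteIntegral_iff_norm]
  refine lt_of_le_of_lt ?_ (lt_of_le_of_lt h1 ENNReal.ofReal_lt_top)
  refine lintegral_mono fun z => ENNReal.ofReal_le_ofReal (le_of_eq ?_)
  rw [Real.norm_eq_abs, abs_of_nonneg]
  · rfl
  · exact kk_nonneg hS.le (L.potB_ds_nonneg c z.1)

/-- B3e potential estimate -/
theorem pot : ∃ C > 0, ∀ᵐ z₀ ∂L.V, ∀ Φ : E n → ℝ, ContDiff ℝ ∞ Φ → (∀ x, 0 ≤ Φ x) →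
    ∀ S, L.Ad S → sg L.m * Φ z₀.1 ≤ L.Js Φ z₀.1 S +
      C * ∫ z, (Φ z.1 * L.ds z₀.1 z.1 + √(L.G Φ Φ z)) * L.kS S (L.ds z₀.1 z.1) ∂L.V :=
  L.pot_of L.upper_density L.dens_bub (fun hc _ hS => L.potF_kS_integrable hc hS)

end Lim

end Vale.Agent.P219.End
end

section

/-! # `n = 2`: integration by parts along a ray -/

open MeasureTheory Set Metric
open scoped ENNReal ContDiff

namespace Vale.Agent.P219.N2

open Vale.Agent.P219.TP Vale.Agent.P219.TPH

/-- `cosh (k r) - k sn = exp (- k r)`. -/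
theorem cs_sub_sn (k r : ℝ) : _root_.Vale.Agent.P219.TPH.cs k r - k * _root_.Vale.Agent.P219.TPH.sn k r = Real.exp (-(k * r)) := by
  rw [h1_sinh]
  unfold _root_.Vale.Agent.P219.TPH.cs
  rw [Real.cosh_sub_sinh]

/-- The continuous cut-off. -/
noncomputable def rψ (c ε t : ℝ) : ℝ := max 0 (min 1 ((c - t) / ε))

theorem rψ_cont (c ε : ℝ) : Continuous (rψ c ε) := by
  unfold rψ
  fun_prop

theorem rψ_nonneg (c ε t : ℝ) : 0 ≤ rψ c ε t := le_max_left _ _

theorem rψ_le_one (c ε t : ℝ) : rψ c ε t ≤ 1 := max_le zero_le_one (min_le_left _ _)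

theorem rψ_zero {c ε t : ℝ} (hε : 0 < ε) (h : c ≤ t) : rψ c ε t = 0 := by
  unfold rψ
  rw [max_eq_left]
  exact (min_le_right _ _).trans (div_nonpos_of_nonpos_of_nonneg (by linarith) hε.le)

theorem rψ_one {c ε t : ℝ} (hε : 0 < ε) (h : t ≤ c - ε) : rψ c ε t = 1 := by
  unfold rψ
  rw [min_eq_left ((one_le_div hε).2 (by linarith)), max_eq_right zero_le_one]

/-- The primitive of the cut-off. -/
noncomputable def rφ (c ε t : ℝ) : ℝ := ∫ s in (0 : ℝ)..t, rψ c ε s

theorem rφ_deriv (c ε t : ℝ) : HasDerivAt (rφ c ε) (rψ c ε t) t :=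
  intervalIntegral.integral_hasDerivAt_right ((rψ_cont c ε).intervalIntegrable _ _)
    ((rψ_cont c ε).stronglyMeasurableAtFilter _ _) (rψ_cont c ε).continuousAt

theorem rφ_zero (c ε : ℝ) : rφ c ε 0 = 0 := intervalIntegral.integral_same

theorem rφ_ge {c ε t : ℝ} (hε : 0 < ε) (ht : 0 ≤ t) : min t c - ε ≤ rφ c ε t := by
  rcases le_total (min t c - ε) 0 with h0 | h0
  · exact h0.trans (intervalIntegral.integral_nonneg ht fun s _ => rψ_nonneg c ε s)
  have h1 : min t c - ε ≤ t := by linarith [min_le_left t c]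
  have h2 : ∫ s in (0 : ℝ)..(min t c - ε), rψ c ε s = min t c - ε := by
    have : ∫ s in (0 : ℝ)..(min t c - ε), rψ c ε s = ∫ _s in (0 : ℝ)..(min t c - ε), (1 : ℝ) := by
      refine intervalIntegral.integral_congr fun s hs => ?_
      rw [uIcc_of_le h0] at hs
      exact rψ_one hε (hs.2.trans (by linarith [min_le_right t c]))
    rw [this]
    simp
  have h3 : rφ c ε t = (∫ s in (0 : ℝ)..(min t c - ε), rψ c ε s) +
      ∫ s in (min t c - ε)..t, rψ c ε s :=
    (intervalIntegral.integral_add_adjacent_intervals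
      ((rψ_cont c ε).intervalIntegrable _ _) ((rψ_cont c ε).intervalIntegrable _ _)).symm
  have h4 : 0 ≤ ∫ s in (min t c - ε)..t, rψ c ε s :=
    intervalIntegral.integral_nonneg h1 fun s _ => rψ_nonneg c ε s
  rw [h3, h2]
  linarith

/-- The function of the ray. -/
noncomputable def rayF (k : ℝ) (f f' j : ℝ → ℝ) (r : ℝ) : ℝ :=
  if f r < f 0 then max 0 (-(f' r)) * (k * j r + 1 + Real.exp (-(k * r))) else 0

theorem ray_real {k : ℝ} (hk : 0 ≤ k) {f f' j j' : ℝ → ℝ} (hf : ∀ r, HasDerivAt f (f' r) r)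
    (hf' : Continuous f') (hf0 : ∀ r, 0 ≤ f r) {ρ : ℝ} (hρ : 0 ≤ ρ) (hfρ : f ρ = 0)
    (hj : ∀ r, HasDerivAt j (j' r) r) (hj' : Continuous j') (hj0 : j 0 = 0)
    (hsn : ∀ r, 0 < r → _root_.Vale.Agent.P219.TPH.sn k r ≤ j r) (hct : ∀ r, 0 < r → j r * _root_.Vale.Agent.P219.TPH.cs k r ≤ j' r * _root_.Vale.Agent.P219.TPH.sn k r) :
    2 * f 0 + ∫ r in (0 : ℝ)..ρ, k ^ 2 * (min (f 0) (f r) * j r) ≤
      ∫ r in (0 : ℝ)..ρ, rayF k f f' j r := by
  have hfc : Continuous f := continuous_iff_continuousAt.2 fun r => (hf r).continuousAt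
  have hjc : Continuous j := continuous_iff_continuousAt.2 fun r => (hj r).continuousAt
  set c : ℝ := f 0 with hc
  -- the weight
  set W : ℝ → ℝ := fun r => k * j r + 1 + Real.exp (-(k * r)) with hW
  set W' : ℝ → ℝ := fun r => k * j' r - k * Real.exp (-(k * r)) with hW'
  have hWd : ∀ r, HasDerivAt W (W' r) r := by
    intro r
    have h1 : HasDerivAt (fun r : ℝ => Real.exp (-(k * r))) (Real.exp (-(k * r)) * (-(k * 1))) r :=
      (((hasDerivAt_id' r).const_mul k).neg).exp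
    have h2 := (((hj r).const_mul k).add_const 1).add h1
    refine h2.congr_deriv ?_
    show _ = k * j' r - k * Real.exp (-(k * r))
    ring
  have hWc : Continuous W := continuous_iff_continuousAt.2 fun r => (hWd r).continuousAt
  have hWc' : Continuous W' := by
    simp only [hW']
    fun_prop
  have hj_nonneg : ∀ r, 0 < r → 0 ≤ j r := fun r hr => (_root_.Vale.Agent.P219.TPH.sn_pos hk hr).le.trans (hsn r hr)
  have hW0 : ∀ r, 0 ≤ r → 0 ≤ W r := by
    intro r hr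
    rcases hr.eq_or_lt with h0 | h0
    · rw [← h0]
      simp only [hW, hj0]
      (clear * - hk; positivity)
    · have := mul_nonneg hk (hj_nonneg r h0)
      have h2 := Real.exp_pos (-(k * r))
      simp only [hW]
      linarith
  have hW'k : ∀ r, 0 < r → k ^ 2 * j r ≤ W' r := by
    intro r hr
    have hs := _root_.Vale.Agent.P219.TPH.sn_pos hk hr
    have e1 := hct r hr
    have e2 := cs_sub_sn k r
    have e3 := hsn r hr
    have e4 := Real.exp_pos (-(k * r))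
    have e5 : 0 ≤ (W' r - k ^ 2 * j r) * _root_.Vale.Agent.P219.TPH.sn k r := by
      have : (W' r - k ^ 2 * j r) * _root_.Vale.Agent.P219.TPH.sn k r = k * (j' r * _root_.Vale.Agent.P219.TPH.sn k r - j r * _root_.Vale.Agent.P219.TPH.cs k r) +
          k * (Real.exp (-(k * r)) * (j r - _root_.Vale.Agent.P219.TPH.sn k r)) := by
        simp only [hW']
        rw [← e2]
        ring
      rw [this]
      have a1 := mul_nonneg hk (sub_nonneg.2 e1)
      have a2 := mul_nonneg hk (mul_nonneg e4.le (sub_nonneg.2 e3))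
      linarith
    have := nonneg_of_mul_nonneg_left e5 hs
    linarith
  -- integrability
  have hFint : IntervalIntegrable (rayF k f f' j) volume 0 ρ := by
    rw [intervalIntegrable_iff_integrableOn_Ioc_of_le hρ]
    have h1 : rayF k f f' j = {r | f r < c}.indicator (fun r => max 0 (-(f' r)) * W r) := by
      funext r
      by_cases h : f r < c
      · rw [indicator_of_mem (by exact h)]
        unfold rayF
        rw [if_pos h]
      · rw [indicator_of_notMem (by exact h)]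
        unfold rayF
        rw [if_neg h]
    rw [h1]
    refine IntegrableOn.indicator ?_ (isOpen_lt hfc continuous_const).measurableSet
    exact ((continuous_const.max hf'.neg).mul hWc).integrableOn_Ioc
  set I : ℝ := ∫ r in (0 : ℝ)..ρ, rayF k f f' j r with hI
  set Jj : ℝ := ∫ r in (0 : ℝ)..ρ, j r with hJj
  have hJj0 : 0 ≤ Jj := by
    refine intervalIntegral.integral_nonneg_of_ae_restrict hρ ?_
    refine (ae_restrict_iff' measurableSet_Icc).2 (Filter.Eventually.of_forall fun r hr => ?_)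
    rcases hr.1.eq_or_lt with h0 | h0
    · rw [← h0, hj0]
      rfl
    · exact hj_nonneg r h0
  have key : ∀ ε > 0, 2 * c + (∫ r in (0 : ℝ)..ρ, k ^ 2 * (min c (f r) * j r)) ≤
      I + ε * (2 + k ^ 2 * Jj) := by
    intro ε hε
    set φ : ℝ → ℝ := rφ c ε with hφ
    have hφc : Continuous φ := continuous_iff_continuousAt.2 fun t => (rφ_deriv c ε t).continuousAt
    have hd : ∀ r, HasDerivAt (fun r => φ (f r) * W r)
        (rψ c ε (f r) * f' r * W r + φ (f r) * W' r) r := by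
      intro r
      have h1 : HasDerivAt (fun r => φ (f r)) (rψ c ε (f r) * f' r) r :=
        (rφ_deriv c ε (f r)).comp r (hf r)
      exact h1.mul (hWd r)
    have hc1 : Continuous fun r => rψ c ε (f r) * f' r * W r :=
      (((rψ_cont c ε).comp hfc).mul hf').mul hWc
    have hc2 : Continuous fun r => φ (f r) * W' r := (hφc.comp hfc).mul hWc'
    have e1 : ∫ r in (0 : ℝ)..ρ, (rψ c ε (f r) * f' r * W r + φ (f r) * W' r) =
        φ (f ρ) * W ρ - φ (f 0) * W 0 :=
      intervalIntegral.integral_eq_sub_of_hasDerivAt (fun r _ => hd r)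
        ((hc1.add hc2).intervalIntegrable _ _)
    rw [intervalIntegral.integral_add (hc1.intervalIntegrable _ _) (hc2.intervalIntegrable _ _)]
      at e1
    have e2 : φ (f ρ) = 0 := by
      rw [hfρ, hφ, rφ_zero]
    have e3 : W 0 = 2 := by
      simp only [hW, hj0]
      norm_num
    rw [e2, e3, zero_mul, ← hc] at e1
    -- upper bound
    have e4 : -(∫ r in (0 : ℝ)..ρ, rψ c ε (f r) * f' r * W r) ≤ I := by
      rw [← intervalIntegral.integral_neg, hI]
      refine intervalIntegral.integral_mono_on hρ (hc1.neg.intervalIntegrable _ _) hFint ?_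
      intro r hr
      unfold rayF
      have w0 := hW0 r hr.1
      split_ifs with h
      · have a1 := rψ_nonneg c ε (f r)
        have a2 := rψ_le_one c ε (f r)
        have a3 : -(rψ c ε (f r) * f' r) ≤ max 0 (-(f' r)) := by
          rcases le_total 0 (-(f' r)) with h3 | h3
          · rw [max_eq_right h3]
            linarith only [mul_nonneg (sub_nonneg.2 a2) (sub_nonneg.2 h3)]
          · rw [max_eq_left h3]
            linarith only [mul_nonneg (sub_nonneg.2 a1) (sub_nonneg.2 h3)]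
        have a4 := mul_le_mul_of_nonneg_right a3 w0
        have a5 : -(rψ c ε (f r) * f' r * W r) = -(rψ c ε (f r) * f' r) * W r := by ring
        rw [a5]
        exact a4
      · rw [rψ_zero hε (not_lt.1 h)]
        simp
    -- lower bound
    have e5 : (∫ r in (0 : ℝ)..ρ, k ^ 2 * (min c (f r) * j r)) - ε * (k ^ 2 * Jj) ≤
        ∫ r in (0 : ℝ)..ρ, φ (f r) * W' r := by
      have hci : Continuous fun r => k ^ 2 * (min c (f r) * j r) := by fun_prop
      have hci2 : Continuous fun r => ε * (k ^ 2 * j r) := by fun_prop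
      have : (∫ r in (0 : ℝ)..ρ, k ^ 2 * (min c (f r) * j r)) - ε * (k ^ 2 * Jj) =
          ∫ r in (0 : ℝ)..ρ, (k ^ 2 * (min c (f r) * j r) - ε * (k ^ 2 * j r)) := by
        rw [intervalIntegral.integral_sub (hci.intervalIntegrable _ _)
          (hci2.intervalIntegrable _ _), intervalIntegral.integral_const_mul ε,
          intervalIntegral.integral_const_mul (k ^ 2) j]
      rw [this]
      refine intervalIntegral.integral_mono_on_of_le_Ioo hρ
        ((hci.sub hci2).intervalIntegrable _ _) (hc2.intervalIntegrable _ _) ?_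
      intro r hr
      have a1 := hW'k r hr.1
      have a2 := hj_nonneg r hr.1
      have a3 : min (f r) c - ε ≤ φ (f r) := rφ_ge hε (hf0 r)
      have a4 : 0 ≤ φ (f r) := intervalIntegral.integral_nonneg (hf0 r)
        fun s _ => rψ_nonneg c ε s
      have a5 : 0 ≤ k ^ 2 * j r := by (clear * - a2; positivity)
      rw [min_comm] at a3
      calc k ^ 2 * (min c (f r) * j r) - ε * (k ^ 2 * j r) = (min c (f r) - ε) * (k ^ 2 * j r) := by
            ring
        _ ≤ φ (f r) * (k ^ 2 * j r) := mul_le_mul_of_nonneg_right a3 a5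
        _ ≤ φ (f r) * W' r := mul_le_mul_of_nonneg_left a1 a4
    have e6 : c - ε ≤ φ c := by
      have := rφ_ge (c := c) hε (hf0 0)
      rwa [← hc, min_self] at this
    linarith
  refine le_of_forall_pos_le_add fun ε hε => ?_
  have h2 : 0 < 2 + k ^ 2 * Jj := by (clear * - hJj0; positivity)
  have := key (ε / (2 + k ^ 2 * Jj)) (by (clear * - hε hJj0; positivity))
  rwa [div_mul_cancel₀ _ h2.ne'] at this

theorem ray_lint {k : ℝ} (hk : 0 ≤ k) {f f' j j' : ℝ → ℝ} (hf : ∀ r, HasDerivAt f (f' r) r)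
    (hf' : Continuous f') (hf0 : ∀ r, 0 ≤ f r) {ρ : ℝ} (hρ : 0 ≤ ρ) (hfρ : ∀ r, ρ ≤ r → f r = 0)
    (hj : ∀ r, HasDerivAt j (j' r) r) (hj' : Continuous j') (hj0 : j 0 = 0)
    (hsn : ∀ r, 0 < r → _root_.Vale.Agent.P219.TPH.sn k r ≤ j r) (hct : ∀ r, 0 < r → j r * _root_.Vale.Agent.P219.TPH.cs k r ≤ j' r * _root_.Vale.Agent.P219.TPH.sn k r) :
    ENNReal.ofReal (2 * f 0) +
        ∫⁻ r in Ioi (0 : ℝ), ENNReal.ofReal (k ^ 2 * (min (f 0) (f r) * j r)) ≤
      ∫⁻ r in Ioi (0 : ℝ), ENNReal.ofReal (rayF k f f' j r) := by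
  have h := ray_real hk hf hf' hf0 hρ (hfρ ρ le_rfl) hj hj' hj0 hsn hct
  have hfc : Continuous f := continuous_iff_continuousAt.2 fun r => (hf r).continuousAt
  have hjc : Continuous j := continuous_iff_continuousAt.2 fun r => (hj r).continuousAt
  have hj_nonneg : ∀ r, 0 < r → 0 ≤ j r := fun r hr => (_root_.Vale.Agent.P219.TPH.sn_pos hk hr).le.trans (hsn r hr)
  have hF0 : ∀ r, 0 < r → 0 ≤ rayF k f f' j r := by
    intro r hr
    unfold rayF
    split_ifs
    · have := mul_nonneg hk (hj_nonneg r hr)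
      have h2 := Real.exp_pos (-(k * r))
      exact mul_nonneg (le_max_left _ _) (by linarith)
    · exact le_rfl
  have hFint : IntegrableOn (rayF k f f' j) (Ioc 0 ρ) volume := by
    have h1 : rayF k f f' j = {r | f r < f 0}.indicator
        (fun r => max 0 (-(f' r)) * (k * j r + 1 + Real.exp (-(k * r)))) := by
      funext r
      by_cases h : f r < f 0
      · rw [indicator_of_mem (by exact h)]
        unfold rayF
        rw [if_pos h]
      · rw [indicator_of_notMem (by exact h)]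
        unfold rayF
        rw [if_neg h]
    rw [h1]
    refine IntegrableOn.indicator ?_ (isOpen_lt hfc continuous_const).measurableSet
    exact ((continuous_const.max hf'.neg).mul (by fun_prop)).integrableOn_Ioc
  have e1 : ∫⁻ r in Ioi (0 : ℝ), ENNReal.ofReal (k ^ 2 * (min (f 0) (f r) * j r)) =
      ENNReal.ofReal (∫ r in (0 : ℝ)..ρ, k ^ 2 * (min (f 0) (f r) * j r)) := by
    have hcc : Continuous fun r => k ^ 2 * (min (f 0) (f r) * j r) := by fun_prop
    rw [intervalIntegral.integral_of_le hρ, ofReal_integral_eq_lintegral_ofReal]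
    · rw [← Ioc_union_Ioi_eq_Ioi hρ, lintegral_union measurableSet_Ioi Ioc_disjoint_Ioi_same]
      have : ∫⁻ r in Ioi ρ, ENNReal.ofReal (k ^ 2 * (min (f 0) (f r) * j r)) = 0 := by
        rw [setLIntegral_congr_fun measurableSet_Ioi (g := fun _ => 0)]
        · simp
        intro r hr
        simp only
        rw [hfρ r (le_of_lt hr), min_eq_right (hf0 0)]
        simp
      rw [this, add_zero]
    · exact hcc.integrableOn_Ioc
    · refine (ae_restrict_mem measurableSet_Ioc).mono fun r hr => ?_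
      exact mul_nonneg (sq_nonneg k) (mul_nonneg (le_min (hf0 0) (hf0 r)) (hj_nonneg r hr.1))
  have e2 : ENNReal.ofReal (∫ r in (0 : ℝ)..ρ, rayF k f f' j r) ≤
      ∫⁻ r in Ioi (0 : ℝ), ENNReal.ofReal (rayF k f f' j r) := by
    rw [intervalIntegral.integral_of_le hρ, ofReal_integral_eq_lintegral_ofReal hFint]
    · exact lintegral_mono_set Ioc_subset_Ioi_self
    · exact (ae_restrict_mem measurableSet_Ioc).mono fun r hr => hF0 r hr.1
  rw [e1, ← ENNReal.ofReal_add (mul_nonneg zero_le_two (hf0 0))]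
  · exact (ENNReal.ofReal_le_ofReal h).trans e2
  · rw [intervalIntegral.integral_of_le hρ]
    refine setIntegral_nonneg measurableSet_Ioc fun r hr => ?_
    exact mul_nonneg (sq_nonneg k) (mul_nonneg (le_min (hf0 0) (hf0 r)) (hj_nonneg r hr.1))

end Vale.Agent.P219.N2
end

section

/-! # Zonal integrals on the circle -/

open MeasureTheory Set Metric
open scoped ENNReal ContDiff

namespace Vale.Agent.P219.N2

open Vale.Agent.P219.TP

theorem ci_gauss : ∫ r in Ioi (0 : ℝ), r ^ (2 - 1) * Real.exp (-r ^ 2) = 1 / 2 := by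
  have h := integral_rpow_mul_exp_neg_rpow (p := 2) (q := 1) (by norm_num) (by norm_num)
  have e : ∀ r : ℝ, r ^ (2 - 1) * Real.exp (-r ^ 2) =
      r ^ (1 : ℝ) * Real.exp (-r ^ (2 : ℝ)) := by
    intro r
    rw [Real.rpow_one]
    norm_num
  simp_rw [e]
  rw [h]
  norm_num [Real.Gamma_one]

/-- the plane integral in polar coordinates -/
theorem ci_plane (F : ℝ → ℝ) :
    ∫ p : ℝ × ℝ, F (max 0 (p.1 / √(p.1 ^ 2 + p.2 ^ 2))) * Real.exp (-(p.1 ^ 2 + p.2 ^ 2)) =
      (∫ t in Ioo (-Real.pi) Real.pi, F (max 0 (Real.cos t))) * (1 / 2) := by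
  rw [← integral_comp_polarCoord_symm]
  rw [← ci_gauss, mul_comm]
  have h1 := setIntegral_prod_mul (μ := (volume : Measure ℝ)) (ν := (volume : Measure ℝ))
    (fun r : ℝ => r ^ (2 - 1) * Real.exp (-r ^ 2))
    (fun t : ℝ => F (max 0 (Real.cos t))) (Ioi (0 : ℝ)) (Ioo (-Real.pi) Real.pi)
  rw [← h1, polarCoord_target]
  refine setIntegral_congr_fun (measurableSet_Ioi.prod measurableSet_Ioo) ?_
  intro p hp
  have hr : 0 < p.1 := hp.1
  simp only [polarCoord_symm_apply, smul_eq_mul]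
  have e1 : (p.1 * Real.cos p.2) ^ 2 + (p.1 * Real.sin p.2) ^ 2 = p.1 ^ 2 := by
    nlinarith [Real.cos_sq_add_sin_sq p.2]
  rw [e1, Real.sqrt_sq hr.le, mul_div_cancel_left₀ _ hr.ne']
  norm_num
  ring

theorem ci_circle (F : ℝ → ℝ) {e : _root_.Vale.Agent.P219.TP.E 2} (he : ‖e‖ = 1) :
    ∫ u : sphere (0 : _root_.Vale.Agent.P219.TP.E 2) 1, F (max 0 (inner ℝ e (u : _root_.Vale.Agent.P219.TP.E 2)))
      ∂((volume : Measure (_root_.Vale.Agent.P219.TP.E 2)).toSphere) =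
      ∫ t in Ioo (-Real.pi) Real.pi, F (max 0 (Real.cos t)) := by
  have h1 := polar_sep (n := 2) (by norm_num)
    (fun x : _root_.Vale.Agent.P219.TP.E 2 => F (max 0 (inner ℝ e x / ‖x‖)) * Real.exp (-‖x‖ ^ 2))
    (fun u : sphere (0 : _root_.Vale.Agent.P219.TP.E 2) 1 => F (max 0 (inner ℝ e (u : _root_.Vale.Agent.P219.TP.E 2))))
    (fun r => Real.exp (-r ^ 2)) (by
      intro u r hr
      have hu : ‖(u : _root_.Vale.Agent.P219.TP.E 2)‖ = 1 := by simp
      simp only [inner_smul_right, norm_smul, hu, mul_one, Real.norm_eq_abs, abs_of_pos hr]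
      rw [mul_div_cancel_left₀ _ hr.ne'])
  rw [ci_gauss] at h1
  obtain ⟨b, hb⟩ := exists_basis 1 he
  have h2 : ∫ x : _root_.Vale.Agent.P219.TP.E 2, F (max 0 (inner ℝ e x / ‖x‖)) * Real.exp (-‖x‖ ^ 2) =
      ∫ y : _root_.Vale.Agent.P219.TP.E 2, F (max 0 (y 0 / ‖y‖)) * Real.exp (-‖y‖ ^ 2) := by
    have := b.repr.measurePreserving.integral_comp
      b.repr.toHomeomorph.measurableEmbedding
      (fun y : _root_.Vale.Agent.P219.TP.E 2 => F (max 0 (y 0 / ‖y‖)) * Real.exp (-‖y‖ ^ 2))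
    rw [← this]
    apply integral_congr_ae
    refine .of_forall fun x => ?_
    simp only [LinearIsometryEquiv.norm_map]
    rw [OrthonormalBasis.repr_apply_apply, hb]
  have h3 : ∫ y : _root_.Vale.Agent.P219.TP.E 2, F (max 0 (y 0 / ‖y‖)) * Real.exp (-‖y‖ ^ 2) =
      ∫ y : Fin 2 → ℝ, F (max 0 (y 0 / √(y 0 ^ 2 + y 1 ^ 2))) *
        Real.exp (-(y 0 ^ 2 + y 1 ^ 2)) := by
    have := (PiLp.volume_preserving_ofLp (Fin 2)).integral_comp
      (MeasurableEquiv.toLp 2 (Fin 2 → ℝ)).symm.measurableEmbedding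
      (fun y : Fin 2 → ℝ => F (max 0 (y 0 / √(y 0 ^ 2 + y 1 ^ 2))) *
        Real.exp (-(y 0 ^ 2 + y 1 ^ 2)))
    rw [← this]
    apply integral_congr_ae
    refine .of_forall fun x => ?_
    have e1 : ‖x‖ ^ 2 = x 0 ^ 2 + x 1 ^ 2 := by
      rw [EuclideanSpace.norm_sq_eq]
      simp [Fin.sum_univ_two]
    have e2 : ‖x‖ = √(x 0 ^ 2 + x 1 ^ 2) := by
      rw [← e1, Real.sqrt_sq (norm_nonneg _)]
    simp only [e1]
    rw [e2]
  have h4 : ∫ y : Fin 2 → ℝ, F (max 0 (y 0 / √(y 0 ^ 2 + y 1 ^ 2))) *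
        Real.exp (-(y 0 ^ 2 + y 1 ^ 2)) =
      ∫ p : ℝ × ℝ, F (max 0 (p.1 / √(p.1 ^ 2 + p.2 ^ 2))) *
        Real.exp (-(p.1 ^ 2 + p.2 ^ 2)) := by
    have := (volume_preserving_finTwoArrow ℝ).integral_comp
      (MeasurableEquiv.finTwoArrow).measurableEmbedding
      (fun p : ℝ × ℝ => F (max 0 (p.1 / √(p.1 ^ 2 + p.2 ^ 2))) *
        Real.exp (-(p.1 ^ 2 + p.2 ^ 2)))
    rw [← this]
    rfl
  rw [h2, h3, h4, ci_plane] at h1
  linarith

/-- Zonal integrals on the circle. -/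
theorem circle {F : ℝ → ℝ} (hF : Continuous F) {e : _root_.Vale.Agent.P219.TP.E 2} (he : ‖e‖ = 1) :
    ∫ u : sphere (0 : _root_.Vale.Agent.P219.TP.E 2) 1, F (max 0 (inner ℝ e (u : _root_.Vale.Agent.P219.TP.E 2)))
      ∂((volume : Measure (_root_.Vale.Agent.P219.TP.E 2)).toSphere) =
      (∫ t in (-(Real.pi / 2))..(Real.pi / 2), F (Real.cos t)) + Real.pi * F 0 := by
  have hpi := Real.pi_pos
  rw [ci_circle F he, ← integral_Ioc_eq_integral_Ioo,
    ← intervalIntegral.integral_of_le (by linarith)]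
  have hc : Continuous fun t : ℝ => F (max 0 (Real.cos t)) := by fun_prop
  have hi : ∀ a b : ℝ, IntervalIntegrable (fun t : ℝ => F (max 0 (Real.cos t))) volume a b :=
    fun a b => hc.intervalIntegrable a b
  rw [← intervalIntegral.integral_add_adjacent_intervals (hi _ (-(Real.pi / 2))) (hi _ _),
    ← intervalIntegral.integral_add_adjacent_intervals (hi (-(Real.pi / 2)) (Real.pi / 2))
      (hi _ _)]
  have a1 : ∫ t in (-Real.pi)..(-(Real.pi / 2)), F (max 0 (Real.cos t)) = Real.pi / 2 * F 0 := by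
    rw [intervalIntegral.integral_congr (g := fun _ => F 0)]
    · rw [intervalIntegral.integral_const, smul_eq_mul]
      ring
    · intro t ht
      rw [uIcc_of_le (by linarith)] at ht
      simp only
      have : Real.cos t ≤ 0 := by
        rw [← Real.cos_neg]
        exact Real.cos_nonpos_of_pi_div_two_le_of_le (by linarith [ht.2]) (by linarith [ht.1])
      rw [max_eq_left this]
  have a3 : ∫ t in (Real.pi / 2)..Real.pi, F (max 0 (Real.cos t)) = Real.pi / 2 * F 0 := by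
    rw [intervalIntegral.integral_congr (g := fun _ => F 0)]
    · rw [intervalIntegral.integral_const, smul_eq_mul]
      ring
    · intro t ht
      rw [uIcc_of_le (by linarith)] at ht
      simp only
      have : Real.cos t ≤ 0 :=
        Real.cos_nonpos_of_pi_div_two_le_of_le ht.1 (by linarith [ht.2])
      rw [max_eq_left this]
  have a2 : ∫ t in (-(Real.pi / 2))..(Real.pi / 2), F (max 0 (Real.cos t)) =
      ∫ t in (-(Real.pi / 2))..(Real.pi / 2), F (Real.cos t) := by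
    apply intervalIntegral.integral_congr
    intro t ht
    rw [uIcc_of_le (by linarith only [hpi])] at ht
    simp only
    rw [max_eq_right (Real.cos_nonneg_of_mem_Icc ht)]
  rw [a1, a2, a3]
  ring

end Vale.Agent.P219.N2
end
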