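import Mathlib
import Vale.Agent.P219.Bdl.B2
import Vale.Agent.P219.Bdl.B4
import Vale.Agent.P219.Bdl.B5
import Vale.Agent.P219.Bdl.B3

set_option linter.all false

section

/-! # Volume of `{h = 1}` under a contraction (task H8) -/

open MeasureTheory Set Metric
open scoped ENNReal ContDiff

namespace Vale.Agent.P219.TPH

open Vale.Agent.P219.TP

variable {n : ℕ} (G : Geo n)

/-- The indicator of `{h = 1}`. -/
noncomputable def volhChi (h : _root_.Vale.Agent.P219.TP.E n → ℝ) (x : _root_.Vale.Agent.P219.TP.E n) : ℝ := {x | h x = 1}.indicator (fun _ => 1) x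

theorem volhChi_nonneg (h : _root_.Vale.Agent.P219.TP.E n → ℝ) (x : _root_.Vale.Agent.P219.TP.E n) : 0 ≤ volhChi h x :=
  indicator_nonneg (fun _ _ => zero_le_one) x

theorem volhChi_le_one (h : _root_.Vale.Agent.P219.TP.E n → ℝ) (x : _root_.Vale.Agent.P219.TP.E n) : volhChi h x ≤ 1 := by
  unfold volhChi
  by_cases hx : x ∈ {x | h x = 1}
  · rw [indicator_of_mem hx]
  · rw [indicator_of_notMem hx]
    exact zero_le_one

theorem volhChi_zero {h : _root_.Vale.Agent.P219.TP.E n → ℝ} {x : _root_.Vale.Agent.P219.TP.E n} (hx : h x = 0) : volhChi h x = 0 := by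
  unfold volhChi
  refine indicator_of_notMem ?_ _
  intro hx'
  have : h x = 1 := hx'
  rw [hx] at this
  exact zero_ne_one this

theorem volhChi_one {h : _root_.Vale.Agent.P219.TP.E n → ℝ} {x : _root_.Vale.Agent.P219.TP.E n} (hx : h x = 1) : volhChi h x = 1 := by
  unfold volhChi
  exact indicator_of_mem (show x ∈ {x | h x = 1} from hx) _

theorem volh_meas {h : _root_.Vale.Agent.P219.TP.E n → ℝ} (hh : Continuous h) : MeasurableSet {x | h x = 1} :=
  (isClosed_eq hh continuous_const).measurableSet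

theorem volh_compact {o : _root_.Vale.Agent.P219.TP.E n} {ρ : ℝ} {h : _root_.Vale.Agent.P219.TP.E n → ℝ} (hh : G.Cls o ρ h) :
    IsCompact {x | h x = 1} := by
  refine (G.isCompact_gball o ρ).of_isClosed_subset
    (isClosed_eq hh.smooth.continuous continuous_const) ?_
  intro x hx
  have hx1 : h x = 1 := hx
  exact hh.supp x (by rw [hx1]; exact one_ne_zero)

theorem volh_integrable {o : _root_.Vale.Agent.P219.TP.E n} {ρ : ℝ} {h : _root_.Vale.Agent.P219.TP.E n → ℝ} (hh : G.Cls o ρ h) {f : _root_.Vale.Agent.P219.TP.E n → ℝ}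
    (hf : Continuous f) : Integrable fun x => volhChi h x * f x := by
  have h1 : (fun x => volhChi h x * f x) = {x | h x = 1}.indicator f := by
    funext x
    unfold volhChi
    by_cases hx : x ∈ {x | h x = 1}
    · rw [indicator_of_mem hx, indicator_of_mem hx, one_mul]
    · rw [indicator_of_notMem hx, indicator_of_notMem hx, zero_mul]
  rw [h1, integrable_indicator_iff (volh_meas hh.smooth.continuous)]
  exact hf.continuousOn.integrableOn_compact (volh_compact G hh)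

theorem volh_V1 {h : _root_.Vale.Agent.P219.TP.E n → ℝ} (hh : Continuous h) :
    V1 G h = ∫ x, volhChi h x ∂G.vol := by
  unfold V1 volhChi
  exact (integral_indicator_one (volh_meas hh)).symm

end Vale.Agent.P219.TPH
end

section

/-! # The conformal frames in a Cartan-Hadamard geometry

`FG G k c x = (cosh (k r) - 1) / k²`, `r = d(c, x)`. The map `θ = (θ₀, θ_v)` with
`θ₀ = (ε - (1 - k² ε) F) / (F + ε)`, `θ_v = w (sn r / r) log_c x`, `w = √(ε (2 - k² ε)) / (F + ε)`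
takes values in the unit sphere and `∑ |∇_S θ_i|² ≤ (n - 1) w²`.
-/

open MeasureTheory Set Metric
open scoped ENNReal ContDiff

namespace Vale.Agent.P219.End

open Vale.Agent.P219.TP Vale.Agent.P219.TPH

variable {n : ℕ}

/-- The Rauch comparison used by the frames. -/
def SnLe (G : Geo n) (k : ℝ) : Prop :=
  ∀ x v z : E n, inner ℝ v z = 0 → _root_.Vale.Agent.P219.TPH.sn k ‖v‖ * ‖z‖ ≤ ‖v‖ * ‖G.T x v z‖

/-- `(cosh (k r) - 1) / k²`, `r = d(c, x)` -/
noncomputable def FG (G : Geo n) (k : ℝ) (c x : E n) : ℝ := ff k (‖G.lg c x‖ ^ 2)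

section
variable (G : Geo n) (k : ℝ)

theorem FG_smooth : ContDiff ℝ ∞ fun z : E n × E n => FG G k z.1 z.2 :=
  (ff_smooth k).comp (G.lg_smooth.norm_sq ℝ)

theorem FG_smooth_right (c : E n) : ContDiff ℝ ∞ (FG G k c) :=
  (ff_smooth k).comp ((G.lg_smooth_right c).norm_sq ℝ)

theorem FG_nonneg (c x : E n) : 0 ≤ FG G k c x := ff_nonneg k _

theorem FG_comm (c x : E n) : FG G k c x = FG G k x c := by
  unfold FG
  rw [G.norm_lg_comm]

theorem FG_self (c : E n) : FG G k c c = 0 := by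
  unfold FG
  rw [G.lg_self, norm_zero, ff_sq]
  simp [_root_.Vale.Agent.P219.TPH.sn_zero]

theorem FG_pos (hk : 0 ≤ k) {c x : E n} (h : c ≠ x) : 0 < FG G k c x := by
  unfold FG
  rw [ff_sq]
  have h1 : 0 < ‖G.lg c x‖ := norm_pos_iff.2 fun h0 => h (G.lg_eq_zero.1 h0)
  have h2 := _root_.Vale.Agent.P219.TPH.sn_pos hk (half_pos h1)
  positivity

theorem sn_sq_eq_FG (c x : E n) :
    _root_.Vale.Agent.P219.TPH.sn k ‖G.lg c x‖ ^ 2 = 2 * FG G k c x + k ^ 2 * FG G k c x ^ 2 := sn_sq_eq_ff k _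

/-- the gradient of `F` -/
theorem fderiv_FG (c x η : E n) :
    fderiv ℝ (FG G k c) x (G.A x η) = -(chi k (‖G.lg c x‖ ^ 2) * inner ℝ (G.lg x c) η) := by
  have h1 := (G.hasFDerivAt_sq c x η).1
  have h2 : HasDerivAt (ff k) (chi k (‖G.lg c x‖ ^ 2) / 2) (2 * (‖G.lg c x‖ ^ 2 / 2)) := by
    have e : 2 * (‖G.lg c x‖ ^ 2 / 2) = ‖G.lg c x‖ ^ 2 := by ring
    rw [e]
    exact hasDerivAt_ff_sq k (sq_nonneg _)
  have h3 : HasFDerivAt (FG G k c)
      ((chi k (‖G.lg c x‖ ^ 2) / 2) • ((2 : ℝ) • fderiv ℝ (fun y => ‖G.lg c y‖ ^ 2 / 2) x)) x := by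
    have h4 := h2.comp_hasFDerivAt x (h1.const_mul (2 : ℝ))
    have e : FG G k c = ff k ∘ fun y => 2 * (‖G.lg c y‖ ^ 2 / 2) := by
      funext y
      simp only [FG, Function.comp_apply]
      congr 1
      ring
    rw [e]
    exact h4
  rw [h3.fderiv, smul_apply, smul_apply, G.fderiv_sq]
  simp only [smul_eq_mul]
  ring

/-- the gradient of `F`, in the frame -/
theorem D_FG (c x : E n) : D G.A (FG G k c) x = -(chi k (‖G.lg c x‖ ^ 2) • G.lg x c) := by
  refine ext_inner_right ℝ fun η => ?_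
  unfold D
  rw [InnerProductSpace.toDual_symm_apply, ContinuousLinearMap.comp_apply, fderiv_FG,
    inner_neg_left, real_inner_smul_left]

theorem norm_D_FG (c x : E n) :
    ‖D G.A (FG G k c) x‖ ^ 2 = 2 * FG G k c x + k ^ 2 * FG G k c x ^ 2 := by
  rw [D_FG, norm_neg, norm_smul, mul_pow, Real.norm_eq_abs, sq_abs, ← sn_sq_eq_FG,
    G.norm_lg_comm x c, sn_eq_chi]
  ring

end

/-! ### The frame functions -/

/-- `√(ε (2 - k² ε))` -/
noncomputable def q0 (k ε : ℝ) : ℝ := √(ε * (2 - k ^ 2 * ε))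

theorem q0_pos {k ε : ℝ} (hε : 0 < ε) (h : k ^ 2 * ε < 2) : 0 < q0 k ε :=
  Real.sqrt_pos.2 (mul_pos hε (by linarith))

theorem q0_sq {k ε : ℝ} (hε : 0 < ε) (h : k ^ 2 * ε < 2) : q0 k ε ^ 2 = ε * (2 - k ^ 2 * ε) :=
  Real.sq_sqrt (mul_pos hε (by linarith)).le

/-- the vector part of the frame -/
noncomputable def thv (G : Geo n) (k : ℝ) (c : E n) (ε : ℝ) (x : E n) : E n :=
  (q0 k ε / (FG G k c x + ε) * chi k (‖G.lg c x‖ ^ 2)) • G.lg c x

/-- the scalar part of the frame -/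
noncomputable def th0 (G : Geo n) (k : ℝ) (c : E n) (ε : ℝ) (x : E n) : ℝ :=
  (ε - (1 - k ^ 2 * ε) * FG G k c x) / (FG G k c x + ε)

/-- the frame -/
noncomputable def thf (G : Geo n) (k : ℝ) (c : E n) (ε : ℝ) (i : Fin (n + 1)) (x : E n) : ℝ :=
  (Fin.cons (th0 G k c ε x) (fun j => thv G k c ε x j) : Fin (n + 1) → ℝ) i

theorem thf_zero (G : Geo n) (k : ℝ) (c : E n) (ε : ℝ) (x : E n) :
    thf G k c ε 0 x = th0 G k c ε x := rfl

theorem thf_succ (G : Geo n) (k : ℝ) (c : E n) (ε : ℝ) (j : Fin n) (x : E n) :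
    thf G k c ε j.succ x = thv G k c ε x j := rfl

section
variable (G : Geo n) {k ε : ℝ} (hε : 0 < ε) (hε2 : k ^ 2 * ε < 2)
include hε

theorem FGe_pos (k : ℝ) (c x : E n) : 0 < FG G k c x + ε := by
  have := FG_nonneg G k c x
  linarith

theorem th0_smooth (k : ℝ) (c : E n) : ContDiff ℝ ∞ (th0 G k c ε) :=
  (contDiff_const.sub (contDiff_const.mul (FG_smooth_right G k c))).div
    ((FG_smooth_right G k c).add contDiff_const) fun x => (FGe_pos G hε k c x).ne'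

theorem thv_smooth (k : ℝ) (c : E n) : ContDiff ℝ ∞ (thv G k c ε) := by
  have h1 : ContDiff ℝ ∞ fun x => q0 k ε / (FG G k c x + ε) :=
    contDiff_const.div ((FG_smooth_right G k c).add contDiff_const)
      fun x => (FGe_pos G hε k c x).ne'
  have h2 : ContDiff ℝ ∞ fun x => chi k (‖G.lg c x‖ ^ 2) :=
    (chi_smooth k).comp ((G.lg_smooth_right c).norm_sq ℝ)
  exact (h1.mul h2).smul (G.lg_smooth_right c)

theorem thf_smooth (k : ℝ) (c : E n) (i : Fin (n + 1)) : ContDiff ℝ ∞ (thf G k c ε i) := by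
  refine Fin.cases ?_ (fun j => ?_) i
  · exact th0_smooth G hε k c
  · have h := contDiff_euclidean.1 (thv_smooth G hε k c) j
    exact h

include hε2

omit hε2 in
theorem norm_thv_sq (c x : E n) :
    ‖thv G k c ε x‖ ^ 2 = q0 k ε ^ 2 * (2 * FG G k c x + k ^ 2 * FG G k c x ^ 2) /
      (FG G k c x + ε) ^ 2 := by
  unfold thv
  have hp := (FGe_pos G hε k c x).ne'
  rw [norm_smul, mul_pow, Real.norm_eq_abs, sq_abs, ← sn_sq_eq_FG, sn_eq_chi]
  field_simp

theorem thf_sq (c x : E n) : ∑ i, thf G k c ε i x ^ 2 = 1 := by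
  rw [Fin.sum_univ_succ]
  have h1 : ∑ j : Fin n, thf G k c ε j.succ x ^ 2 = ‖thv G k c ε x‖ ^ 2 := by
    rw [EuclideanSpace.real_norm_sq_eq]
    rfl
  have hp := FGe_pos G hε k c x
  rw [h1, norm_thv_sq G hε, q0_sq hε hε2, thf_zero, th0]
  rw [div_pow, ← add_div, div_eq_one_iff_eq (by positivity)]
  ring

end

/-! ### The energy of the frame -/

/-- `cs = χ + 2 r² χ'` -/
theorem cs_eq_chi (k r : ℝ) :
    _root_.Vale.Agent.P219.TPH.cs k r = chi k (r ^ 2) + 2 * r ^ 2 * deriv (chi k) (r ^ 2) := by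
  have h1 : HasDerivAt (fun r => r * chi k (r ^ 2))
      (1 * chi k (r ^ 2) + r * (deriv (chi k) (r ^ 2) * (2 * r))) r := by
    have h2 : HasDerivAt (chi k) (deriv (chi k) (r ^ 2)) (r ^ 2) :=
      ((chi_smooth k).differentiable (by simp) _).hasDerivAt
    have h3 : HasDerivAt (fun r : ℝ => r ^ 2) (2 * r) r := by
      simpa using hasDerivAt_pow 2 r
    exact (hasDerivAt_id r).mul (HasDerivAt.comp (h₂ := chi k) (h := fun r : ℝ => r ^ 2) r h2 h3)
  have h4 := _root_.Vale.Agent.P219.TPH.hasDerivAt_sn k r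
  have e : _root_.Vale.Agent.P219.TPH.sn k = fun r => r * chi k (r ^ 2) := funext (sn_eq_chi k)
  rw [e] at h4
  rw [h4.unique h1]
  ring

/-- lower bound of the differential of the exponential map -/
theorem T_lower (G : Geo n) {k : ℝ} (hk : 0 ≤ k) (hS : SnLe G k) (c X y : E n) (hX : X ≠ 0) :
    inner ℝ X y ^ 2 / ‖X‖ ^ 2 +
        chi k (‖X‖ ^ 2) ^ 2 * (‖y‖ ^ 2 - inner ℝ X y ^ 2 / ‖X‖ ^ 2) ≤ ‖G.T c X y‖ ^ 2 := by
  have hr : 0 < ‖X‖ := norm_pos_iff.2 hX
  set b : ℝ := inner ℝ X y with hb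
  obtain ⟨z, hz⟩ : ∃ z, z = y - (b / ‖X‖ ^ 2) • X := ⟨_, rfl⟩
  have hy : y = (b / ‖X‖ ^ 2) • X + z := by rw [hz]; abel
  have hXz : inner ℝ X z = 0 := by
    rw [hz, inner_sub_right, real_inner_smul_right, real_inner_self_eq_norm_sq, ← hb]
    field_simp
    ring
  have h1 : chi k (‖X‖ ^ 2) * ‖z‖ ≤ ‖G.T c X z‖ := by
    have h := hS c X z hXz
    rw [sn_eq_chi, mul_assoc] at h
    exact le_of_mul_le_mul_left h hr
  have h2 : inner ℝ (G.T c X X) (G.T c X z) = 0 := by rw [G.gauss, hXz]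
  have h3 : ‖G.T c X X‖ ^ 2 = ‖X‖ ^ 2 := by
    rw [← real_inner_self_eq_norm_sq, G.gauss, real_inner_self_eq_norm_sq]
  have h4 : ‖G.T c X y‖ ^ 2 = b ^ 2 / ‖X‖ ^ 2 + ‖G.T c X z‖ ^ 2 := by
    rw [hy, map_add, map_smul, norm_add_sq_real, real_inner_smul_left, h2, norm_smul, mul_pow, h3,
      Real.norm_eq_abs, sq_abs]
    field_simp
    ring
  have h5 : ‖y‖ ^ 2 = b ^ 2 / ‖X‖ ^ 2 + ‖z‖ ^ 2 := by
    conv_lhs => rw [hy]
    rw [norm_add_sq_real, real_inner_smul_left, hXz, norm_smul, mul_pow,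
      Real.norm_eq_abs, sq_abs]
    field_simp
    ring
  have h6 : (chi k (‖X‖ ^ 2) * ‖z‖) ^ 2 ≤ ‖G.T c X z‖ ^ 2 :=
    pow_le_pow_left₀ (mul_nonneg (chi_pos hk).le (norm_nonneg _)) h1 2
  rw [h4, h5]
  linarith only [h6]

/-- The derivative of the frame along a direction. -/
theorem thf_energy (G : Geo n) {k ε : ℝ} (hk : 0 ≤ k) (hS : SnLe G k) (hε : 0 < ε)
    (hε2 : k ^ 2 * ε < 2) (c x v : E n) :
    ∑ i, (fderiv ℝ (thf G k c ε i) x (G.A x v)) ^ 2 ≤
      (q0 k ε / (FG G k c x + ε)) ^ 2 * ‖v‖ ^ 2 := by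
  -- the data
  obtain ⟨η, hη⟩ : ∃ η, η = G.A x v := ⟨_, rfl⟩
  obtain ⟨X, hX⟩ : ∃ X, X = G.lg c x := ⟨_, rfl⟩
  obtain ⟨y, hy⟩ : ∃ y, y = fderiv ℝ (G.lg c) x η := ⟨_, rfl⟩
  have hTv : G.T c X y = v := by
    apply G.A_injective x
    have h1 := G.fderiv_ex_eq c X
    have h2 : G.ex c X = x := by rw [hX, G.ex_lg]
    have h3 : fderiv ℝ (G.ex c) X y = η := by
      have h4 : HasFDerivAt (fun x => G.ex c (G.lg c x))
          ((fderiv ℝ (G.ex c) X).comp (fderiv ℝ (G.lg c) x)) x := by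
        rw [hX]
        exact (G.ex_diff c _).hasFDerivAt.comp x (G.lg_diff c x).hasFDerivAt
      have h5 : (fun x => G.ex c (G.lg c x)) = id := by
        funext x
        exact G.ex_lg c x
      rw [h5] at h4
      have h6 := h4.unique (hasFDerivAt_id x)
      have h7 := congrArg (fun L : E n →L[ℝ] E n => L η) h6
      rw [hy]
      simpa using h7
    rw [h1, ContinuousLinearMap.comp_apply, h2] at h3
    rw [h3, hη]
  -- derivatives along the line
  have hl : HasDerivAt (fun t : ℝ => x + t • η) η 0 := by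
    simpa using ((hasDerivAt_id (0 : ℝ)).smul_const η).const_add x
  have hx0 : x + (0 : ℝ) • η = x := by simp
  have hXd : HasDerivAt (fun t : ℝ => G.lg c (x + t • η)) y 0 := by
    have h := (G.lg_diff c (x + (0 : ℝ) • η)).hasFDerivAt.comp_hasDerivAt (0 : ℝ) hl
    rw [hx0] at h
    rw [hy]
    exact h
  have hX0 : G.lg c (x + (0 : ℝ) • η) = X := by rw [hx0, hX]
  obtain ⟨s, hs⟩ : ∃ s, s = ‖X‖ ^ 2 := ⟨_, rfl⟩
  obtain ⟨b, hb⟩ : ∃ b : ℝ, b = inner ℝ X y := ⟨_, rfl⟩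
  have hsd : HasDerivAt (fun t : ℝ => ‖G.lg c (x + t • η)‖ ^ 2) (2 * b) 0 := by
    have h := hXd.norm_sq
    rw [hX0] at h
    rw [hb]
    exact h
  have hs0 : ‖G.lg c (x + (0 : ℝ) • η)‖ ^ 2 = s := by rw [hX0, hs]
  have hs' : 0 ≤ s := by rw [hs]; (clear * -; positivity)
  obtain ⟨ch, hch⟩ : ∃ ch, ch = chi k s := ⟨_, rfl⟩
  obtain ⟨ch', hch'⟩ : ∃ ch', ch' = deriv (chi k) s := ⟨_, rfl⟩
  obtain ⟨f, hf⟩ : ∃ f, f = FG G k c x := ⟨_, rfl⟩
  have hchd : HasDerivAt (fun t : ℝ => chi k (‖G.lg c (x + t • η)‖ ^ 2)) (ch' * (2 * b)) 0 := by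
    have h1 : HasDerivAt (chi k) ch' (‖G.lg c (x + (0 : ℝ) • η)‖ ^ 2) := by
      rw [hs0, hch']
      exact ((chi_smooth k).differentiable (by simp) _).hasDerivAt
    exact HasDerivAt.comp (h₂ := chi k) (h := fun t : ℝ => ‖G.lg c (x + t • η)‖ ^ 2) 0 h1 hsd
  have hFd : HasDerivAt (fun t : ℝ => FG G k c (x + t • η)) (ch / 2 * (2 * b)) 0 := by
    have h1 : HasDerivAt (ff k) (ch / 2) (‖G.lg c (x + (0 : ℝ) • η)‖ ^ 2) := by
      rw [hs0, hch]
      exact hasDerivAt_ff_sq k hs'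
    exact HasDerivAt.comp (h₂ := ff k) (h := fun t : ℝ => ‖G.lg c (x + t • η)‖ ^ 2) 0 h1 hsd
  have hF0 : FG G k c (x + (0 : ℝ) • η) = f := by rw [hx0, hf]
  have hch0 : chi k (‖G.lg c (x + (0 : ℝ) • η)‖ ^ 2) = ch := by rw [hs0, hch]
  have hfe : 0 < f + ε := by rw [hf]; exact FGe_pos G hε k c x
  obtain ⟨q, hq⟩ : ∃ q, q = q0 k ε := ⟨_, rfl⟩
  have hqp : 0 < q := by rw [hq]; exact q0_pos hε hε2
  have hq2 : q ^ 2 = ε * (2 - k ^ 2 * ε) := by rw [hq]; exact q0_sq hε hε2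
  -- derivative of the scalar part
  have h0d : HasDerivAt (fun t : ℝ => th0 G k c ε (x + t • η))
      (-(q ^ 2 / (f + ε) ^ 2 * (ch * b))) 0 := by
    have h1 := (hFd.const_mul (1 - k ^ 2 * ε)).const_sub ε
    have h2 := h1.fun_div (hFd.add_const ε) (by rw [hF0]; exact hfe.ne')
    rw [hF0] at h2
    refine h2.congr_deriv ?_
    rw [hq2]
    field_simp
    ring
  have hvd : HasDerivAt (fun t : ℝ => thv G k c ε (x + t • η))
      ((-(q / (f + ε) ^ 2 * (ch * b)) * ch + q / (f + ε) * (ch' * (2 * b))) • X +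
        (q / (f + ε) * ch) • y) 0 := by
    have h1 : HasDerivAt (fun t : ℝ => q0 k ε / (FG G k c (x + t • η) + ε))
        (-(q / (f + ε) ^ 2 * (ch * b))) 0 := by
      have h2 := (hasDerivAt_const (0 : ℝ) (q0 k ε)).fun_div (hFd.add_const ε)
        (by rw [hF0]; exact hfe.ne')
      rw [hF0, ← hq] at h2
      rw [← hq]
      refine h2.congr_deriv ?_
      field_simp
      ring
    have h3 := (h1.fun_mul hchd).fun_smul hXd
    rw [hX0, ← hs, ← hch, hF0, ← hq] at h3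
    have h4 : (fun t : ℝ => thv G k c ε (x + t • η)) = fun t : ℝ =>
        (q / (FG G k c (x + t • η) + ε) * chi k (‖G.lg c (x + t • η)‖ ^ 2)) •
          G.lg c (x + t • η) := by
      funext t
      rw [thv, hq]
    rw [h4]
    refine h3.congr_deriv ?_
    rw [add_comm]
  -- the components
  have hcomp : ∀ i, fderiv ℝ (thf G k c ε i) x η =
      (Fin.cons (-(q ^ 2 / (f + ε) ^ 2 * (ch * b))) (fun j =>
        ((-(q / (f + ε) ^ 2 * (ch * b)) * ch + q / (f + ε) * (ch' * (2 * b))) • X +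
        (q / (f + ε) * ch) • y : E n) j) : Fin (n + 1) → ℝ) i := by
    intro i
    have h1 : HasDerivAt (fun t : ℝ => thf G k c ε i (x + t • η))
        (fderiv ℝ (thf G k c ε i) x η) 0 := by
      have h2 : HasFDerivAt (thf G k c ε i) (fderiv ℝ (thf G k c ε i) x) (x + (0 : ℝ) • η) := by
        rw [hx0]
        exact ((thf_smooth G hε k c i).differentiable (by simp) x).hasFDerivAt
      exact h2.comp_hasDerivAt (0 : ℝ) hl
    refine h1.unique ?_
    refine Fin.cases ?_ (fun j => ?_) i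
    · exact h0d
    · exact (EuclideanSpace.proj j : E n →L[ℝ] ℝ).hasFDerivAt.comp_hasDerivAt (0 : ℝ) hvd
  rw [← hη]
  simp only [hcomp]
  rw [Fin.sum_univ_succ]
  simp only [Fin.cons_zero, Fin.cons_succ]
  obtain ⟨Y, hY⟩ : ∃ Y, Y = (-(q / (f + ε) ^ 2 * (ch * b)) * ch + q / (f + ε) * (ch' * (2 * b))) • X +
        (q / (f + ε) * ch) • y := ⟨_, rfl⟩
  rw [← hY, ← hq, ← hf]
  have h1 : ∑ j : Fin n, (Y j) ^ 2 = ‖Y‖ ^ 2 := (EuclideanSpace.real_norm_sq_eq Y).symm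
  rw [h1]
  have h2 : ‖Y‖ ^ 2 = (-(q / (f + ε) ^ 2 * (ch * b)) * ch + q / (f + ε) * (ch' * (2 * b))) ^ 2 * s +
      2 * (-(q / (f + ε) ^ 2 * (ch * b)) * ch + q / (f + ε) * (ch' * (2 * b))) *
        (q / (f + ε) * ch) * b + (q / (f + ε) * ch) ^ 2 * ‖y‖ ^ 2 := by
    rw [hY, norm_add_sq_real, norm_smul, norm_smul, mul_pow, mul_pow, Real.norm_eq_abs,
      Real.norm_eq_abs, sq_abs, sq_abs, real_inner_smul_left, real_inner_smul_right, ← hb, ← hs]
    ring
  rw [h2]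
  by_cases hX00 : X = 0
  · -- the centre
    have hb0 : b = 0 := by rw [hb, hX00, inner_zero_left]
    have hch1 : ch = 1 := by rw [hch, hs, hX00]; simp [chi_zero]
    have hv : ‖v‖ = ‖y‖ := by rw [← hTv, hX00, G.T_zero]
    have hs00 : s = 0 := by rw [hs, hX00]; simp
    rw [hb0, hch1, hv, hs00]
    apply le_of_eq
    ring
  · have hsp : 0 < s := by
      rw [hs]
      have := norm_pos_iff.2 hX00
      positivity
    have h3 := T_lower G hk hS c X y hX00
    rw [hTv, ← hs, ← hb, ← hch] at h3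
    -- the identity
    have hcs := cs_eq_chi k ‖X‖
    have hcs2 := cs_eq_ff k ‖X‖
    have hsn := sn_sq_eq_ff k ‖X‖
    have hff : ff k (‖X‖ ^ 2) = f := by rw [hf, hX]; rfl
    rw [← hs, ← hch, ← hch'] at hcs
    rw [hff] at hcs2 hsn
    have hsn2 : _root_.Vale.Agent.P219.TPH.sn k ‖X‖ ^ 2 = s * ch ^ 2 := by
      rw [sn_eq_chi, ← hs, ← hch, mul_pow, ← hs]
    rw [hcs] at hcs2
    rw [hsn2] at hsn
    have key : (-(q ^ 2 / (f + ε) ^ 2 * (ch * b))) ^ 2 +
        ((-(q / (f + ε) ^ 2 * (ch * b)) * ch + q / (f + ε) * (ch' * (2 * b))) ^ 2 * s +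
      2 * (-(q / (f + ε) ^ 2 * (ch * b)) * ch + q / (f + ε) * (ch' * (2 * b))) *
        (q / (f + ε) * ch) * b + (q / (f + ε) * ch) ^ 2 * ‖y‖ ^ 2) =
        (q / (f + ε)) ^ 2 * (b ^ 2 / s + ch ^ 2 * (‖y‖ ^ 2 - b ^ 2 / s)) := by
      have e1 : q ^ 2 = ε * (2 - k ^ 2 * ε) := hq2
      have e2 : 2 * s * ch' = 1 + k ^ 2 * f - ch := by linarith
      have e3 : s * ch ^ 2 = 2 * f + k ^ 2 * f ^ 2 := hsn
      have e4 : (2 * s * ch' + ch - s * ch ^ 2 / (f + ε)) ^ 2 + q ^ 2 / (f + ε) ^ 2 * (s * ch ^ 2)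
          = 1 := by
        rw [e2, e3, e1]
        field_simp
        ring
      have e5 : (-(q ^ 2 / (f + ε) ^ 2 * (ch * b))) ^ 2 +
        ((-(q / (f + ε) ^ 2 * (ch * b)) * ch + q / (f + ε) * (ch' * (2 * b))) ^ 2 * s +
      2 * (-(q / (f + ε) ^ 2 * (ch * b)) * ch + q / (f + ε) * (ch' * (2 * b))) *
        (q / (f + ε) * ch) * b + (q / (f + ε) * ch) ^ 2 * ‖y‖ ^ 2) =
        (q / (f + ε)) ^ 2 * (b ^ 2 / s * ((2 * s * ch' + ch - s * ch ^ 2 / (f + ε)) ^ 2 +
          q ^ 2 / (f + ε) ^ 2 * (s * ch ^ 2)) + ch ^ 2 * (‖y‖ ^ 2 - b ^ 2 / s)) := by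
        field_simp
        ring
      rw [e5, e4, mul_one]
    rw [key]
    exact mul_le_mul_of_nonneg_left h3 (by (clear * - hqp hfe; positivity))

/-- trace over the hyperplane orthogonal to `ν` -/
theorem sum_perp_le {ι : Type*} [Fintype ι] {a : ι → E n} {W : ℝ} {ν : E n} (hν : ‖ν‖ = 1)
    (h : ∀ v : E n, ∑ i, inner ℝ (a i) v ^ 2 ≤ W * ‖v‖ ^ 2) :
    ∑ i, (inner ℝ (a i) (a i) - inner ℝ (a i) ν * inner ℝ (a i) ν) ≤ ((n : ℝ) - 1) * W := by
  obtain ⟨e, he⟩ : ∃ e : OrthonormalBasis (Fin n) ℝ (E n), e = EuclideanSpace.basisFun (Fin n) ℝ :=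
    ⟨_, rfl⟩
  have h1 : ∀ i, inner ℝ (a i) (a i) - inner ℝ (a i) ν * inner ℝ (a i) ν =
      ∑ j, inner ℝ (a i) (e j - inner ℝ (e j) ν • ν) ^ 2 := by
    intro i
    have h2 : ∑ j, inner ℝ (a i - inner ℝ (a i) ν • ν) (e j) ^ 2 =
        ‖a i - inner ℝ (a i) ν • ν‖ ^ 2 := by
      have := e.sum_sq_norm_inner_left (a i - inner ℝ (a i) ν • ν)
      simpa using this
    have h3 : ∀ j, inner ℝ (a i) (e j - inner ℝ (e j) ν • ν) =
        inner ℝ (a i - inner ℝ (a i) ν • ν) (e j) := by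
      intro j
      rw [inner_sub_right, inner_sub_left, real_inner_smul_right, real_inner_smul_left,
        real_inner_comm ν (e j)]
      ring
    simp only [h3]
    rw [h2, norm_sub_sq_real, norm_smul, real_inner_smul_right, mul_pow, hν,
      Real.norm_eq_abs, sq_abs, real_inner_self_eq_norm_sq]
    ring
  have h4 : ∀ j, ‖e j - inner ℝ (e j) ν • ν‖ ^ 2 = 1 - inner ℝ (e j) ν ^ 2 := by
    intro j
    rw [norm_sub_sq_real, norm_smul, real_inner_smul_right, mul_pow, hν,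
      Real.norm_eq_abs, sq_abs, e.norm_eq_one]
    ring
  have h5 : ∑ j, inner ℝ (e j) ν ^ 2 = 1 := by
    have := e.sum_sq_norm_inner_right ν
    rw [hν] at this
    simpa using this
  calc ∑ i, (inner ℝ (a i) (a i) - inner ℝ (a i) ν * inner ℝ (a i) ν) =
      ∑ i, ∑ j, inner ℝ (a i) (e j - inner ℝ (e j) ν • ν) ^ 2 := Finset.sum_congr rfl fun i _ => h1 i
    _ = ∑ j, ∑ i, inner ℝ (a i) (e j - inner ℝ (e j) ν • ν) ^ 2 := Finset.sum_comm
    _ ≤ ∑ j, W * ‖e j - inner ℝ (e j) ν • ν‖ ^ 2 := Finset.sum_le_sum fun j _ => h _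
    _ = ((n : ℝ) - 1) * W := by
      simp only [h4]
      rw [← Finset.mul_sum, Finset.sum_sub_distrib, h5]
      simp
      ring

/-- The energy of the frame along the hyperplane orthogonal to `ν`. -/
theorem thf_Gam (G : Geo n) {k ε : ℝ} (hk : 0 ≤ k) (hS : SnLe G k) (hε : 0 < ε)
    (hε2 : k ^ 2 * ε < 2) (c : E n) (z : E n × E n) (hz : ‖z.2‖ = 1) :
    ∑ i, Gam G.A (thf G k c ε i) (thf G k c ε i) z ≤
      ((n : ℝ) - 1) * bub (k ^ 2) (FG G k c) ε z.1 ^ 2 := by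
  refine sum_perp_le (a := fun i => D G.A (thf G k c ε i) z.1) hz fun v => ?_
  have h := thf_energy G hk hS hε hε2 c z.1 v
  have h1 : ∀ i, inner ℝ (D G.A (thf G k c ε i) z.1) v =
      fderiv ℝ (thf G k c ε i) z.1 (G.A z.1 v) := by
    intro i
    unfold D
    rw [InnerProductSpace.toDual_symm_apply, ContinuousLinearMap.comp_apply]
  simp only [h1]
  exact h

end Vale.Agent.P219.End
end

section

/-! # P219, all dimensions: geometric fields of the limit object -/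

open MeasureTheory Set Metric Filter Topology
open scoped ENNReal NNReal ContDiff

namespace Vale.Agent.P219.SA

open Vale.Agent.P219.TP Vale.Agent.P219.TPH
open Vale.Agent.P219.End (FG ff sg)

variable {n : ℕ}

theorem sn_add (k a b : ℝ) : _root_.Vale.Agent.P219.TPH.sn k (a + b) = _root_.Vale.Agent.P219.TPH.sn k a * _root_.Vale.Agent.P219.TPH.cs k b + _root_.Vale.Agent.P219.TPH.cs k a * _root_.Vale.Agent.P219.TPH.sn k b := by
  have h1 : _root_.Vale.Agent.P219.TPH.sn k (-b) = -_root_.Vale.Agent.P219.TPH.sn k b := by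
    unfold _root_.Vale.Agent.P219.TPH.sn
    split_ifs
    · rfl
    · rw [mul_neg, Real.sinh_neg, neg_div]
  have h2 : _root_.Vale.Agent.P219.TPH.cs k (-b) = _root_.Vale.Agent.P219.TPH.cs k b := by
    unfold _root_.Vale.Agent.P219.TPH.cs
    rw [mul_neg, Real.cosh_neg]
  have h3 := h1_sub k a (-b)
  rw [h1, h2, sub_neg_eq_add] at h3
  rw [h3]
  ring

theorem cs_pos (k r : ℝ) : 0 < _root_.Vale.Agent.P219.TPH.cs k r := one_pos.trans_le (one_le_cs k r)

theorem sqrt_ff {k r : ℝ} (hk : 0 ≤ k) (hr : 0 ≤ r) : √(ff k (r ^ 2)) = √2 * _root_.Vale.Agent.P219.TPH.sn k (r / 2) := by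
  have hs : 0 ≤ _root_.Vale.Agent.P219.TPH.sn k (r / 2) := (by positivity : 0 ≤ r / 2).trans (le_sn hk (by positivity))
  rw [End.ff_sq, Real.sqrt_mul (by norm_num), Real.sqrt_sq hs]

theorem sqrt_one_ff (k r : ℝ) : √(1 + k ^ 2 * ff k (r ^ 2) / 2) = _root_.Vale.Agent.P219.TPH.cs k (r / 2) := by
  have h2 : 1 + k ^ 2 * ff k (r ^ 2) / 2 = _root_.Vale.Agent.P219.TPH.cs k (r / 2) ^ 2 := by
    rw [cs_sq, End.ff_sq]; ring
  rw [h2, Real.sqrt_sq (cs_pos k _).le]

theorem norm_lg_tri (G : Geo n) (c x y : _root_.Vale.Agent.P219.TP.E n) : ‖G.lg c x‖ ≤ ‖G.lg c y‖ + ‖G.lg y x‖ := by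
  have h1 := G.lg_nonexp c x y
  have h2 := norm_le_norm_sub_add (G.lg c x) (G.lg c y)
  rw [G.norm_lg_comm x y] at h1
  linarith

theorem tri_FG (G : Geo n) {k : ℝ} (hk : 0 ≤ k) (c p x : _root_.Vale.Agent.P219.TP.E n) :
    √(FG G k c x) ≤ √(FG G k p x) * √(1 + k ^ 2 * FG G k c p / 2) +
      √(1 + k ^ 2 * FG G k p x / 2) * √(FG G k c p) := by
  unfold FG
  rw [sqrt_ff hk (norm_nonneg _), sqrt_ff hk (norm_nonneg _), sqrt_ff hk (norm_nonneg _),
    sqrt_one_ff, sqrt_one_ff]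
  have h1 := norm_lg_tri G c x p
  have h2 : _root_.Vale.Agent.P219.TPH.sn k (‖G.lg c x‖ / 2) ≤ _root_.Vale.Agent.P219.TPH.sn k (‖G.lg p x‖ / 2 + ‖G.lg c p‖ / 2) :=
    (_root_.Vale.Agent.P219.TPH.sn_strictMono hk).monotone (by linarith)
  rw [sn_add] at h2
  have h3 := mul_le_mul_of_nonneg_left h2 (Real.sqrt_nonneg 2)
  linarith only [h3]

theorem sg_eq_sig (hn : 2 ≤ n) : sg ((n : ℝ) - 1) = sig n := by
  rw [End.sg_sub_one hn, sig_eq_gamma (by omega)]

end Vale.Agent.P219.SA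
end

section

/-! # P219: exact first order of the area element of a radial contraction, general weights -/

open MeasureTheory Set Metric
open scoped ENNReal ContDiff

namespace Vale.Agent.P219.End

open Vale.Agent.P219.TP Vale.Agent.P219.TPH

variable {n : ℕ}

variable (G : Geo n)

/-- The function `θ ∘ lg p`. -/
noncomputable def stX (θ : _root_.Vale.Agent.P219.TP.E n → ℝ) (p : _root_.Vale.Agent.P219.TP.E n) (y : _root_.Vale.Agent.P219.TP.E n) : ℝ := θ (G.lg p y)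

theorem st_D_comp {θ : _root_.Vale.Agent.P219.TP.E n → ℝ} {p x : _root_.Vale.Agent.P219.TP.E n} (hθ : DifferentiableAt ℝ θ (G.lg p x))
    {Ti : _root_.Vale.Agent.P219.TP.E n →L[ℝ] _root_.Vale.Agent.P219.TP.E n} (hTi : ∀ ξ, G.T p (G.lg p x) (Ti ξ) = ξ) (ξ : _root_.Vale.Agent.P219.TP.E n) :
    inner ℝ (G.D (stX G θ p) x) ξ = fderiv ℝ θ (G.lg p x) (Ti ξ) := by
  have hx : G.ex p (G.lg p x) = x := G.ex_lg p x
  have h2 : G.A x ξ = fderiv ℝ (G.ex p) (G.lg p x) (Ti ξ) := by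
    rw [← G.T_spec, hx, hTi]
  have h3 : fderiv ℝ (G.lg p) x (G.A x ξ) = Ti ξ := by
    have h4 := G.fderiv_lg p (G.lg p x) (Ti ξ)
    rw [hx] at h4
    rw [h2, h4]
  rw [G.inner_D]
  have h5 : HasFDerivAt (stX G θ p) ((fderiv ℝ θ (G.lg p x)).comp (fderiv ℝ (G.lg p) x)) x :=
    hθ.hasFDerivAt.comp x (G.differentiable_lg_ae p x).hasFDerivAt
  rw [h5.fderiv, ContinuousLinearMap.comp_apply, h3]

end Vale.Agent.P219.End
end

section

/-! # P219: volume of a contracted function, general weights -/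

open MeasureTheory Set Metric
open scoped ENNReal ContDiff

namespace Vale.Agent.P219.End

open Vale.Agent.P219.TP Vale.Agent.P219.TPH

variable {n : ℕ} (G : Geo n)

/-- `w X`, where `X = θ(lg p x) A(x)(-lg x p)`; `-X` is the initial velocity of `rad θ p t`. -/
noncomputable def stXf (θ : _root_.Vale.Agent.P219.TP.E n → ℝ) (p : _root_.Vale.Agent.P219.TP.E n) (x : _root_.Vale.Agent.P219.TP.E n) : _root_.Vale.Agent.P219.TP.E n :=
  (G.w x * θ (G.lg p x)) • G.A x (-G.lg x p)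

/-- Euclidean divergence of `w X`. -/
noncomputable def stDv (θ : _root_.Vale.Agent.P219.TP.E n → ℝ) (p : _root_.Vale.Agent.P219.TP.E n) (x : _root_.Vale.Agent.P219.TP.E n) : ℝ :=
  ∑ i, fderiv ℝ (stXf G θ p) x (EuclideanSpace.single i 1) i

/-- `rad` as a function of `(t, x)`. -/
noncomputable def stF (θ : _root_.Vale.Agent.P219.TP.E n → ℝ) (p : _root_.Vale.Agent.P219.TP.E n) (q : ℝ × _root_.Vale.Agent.P219.TP.E n) : _root_.Vale.Agent.P219.TP.E n := G.rad θ p q.1 q.2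

/-- Inclusion of the last coordinate. -/
noncomputable def stI (n : ℕ) : _root_.Vale.Agent.P219.TP.E n →L[ℝ] ℝ × _root_.Vale.Agent.P219.TP.E n := ContinuousLinearMap.inr ℝ ℝ (_root_.Vale.Agent.P219.TP.E n)

theorem stI_apply (y : _root_.Vale.Agent.P219.TP.E n) : stI n y = (0, y) := rfl

theorem st_kappa (t : ℝ) (x : _root_.Vale.Agent.P219.TP.E n) :
    HasFDerivAt (fun y : _root_.Vale.Agent.P219.TP.E n => ((t, y) : ℝ × _root_.Vale.Agent.P219.TP.E n)) (stI n) x := by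
  have h := (stI n).hasFDerivAt (x := x)
  have h2 := h.const_add ((t, 0) : ℝ × _root_.Vale.Agent.P219.TP.E n)
  refine h2.congr_of_eventuallyEq (Filter.Eventually.of_forall fun y => ?_)
  change _ = (t, 0) + stI n y
  rw [stI_apply]
  simp

variable {θ : _root_.Vale.Agent.P219.TP.E n → ℝ}

theorem st_contDiff_Xf (hθ : ContDiff ℝ ∞ θ) (p : _root_.Vale.Agent.P219.TP.E n) : ContDiff ℝ ∞ (stXf G θ p) := by
  unfold stXf
  refine ContDiff.smul (G.w_smooth.mul (hθ.comp (ibp_contDiff_lg_left G p))) ?_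
  exact G.A_smooth.clm_apply (ibp_contDiff_lg_right G p).neg

theorem stF_smooth (hθ : ContDiff ℝ ∞ θ) (p : _root_.Vale.Agent.P219.TP.E n) : ContDiff ℝ ∞ (stF G θ p) := by
  have hlg : ContDiff ℝ ∞ (fun q : ℝ × _root_.Vale.Agent.P219.TP.E n => G.lg p q.2) :=
    (ibp_contDiff_lg_left G p).comp contDiff_snd
  have harg : ContDiff ℝ ∞ (fun q : ℝ × _root_.Vale.Agent.P219.TP.E n => (1 - q.1 * θ (G.lg p q.2)) • G.lg p q.2) :=
    (contDiff_const.sub (contDiff_fst.mul (hθ.comp hlg))).smul hlg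
  exact G.ex_smooth.comp (contDiff_const.prodMk harg)

theorem stF_hasFDerivAt (hθ : ContDiff ℝ ∞ θ) (p : _root_.Vale.Agent.P219.TP.E n) (q : ℝ × _root_.Vale.Agent.P219.TP.E n) :
    HasFDerivAt (stF G θ p) (fderiv ℝ (stF G θ p) q) q :=
  ((stF_smooth G hθ p).differentiable (by simp) q).hasFDerivAt

/-- The velocity at `t = 0`. -/
theorem st_velocity (hθ : ContDiff ℝ ∞ θ) (p y : _root_.Vale.Agent.P219.TP.E n) :
    fderiv ℝ (stF G θ p) (0, y) (1, 0) = -(θ (G.lg p y)) • G.A y (-G.lg y p) := by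
  have h1 : HasDerivAt (fun s : ℝ => G.ex p (s • G.lg p y))
      (G.A (G.ex p ((1 : ℝ) • G.lg p y)) (G.V 1 p (G.lg p y))) 1 := G.ex_deriv 1 p (G.lg p y)
  rw [one_smul, G.ex_lg, G.lg_back'] at h1
  have h2 : HasDerivAt (fun t : ℝ => 1 - t * θ (G.lg p y)) (-(θ (G.lg p y))) 0 := by
    have := ((hasDerivAt_id (0 : ℝ)).mul_const (θ (G.lg p y))).const_sub 1
    simpa using this
  have h3 : HasDerivAt (fun t : ℝ => stF G θ p (t, y))
      (-(θ (G.lg p y)) • G.A y (-G.lg y p)) 0 :=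
    HasDerivAt.scomp_of_eq (0 : ℝ) h1 h2 (by simp)
  have hd := stF_hasFDerivAt G hθ p (0, y)
  have h4 : HasDerivAt (fun t : ℝ => ((t, y) : ℝ × _root_.Vale.Agent.P219.TP.E n)) (1, 0) 0 :=
    (hasDerivAt_id (0 : ℝ)).prodMk (hasDerivAt_const _ _)
  have h5 := hd.comp_hasDerivAt (0 : ℝ) h4
  exact h5.unique h3

/-- `w(Ψ) det DΨ` as a function of `(t, x)`. -/
noncomputable def stf (θ : _root_.Vale.Agent.P219.TP.E n → ℝ) (p : _root_.Vale.Agent.P219.TP.E n) (q : ℝ × _root_.Vale.Agent.P219.TP.E n) : ℝ :=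
  G.w (stF G θ p q) * ((fderiv ℝ (stF G θ p) q).comp (stI n)).det

theorem stf_smooth (hθ : ContDiff ℝ ∞ θ) (p : _root_.Vale.Agent.P219.TP.E n) : ContDiff ℝ ∞ (stf G θ p) := by
  have h1 := stF_smooth G hθ p
  have h2 : ContDiff ℝ ∞ (fderiv ℝ (stF G θ p)) := h1.fderiv_right (by simp)
  have h3 : ContDiff ℝ ∞ (fun q => (fderiv ℝ (stF G θ p) q).comp (stI n)) :=
    h2.clm_comp contDiff_const
  exact (G.w_smooth.comp h1).mul (volExp_contDiff_det.comp h3)

theorem st_fderiv_rad (hθ : ContDiff ℝ ∞ θ) (p : _root_.Vale.Agent.P219.TP.E n) (t : ℝ) (x : _root_.Vale.Agent.P219.TP.E n) :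
    fderiv ℝ (G.rad θ p t) x = (fderiv ℝ (stF G θ p) (t, x)).comp (stI n) := by
  have h := (stF_hasFDerivAt G hθ p (t, x)).comp x (st_kappa t x)
  exact h.fderiv

theorem st_rad_zero (θ : _root_.Vale.Agent.P219.TP.E n → ℝ) (p : _root_.Vale.Agent.P219.TP.E n) : G.rad θ p 0 = id := by
  funext x
  simp [Geo.rad, G.ex_lg]

theorem st_L_zero (hθ : ContDiff ℝ ∞ θ) (p x : _root_.Vale.Agent.P219.TP.E n) :
    (fderiv ℝ (stF G θ p) (0, x)).comp (stI n) = ContinuousLinearMap.id ℝ (_root_.Vale.Agent.P219.TP.E n) := by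
  rw [← st_fderiv_rad G hθ p 0 x, st_rad_zero, fderiv_id]

theorem stf_zero (hθ : ContDiff ℝ ∞ θ) (p x : _root_.Vale.Agent.P219.TP.E n) : stf G θ p (0, x) = G.w x := by
  rw [stf, st_L_zero G hθ p x]
  have h1 : stF G θ p (0, x) = x := by
    change G.rad θ p 0 x = x
    rw [st_rad_zero]
    rfl
  have h2 : (ContinuousLinearMap.id ℝ (_root_.Vale.Agent.P219.TP.E n)).det = 1 := by
    rw [ContinuousLinearMap.det, ContinuousLinearMap.coe_id, LinearMap.det_id]
  rw [h1, h2, mul_one]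

/-- The derivative in `t` at `t = 0`. -/
theorem st_dv (hθ : ContDiff ℝ ∞ θ) (p x : _root_.Vale.Agent.P219.TP.E n) :
    fderiv ℝ (stf G θ p) (0, x) (1, 0) = -stDv G θ p x := by
  have hF := stF_smooth G hθ p
  obtain ⟨B, hBdef⟩ : ∃ B, B = fderiv ℝ (fderiv ℝ (stF G θ p)) (0, x) := ⟨_, rfl⟩
  have hB : HasFDerivAt (fderiv ℝ (stF G θ p)) B (0, x) := by
    rw [hBdef]
    exact ((hF.fderiv_right (m := ∞) (by simp)).differentiable (by simp) (0, x)).hasFDerivAt
  have hsymm : ∀ v w, B v w = B w v := by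
    rw [hBdef]
    exact (hF.contDiffAt).isSymmSndFDerivAt (by
      rw [minSmoothness_of_isRCLikeNormedField]
      exact WithTop.coe_le_coe.2 (le_top : (2 : ℕ∞) ≤ ⊤))
  have hcurve : HasDerivAt (fun t : ℝ => ((t, x) : ℝ × _root_.Vale.Agent.P219.TP.E n)) (1, 0) 0 :=
    (hasDerivAt_id (0 : ℝ)).prodMk (hasDerivAt_const _ _)
  have hL : HasDerivAt (fun t : ℝ => (fderiv ℝ (stF G θ p) (t, x)).comp (stI n))
      ((B (1, 0)).comp (stI n)) 0 := by
    exact volExp_comp_deriv (stI n) (hB.comp_hasDerivAt (0 : ℝ) hcurve)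
  have hdet := volExp_hasDerivAt_det hL (st_L_zero G hθ p x)
  have hFx : stF G θ p (0, x) = x := by
    change G.rad θ p 0 x = x
    rw [st_rad_zero]
    rfl
  have hwd : ∀ y, HasFDerivAt G.w (fderiv ℝ G.w y) y := fun y =>
    (G.w_smooth.differentiable (by simp) y).hasFDerivAt
  have hw : HasDerivAt (fun t : ℝ => G.w (stF G θ p (t, x)))
      (fderiv ℝ G.w x (fderiv ℝ (stF G θ p) (0, x) (1, 0))) 0 := by
    have h1 := (stF_hasFDerivAt G hθ p (0, x)).comp_hasDerivAt (0 : ℝ) hcurve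
    have h2 := hwd (stF G θ p (0, x))
    have h3 := h2.comp_hasDerivAt (0 : ℝ) h1
    rw [hFx] at h3
    exact h3
  have hprod := hw.mul hdet
  have hf : HasDerivAt (fun t : ℝ => stf G θ p (t, x)) (fderiv ℝ (stf G θ p) (0, x) (1, 0)) 0 := by
    have h0 := ((stf_smooth G hθ p).differentiable (by simp) (0, x)).hasFDerivAt
    exact h0.comp_hasDerivAt (0 : ℝ) hcurve
  have e1 := hf.unique hprod
  rw [st_L_zero G hθ p x, hFx] at e1
  have hdid : (ContinuousLinearMap.id ℝ (_root_.Vale.Agent.P219.TP.E n)).det = 1 := by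
    rw [ContinuousLinearMap.det, ContinuousLinearMap.coe_id, LinearMap.det_id]
  rw [hdid, mul_one] at e1
  -- the velocity field
  have hX : ∀ y, stXf G θ p y = -(G.w y) • fderiv ℝ (stF G θ p) (0, y) (1, 0) := by
    intro y
    rw [st_velocity G hθ p y, stXf, smul_smul]
    congr 1
    ring
  have hV : HasFDerivAt (fun y : _root_.Vale.Agent.P219.TP.E n => fderiv ℝ (stF G θ p) (0, y) (1, 0))
      ((B.comp (stI n)).flip (1, 0)) x := by
    have h1 : HasFDerivAt (fun y : _root_.Vale.Agent.P219.TP.E n => fderiv ℝ (stF G θ p) (0, y))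
        (B.comp (stI n)) x := hB.comp x (st_kappa 0 x)
    exact volExp_apply_deriv h1 (1, 0)
  have hXd : HasFDerivAt (stXf G θ p) (-(G.w x) • ((B.comp (stI n)).flip (1, 0)) +
      (-(fderiv ℝ G.w x)).smulRight (fderiv ℝ (stF G θ p) (0, x) (1, 0))) x := by
    have h1 := (hwd x).neg.smul hV
    have h2 : stXf G θ p = fun y => -(G.w y) • fderiv ℝ (stF G θ p) (0, y) (1, 0) := funext hX
    rw [h2]
    exact h1
  obtain ⟨vel, hvel⟩ : ∃ vel, vel = fderiv ℝ (stF G θ p) (0, x) (1, 0) := ⟨_, rfl⟩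
  rw [← hvel] at e1 hXd
  have hsum : fderiv ℝ G.w x vel =
      ∑ i, fderiv ℝ G.w x (EuclideanSpace.single i 1) * vel i := by
    have h1 : vel = ∑ i, vel i • (EuclideanSpace.single i (1 : ℝ) : _root_.Vale.Agent.P219.TP.E n) := by
      have := (EuclideanSpace.basisFun (Fin n) ℝ).sum_repr vel
      simpa using this.symm
    conv_lhs => rw [h1]
    rw [map_sum]
    refine Finset.sum_congr rfl fun i _ => ?_
    rw [map_smul, smul_eq_mul, mul_comm]
  rw [e1, stDv, hXd.fderiv, hsum, Finset.mul_sum, ← Finset.sum_add_distrib,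
    ← Finset.sum_neg_distrib]
  refine Finset.sum_congr rfl fun i _ => ?_
  have h6 : B (1, 0) (stI n (EuclideanSpace.single i 1)) =
      B (stI n (EuclideanSpace.single i 1)) (1, 0) := hsymm _ _
  simp [h6]

/-- Expansion of the volume distortion of `rad`. -/
theorem st_vol_exp (hθ : ContDiff ℝ ∞ θ) (o : _root_.Vale.Agent.P219.TP.E n) (ρ : ℝ) (p : _root_.Vale.Agent.P219.TP.E n) :
    ∃ C t₀ : ℝ, 0 ≤ C ∧ 0 < t₀ ∧ ∀ x t, ‖G.lg o x‖ ≤ ρ → 0 ≤ t → t ≤ t₀ →
      G.w x - t * stDv G θ p x - C * t ^ 2 ≤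
        G.w (G.rad θ p t x) * |(fderiv ℝ (G.rad θ p t) x).det| := by
  obtain ⟨C, t₀, hC, ht₀, h⟩ := taylor_uniform isOpen_univ (stf_smooth G hθ p).contDiffOn
    (G.isCompact_gball o ρ) (fun z _ => mem_univ _)
  refine ⟨C, t₀, hC, ht₀, fun x t hx ht0 ht1 => ?_⟩
  have h1 := h x hx t ⟨ht0, ht1⟩
  rw [stf_zero G hθ p x, st_dv G hθ p x] at h1
  have h2 := (abs_le.1 h1).1
  have h3 : stf G θ p (t, x) ≤ G.w (G.rad θ p t x) * |(fderiv ℝ (G.rad θ p t) x).det| := by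
    rw [st_fderiv_rad G hθ p t x]
    exact mul_le_mul_of_nonneg_left (le_abs_self _) (G.w_pos _).le
  linarith

theorem st_continuous_dv (hθ : ContDiff ℝ ∞ θ) (p : _root_.Vale.Agent.P219.TP.E n) : Continuous (stDv G θ p) := by
  unfold stDv
  refine continuous_finsetSum _ fun i _ => ?_
  have h1 : Continuous fun x => fderiv ℝ (stXf G θ p) x (EuclideanSpace.single i 1) :=
    ((st_contDiff_Xf G hθ p).continuous_fderiv (by simp)).clm_apply continuous_const
  exact (EuclideanSpace.proj (𝕜 := ℝ) i).continuous.comp h1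

/-- Bound of the divergence. -/
theorem st_dv_bound (hθ : ContDiff ℝ ∞ θ) (o : _root_.Vale.Agent.P219.TP.E n) (ρ : ℝ) (p : _root_.Vale.Agent.P219.TP.E n) :
    ∃ C : ℝ, 0 ≤ C ∧ ∀ x, ‖G.lg o x‖ ≤ ρ → |stDv G θ p x| ≤ C * G.w x := by
  have hcont : ContinuousOn (fun x : _root_.Vale.Agent.P219.TP.E n => stDv G θ p x / G.w x) {x | ‖G.lg o x‖ ≤ ρ} :=
    ((st_continuous_dv G hθ p).div G.w_smooth.continuous fun z => (G.w_pos z).ne').continuousOn
  obtain ⟨C, hC⟩ := (G.isCompact_gball o ρ).exists_bound_of_continuousOn hcont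
  refine ⟨max C 0, le_max_right _ _, fun x hx => ?_⟩
  have h1 := hC x hx
  rw [Real.norm_eq_abs, abs_div, abs_of_pos (G.w_pos x), div_le_iff₀ (G.w_pos x)] at h1
  exact h1.trans (mul_le_mul_of_nonneg_right (le_max_left _ _) (G.w_pos x).le)

/-- Divergence theorem. -/
theorem st_ibp (hθ : ContDiff ℝ ∞ θ) (p : _root_.Vale.Agent.P219.TP.E n) {h : _root_.Vale.Agent.P219.TP.E n → ℝ} (hh : ContDiff ℝ 1 h)
    (hc : HasCompactSupport h) :
    ∫ x, h x * stDv G θ p x =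
      ∫ x, θ (G.lg p x) * inner ℝ (G.lg x p) (G.D h x) ∂G.vol := by
  rw [ibp_integral_vol]
  have h1 := ibp_euclid (st_contDiff_Xf G hθ p) hh hc
  unfold stDv
  rw [h1, ← integral_neg]
  refine integral_congr_ae (Filter.Eventually.of_forall fun x => ?_)
  simp only [stXf, Geo.D]
  rw [real_inner_comm, InnerProductSpace.toDual_symm_apply]
  simp only [map_smul, map_neg, smul_eq_mul, ContinuousLinearMap.comp_apply]
  ring

/-- Volume of `{h = 1}` under a radial contraction, general weight. -/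
theorem st_vol (hθ : ContDiff ℝ ∞ θ) (o : _root_.Vale.Agent.P219.TP.E n) (ρ : ℝ) (p : _root_.Vale.Agent.P219.TP.E n) :
    ∃ C t₀ : ℝ, 0 ≤ C ∧ 0 < t₀ ∧ ∀ (t : ℝ) (h : _root_.Vale.Agent.P219.TP.E n → ℝ), 0 ≤ t → t ≤ t₀ → G.Cls o ρ h →
      ∀ Ψ : _root_.Vale.Agent.P219.TP.E n ≃ₜ _root_.Vale.Agent.P219.TP.E n, (∀ x, ‖G.lg o x‖ ≤ ρ → Ψ =ᶠ[nhds x] G.rad θ p t) →
      ContDiff ℝ ∞ Ψ → ContDiff ℝ ∞ Ψ.symm →
      V1 G h - t * (∫ x, θ (G.lg p x) * inner ℝ (G.lg x p) (G.D h x) ∂G.vol) -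
          C * t * G.vol.real {x | 0 < h x ∧ h x < 1} - C * t ^ 2 ≤ V1 G (h ∘ Ψ.symm) := by
  obtain ⟨C₁, t₁, hC₁, ht₁, hexp⟩ := st_vol_exp G hθ o ρ p
  obtain ⟨C₂, hC₂, hbd⟩ := st_dv_bound G hθ o ρ p
  set B : Set (_root_.Vale.Agent.P219.TP.E n) := {x | ‖G.lg o x‖ ≤ ρ} with hB
  have hBc : IsCompact B := G.isCompact_gball o ρ
  set C₃ : ℝ := (volume : Measure (_root_.Vale.Agent.P219.TP.E n)).real B with hC₃
  have hC₃0 : 0 ≤ C₃ := measureReal_nonneg
  refine ⟨C₂ + C₁ * C₃, t₁, by (clear * - hC₂ hC₁; positivity), ht₁, ?_⟩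
  intro t h ht ht' hcls Ψ hΨ hΨs hΨs'
  have hc := vpc_hasCompactSupport G hcls
  have hcont := hcls.smooth.continuous
  have hhq0 : ∀ x, 0 ≤ volhChi h x := volhChi_nonneg h
  have hhq1 : ∀ x, volhChi h x ≤ 1 := volhChi_le_one h
  have hdvc := st_continuous_dv G hθ p
  have hwc := G.w_smooth.continuous
  -- the transformed integral
  have hfd : Continuous fun x => (fderiv ℝ Ψ x).det := by
    have : Continuous fun x => fderiv ℝ Ψ x := hΨs.continuous_fderiv (by simp)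
    exact ContinuousLinearMap.continuous_det.comp this
  have e1 : V1 G (h ∘ Ψ.symm) = ∫ x, volhChi h x * (G.w (Ψ x) * |(fderiv ℝ Ψ x).det|) := by
    rw [volh_V1 G (hcont.comp Ψ.symm.continuous), integral_vol_comp G hΨs, ibp_integral_vol]
    refine integral_congr_ae (Filter.Eventually.of_forall fun x => ?_)
    have hw := (G.w_pos x).ne'
    have hchi : volhChi (h ∘ Ψ.symm) (Ψ x) = volhChi h x := by
      unfold volhChi
      by_cases hx : h x = 1
      · rw [indicator_of_mem (show x ∈ {x | h x = 1} from hx), indicator_of_mem]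
        show h (Ψ.symm (Ψ x)) = 1
        rw [Homeomorph.symm_apply_apply]
        exact hx
      · rw [indicator_of_notMem (show x ∉ {x | h x = 1} from hx), indicator_of_notMem]
        intro hx'
        have h2 : h (Ψ.symm (Ψ x)) = 1 := hx'
        rw [Homeomorph.symm_apply_apply] at h2
        exact hx h2
    simp only [hchi]
    field_simp
  have e2 : V1 G h = ∫ x, volhChi h x * G.w x := by
    rw [volh_V1 G hcont, ibp_integral_vol]
    refine integral_congr_ae (Filter.Eventually.of_forall fun x => ?_)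
    simp only
    rw [mul_comm]
  have i1 : Integrable fun x => volhChi h x * (G.w (Ψ x) * |(fderiv ℝ Ψ x).det|) :=
    volh_integrable G hcls ((hwc.comp Ψ.continuous).mul hfd.abs)
  have i2 : Integrable fun x => volhChi h x * G.w x := volh_integrable G hcls hwc
  have i3 : Integrable fun x => volhChi h x * stDv G θ p x := volh_integrable G hcls hdvc
  have i4 : Integrable fun x => volhChi h x := by
    have := volh_integrable G hcls (f := fun _ => (1 : ℝ)) continuous_const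
    simpa using this
  have i5 : Integrable fun x => h x * stDv G θ p x :=
    (hcont.mul hdvc).integrable_of_hasCompactSupport hc.mul_right
  -- pointwise lower bound
  have hpt : ∀ x, volhChi h x * G.w x - t * (volhChi h x * stDv G θ p x) -
      C₁ * t ^ 2 * volhChi h x ≤ volhChi h x * (G.w (Ψ x) * |(fderiv ℝ Ψ x).det|) := by
    intro x
    by_cases hx : h x = 0
    · rw [volhChi_zero hx]; simp
    · have hxB : ‖G.lg o x‖ ≤ ρ := hcls.supp x hx
      have hev := hΨ x hxB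
      have hf : fderiv ℝ Ψ x = fderiv ℝ (G.rad θ p t) x := Filter.EventuallyEq.fderiv_eq hev
      have hv : Ψ x = G.rad θ p t x := hev.self_of_nhds
      have := hexp x t hxB ht ht'
      rw [hf, hv]
      have h2 := mul_le_mul_of_nonneg_left this (hhq0 x)
      linarith
  have hlow : V1 G h - t * (∫ x, volhChi h x * stDv G θ p x) -
      C₁ * t ^ 2 * (∫ x, volhChi h x) ≤ V1 G (h ∘ Ψ.symm) := by
    have i23 : Integrable fun x => volhChi h x * G.w x - t * (volhChi h x * stDv G θ p x) :=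
      i2.sub (i3.const_mul t)
    have i24 : Integrable fun x => C₁ * t ^ 2 * volhChi h x := i4.const_mul _
    rw [e1, e2, ← integral_const_mul, ← integral_const_mul, ← integral_sub i2 (i3.const_mul t),
      ← integral_sub i23 i24]
    exact integral_mono (i23.sub i24) i1 hpt
  -- the error terms
  have hvolB : ∫ x, volhChi h x ≤ C₃ := by
    have hBm : MeasurableSet B := hBc.measurableSet
    have i6 : Integrable (B.indicator fun _ : _root_.Vale.Agent.P219.TP.E n => (1 : ℝ)) := by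
      rw [integrable_indicator_iff hBm]
      exact integrableOn_const hBc.measure_lt_top.ne
    have e3 : ∫ x, (B.indicator fun _ : _root_.Vale.Agent.P219.TP.E n => (1 : ℝ)) x = C₃ := by
      rw [integral_indicator hBm, hC₃]
      simp
    rw [← e3]
    refine integral_mono i4 i6 fun x => ?_
    by_cases hx : h x = 0
    · simp only [volhChi_zero hx]
      exact indicator_nonneg (fun _ _ => zero_le_one) x
    · have hxB : x ∈ B := hcls.supp x hx
      simp only [indicator_of_mem hxB]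
      exact hhq1 x
  set S : Set (_root_.Vale.Agent.P219.TP.E n) := {x | 0 < h x ∧ h x < 1} with hS
  have hSm : MeasurableSet S :=
    ((isOpen_lt continuous_const hcont).inter (isOpen_lt hcont continuous_const)).measurableSet
  have hSB : S ⊆ B := fun x hx => hcls.supp x hx.1.ne'
  have i7 : Integrable (S.indicator fun x => C₂ * G.w x) := by
    rw [integrable_indicator_iff hSm]
    exact ((continuous_const.mul hwc).continuousOn.integrableOn_compact hBc).mono_set hSB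
  have e4 : ∫ x, (S.indicator fun x => C₂ * G.w x) x = C₂ * G.vol.real S := by
    have : (S.indicator fun x => C₂ * G.w x) = fun x => G.w x * S.indicator (fun _ => C₂) x := by
      funext x
      by_cases hx : x ∈ S
      · simp only [indicator_of_mem hx]; ring
      · simp only [indicator_of_notMem hx]; ring
    rw [this, ← ibp_integral_vol, integral_indicator hSm]
    simp [mul_comm]
  have hdiff : (∫ x, volhChi h x * stDv G θ p x) - (∫ x, h x * stDv G θ p x) ≤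
      C₂ * G.vol.real S := by
    rw [← integral_sub i3 i5, ← e4]
    refine integral_mono (i3.sub i5) i7 fun x => ?_
    simp only
    by_cases hx : x ∈ S
    · rw [indicator_of_mem hx]
      have hb := hbd x (hSB hx)
      have h1 : volhChi h x * stDv G θ p x - h x * stDv G θ p x ≤
          |volhChi h x - h x| * |stDv G θ p x| := by
        rw [← abs_mul, ← sub_mul]
        exact le_abs_self _
      have h2 : |volhChi h x - h x| ≤ 1 := by
        rw [abs_le]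
        constructor
        · linarith [hhq0 x, hcls.le_one x]
        · linarith [hhq1 x, hcls.nonneg x]
      calc _ ≤ |volhChi h x - h x| * |stDv G θ p x| := h1
        _ ≤ 1 * |stDv G θ p x| := mul_le_mul_of_nonneg_right h2 (abs_nonneg _)
        _ ≤ C₂ * G.w x := by rw [one_mul]; exact hb
    · rw [indicator_of_notMem hx]
      have hx' : h x = 0 ∨ h x = 1 := by
        by_contra hcon
        push Not at hcon
        exact hx ⟨lt_of_le_of_ne (hcls.nonneg x) (Ne.symm hcon.1),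
          lt_of_le_of_ne (hcls.le_one x) hcon.2⟩
      rcases hx' with hx' | hx'
      · rw [volhChi_zero hx', hx']; simp
      · rw [volhChi_one hx', hx']; simp
  have hibp := st_ibp G hθ p hcls.smooth hc
  have hV : 0 ≤ G.vol.real S := measureReal_nonneg
  have f1 : t * (∫ x, volhChi h x * stDv G θ p x) ≤
      t * (∫ x, θ (G.lg p x) * inner ℝ (G.lg x p) (G.D h x) ∂G.vol) +
        t * (C₂ * G.vol.real S) := by
    rw [← hibp, ← mul_add]
    exact mul_le_mul_of_nonneg_left (by linarith only [hdiff]) ht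
  have f2 : C₁ * t ^ 2 * (∫ x, volhChi h x) ≤ C₁ * t ^ 2 * C₃ :=
    mul_le_mul_of_nonneg_left hvolB (by (clear * - hC₁; positivity))
  have f3 : 0 ≤ C₁ * C₃ * t * G.vol.real S := by (clear * - hC₁ ht; positivity)
  have f4 : 0 ≤ C₂ * t ^ 2 := by (clear * - hC₂; positivity)
  linarith only [f4, f3, f2, f1, hlow]

/-- Volume of `{h = 1}` under the contraction of rate `u` towards `p`. -/
theorem fv_vol (o : _root_.Vale.Agent.P219.TP.E n) (ρ : ℝ) {p : _root_.Vale.Agent.P219.TP.E n} (hp : ‖G.lg o p‖ ≤ ρ) {u : _root_.Vale.Agent.P219.TP.E n → ℝ}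
    (hu : ContDiff ℝ ∞ u) :
    ∃ C t₀ : ℝ, 0 ≤ C ∧ 0 < t₀ ∧ ∀ (t : ℝ) (h : _root_.Vale.Agent.P219.TP.E n → ℝ), 0 ≤ t → t ≤ t₀ → G.Cls o ρ h →
      ∀ θ : _root_.Vale.Agent.P219.TP.E n → ℝ, (∀ v, ‖v‖ < 2 * ρ + 1 → θ v = u (G.ex p v)) → ∀ Ψ : _root_.Vale.Agent.P219.TP.E n ≃ₜ _root_.Vale.Agent.P219.TP.E n,
      (∀ x, Ψ x = G.rad θ p t x) → ContDiff ℝ ∞ Ψ → ContDiff ℝ ∞ Ψ.symm →
      V1 G h - t * (∫ x, u x * inner ℝ (G.lg x p) (G.D h x) ∂G.vol) -
          C * t * G.vol.real {x | 0 < h x ∧ h x < 1} - C * t ^ 2 ≤ V1 G (h ∘ Ψ.symm) := by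
  have hex : ContDiff ℝ ∞ (G.ex p) := G.ex_smooth.comp (contDiff_const.prodMk contDiff_id)
  have hθ0 : ContDiff ℝ ∞ fun v => u (G.ex p v) := hu.comp hex
  obtain ⟨C, t₀, hC, ht₀, h1⟩ := st_vol G hθ0 o ρ p
  refine ⟨C, t₀, hC, ht₀, fun t h ht ht' hcls θ hθ Ψ hΨ hΨs hΨs' => ?_⟩
  have h2 := h1 t h ht ht' hcls Ψ (fun x hx => by
    have hpx := vpc_norm_lg_le G hp hx
    have ho : IsOpen {y | ‖G.lg p y‖ < 2 * ρ + 1} :=
      isOpen_lt (ibp_contDiff_lg_left G p).continuous.norm continuous_const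
    filter_upwards [ho.mem_nhds (show ‖G.lg p x‖ < 2 * ρ + 1 by linarith)] with y hy
    rw [hΨ y]
    unfold Geo.rad
    rw [hθ _ hy]) hΨs hΨs'
  simp only [G.ex_lg] at h2
  exact h2

end Vale.Agent.P219.End
end

section

/-! # The conformal barycentre

For a finite measure `V` (on the unit tangent bundle) over a closed geodesic ball, with small masses
of small balls, and every continuous `f > 0` there is a frame `(c, ε)` with `∫ θ_i f dV = 0`.
-/

open MeasureTheory Set Metric Filter Topology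
open scoped ENNReal ContDiff

namespace Vale.Agent.P219.End

open Vale.Agent.P219.TP Vale.Agent.P219.TPH

variable {n : ℕ}

/-! ### Parametric integrals over a compact support -/

section Param

variable {V : Measure (E n × E n)} [IsFiniteMeasure V] {K : Set (E n)}

/-- `C` bounds a continuous function on a compact set -/
theorem bary_bound {P : Type*} [TopologicalSpace P] {N : Set P} (hN : IsCompact N)
    (hK : IsCompact K) {φ : P × E n → ℝ} (hφ : Continuous φ) :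
    ∃ C : ℝ, ∀ p ∈ N, ∀ x ∈ K, |φ (p, x)| ≤ C := by
  obtain ⟨C, hC⟩ := (hN.prod hK).exists_bound_of_continuousOn hφ.continuousOn
  exact ⟨C, fun p hp x hx => hC (p, x) ⟨hp, hx⟩⟩

theorem bary_integrable (hK : IsCompact K) (hV : ∀ᵐ z ∂V, z.1 ∈ K) {f : E n → ℝ}
    (hf : Continuous f) : Integrable (fun z => f z.1) V := by
  obtain ⟨C, hC⟩ := hK.exists_bound_of_continuousOn hf.continuousOn
  refine Integrable.of_bound (hf.comp continuous_fst).aestronglyMeasurable C ?_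
  filter_upwards [hV] with z hz
  exact hC _ hz

/-- continuity of a parametric integral -/
theorem bary_continuous {P : Type*} [TopologicalSpace P] [FirstCountableTopology P]
    [LocallyCompactSpace P] (hK : IsCompact K) (hV : ∀ᵐ z ∂V, z.1 ∈ K) {φ : P × E n → ℝ}
    (hφ : Continuous φ) : Continuous fun p => ∫ z, φ (p, z.1) ∂V := by
  rw [continuous_iff_continuousAt]
  intro p₀
  obtain ⟨N, hN, hpN⟩ := exists_compact_mem_nhds p₀
  obtain ⟨C, hC⟩ := bary_bound hN hK hφ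
  refine continuousAt_of_dominated (bound := fun _ => C) ?_ ?_ (integrable_const C) ?_
  · exact Eventually.of_forall fun p =>
      (hφ.comp (continuous_const.prodMk continuous_fst)).aestronglyMeasurable
  · filter_upwards [hpN] with p hp
    filter_upwards [hV] with z hz
    exact hC p hp z.1 hz
  · exact Eventually.of_forall fun z =>
      (hφ.comp (continuous_id.prodMk continuous_const)).continuousAt

/-- derivative of a parametric integral -/
theorem bary_deriv (hK : IsCompact K) (hV : ∀ᵐ z ∂V, z.1 ∈ K) {φ : ℝ × E n → ℝ}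
    (hφ : ContDiff ℝ 1 φ) {f : E n → ℝ} (hf : Continuous f) (t₀ : ℝ) :
    HasDerivAt (fun t => ∫ z, φ (t, z.1) * f z.1 ∂V)
      (∫ z, fderiv ℝ φ (t₀, z.1) (1, 0) * f z.1 ∂V) t₀ := by
  have hφ' : Continuous fun p : ℝ × E n => fderiv ℝ φ p (1, 0) * f p.2 :=
    ((hφ.continuous_fderiv one_ne_zero).clm_apply continuous_const).mul (hf.comp continuous_snd)
  obtain ⟨C, hC⟩ := bary_bound (isCompact_closedBall t₀ 1) hK hφ'
  have hd : ∀ (t : ℝ) (x : E n), HasDerivAt (fun t => φ (t, x) * f x)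
      (fderiv ℝ φ (t, x) (1, 0) * f x) t := by
    intro t x
    have h1 : HasFDerivAt φ (fderiv ℝ φ (t, x)) (t, x) :=
      (hφ.differentiable one_ne_zero (t, x)).hasFDerivAt
    have h2 : HasDerivAt (fun t : ℝ => (t, x)) ((1 : ℝ), (0 : E n)) t :=
      (hasDerivAt_id t).prodMk (hasDerivAt_const t x)
    exact (h1.comp_hasDerivAt t h2).mul_const (f x)
  have hcont : ∀ t : ℝ, Continuous fun z : E n × E n => φ (t, z.1) * f z.1 := fun t =>
    (hφ.continuous.comp (continuous_const.prodMk continuous_fst)).mul (hf.comp continuous_fst)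
  have hint : Integrable (fun z => φ (t₀, z.1) * f z.1) V :=
    bary_integrable (f := fun x => φ (t₀, x) * f x) hK hV
      ((hφ.continuous.comp (continuous_const.prodMk continuous_id)).mul hf)
  refine (hasDerivAt_integral_of_dominated_loc_of_deriv_le (bound := fun _ => C)
    (F := fun (t : ℝ) (z : E n × E n) => φ (t, z.1) * f z.1)
    (F' := fun (t : ℝ) (z : E n × E n) => fderiv ℝ φ (t, z.1) (1, 0) * f z.1)
    (closedBall_mem_nhds t₀ one_pos)
    (Eventually.of_forall fun t => (hcont t).aestronglyMeasurable) hint ?_ ?_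
    (integrable_const C) ?_).2
  · exact (hφ'.comp (continuous_const.prodMk continuous_fst)).aestronglyMeasurable
  · filter_upwards [hV] with z hz t ht
    exact hC t ht z.1 hz
  · exact Eventually.of_forall fun z t _ => hd t z.1

end Param

/-! ### The functional -/

/-- `log ((F + ε) / q)` with `ε = 2 σ² / (1 + k² σ²)`, `σ = e^l` -/
noncomputable def lgB (G : Geo n) (k : ℝ) (c : E n) (l : ℝ) (x : E n) : ℝ :=
  Real.log ((Real.exp (-l) + k ^ 2 * Real.exp l) / 2 * FG G k c x + Real.exp l)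

/-- `ε` as a function of `l` -/
noncomputable def epsB (k l : ℝ) : ℝ := 2 * Real.exp l / (Real.exp (-l) + k ^ 2 * Real.exp l)

section
variable (G : Geo n) (k : ℝ)

theorem cB_pos (l : ℝ) : 0 < (Real.exp (-l) + k ^ 2 * Real.exp l) / 2 := by
  have h1 := Real.exp_pos (-l)
  have h2 := Real.exp_pos l
  positivity

theorem lgB_arg_pos (c : E n) (l : ℝ) (x : E n) :
    0 < (Real.exp (-l) + k ^ 2 * Real.exp l) / 2 * FG G k c x + Real.exp l := by
  have h1 := cB_pos k l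
  have h2 := Real.exp_pos l
  have h3 := FG_nonneg G k c x
  positivity

theorem epsB_pos (l : ℝ) : 0 < epsB k l := by
  have h1 := Real.exp_pos (-l)
  have h2 := Real.exp_pos l
  unfold epsB
  positivity

theorem epsB_lt (l : ℝ) : k ^ 2 * epsB k l < 2 := by
  have h1 := Real.exp_pos (-l)
  have h2 := Real.exp_pos l
  unfold epsB
  rw [← mul_div_assoc, div_lt_iff₀ (by positivity)]
  linarith only [h1]

theorem lgB_smooth : ContDiff ℝ ∞ fun p : (E n × ℝ) × E n => lgB G k p.1.1 p.1.2 p.2 := by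
  unfold lgB
  refine ContDiff.log ?_ fun p => (lgB_arg_pos G k p.1.1 p.1.2 p.2).ne'
  have h0 : ContDiff ℝ ∞ fun p : (E n × ℝ) × E n => (p.1.1, p.2) :=
    ContDiff.prodMk (contDiff_fst.comp contDiff_fst) contDiff_snd
  have h1 : ContDiff ℝ ∞ fun p : (E n × ℝ) × E n => FG G k p.1.1 p.2 :=
    ContDiff.comp (g := fun z : E n × E n => FG G k z.1 z.2)
      (f := fun p : (E n × ℝ) × E n => (p.1.1, p.2)) (FG_smooth G k) h0
  have h2 : ContDiff ℝ ∞ fun p : (E n × ℝ) × E n => p.1.2 := contDiff_snd.comp contDiff_fst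
  exact (((h2.neg.exp.add (contDiff_const.mul h2.exp)).div_const 2).mul h1).add h2.exp

/-- lower bound for large `l` -/
theorem le_lgB (c : E n) (l : ℝ) (x : E n) : l ≤ lgB G k c l x := by
  unfold lgB
  have h1 := cB_pos k l
  have h2 := Real.exp_pos l
  have h3 := FG_nonneg G k c x
  calc l = Real.log (Real.exp l) := (Real.log_exp l).symm
    _ ≤ _ := Real.log_le_log h2 (by linarith only [mul_nonneg h1.le h3])

/-- lower bound for large `r` -/
theorem log_le_lgB (hk : 0 ≤ k) {c : E n} (l : ℝ) {x : E n} {d : ℝ} (hd : 0 < d)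
    (h : d ≤ ‖G.lg c x‖) : Real.log d ≤ lgB G k c l x := by
  unfold lgB
  refine Real.log_le_log hd ?_
  have h1 := cB_pos k l
  have h2 := Real.exp_pos l
  have h3 := FG_nonneg G k c x
  have h4 : d ≤ _root_.Vale.Agent.P219.TPH.sn k ‖G.lg c x‖ := h.trans (le_sn hk (norm_nonneg _))
  have h5 := sn_sq_eq_FG G k c x
  obtain ⟨F, hF⟩ : ∃ F, F = FG G k c x := ⟨_, rfl⟩
  obtain ⟨e, he⟩ : ∃ e, e = Real.exp l := ⟨_, rfl⟩
  have he2 : Real.exp (-l) = e⁻¹ := by rw [he, Real.exp_neg]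
  rw [← hF] at h3 h5 ⊢
  rw [he2, ← he] at h1 ⊢
  rw [← he] at h2
  refine h4.trans (abs_le_of_sq_le_sq' ?_ (by (clear * - h2 h3; positivity))).2
  rw [h5]
  have h6 : (((e⁻¹ + k ^ 2 * e) / 2) * F + e) ^ 2 - (2 * F + k ^ 2 * F ^ 2) =
      (e - (e⁻¹ - k ^ 2 * e) / 2 * F) ^ 2 := by
    field_simp
    ring
  linarith only [sq_nonneg (e - (e⁻¹ - k ^ 2 * e) / 2 * F), h6]

/-- lower bound for small `l` away from the centre -/
theorem lgB_ge_far {c : E n} (l : ℝ) {x : E n} {F₁ : ℝ} (hF₁ : 0 < F₁)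
    (h : F₁ ≤ FG G k c x) : Real.log (F₁ / 2) - l ≤ lgB G k c l x := by
  unfold lgB
  have h0 : Real.log (F₁ / 2) - l = Real.log (Real.exp (-l) / 2 * F₁) := by
    have h1 := Real.exp_pos (-l)
    have e : Real.exp (-l) / 2 * F₁ = F₁ / 2 * Real.exp (-l) := by ring
    rw [e, Real.log_mul (by positivity) (by positivity), Real.log_exp]
    ring
  rw [h0]
  have h1 := Real.exp_pos (-l)
  have h2 := Real.exp_pos l
  refine Real.log_le_log (by positivity) ?_
  have h3 : Real.exp (-l) / 2 * F₁ ≤ Real.exp (-l) / 2 * FG G k c x :=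
    mul_le_mul_of_nonneg_left h (by positivity)
  have h4 : 0 ≤ k ^ 2 * Real.exp l / 2 * FG G k c x :=
    mul_nonneg (by positivity) (FG_nonneg G k c x)
  linarith only [h4, h3, h2]

theorem FG_ge (hk : 0 ≤ k) {c x : E n} {r : ℝ} (hr : 0 ≤ r) (h : r ≤ ‖G.lg c x‖) :
    ff k (r ^ 2) ≤ FG G k c x := by
  unfold FG
  rw [ff_sq, ff_sq]
  have h1 : _root_.Vale.Agent.P219.TPH.sn k (r / 2) ≤ _root_.Vale.Agent.P219.TPH.sn k (‖G.lg c x‖ / 2) :=
    (_root_.Vale.Agent.P219.TPH.sn_strictMono hk).monotone (by linarith)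
  have h2 : 0 ≤ _root_.Vale.Agent.P219.TPH.sn k (r / 2) := by
    have := (_root_.Vale.Agent.P219.TPH.sn_strictMono hk).monotone (show 0 ≤ r / 2 by linarith)
    rwa [_root_.Vale.Agent.P219.TPH.sn_zero] at this
  have := pow_le_pow_left₀ h2 h1 2
  linarith only [this]

/-- triangle inequality -/
theorem lg_tri (x y z : E n) : ‖G.lg x z‖ ≤ ‖G.lg x y‖ + ‖G.lg y z‖ := by
  have h := G.lg_nonexp x z y
  rw [G.norm_lg_comm z y] at h
  calc ‖G.lg x z‖ = ‖(G.lg x z - G.lg x y) + G.lg x y‖ := by rw [sub_add_cancel]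
    _ ≤ ‖G.lg x z - G.lg x y‖ + ‖G.lg x y‖ := norm_add_le _ _
    _ ≤ _ := by linarith

theorem lg_cont (c : E n) : Continuous (G.lg c) := (G.lg_smooth_right c).continuous

end

section Min

variable (G : Geo n) {k : ℝ} {V : Measure (E n × E n)} [IsFiniteMeasure V] {o : E n} {ρ : ℝ}

/-- small masses of small balls, all centres -/
theorem bary_atom (hV : ∀ᵐ z ∂V, ‖G.lg o z.1‖ ≤ ρ)
    (hat : ∀ η > 0, ∃ r > 0, ∀ x, ‖G.lg o x‖ ≤ ρ → V.real {z | ‖G.lg x z.1‖ < r} ≤ η) :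
    ∀ η > 0, ∃ r > 0, ∀ c : E n, V.real {z | ‖G.lg c z.1‖ < r} ≤ η := by
  intro η hη
  obtain ⟨r, hr, h⟩ := hat η hη
  refine ⟨r / 2, half_pos hr, fun c => ?_⟩
  by_cases hx : ∃ x, ‖G.lg o x‖ ≤ ρ ∧ ‖G.lg c x‖ < r / 2
  · obtain ⟨x, hx1, hx2⟩ := hx
    refine le_trans (measureReal_mono ?_) (h x hx1)
    intro z hz
    simp only [Set.mem_ofPred_eq] at hz ⊢
    have h1 := lg_tri G x c z.1
    rw [G.norm_lg_comm x c] at h1
    linarith
  · have h0 : V.real {z | ‖G.lg c z.1‖ < r / 2} = 0 := by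
      rw [measureReal_eq_zero_iff]
      refine measure_mono_null ?_ (ae_iff.1 hV)
      intro z hz hz2
      exact hx ⟨z.1, hz2, hz⟩
    rw [h0]
    exact hη.le

theorem bary_min (hk : 0 ≤ k) (hV : ∀ᵐ z ∂V, ‖G.lg o z.1‖ ≤ ρ)
    (hat : ∀ η > 0, ∃ r > 0, ∀ x, ‖G.lg o x‖ ≤ ρ → V.real {z | ‖G.lg x z.1‖ < r} ≤ η)
    (hne : V ≠ 0) {f : E n → ℝ} (hf : Continuous f) (hf0 : ∀ x, 0 < f x) :
    ∃ (c : E n) (l : ℝ), ∀ (c' : E n) (l' : ℝ),
      ∫ z, lgB G k c l z.1 * f z.1 ∂V ≤ ∫ z, lgB G k c' l' z.1 * f z.1 ∂V := by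
  have hK : IsCompact {x | ‖G.lg o x‖ ≤ ρ} := G.isCompact_gball o ρ
  have hV' : ∀ᵐ z ∂V, z.1 ∈ {x | ‖G.lg o x‖ ≤ ρ} := hV
  -- the functional
  obtain ⟨L, hL⟩ : ∃ L : E n × ℝ → ℝ, L = fun p => ∫ z, lgB G k p.1 p.2 z.1 * f z.1 ∂V := ⟨_, rfl⟩
  have hLc : Continuous L := by
    rw [hL]
    exact bary_continuous (φ := fun p : (E n × ℝ) × E n => lgB G k p.1.1 p.1.2 p.2 * f p.2) hK hV'
      ((lgB_smooth G k).continuous.mul (hf.comp continuous_snd))
  have hgi : ∀ (c : E n) (l : ℝ), Integrable (fun z => lgB G k c l z.1 * f z.1) V := by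
    intro c l
    refine bary_integrable (f := fun x => lgB G k c l x * f x) hK hV' (Continuous.mul ?_ hf)
    have h1 : Continuous fun x : E n => (((c, l) : E n × ℝ), x) :=
      continuous_const.prodMk continuous_id
    exact (lgB_smooth G k).continuous.comp h1
  have hfi : Integrable (fun z => f z.1) V := bary_integrable hK hV' hf
  obtain ⟨M, hM⟩ : ∃ M, M = ∫ z, f z.1 ∂V := ⟨_, rfl⟩
  have hMpos : 0 < M := by
    rw [hM, integral_pos_iff_support_of_nonneg (fun z : E n × E n => (hf0 z.1).le) hfi]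
    have h1 : Function.support (fun z : E n × E n => f z.1) = univ := by
      ext z
      simp [(hf0 z.1).ne']
    rw [h1]
    exact (Measure.measure_univ_pos).2 hne
  -- bound of f
  obtain ⟨Cf, hCf⟩ := hK.exists_bound_of_continuousOn hf.continuousOn
  have hCf' : ∀ᵐ z ∂V, f z.1 ≤ |Cf| + 1 := by
    filter_upwards [hV'] with z hz
    have := hCf z.1 hz
    rw [Real.norm_eq_abs] at this
    linarith [le_abs_self (f z.1), le_abs_self Cf]
  obtain ⟨r₁, hr₁, hatr⟩ := bary_atom G hV hat (M / (4 * (|Cf| + 1))) (by (clear * - hMpos; positivity))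
  have hβ : ∀ c : E n, ∫ z in {z | ‖G.lg c z.1‖ < r₁}, f z.1 ∂V ≤ M / 4 := by
    intro c
    calc ∫ z in {z | ‖G.lg c z.1‖ < r₁}, f z.1 ∂V ≤ ∫ _ in {z | ‖G.lg c z.1‖ < r₁}, (|Cf| + 1) ∂V :=
          integral_mono_ae hfi.integrableOn (integrable_const _) (ae_restrict_of_ae hCf')
      _ = V.real {z | ‖G.lg c z.1‖ < r₁} * (|Cf| + 1) := by
          rw [setIntegral_const, smul_eq_mul]
      _ ≤ M / (4 * (|Cf| + 1)) * (|Cf| + 1) :=
          mul_le_mul_of_nonneg_right (hatr c) (by (clear * -; positivity))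
      _ = M / 4 := by field_simp
  have hff : 0 < ff k (r₁ ^ 2) := by
    rw [ff_sq]
    have := _root_.Vale.Agent.P219.TPH.sn_pos hk (half_pos hr₁)
    positivity
  obtain ⟨a, ha⟩ : ∃ a, a = Real.log (ff k (r₁ ^ 2) / 2) := ⟨_, rfl⟩
  -- the three bounds
  have hB1 : ∀ (c : E n) (l : ℝ), M * l ≤ L (c, l) := by
    intro c l
    rw [hL, hM, mul_comm, ← integral_const_mul]
    exact integral_mono (hfi.const_mul l) (hgi c l)
      fun z => mul_le_mul_of_nonneg_right (le_lgB G k c l z.1) (hf0 z.1).le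
  have hB2 : ∀ (c : E n) (l d : ℝ), 0 < d → d + ρ ≤ ‖G.lg o c‖ → M * Real.log d ≤ L (c, l) := by
    intro c l d hd hc
    rw [hL, hM, mul_comm, ← integral_const_mul]
    refine integral_mono_ae (hfi.const_mul _) (hgi c l) ?_
    filter_upwards [hV] with z hz
    refine mul_le_mul_of_nonneg_right (log_le_lgB G k hk l hd ?_) (hf0 z.1).le
    have h1 := lg_tri G o z.1 c
    rw [G.norm_lg_comm z.1 c] at h1
    linarith
  have hB3 : ∀ (c : E n) (l : ℝ), 2 * l ≤ a → M * (3 * a / 4 - l / 2) ≤ L (c, l) := by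
    intro c l hl
    have hBm : MeasurableSet {z : E n × E n | ‖G.lg c z.1‖ < r₁} :=
      (isOpen_lt ((lg_cont G c).comp continuous_fst).norm continuous_const).measurableSet
    have h1 : (a - l) * M + (2 * l - a) * ∫ z in {z | ‖G.lg c z.1‖ < r₁}, f z.1 ∂V ≤ L (c, l) := by
      rw [hM, hL, ← integral_indicator hBm, ← integral_const_mul, ← integral_const_mul,
        ← integral_add (hfi.const_mul _) ((hfi.indicator hBm).const_mul _)]
      refine integral_mono ((hfi.const_mul _).add ((hfi.indicator hBm).const_mul _)) (hgi c l) ?_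
      intro z
      by_cases hz : z ∈ {z : E n × E n | ‖G.lg c z.1‖ < r₁}
      · simp only [indicator_of_mem hz]
        have h2 := mul_le_mul_of_nonneg_right (le_lgB G k c l z.1) (hf0 z.1).le
        linarith
      · simp only [indicator_of_notMem hz, mul_zero, add_zero]
        have h3 : r₁ ≤ ‖G.lg c z.1‖ := not_lt.1 hz
        have h4 := lgB_ge_far G k l hff (FG_ge G k hk hr₁.le h3)
        rw [← ha] at h4
        exact mul_le_mul_of_nonneg_right h4 (hf0 z.1).le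
    have h2 : (2 * l - a) * (M / 4) ≤
        (2 * l - a) * ∫ z in {z | ‖G.lg c z.1‖ < r₁}, f z.1 ∂V :=
      mul_le_mul_of_nonpos_left (hβ c) (by linarith)
    linarith
  -- compact set
  obtain ⟨B, hB⟩ : ∃ B, B = L (o, 0) := ⟨_, rfl⟩
  obtain ⟨l₁, hl₁⟩ : ∃ l₁ : ℝ, 0 ≤ l₁ ∧ B ≤ M * l₁ := by
    refine ⟨max 0 (B / M), le_max_left _ _, ?_⟩
    calc B = M * (B / M) := by field_simp
      _ ≤ _ := mul_le_mul_of_nonneg_left (le_max_right _ _) hMpos.le
  obtain ⟨d, hd, hdB⟩ : ∃ d : ℝ, 0 < d ∧ B ≤ M * Real.log d := by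
    refine ⟨Real.exp (B / M), Real.exp_pos _, ?_⟩
    rw [Real.log_exp]
    exact le_of_eq (by field_simp)
  obtain ⟨l₀, hl₀, hl₀a, hl₀B⟩ : ∃ l₀ : ℝ, l₀ ≤ 0 ∧ 2 * l₀ ≤ a ∧
      ∀ l ≤ l₀, B ≤ M * (3 * a / 4 - l / 2) := by
    refine ⟨min 0 (min (a / 2) (2 * (3 * a / 4 - B / M))), min_le_left _ _, ?_, ?_⟩
    · have := (min_le_right 0 (min (a / 2) (2 * (3 * a / 4 - B / M)))).trans (min_le_left _ _)
      linarith only [this]
    · intro l hl
      have h1 := hl.trans ((min_le_right 0 (min (a / 2) (2 * (3 * a / 4 - B / M)))).trans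
        (min_le_right _ _))
      calc B = M * (B / M) := by field_simp
        _ ≤ _ := mul_le_mul_of_nonneg_left (by linarith only [h1]) hMpos.le
  have hQ : IsCompact ({x | ‖G.lg o x‖ ≤ |ρ| + d} ×ˢ Icc l₀ l₁ : Set (E n × ℝ)) :=
    (G.isCompact_gball o (|ρ| + d)).prod isCompact_Icc
  have hmem : ((o, 0) : E n × ℝ) ∈ ({x | ‖G.lg o x‖ ≤ |ρ| + d} ×ˢ Icc l₀ l₁ : Set (E n × ℝ)) := by
    refine ⟨?_, hl₀, hl₁.1⟩
    simp only [Set.mem_ofPred_eq, G.lg_self, norm_zero]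
    (clear * - hd; positivity)
  obtain ⟨p, hp, hmin⟩ := hQ.exists_isMinOn ⟨_, hmem⟩ hLc.continuousOn
  refine ⟨p.1, p.2, fun c' l' => ?_⟩
  have hpB : L p ≤ B := by rw [hB]; exact hmin hmem
  have goal : L p ≤ L (c', l') := by
    by_cases h : ((c', l') : E n × ℝ) ∈ ({x | ‖G.lg o x‖ ≤ |ρ| + d} ×ˢ Icc l₀ l₁ : Set (E n × ℝ))
    · exact hmin h
    · refine hpB.trans ?_
      by_cases h1 : ‖G.lg o c'‖ ≤ |ρ| + d
      · by_cases h2 : l₀ ≤ l'
        · have h3 : l₁ < l' := by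
            by_contra h4
            exact h ⟨h1, h2, not_lt.1 h4⟩
          exact hl₁.2.trans ((mul_le_mul_of_nonneg_left h3.le hMpos.le).trans (hB1 c' l'))
        · have h3 := (not_le.1 h2).le
          exact (hl₀B l' h3).trans (hB3 c' l' (by linarith only [h2, hl₀a]))
      · refine hdB.trans (hB2 c' l' d hd ?_)
        have := not_le.1 h1
        linarith [le_abs_self ρ]
  rw [hL] at goal
  exact goal

end Min

end Vale.Agent.P219.End
end

section

/-! # The conformal barycentre: critical equations and the field `bary` of `Lim` -/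

open MeasureTheory Set Metric Filter Topology
open scoped ENNReal ContDiff

namespace Vale.Agent.P219.End

open Vale.Agent.P219.TP Vale.Agent.P219.TPH

variable {n : ℕ} (G : Geo n) {k : ℝ}

theorem FG_add_eps (c : E n) (l : ℝ) (x : E n) :
    (Real.exp (-l) + k ^ 2 * Real.exp l) / 2 * FG G k c x + Real.exp l =
      (Real.exp (-l) + k ^ 2 * Real.exp l) / 2 * (FG G k c x + epsB k l) := by
  have h1 := cB_pos k l
  have h2 : (Real.exp (-l) + k ^ 2 * Real.exp l) / 2 * epsB k l = Real.exp l := by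
    have h3 : 0 < Real.exp (-l) + k ^ 2 * Real.exp l := by linarith only [h1]
    unfold epsB
    field_simp
  rw [mul_add, h2]

theorem hasDerivAt_lgB_l (c : E n) (l : ℝ) (x : E n) :
    HasDerivAt (fun l => lgB G k c l x) (th0 G k c (epsB k l) x) l := by
  have hneg : HasDerivAt (fun l : ℝ => Real.exp (-l)) (-Real.exp (-l)) l := by
    simpa using (hasDerivAt_neg l).exp
  have h1 : HasDerivAt (fun l : ℝ => (Real.exp (-l) + k ^ 2 * Real.exp l) / 2 * FG G k c x +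
      Real.exp l) ((-Real.exp (-l) + k ^ 2 * Real.exp l) / 2 * FG G k c x + Real.exp l) l :=
    (((hneg.add ((Real.hasDerivAt_exp l).const_mul (k ^ 2))).div_const 2).mul_const _).add
      (Real.hasDerivAt_exp l)
  have h2 := h1.log (lgB_arg_pos G k c l x).ne'
  refine h2.congr_deriv ?_
  have h3 := epsB_pos k l
  have h4 := FG_nonneg G k c x
  have h5 := Real.exp_pos l
  have h6 := Real.exp_pos (-l)
  have h7 : Real.exp (-l) = (Real.exp l)⁻¹ := Real.exp_neg l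
  have h8 := lgB_arg_pos G k c l x
  unfold th0 epsB
  obtain ⟨F, hF⟩ : ∃ F, F = FG G k c x := ⟨_, rfl⟩
  obtain ⟨e, he⟩ : ∃ e, e = Real.exp l := ⟨_, rfl⟩
  rw [h7] at h8 ⊢
  rw [← hF] at h4 h8 ⊢
  rw [← he] at h5 h8 ⊢
  have h9 : 0 < e⁻¹ + k ^ 2 * e := by (clear * - h5; positivity)
  have h10 : 0 < F + 2 * e / (e⁻¹ + k ^ 2 * e) := by (clear * - h4 h5; positivity)
  rw [div_eq_div_iff h8.ne' h10.ne']
  field_simp
  ring

theorem hasDerivAt_lgB_c (c v : E n) (l : ℝ) (x : E n) :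
    HasDerivAt (fun t : ℝ => lgB G k (G.ex c (t • v)) l x)
      (-(chi k (‖G.lg c x‖ ^ 2) * inner ℝ (G.lg c x) v / (FG G k c x + epsB k l))) 0 := by
  have h0 : HasDerivAt (fun t : ℝ => G.ex c (t • v)) (G.A c v) 0 := by
    have h := G.ex_deriv 0 c v
    rwa [zero_smul, G.ex_zero, G.V_zero] at h
  have h1 : HasDerivAt (fun t : ℝ => FG G k (G.ex c (t • v)) x)
      (-(chi k (‖G.lg c x‖ ^ 2) * inner ℝ (G.lg c x) v)) 0 := by
    have e1 : (fun t : ℝ => FG G k (G.ex c (t • v)) x) =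
        fun t : ℝ => FG G k x (G.ex c (t • v)) := by
      funext t
      exact FG_comm G k _ _
    have h2 : HasFDerivAt (FG G k x) (fderiv ℝ (FG G k x) c) (G.ex c ((0 : ℝ) • v)) := by
      rw [zero_smul, G.ex_zero]
      exact ((FG_smooth_right G k x).differentiable (by simp) c).hasFDerivAt
    rw [e1]
    refine (h2.comp_hasDerivAt (0 : ℝ) h0).congr_deriv ?_
    rw [fderiv_FG, G.norm_lg_comm x c]
  have ha := cB_pos k l
  have h3 := (h1.const_mul ((Real.exp (-l) + k ^ 2 * Real.exp l) / 2)).add_const (Real.exp l)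
  have h4 := h3.log (lgB_arg_pos G k _ l x).ne'
  refine h4.congr_deriv ?_
  simp only [zero_smul, G.ex_zero]
  rw [FG_add_eps G c l x]
  have h5 := epsB_pos k l
  have h6 := FG_nonneg G k c x
  have h7 : 0 < FG G k c x + epsB k l := by linarith
  rw [mul_div_mul_left _ _ ha.ne', neg_div]

section Crit

variable {V : Measure (E n × E n)} [IsFiniteMeasure V] {o : E n} {ρ : ℝ}

theorem bary_crit_l (hV : ∀ᵐ z ∂V, ‖G.lg o z.1‖ ≤ ρ) {f : E n → ℝ} (hf : Continuous f)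
    {c : E n} {l : ℝ} (hmin : ∀ (c' : E n) (l' : ℝ),
      ∫ z, lgB G k c l z.1 * f z.1 ∂V ≤ ∫ z, lgB G k c' l' z.1 * f z.1 ∂V) :
    ∫ z, th0 G k c (epsB k l) z.1 * f z.1 ∂V = 0 := by
  have hK : IsCompact {x | ‖G.lg o x‖ ≤ ρ} := G.isCompact_gball o ρ
  have hφ : ContDiff ℝ 1 fun p : ℝ × E n => lgB G k c p.1 p.2 := by
    have h1 : ContDiff ℝ ∞ fun p : ℝ × E n => (((c, p.1) : E n × ℝ), p.2) :=
      (contDiff_const.prodMk contDiff_fst).prodMk contDiff_snd
    exact ((lgB_smooth G k).comp h1).of_le (by simp)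
  have h1 := bary_deriv (V := V) hK hV hφ hf l
  have h2 : ∀ x, fderiv ℝ (fun p : ℝ × E n => lgB G k c p.1 p.2) (l, x) (1, 0) =
      th0 G k c (epsB k l) x := by
    intro x
    have h3 : HasFDerivAt (fun p : ℝ × E n => lgB G k c p.1 p.2)
        (fderiv ℝ (fun p : ℝ × E n => lgB G k c p.1 p.2) (l, x)) (l, x) :=
      (hφ.differentiable one_ne_zero (l, x)).hasFDerivAt
    have h4 : HasDerivAt (fun t : ℝ => (t, x)) ((1 : ℝ), (0 : E n)) l :=
      (hasDerivAt_id l).prodMk (hasDerivAt_const l x)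
    have h5 := h3.comp_hasDerivAt l h4
    exact h5.unique (hasDerivAt_lgB_l G c l x)
  simp only [h2] at h1
  have h3 : IsLocalMin (fun t => ∫ z, lgB G k c t z.1 * f z.1 ∂V) l :=
    Eventually.of_forall fun t => hmin c t
  exact h3.hasDerivAt_eq_zero h1

theorem bary_crit_c (hV : ∀ᵐ z ∂V, ‖G.lg o z.1‖ ≤ ρ) {f : E n → ℝ} (hf : Continuous f)
    {c : E n} {l : ℝ} (hmin : ∀ (c' : E n) (l' : ℝ),
      ∫ z, lgB G k c l z.1 * f z.1 ∂V ≤ ∫ z, lgB G k c' l' z.1 * f z.1 ∂V) (v : E n) :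
    ∫ z, (chi k (‖G.lg c z.1‖ ^ 2) * inner ℝ (G.lg c z.1) v / (FG G k c z.1 + epsB k l)) *
      f z.1 ∂V = 0 := by
  have hK : IsCompact {x | ‖G.lg o x‖ ≤ ρ} := G.isCompact_gball o ρ
  have hφ : ContDiff ℝ 1 fun p : ℝ × E n => lgB G k (G.ex c (p.1 • v)) l p.2 := by
    have h0 : ContDiff ℝ ∞ fun p : ℝ × E n => G.ex c (p.1 • v) :=
      (G.ex_smooth_right c).comp (contDiff_fst.smul contDiff_const)
    have h1 : ContDiff ℝ ∞ fun p : ℝ × E n => (((G.ex c (p.1 • v), l) : E n × ℝ), p.2) :=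
      (h0.prodMk contDiff_const).prodMk contDiff_snd
    exact ((lgB_smooth G k).comp h1).of_le (by simp)
  have h1 := bary_deriv (V := V) hK hV hφ hf 0
  have h2 : ∀ x, fderiv ℝ (fun p : ℝ × E n => lgB G k (G.ex c (p.1 • v)) l p.2) (0, x) (1, 0) =
      -(chi k (‖G.lg c x‖ ^ 2) * inner ℝ (G.lg c x) v / (FG G k c x + epsB k l)) := by
    intro x
    have h3 : HasFDerivAt (fun p : ℝ × E n => lgB G k (G.ex c (p.1 • v)) l p.2)
        (fderiv ℝ (fun p : ℝ × E n => lgB G k (G.ex c (p.1 • v)) l p.2) (0, x)) (0, x) :=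
      (hφ.differentiable one_ne_zero (0, x)).hasFDerivAt
    have h4 : HasDerivAt (fun t : ℝ => (t, x)) ((1 : ℝ), (0 : E n)) 0 :=
      (hasDerivAt_id (0 : ℝ)).prodMk (hasDerivAt_const (0 : ℝ) x)
    have h5 := h3.comp_hasDerivAt (0 : ℝ) h4
    exact h5.unique (hasDerivAt_lgB_c G c v l x)
  simp only [h2] at h1
  have h3 : IsLocalMin (fun t : ℝ => ∫ z, lgB G k (G.ex c (t • v)) l z.1 * f z.1 ∂V) 0 := by
    refine Eventually.of_forall fun t => ?_
    simp only [zero_smul, G.ex_zero]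
    exact hmin _ l
  have h4 := h3.hasDerivAt_eq_zero h1
  rw [← neg_eq_zero, ← integral_neg]
  rw [← h4]
  congr 1
  funext z
  ring

/-- the centre is in the ball -/
theorem bary_mem (hk : 0 ≤ k) (hV : ∀ᵐ z ∂V, ‖G.lg o z.1‖ ≤ ρ) (hne : V ≠ 0) {f : E n → ℝ}
    (hf : Continuous f) (hf0 : ∀ x, 0 < f x) {c : E n} {l : ℝ} (h : ∀ v : E n,
      ∫ z, (chi k (‖G.lg c z.1‖ ^ 2) * inner ℝ (G.lg c z.1) v / (FG G k c z.1 + epsB k l)) *
      f z.1 ∂V = 0) : ‖G.lg o c‖ ≤ ρ := by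
  by_contra hc
  rw [not_le] at hc
  have hK : IsCompact {x | ‖G.lg o x‖ ≤ ρ} := G.isCompact_gball o ρ
  have h0 := h (G.lg c o)
  have hpos : ∀ z : E n × E n, ‖G.lg o z.1‖ ≤ ρ →
      0 < (chi k (‖G.lg c z.1‖ ^ 2) * inner ℝ (G.lg c z.1) (G.lg c o) /
        (FG G k c z.1 + epsB k l)) * f z.1 := by
    intro z hz
    have h1 : 0 < inner ℝ (G.lg c z.1) (G.lg c o) := by
      have h2 := G.lg_nonexp c z.1 o
      rw [G.norm_lg_comm z.1 o] at h2
      have h3 : ‖G.lg c z.1 - G.lg c o‖ ^ 2 ≤ ρ ^ 2 :=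
        pow_le_pow_left₀ (norm_nonneg _) (h2.trans hz) 2
      rw [norm_sub_sq_real, G.norm_lg_comm c o] at h3
      have h4 : 0 ≤ ρ := (norm_nonneg _).trans hz
      have h5 : ρ ^ 2 < ‖G.lg o c‖ ^ 2 := pow_lt_pow_left₀ hc h4 two_ne_zero
      linarith only [sq_nonneg ‖G.lg c z.1‖, h5, h3]
    have h2 := chi_pos (r := ‖G.lg c z.1‖) hk
    have h3 := epsB_pos k l
    have h4 := FG_nonneg G k c z.1
    have h5 := hf0 z.1
    (clear * - h2 h1 h4 h3 h5; positivity)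
  have hcont : Continuous fun x : E n => (chi k (‖G.lg c x‖ ^ 2) * inner ℝ (G.lg c x) (G.lg c o) /
        (FG G k c x + epsB k l)) * f x := by
    refine Continuous.mul (Continuous.div ?_ ?_ ?_) hf
    · exact ((chi_smooth k).continuous.comp ((lg_cont G c).norm.pow 2)).mul
        ((lg_cont G c).inner continuous_const)
    · exact (FG_smooth_right G k c).continuous.add continuous_const
    · intro x
      have h3 := epsB_pos k l
      have h4 := FG_nonneg G k c x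
      positivity
  have hint := bary_integrable (V := V) hK hV hcont
  have hnn : 0 ≤ᵐ[V] fun z : E n × E n => (chi k (‖G.lg c z.1‖ ^ 2) *
      inner ℝ (G.lg c z.1) (G.lg c o) / (FG G k c z.1 + epsB k l)) * f z.1 := by
    filter_upwards [hV] with z hz
    exact (hpos z hz).le
  have h1 := (integral_eq_zero_iff_of_nonneg_ae hnn hint).1 h0
  have h2 : ∀ᵐ _ ∂V, False := by
    filter_upwards [hV, h1] with z hz hz2
    have := hpos z hz
    simp only [Pi.zero_apply] at hz2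
    linarith only [this, hz2]
  rw [ae_iff] at h2
  simp only [not_false_eq_true] at h2
  apply hne
  rw [← Measure.measure_univ_eq_zero]
  convert h2 using 2
  ext z
  simp

end Crit

/-! ### Small masses of small balls, from the stationarity -/

section Atom

variable {V : Measure (E n × E n)} [IsFiniteMeasure V] {o : E n} {ρ : ℝ}

theorem cpt_integrable {K₂ : Set (E n × E n)} (hK : IsCompact K₂) (h : ∀ᵐ z ∂V, z ∈ K₂)
    {φ : E n × E n → ℝ} (hφ : Continuous φ) : Integrable φ V := by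
  obtain ⟨C, hC⟩ := hK.exists_bound_of_continuousOn hφ.continuousOn
  refine Integrable.of_bound hφ.aestronglyMeasurable C ?_
  filter_upwards [h] with z hz
  exact hC _ hz

/-- gradient of `(F + ε)⁻¹` -/
theorem D_inv_FG (k : ℝ) {ε : ℝ} (hε : 0 < ε) (c x : E n) :
    D G.A (fun x => (FG G k c x + ε)⁻¹) x = -((FG G k c x + ε)⁻¹ ^ 2 • D G.A (FG G k c) x) := by
  have hp := FGe_pos G hε k c x
  have h1 : HasFDerivAt (fun x => FG G k c x + ε) (fderiv ℝ (FG G k c) x) x :=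
    ((FG_smooth_right G k c).differentiable (by simp) x).hasFDerivAt.add_const ε
  have h2 : HasFDerivAt (fun x => (FG G k c x + ε)⁻¹)
      (-((FG G k c x + ε) ^ 2)⁻¹ • fderiv ℝ (FG G k c) x) x :=
    (hasDerivAt_inv hp.ne').comp_hasFDerivAt x h1
  refine ext_inner_right ℝ fun η => ?_
  unfold D
  rw [inner_neg_left, real_inner_smul_left, InnerProductSpace.toDual_symm_apply,
    InnerProductSpace.toDual_symm_apply, ContinuousLinearMap.comp_apply,
    ContinuousLinearMap.comp_apply, h2.fderiv, smul_apply, smul_eq_mul, inv_pow]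
  ring

theorem stat_inv_bound (hk : 0 ≤ k) {m H₀ : ℝ} (hm : 2 < m)
    (hV : ∀ᵐ z ∂V, ‖G.lg o z.1‖ ≤ ρ ∧ ‖z.2‖ = 1) {c : E n}
    (stat : ∀ ψ : E n → ℝ, ContDiff ℝ ∞ ψ → (∀ x, 0 ≤ ψ x) →
      0 ≤ ∫ z, (H₀ * ψ z.1 * inner ℝ (D G.A (FG G k c) z.1) z.2 -
        m * (1 + k ^ 2 * FG G k c z.1) * ψ z.1 - Gam G.A ψ (FG G k c) z) ∂V) {ε : ℝ}
    (hε : 0 < ε) :
    (m - 2) * ∫ z, (FG G k c z.1 + ε)⁻¹ ∂V ≤ H₀ ^ 2 / 4 * V.real univ := by
  have _ := hk
  have hK₂ : IsCompact ({x : E n | ‖G.lg o x‖ ≤ ρ} ×ˢ sphere (0 : E n) 1) :=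
    (G.isCompact_gball o ρ).prod (isCompact_sphere 0 1)
  have hV₂ : ∀ᵐ z ∂V, z ∈ ({x : E n | ‖G.lg o x‖ ≤ ρ} ×ˢ sphere (0 : E n) 1) := by
    filter_upwards [hV] with z hz
    exact ⟨hz.1, by simpa using hz.2⟩
  have hs : ContDiff ℝ ∞ fun x => (FG G k c x + ε)⁻¹ :=
    ((FG_smooth_right G k c).add contDiff_const).inv fun x => (FGe_pos G hε k c x).ne'
  have h0 := stat (fun x => (FG G k c x + ε)⁻¹) hs
    fun x => (inv_pos.2 (FGe_pos G hε k c x)).le
  have hid : ∀ z : E n × E n, H₀ * (FG G k c z.1 + ε)⁻¹ * inner ℝ (D G.A (FG G k c) z.1) z.2 -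
        m * (1 + k ^ 2 * FG G k c z.1) * (FG G k c z.1 + ε)⁻¹ -
        Gam G.A (fun x => (FG G k c x + ε)⁻¹) (FG G k c) z =
      H₀ * (FG G k c z.1 + ε)⁻¹ * (-(chi k (‖G.lg c z.1‖ ^ 2) * inner ℝ (G.lg z.1 c) z.2)) -
        m * (1 + k ^ 2 * FG G k c z.1) * (FG G k c z.1 + ε)⁻¹ +
        (FG G k c z.1 + ε)⁻¹ ^ 2 * ((2 * FG G k c z.1 + k ^ 2 * FG G k c z.1 ^ 2) -
          (-(chi k (‖G.lg c z.1‖ ^ 2) * inner ℝ (G.lg z.1 c) z.2)) ^ 2) := by
    intro z
    have e1 : inner ℝ (D G.A (FG G k c) z.1) z.2 =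
        -(chi k (‖G.lg c z.1‖ ^ 2) * inner ℝ (G.lg z.1 c) z.2) := by
      rw [D_FG, inner_neg_left, real_inner_smul_left]
    have e2 : Gam G.A (fun x => (FG G k c x + ε)⁻¹) (FG G k c) z =
        -((FG G k c z.1 + ε)⁻¹ ^ 2 * ((2 * FG G k c z.1 + k ^ 2 * FG G k c z.1 ^ 2) -
          (-(chi k (‖G.lg c z.1‖ ^ 2) * inner ℝ (G.lg z.1 c) z.2)) ^ 2)) := by
      unfold Gam
      rw [D_inv_FG G k hε, inner_neg_left, inner_neg_left, real_inner_smul_left,
        real_inner_smul_left, real_inner_self_eq_norm_sq, norm_D_FG, e1]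
      ring
    rw [e1, e2]
    ring
  simp only [hid] at h0
  have hlg : Continuous fun z : E n × E n => G.lg z.1 c := by
    have h1 : ContDiff ℝ ∞ fun x : E n => G.lg x c :=
      G.lg_smooth.comp (contDiff_id.prodMk contDiff_const)
    exact h1.continuous.comp continuous_fst
  have hF : Continuous fun z : E n × E n => FG G k c z.1 :=
    (FG_smooth_right G k c).continuous.comp continuous_fst
  have hψ : Continuous fun z : E n × E n => (FG G k c z.1 + ε)⁻¹ :=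
    hs.continuous.comp continuous_fst
  have hn : Continuous fun z : E n × E n =>
      -(chi k (‖G.lg c z.1‖ ^ 2) * inner ℝ (G.lg z.1 c) z.2) :=
    ((((chi_smooth k).continuous.comp ((lg_cont G c).norm.pow 2)).comp continuous_fst).mul
      (hlg.inner continuous_snd)).neg
  have hi1 := cpt_integrable (V := V) hK₂ hV₂ hψ
  have hi2 : Integrable (fun z : E n × E n =>
      H₀ * (FG G k c z.1 + ε)⁻¹ * (-(chi k (‖G.lg c z.1‖ ^ 2) * inner ℝ (G.lg z.1 c) z.2)) -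
        m * (1 + k ^ 2 * FG G k c z.1) * (FG G k c z.1 + ε)⁻¹ +
        (FG G k c z.1 + ε)⁻¹ ^ 2 * ((2 * FG G k c z.1 + k ^ 2 * FG G k c z.1 ^ 2) -
          (-(chi k (‖G.lg c z.1‖ ^ 2) * inner ℝ (G.lg z.1 c) z.2)) ^ 2)) V := by
    refine cpt_integrable hK₂ hV₂ ?_
    refine Continuous.add (Continuous.sub ?_ ?_) ?_
    · exact (continuous_const.mul hψ).mul hn
    · exact (continuous_const.mul (continuous_const.add (continuous_const.mul hF))).mul hψ
    · exact (hψ.pow 2).mul (((continuous_const.mul hF).add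
        (continuous_const.mul (hF.pow 2))).sub (hn.pow 2))
  have h1 : (∫ z : E n × E n,
      (H₀ * (FG G k c z.1 + ε)⁻¹ * (-(chi k (‖G.lg c z.1‖ ^ 2) * inner ℝ (G.lg z.1 c) z.2)) -
        m * (1 + k ^ 2 * FG G k c z.1) * (FG G k c z.1 + ε)⁻¹ +
        (FG G k c z.1 + ε)⁻¹ ^ 2 * ((2 * FG G k c z.1 + k ^ 2 * FG G k c z.1 ^ 2) -
          (-(chi k (‖G.lg c z.1‖ ^ 2) * inner ℝ (G.lg z.1 c) z.2)) ^ 2)) ∂V) ≤
      ∫ z : E n × E n, (H₀ ^ 2 / 4 - (m - 2) * (FG G k c z.1 + ε)⁻¹) ∂V := by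
    refine integral_mono hi2 ((integrable_const _).sub (hi1.const_mul _)) fun z => ?_
    obtain ⟨F, hFd⟩ : ∃ F, F = FG G k c z.1 := ⟨_, rfl⟩
    obtain ⟨N, hN⟩ : ∃ N, N = -(chi k (‖G.lg c z.1‖ ^ 2) * inner ℝ (G.lg z.1 c) z.2) := ⟨_, rfl⟩
    have hF0 : 0 ≤ F := by rw [hFd]; exact FG_nonneg G k c z.1
    simp only [← hFd, ← hN]
    obtain ⟨p, hp⟩ : ∃ p, p = (F + ε)⁻¹ := ⟨_, rfl⟩
    have hp0 : 0 < p := by rw [hp]; (clear * - hF0 hε; positivity)
    have hpF : p * F ≤ 1 := by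
      rw [hp, inv_mul_le_iff₀ (by positivity)]
      linarith only [hε]
    rw [← hp]
    have e1 : H₀ * p * N - p ^ 2 * N ^ 2 ≤ H₀ ^ 2 / 4 := by linarith only [sq_nonneg (H₀ / 2 - p * N)]
    have e2 : p ^ 2 * (2 * F + k ^ 2 * F ^ 2) ≤ p * (2 + k ^ 2 * F) := by
      have : p ^ 2 * (2 * F + k ^ 2 * F ^ 2) = p * F * (p * (2 + k ^ 2 * F)) := by ring
      rw [this]
      exact mul_le_of_le_one_left (by (clear * - hp0 hF0; positivity)) hpF
    have e3 : p * (2 + k ^ 2 * F) ≤ m * (1 + k ^ 2 * F) * p - (m - 2) * p := by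
      have : 0 ≤ (m - 1) * (k ^ 2 * F * p) := mul_nonneg (by linarith only [hm]) (by (clear * - hF0 hp0; positivity))
      linarith only [this]
    linarith only [e3, e2, e1]
  have h2 : ∫ z : E n × E n, (H₀ ^ 2 / 4 - (m - 2) * (FG G k c z.1 + ε)⁻¹) ∂V =
      H₀ ^ 2 / 4 * V.real univ - (m - 2) * ∫ z, (FG G k c z.1 + ε)⁻¹ ∂V := by
    rw [integral_sub (integrable_const _) (hi1.const_mul _), integral_const, integral_const_mul,
      smul_eq_mul]
    ring
  linarith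

theorem atom_of_stat (hk : 0 ≤ k) {m H₀ : ℝ} (hm : 2 < m)
    (hV : ∀ᵐ z ∂V, ‖G.lg o z.1‖ ≤ ρ ∧ ‖z.2‖ = 1)
    (stat : ∀ c, ‖G.lg o c‖ ≤ ρ → ∀ ψ : E n → ℝ, ContDiff ℝ ∞ ψ → (∀ x, 0 ≤ ψ x) →
      0 ≤ ∫ z, (H₀ * ψ z.1 * inner ℝ (D G.A (FG G k c) z.1) z.2 -
        m * (1 + k ^ 2 * FG G k c z.1) * ψ z.1 - Gam G.A ψ (FG G k c) z) ∂V) :
    ∀ η > 0, ∃ r > 0, ∀ x, ‖G.lg o x‖ ≤ ρ → V.real {z | ‖G.lg x z.1‖ < r} ≤ η := by
  intro η hη
  obtain ⟨C, hC⟩ : ∃ C, C = H₀ ^ 2 / 4 * V.real univ / (m - 2) := ⟨_, rfl⟩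
  have hm2 : 0 < m - 2 := by linarith
  have hC0 : 0 ≤ C := by
    rw [hC]
    have : 0 ≤ V.real univ := measureReal_nonneg
    (clear * - hm; positivity)
  -- the radius
  have hcont : Continuous fun r : ℝ => ff k (r ^ 2) :=
    (ff_smooth k).continuous.comp (continuous_pow 2)
  have h0 : ff k ((0 : ℝ) ^ 2) = 0 := by rw [ff_sq]; simp [_root_.Vale.Agent.P219.TPH.sn_zero]
  have h1 : ∀ᶠ r in 𝓝 (0 : ℝ), ff k (r ^ 2) < η / (2 * (C + 1)) := by
    refine (hcont.tendsto 0).eventually_lt_const ?_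
    rw [h0]
    positivity
  obtain ⟨δ, hδ, hr⟩ := Metric.eventually_nhds_iff.1 h1
  refine ⟨δ / 2, half_pos hδ, fun x hx => ?_⟩
  have h2 : ff k ((δ / 2) ^ 2) < η / (2 * (C + 1)) := by
    apply hr
    rw [Real.dist_eq, sub_zero, abs_of_pos (half_pos hδ)]
    linarith only [hδ]
  obtain ⟨ε, hε⟩ : ∃ ε, ε = ff k ((δ / 2) ^ 2) := ⟨_, rfl⟩
  rw [← hε] at h2
  have hε0 : 0 < ε := by
    rw [hε, ff_sq]
    have := _root_.Vale.Agent.P219.TPH.sn_pos hk (half_pos (half_pos hδ))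
    positivity
  have h3 := stat_inv_bound G hk hm hV (stat x hx) hε0
  have hK : IsCompact {x | ‖G.lg o x‖ ≤ ρ} := G.isCompact_gball o ρ
  have hV1 : ∀ᵐ z ∂V, z.1 ∈ {x | ‖G.lg o x‖ ≤ ρ} := hV.mono fun z hz => hz.1
  have hs : Continuous fun y => (FG G k x y + ε)⁻¹ :=
    ((FG_smooth_right G k x).continuous.add continuous_const).inv₀
      fun y => (FGe_pos G hε0 k x y).ne'
  have hi := bary_integrable (V := V) hK hV1 hs
  have h4 : (2 * ε)⁻¹ * V.real {z | ‖G.lg x z.1‖ < δ / 2} ≤ ∫ z, (FG G k x z.1 + ε)⁻¹ ∂V := by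
    have hBm : MeasurableSet {z : E n × E n | ‖G.lg x z.1‖ < δ / 2} :=
      (isOpen_lt ((lg_cont G x).comp continuous_fst).norm continuous_const).measurableSet
    have h5 : (2 * ε)⁻¹ * V.real {z | ‖G.lg x z.1‖ < δ / 2} =
        ∫ _ in {z | ‖G.lg x z.1‖ < δ / 2}, (2 * ε)⁻¹ ∂V := by
      rw [setIntegral_const, smul_eq_mul, mul_comm]
    rw [h5]
    calc ∫ _ in {z | ‖G.lg x z.1‖ < δ / 2}, (2 * ε)⁻¹ ∂V ≤
        ∫ z in {z | ‖G.lg x z.1‖ < δ / 2}, (FG G k x z.1 + ε)⁻¹ ∂V := by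
          refine setIntegral_mono_on (integrable_const _).integrableOn hi.integrableOn hBm ?_
          intro z hz
          refine inv_anti₀ (FGe_pos G hε0 k x z.1) ?_
          have h6 : FG G k x z.1 ≤ ε := by
            rw [hε]
            unfold FG
            rw [ff_sq, ff_sq]
            have h7 : _root_.Vale.Agent.P219.TPH.sn k (‖G.lg x z.1‖ / 2) ≤ _root_.Vale.Agent.P219.TPH.sn k (δ / 2 / 2) :=
              (_root_.Vale.Agent.P219.TPH.sn_strictMono hk).monotone (by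
                have : ‖G.lg x z.1‖ < δ / 2 := hz
                linarith only [this])
            have h8 : 0 ≤ _root_.Vale.Agent.P219.TPH.sn k (‖G.lg x z.1‖ / 2) := by
              have := (_root_.Vale.Agent.P219.TPH.sn_strictMono hk).monotone
                (show 0 ≤ ‖G.lg x z.1‖ / 2 by (clear * -; positivity))
              rwa [_root_.Vale.Agent.P219.TPH.sn_zero] at this
            have := pow_le_pow_left₀ h8 h7 2
            linarith only [this]
          linarith only [h6]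
      _ ≤ ∫ z, (FG G k x z.1 + ε)⁻¹ ∂V :=
          setIntegral_le_integral hi (Eventually.of_forall fun z =>
            (inv_pos.2 (FGe_pos G hε0 k x z.1)).le)
  have h5 : ∫ z, (FG G k x z.1 + ε)⁻¹ ∂V ≤ C := by
    rw [hC, le_div_iff₀ hm2]
    linarith only [h3]
  have h6 : V.real {z | ‖G.lg x z.1‖ < δ / 2} ≤ 2 * ε * C := by
    have h7 := h4.trans h5
    rwa [inv_mul_le_iff₀ (by positivity)] at h7
  have h7 : ε * (2 * (C + 1)) < η := by
    rwa [lt_div_iff₀ (by positivity)] at h2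
  linarith only [h7, h6, hε0]

end Atom

/-- The field `bary` of `Lim`. -/
theorem bary_field (hk : 0 ≤ k) (hS : SnLe G k) {V : Measure (E n × E n)} [IsFiniteMeasure V]
    {o : E n} {ρ : ℝ} (hV : ∀ᵐ z ∂V, ‖G.lg o z.1‖ ≤ ρ ∧ ‖z.2‖ = 1) (hne : V ≠ 0) {m H₀ : ℝ}
    (hm : 2 < m) (hmn : m = (n : ℝ) - 1)
    (stat : ∀ c, ‖G.lg o c‖ ≤ ρ → ∀ ψ : E n → ℝ, ContDiff ℝ ∞ ψ → (∀ x, 0 ≤ ψ x) →
      0 ≤ ∫ z, (H₀ * ψ z.1 * inner ℝ (D G.A (FG G k c) z.1) z.2 -
        m * (1 + k ^ 2 * FG G k c z.1) * ψ z.1 - Gam G.A ψ (FG G k c) z) ∂V) :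
    ∀ f : E n → ℝ, Continuous f → (∀ x, 0 < f x) → ∃ c, ‖G.lg o c‖ ≤ ρ ∧ ∃ ε : ℝ, 0 < ε ∧
      k ^ 2 * ε < 2 ∧ ∃ θ : Fin (n + 1) → E n → ℝ, (∀ i, ContDiff ℝ ∞ (θ i)) ∧
      (∀ x, ∑ i, θ i x ^ 2 = 1) ∧
      (∀ᵐ z ∂V, ∑ i, Gam G.A (θ i) (θ i) z ≤ m * bub (k ^ 2) (FG G k c) ε z.1 ^ 2) ∧
      ∀ i, ∫ z, θ i z.1 * f z.1 ∂V = 0 := by
  intro f hf hf0
  have hV1 : ∀ᵐ z ∂V, ‖G.lg o z.1‖ ≤ ρ := hV.mono fun z hz => hz.1
  obtain ⟨c, l, hmin⟩ := bary_min G hk hV1 (atom_of_stat G hk hm hV stat) hne hf hf0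
  have hcl := bary_crit_l G hV1 hf hmin
  have hcc := bary_crit_c G hV1 hf hmin
  refine ⟨c, bary_mem G hk hV1 hne hf hf0 hcc, epsB k l, epsB_pos k l, epsB_lt k l,
    thf G k c (epsB k l), fun i => thf_smooth G (epsB_pos k l) k c i,
    fun x => thf_sq G (epsB_pos k l) (epsB_lt k l) c x, ?_, ?_⟩
  · filter_upwards [hV] with z hz
    rw [hmn]
    exact thf_Gam G hk hS (epsB_pos k l) (epsB_lt k l) c z hz.2
  · intro i
    refine Fin.cases ?_ (fun j => ?_) i
    · exact hcl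
    · have h1 := hcc (EuclideanSpace.single j (1 : ℝ))
      have h2 : ∀ z : E n × E n, thf G k c (epsB k l) j.succ z.1 * f z.1 =
          q0 k (epsB k l) * ((chi k (‖G.lg c z.1‖ ^ 2) *
            inner ℝ (G.lg c z.1) (EuclideanSpace.single j (1 : ℝ)) /
            (FG G k c z.1 + epsB k l)) * f z.1) := by
        intro z
        rw [thf_succ, thv]
        simp only [EuclideanSpace.inner_single_right, PiLp.smul_apply, smul_eq_mul, one_mul,
          conj_trivial]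
        ring
      simp only [h2]
      rw [integral_const_mul, h1, mul_zero]

end Vale.Agent.P219.End
end

section

/-! # The field `bary` of `Lim`, from `MonoSn` -/

open MeasureTheory Set Metric Filter Topology
open scoped ENNReal ContDiff

namespace Vale.Agent.P219.End

open Vale.Agent.P219.TP Vale.Agent.P219.TPH

variable {n : ℕ} (G : Geo n) {k : ℝ}

/-- `s → 0` in `MonoSn` -/
theorem snLe_of_monoSn (hM : MonoSn G k) : SnLe G k := by
  intro x v z hz
  have h1 : Tendsto (fun s : ℝ => _root_.Vale.Agent.P219.TPH.sn k ‖v‖ * ‖G.T x (s • v) z‖) (nhdsWithin 0 (Ioi 0))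
      (nhds (_root_.Vale.Agent.P219.TPH.sn k ‖v‖ * ‖z‖)) := by
    have hc : Continuous fun s : ℝ => _root_.Vale.Agent.P219.TPH.sn k ‖v‖ * ‖G.T x (s • v) z‖ := by
      have hT : Continuous fun s : ℝ => G.T x (s • v) :=
        G.T_smooth.continuous.comp (continuous_const.prodMk (continuous_id.smul continuous_const))
      exact continuous_const.mul (hT.clm_apply continuous_const).norm
    have h2 := hc.tendsto 0
    simp only [zero_smul, G.T_zero] at h2
    exact h2.mono_left nhdsWithin_le_nhds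
  have h2 : Tendsto (fun s : ℝ => (_root_.Vale.Agent.P219.TPH.sn k (s * ‖v‖) / s) * ‖G.T x v z‖)
      (nhdsWithin 0 (Ioi 0)) (nhds (‖v‖ * ‖G.T x v z‖)) := by
    refine Tendsto.mul_const _ ?_
    have h30 : HasDerivAt (fun s : ℝ => s * ‖v‖) (1 * ‖v‖) 0 := (hasDerivAt_id' 0).mul_const ‖v‖
    have h3 : HasDerivAt (fun s : ℝ => _root_.Vale.Agent.P219.TPH.sn k (s * ‖v‖)) (_root_.Vale.Agent.P219.TPH.cs k (0 * ‖v‖) * (1 * ‖v‖)) 0 :=
      HasDerivAt.comp (h₂ := _root_.Vale.Agent.P219.TPH.sn k) (h := fun s : ℝ => s * ‖v‖) 0 (_root_.Vale.Agent.P219.TPH.hasDerivAt_sn k (0 * ‖v‖)) h30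
    rw [zero_mul, _root_.Vale.Agent.P219.TPH.cs_zero, one_mul, one_mul, hasDerivAt_iff_tendsto_slope] at h3
    have h4 := h3.mono_left (nhdsWithin_mono (0 : ℝ) (fun s (hs : s ∈ Ioi (0 : ℝ)) =>
      (ne_of_gt hs : s ∈ ({0}ᶜ : Set ℝ))))
    refine h4.congr' ?_
    filter_upwards [self_mem_nhdsWithin] with s _
    rw [slope_def_field, zero_mul, _root_.Vale.Agent.P219.TPH.sn_zero, sub_zero, sub_zero]
  refine le_of_tendsto_of_tendsto h1 h2 ?_
  have h5 : Ioc (0 : ℝ) 1 ∈ nhdsWithin (0 : ℝ) (Ioi 0) := Ioc_mem_nhdsGT zero_lt_one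
  filter_upwards [h5] with s hs
  have h6 := hM x v z s hz hs.1 hs.2
  rw [div_mul_eq_mul_div, le_div_iff₀ hs.1]
  linarith

/-- The field `bary` of `Lim`: everything from the stationarity. -/
theorem bary_of_mono (hn : 4 ≤ n) (hk : 0 ≤ k) (hM : MonoSn G k) {V : Measure (E n × E n)}
    [IsFiniteMeasure V] {o : E n} {ρ : ℝ} (hV : ∀ᵐ z ∂V, ‖G.lg o z.1‖ ≤ ρ ∧ ‖z.2‖ = 1)
    (hne : V ≠ 0) {H₀ : ℝ}
    (stat : ∀ c, ‖G.lg o c‖ ≤ ρ → ∀ ψ : E n → ℝ, ContDiff ℝ ∞ ψ → (∀ x, 0 ≤ ψ x) →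
      0 ≤ ∫ z, (H₀ * ψ z.1 * inner ℝ (D G.A (FG G k c) z.1) z.2 -
        ((n : ℝ) - 1) * (1 + k ^ 2 * FG G k c z.1) * ψ z.1 - Gam G.A ψ (FG G k c) z) ∂V) :
    ∀ f : E n → ℝ, ContDiff ℝ ∞ f → (∀ x, 0 < f x) → ∃ c ∈ {x | ‖G.lg o x‖ ≤ ρ}, ∃ ε : ℝ, 0 < ε ∧
      k ^ 2 * ε < 2 ∧ ∃ θ : Fin (n + 1) → E n → ℝ, (∀ i, ContDiff ℝ ∞ (θ i)) ∧
      (∀ x, ∑ i, θ i x ^ 2 = 1) ∧
      (∀ᵐ z ∂V, ∑ i, Gam G.A (θ i) (θ i) z ≤
        ((n : ℝ) - 1) * bub (k ^ 2) (FG G k c) ε z.1 ^ 2) ∧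
      ∀ i, ∫ z, θ i z.1 * f z.1 ∂V = 0 := by
  intro f hf hf0
  have h4 : (4 : ℝ) ≤ n := by exact_mod_cast hn
  obtain ⟨c, hc, h⟩ := bary_field G hk (snLe_of_monoSn G hM) hV hne (m := (n : ℝ) - 1)
    (by linarith only [h4]) rfl stat f hf.continuous hf0
  exact ⟨c, hc, h⟩

end Vale.Agent.P219.End
end

section

/-!
# P219 / End : change of centre of a bubble, quasi-metric `√(2 F)`
-/

open MeasureTheory Set Metric
open scoped ENNReal ContDiff Topology

namespace Vale.Agent.P219.End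

variable {n : ℕ}

namespace Lim

variable (L : Lim n)

/-- a bound of `1 + k2 F / 2` on `K × K` -/
theorem exists_oneF_bound : ∃ B : ℝ, 1 ≤ B ∧ ∀ c ∈ L.K, ∀ x ∈ L.K, 1 + L.k2 * L.F c x / 2 ≤ B := by
  have hK : IsCompact (L.K ×ˢ L.K) := L.K_compact.prod L.K_compact
  obtain ⟨C, hC⟩ := hK.exists_bound_of_continuousOn L.F_smooth.continuous.continuousOn
  have hk := L.k2_nonneg
  refine ⟨1 + L.k2 * max C 0 / 2, ?_, fun c hc x hx => ?_⟩
  · have : 0 ≤ L.k2 * max C 0 := mul_nonneg hk (le_max_right _ _)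
    linarith only [this]
  · have h1 := hC (c, x) ⟨hc, hx⟩
    rw [Real.norm_eq_abs] at h1
    have h2 : L.F c x ≤ max C 0 := (le_abs_self _).trans (h1.trans (le_max_left _ _))
    have h3 := mul_le_mul_of_nonneg_left h2 hk
    linarith only [h3]

/-- change of centre for `F` -/
theorem F_centre {B η : ℝ} (hB : ∀ c ∈ L.K, ∀ x ∈ L.K, 1 + L.k2 * L.F c x / 2 ≤ B)
    (hη : 0 < η) {c p x : E n} (hp : p ∈ L.K) (hx : x ∈ L.K) :
    L.F c x ≤ (1 + η) * L.F p x + ((1 + η) * B + (1 + 1 / η) * B) * L.F c p := by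
  have hk := L.k2_nonneg
  have hF0 := L.F_nonneg c x
  have hP0 := L.F_nonneg p x
  have hC0 := L.F_nonneg c p
  have hkC : 0 ≤ L.k2 * L.F c p := mul_nonneg hk hC0
  have hkP : 0 ≤ L.k2 * L.F p x := mul_nonneg hk hP0
  have hBb := hB p hp x hx
  obtain ⟨a, ha⟩ : ∃ a, a = √(L.F p x) * √(1 + L.k2 * L.F c p / 2) := ⟨_, rfl⟩
  obtain ⟨b, hb⟩ : ∃ b, b = √(1 + L.k2 * L.F p x / 2) * √(L.F c p) := ⟨_, rfl⟩
  have ha2 : a ^ 2 = L.F p x * (1 + L.k2 * L.F c p / 2) := by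
    rw [ha, mul_pow, Real.sq_sqrt hP0, Real.sq_sqrt (by linarith only [hkC])]
  have hb2 : b ^ 2 = (1 + L.k2 * L.F p x / 2) * L.F c p := by
    rw [hb, mul_pow, Real.sq_sqrt hC0, Real.sq_sqrt (by linarith only [hkP])]
  have htri : √(L.F c x) ≤ a + b := by rw [ha, hb]; exact L.tri c p x
  have h1 : L.F c x ≤ (a + b) ^ 2 := by
    rw [← Real.sq_sqrt hF0]
    exact pow_le_pow_left₀ (Real.sqrt_nonneg _) htri 2
  have h2 : (a + b) ^ 2 ≤ (1 + η) * a ^ 2 + (1 + 1 / η) * b ^ 2 := by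
    have h3 : 0 ≤ (η * a - b) ^ 2 / η := by (clear * - hη; positivity)
    have e : (η * a - b) ^ 2 / η = η * a ^ 2 + 1 / η * b ^ 2 - 2 * a * b := by
      field_simp
      ring
    linarith only [e, h3]
  have h4 : (1 + η) * a ^ 2 ≤ (1 + η) * L.F p x + (1 + η) * B * L.F c p := by
    rw [ha2]
    have h5 : L.k2 * L.F p x / 2 ≤ B := by linarith only [hBb]
    have h6 : L.k2 * L.F p x / 2 * L.F c p ≤ B * L.F c p := mul_le_mul_of_nonneg_right h5 hC0
    have h7 := mul_le_mul_of_nonneg_left h6 (show 0 ≤ 1 + η by linarith only [hη])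
    calc (1 + η) * (L.F p x * (1 + L.k2 * L.F c p / 2))
        = (1 + η) * L.F p x + (1 + η) * (L.k2 * L.F p x / 2 * L.F c p) := by ring
      _ ≤ (1 + η) * L.F p x + (1 + η) * (B * L.F c p) := by linarith only [h7]
      _ = _ := by ring
  have h8 : (1 + 1 / η) * b ^ 2 ≤ (1 + 1 / η) * B * L.F c p := by
    rw [hb2]
    have h9 : (1 + L.k2 * L.F p x / 2) * L.F c p ≤ B * L.F c p :=
      mul_le_mul_of_nonneg_right hBb hC0
    have h10 := mul_le_mul_of_nonneg_left h9 (show 0 ≤ 1 + 1 / η by positivity)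
    linarith only [h10]
  have e2 : (1 + η) * L.F p x + ((1 + η) * B + (1 + 1 / η) * B) * L.F c p =
      (1 + η) * L.F p x + (1 + η) * B * L.F c p + (1 + 1 / η) * B * L.F c p := by ring
  rw [e2]
  linarith only [h8, h4, h2, h1]

/-- change of centre -/
theorem centre {N η : ℝ} (hN : 1 ≤ N) (hη : 0 < η) : ∃ Λ₀ ≥ 1, ∀ Λ ≥ Λ₀, ∀ c ∈ L.K, ∀ p ∈ L.K,
    ∀ s : ℝ, 0 < s → L.Ad (Λ * s) → L.ds c p ≤ N * s → ∀ x ∈ L.K,
    L.ws p (Λ * s) x ≤ (1 + η) * L.ws c (Λ * s) x := by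
  obtain ⟨B, hB1, hB⟩ := L.exists_oneF_bound
  obtain ⟨M, hM⟩ : ∃ M, M = ((1 + η) * B + (1 + 1 / η) * B) := ⟨_, rfl⟩
  have hM0 : 0 ≤ M := by rw [hM]; positivity
  refine ⟨1 + M * N ^ 2 / η, ?_, fun Λ hΛ c hc p hp s hs _ hds x hx => ?_⟩
  · have : 0 ≤ M * N ^ 2 / η := by positivity
    linarith only [this]
  have hMN : 0 ≤ M * N ^ 2 / η := by positivity
  have hΛ1 : 1 ≤ Λ := by linarith only [hMN, hΛ]
  have hΛ2 : M * N ^ 2 ≤ η * Λ ^ 2 := by
    have h1 : M * N ^ 2 / η ≤ Λ ^ 2 := by (by_contra nlg; linarith only [nlg, mul_nonneg (sub_nonneg.2 hΛ) (sub_nonneg.2 hΛ1), mul_nonneg (le_of_lt (sub_pos.2 (not_le.1 nlg))) (sub_nonneg.2 hΛ), mul_pos (sub_pos.2 (not_le.1 nlg)) (sub_pos.2 (not_le.1 nlg)), mul_nonneg (sq_nonneg (1 * Λ : ℝ)) (sub_nonneg.2 hΛ1), mul_nonneg (sq_nonneg (1 * Λ : ℝ)) (le_of_lt (sub_pos.2 (not_le.1 nlg))), mul_nonneg (mul_self_nonneg (1 : ℝ)) (sub_nonneg.2 hΛ1), mul_nonneg (mul_self_nonneg (1 : ℝ))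 (sub_nonneg.2 hΛ), mul_nonneg (mul_self_nonneg (1 : ℝ)) (le_of_lt (sub_pos.2 (not_le.1 nlg)))])
    rw [div_le_iff₀ hη] at h1
    linarith only [h1]
  have h1 := L.F_centre hB hη (c := c) hp hx
  rw [← hM] at h1
  have h2 : 2 * L.F c p ≤ (N * s) ^ 2 := by
    have h3 : 0 ≤ 2 * L.F c p := by linarith only [L.F_nonneg c p]
    unfold ds at hds
    rw [← Real.sq_sqrt h3]
    exact pow_le_pow_left₀ (Real.sqrt_nonneg _) hds 2
  have hF0 := L.F_nonneg p x
  have hFc0 := L.F_nonneg c x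
  have hS : 0 < (Λ * s) ^ 2 / 2 := by positivity
  have h3 : L.F c x + (Λ * s) ^ 2 / 2 ≤ (1 + η) * (L.F p x + (Λ * s) ^ 2 / 2) := by
    have h4 : M * L.F c p ≤ M * ((N * s) ^ 2 / 2) := mul_le_mul_of_nonneg_left (by linarith) hM0
    have h5 : M * ((N * s) ^ 2 / 2) ≤ η * ((Λ * s) ^ 2 / 2) := by
      have h6 := mul_le_mul_of_nonneg_right hΛ2 (show 0 ≤ s ^ 2 / 2 by positivity)
      calc M * ((N * s) ^ 2 / 2) = M * N ^ 2 * (s ^ 2 / 2) := by ring
        _ ≤ η * Λ ^ 2 * (s ^ 2 / 2) := h6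
        _ = η * ((Λ * s) ^ 2 / 2) := by ring
    linarith only [h5, h4, h1]
  unfold ws w bub
  have h7 := Real.sqrt_nonneg ((Λ * s) ^ 2 / 2 * (2 - L.k2 * ((Λ * s) ^ 2 / 2)))
  generalize √((Λ * s) ^ 2 / 2 * (2 - L.k2 * ((Λ * s) ^ 2 / 2))) = q at h7 ⊢
  rw [← mul_div_assoc, div_le_div_iff₀ (by linarith only [hS, hF0]) (by linarith only [hS, hFc0])]
  linarith only [mul_le_mul_of_nonneg_left h3 h7]

end Lim

end Vale.Agent.P219.End
end
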