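import Mathlib
import Vale.Agent.P219.Bdl.B2
import Vale.Agent.P219.Bdl.B3
import Vale.Agent.P219.Bdl.B1
import Vale.Agent.P219.CH.CoComplete

set_option linter.all false

section

/-!
# P219, all dimensions: compactness of measures

Weak limits of finite measures carried by a compact set, along an ultrafilter or along a
subsequence, and weak limits of functions with values in `[0,1]`.
-/

open MeasureTheory Set Filter Topology
open scoped ENNReal NNReal BoundedContinuousFunction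

namespace Vale.Agent.P219.End

section general

variable {X : Type*} [MeasurableSpace X]

/-- The integral over a measure carried by `K`, as an integral over the subtype. -/
theorem integral_comap_subtype {K : Set X} (hK : MeasurableSet K) (μ : Measure X)
    (h : μ Kᶜ = 0) (f : X → ℝ) :
    ∫ x : K, f x ∂(μ.comap (Subtype.val : K → X)) = ∫ x, f x ∂μ := by
  rw [integral_subtype_comap hK f, setIntegral_eq_integral_of_ae_compl_eq_zero]
  filter_upwards [compl_mem_ae_iff.2 h] with x hx hxK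
  exact absurd hxK (by simpa using hx)

variable [TopologicalSpace X]

/-- A function continuous on a compact set `K` is integrable for a finite measure carried
by `K`. -/
theorem integrable_of_continuousOn [T2Space X] [BorelSpace X] {K : Set X} (hK : IsCompact K)
    {μ : Measure X} [IsFiniteMeasure μ] (hs : μ Kᶜ = 0) {f : X → ℝ} (hf : ContinuousOn f K) :
    Integrable f μ := by
  have h1 : IntegrableOn f K μ := hf.integrableOn_compact hK
  have h2 : μ.restrict K = μ := by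
    apply Measure.restrict_eq_self_of_ae_mem
    rw [ae_iff]
    exact hs
  rwa [IntegrableOn, h2] at h1

variable [BorelSpace X]

/-- Limits along an ultrafilter of finite measures carried by a compact set. -/
theorem exists_limit_measure [T2Space X] {ι : Type*} (F : Ultrafilter ι) (μ : ι → Measure X)
    (C : ℝ≥0) {K : Set X} (hK : IsCompact K) (hC : ∀ j, μ j univ ≤ C) (hs : ∀ j, μ j Kᶜ = 0) :
    ∃ V : Measure X, IsFiniteMeasure V ∧ V univ ≤ C ∧ V Kᶜ = 0 ∧
      ∀ f : X → ℝ, ContinuousOn f K →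
        Tendsto (fun j => ∫ x, f x ∂(μ j)) F (𝓝 (∫ x, f x ∂V)) := by
  classical
  have hKm : MeasurableSet K := hK.measurableSet
  have : CompactSpace K := isCompact_iff_compactSpace.mp hK
  have hfin : ∀ j, IsFiniteMeasure (μ j) := fun j => ⟨(hC j).trans_lt ENNReal.coe_lt_top⟩
  have hcm : ∀ j, (μ j).comap (Subtype.val : K → X) univ ≤ C := by
    intro j
    rw [comap_subtype_coe_apply hKm]
    exact (measure_mono (subset_univ _)).trans (hC j)
  let ν : ι → FiniteMeasure K := fun j =>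
    ⟨(μ j).comap (Subtype.val : K → X), ⟨(hcm j).trans_lt ENNReal.coe_lt_top⟩⟩
  have hν : ∀ j, (ν j).mass ≤ C := by
    intro j
    have h1 : ((ν j).mass : ℝ≥0∞) ≤ C := by
      rw [FiniteMeasure.ennreal_mass]
      exact hcm j
    exact_mod_cast h1
  have hcomp := isCompact_setOfPred_finiteMeasure_le_of_compactSpace K C
  obtain ⟨V', hV'C, hV'⟩ := isCompact_iff_ultrafilter_le_nhds'.1 hcomp (F.map ν)
    (by
      rw [Ultrafilter.mem_map]
      exact Filter.univ_mem' hν)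
  have hten : Tendsto ν F (𝓝 V') := hV'
  rw [FiniteMeasure.tendsto_iff_forall_integral_tendsto] at hten
  refine ⟨(V' : Measure K).map Subtype.val, inferInstance, ?_, ?_, ?_⟩
  · rw [Measure.map_apply measurable_subtype_coe MeasurableSet.univ, preimage_univ]
    have h1 : ((V' : FiniteMeasure K).mass : ℝ≥0∞) ≤ C := by exact_mod_cast hV'C
    rwa [FiniteMeasure.ennreal_mass] at h1
  · rw [Measure.map_apply measurable_subtype_coe hKm.compl]
    simp
  · intro f hf
    have hfr : Continuous (K.domRestrict f) := continuousOn_iff_continuous_domRestrict.1 hf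
    let g : K →ᵇ ℝ := BoundedContinuousFunction.mkOfCompact ⟨K.domRestrict f, hfr⟩
    have h2 := hten g
    have h3 : ∀ j, ∫ x, g x ∂(ν j : Measure K) = ∫ x, f x ∂(μ j) := fun j =>
      integral_comap_subtype hKm (μ j) (hs j) f
    have h4 : ∫ x, g x ∂(V' : Measure K) = ∫ x, f x ∂((V' : Measure K).map Subtype.val) := by
      rw [(MeasurableEmbedding.subtype_coe hKm).integral_map]
      rfl
    rw [← h4]
    exact h2.congr h3

end general

end Vale.Agent.P219.End
end

section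

/-! # Slicing: functions with a thin layer `{0 < h < 1}` (task A10) -/

open MeasureTheory Set Metric
open scoped ENNReal ContDiff

namespace Vale.Agent.P219.TP

/-! ### The step function -/

/-- `(max 0 z)²/2`. -/
noncomputable def sliceQ (z : ℝ) : ℝ := (max 0 z) ^ 2 / 2

theorem slice_q_of_nonneg {z : ℝ} (h : 0 ≤ z) : sliceQ z = z ^ 2 / 2 := by
  simp [sliceQ, max_eq_right h]

theorem slice_q_of_nonpos {z : ℝ} (h : z ≤ 0) : sliceQ z = 0 := by
  simp [sliceQ, max_eq_left h]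

theorem slice_hasDerivAt_q (z : ℝ) : HasDerivAt sliceQ (max 0 z) z := by
  rcases lt_trichotomy z 0 with hz | hz | hz
  · rw [max_eq_left hz.le]
    refine (hasDerivAt_const z (0 : ℝ)).congr_of_eventuallyEq ?_
    filter_upwards [gt_mem_nhds hz] with y hy
    exact slice_q_of_nonpos hy.le
  · subst hz
    rw [max_self]
    rw [hasDerivAt_iff_isLittleO]
    have h1 : (fun x : ℝ => x ^ 2) =o[nhds 0] fun x : ℝ => x := Asymptotics.isLittleO_pow_id (by norm_num)
    have h2 : (fun x : ℝ => sliceQ x - sliceQ 0 - (x - 0) • (0 : ℝ)) =O[nhds 0] fun x : ℝ => x ^ 2 := by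
      refine Asymptotics.IsBigO.of_bound 1 (Filter.Eventually.of_forall fun x => ?_)
      have h0 : sliceQ 0 = 0 := slice_q_of_nonpos le_rfl
      simp only [h0, sub_zero, smul_zero, one_mul, Real.norm_eq_abs]
      rcases le_total 0 x with hx | hx
      · rw [slice_q_of_nonneg hx, abs_of_nonneg (by positivity), abs_of_nonneg (by positivity)]
        linarith only [sq_nonneg x]
      · rw [slice_q_of_nonpos hx, abs_zero]; positivity
    simpa using h2.trans_isLittleO h1
  · rw [max_eq_right hz.le]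
    have h1 : HasDerivAt (fun x : ℝ => x ^ 2 / 2) z z := by
      have := (hasDerivAt_pow 2 z).div_const 2
      simpa using this
    refine h1.congr_of_eventuallyEq ?_
    filter_upwards [lt_mem_nhds hz] with y hy
    exact slice_q_of_nonneg hy.le

/-- A `C¹` step: `0` for `y ≤ -1`, `1` for `y ≥ 1`. -/
noncomputable def sliceH (y : ℝ) : ℝ := sliceQ (y + 1) - 2 * sliceQ y + sliceQ (y - 1)

/-- Its derivative, the hat function. -/
noncomputable def sliceH' (y : ℝ) : ℝ := max 0 (y + 1) - 2 * max 0 y + max 0 (y - 1)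

theorem slice_hasDerivAt_H (y : ℝ) : HasDerivAt sliceH (sliceH' y) y := by
  have h1 : HasDerivAt (fun y => sliceQ (y + 1)) (max 0 (y + 1)) y :=
    (slice_hasDerivAt_q (y + 1)).comp_add_const y 1
  have h2 : HasDerivAt (fun y => sliceQ (y - 1)) (max 0 (y - 1)) y :=
    (slice_hasDerivAt_q (y - 1)).comp_sub_const y 1
  exact (h1.sub ((slice_hasDerivAt_q y).const_mul 2)).add h2

theorem slice_continuous_H' : Continuous sliceH' := by
  unfold sliceH'
  fun_prop

theorem slice_contDiff_H : ContDiff ℝ 1 sliceH := by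
  rw [contDiff_one_iff_deriv]
  refine ⟨fun y => (slice_hasDerivAt_H y).differentiableAt, ?_⟩
  have : deriv sliceH = sliceH' := funext fun y => (slice_hasDerivAt_H y).deriv
  rw [this]
  exact slice_continuous_H'

theorem slice_H_low {y : ℝ} (h : y ≤ -1) : sliceH y = 0 := by
  simp only [sliceH]
  rw [slice_q_of_nonpos (by linarith), slice_q_of_nonpos (by linarith),
    slice_q_of_nonpos (by linarith)]
  ring

theorem slice_H_high {y : ℝ} (h : 1 ≤ y) : sliceH y = 1 := by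
  simp only [sliceH]
  rw [slice_q_of_nonneg (by linarith), slice_q_of_nonneg (by linarith),
    slice_q_of_nonneg (by linarith)]
  ring

theorem slice_H_nonneg (y : ℝ) : 0 ≤ sliceH y := by
  rcases le_total y (-1) with h | h
  · exact (slice_H_low h).ge
  rcases le_total 1 y with h' | h'
  · rw [slice_H_high h']; norm_num
  simp only [sliceH]
  rw [slice_q_of_nonneg (z := y + 1) (by linarith), slice_q_of_nonpos (z := y - 1) (by linarith)]
  rcases le_total 0 y with h0 | h0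
  · rw [slice_q_of_nonneg h0]; nlinarith
  · rw [slice_q_of_nonpos h0]; linarith only [sq_nonneg (y + 1)]

theorem slice_H_le_one (y : ℝ) : sliceH y ≤ 1 := by
  rcases le_total y (-1) with h | h
  · rw [slice_H_low h]; norm_num
  rcases le_total 1 y with h' | h'
  · rw [slice_H_high h']
  simp only [sliceH]
  rw [slice_q_of_nonneg (z := y + 1) (by linarith), slice_q_of_nonpos (z := y - 1) (by linarith)]
  rcases le_total 0 y with h0 | h0
  · rw [slice_q_of_nonneg h0]; nlinarith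
  · rw [slice_q_of_nonpos h0]; nlinarith

theorem slice_H'_nonneg (y : ℝ) : 0 ≤ sliceH' y := by
  unfold sliceH'
  rcases le_total 0 (y + 1) with h1 | h1 <;> rcases le_total 0 y with h2 | h2 <;>
    rcases le_total 0 (y - 1) with h3 | h3 <;>
    simp only [max_eq_left, max_eq_right, h1, h2, h3] <;> linarith

theorem slice_layer {y : ℝ} (h0 : 0 < sliceH y) (h1 : sliceH y < 1) : -1 < y ∧ y < 1 := by
  constructor
  · by_contra h; push Not at h; rw [slice_H_low h] at h0; exact lt_irrefl _ h0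
  · by_contra h; push Not at h; rw [slice_H_high h] at h1; exact lt_irrefl _ h1

theorem slice_sum_H' (y : ℝ) (N : ℕ) :
    ∑ k ∈ Finset.range N, sliceH' (y - (k + 1 : ℕ)) =
      (max 0 y - max 0 (y - 1)) - (max 0 (y - N) - max 0 (y - (N + 1 : ℕ))) := by
  induction N with
  | zero => simp
  | succ N ih =>
    rw [Finset.sum_range_succ, ih]
    simp only [sliceH']
    push_cast
    have e1 : y - ((N : ℝ) + 1) + 1 = y - N := by ring
    have e2 : y - ((N : ℝ) + 1) - 1 = y - (N + 1 + 1) := by ring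
    rw [e1, e2]
    ring

theorem slice_sum_H'_le (y : ℝ) (N : ℕ) :
    ∑ k ∈ Finset.range N, sliceH' (y - (k + 1 : ℕ)) ≤ 1 := by
  rw [slice_sum_H']
  have h1 : max 0 y ≤ max 0 (y - 1) + 1 := by
    rcases le_total 0 y with h | h
    · rw [max_eq_right h]; linarith [le_max_right 0 (y - 1)]
    · rw [max_eq_left h]; linarith [le_max_left 0 (y - 1)]
  have h2 : max 0 (y - (N + 1 : ℕ)) ≤ max 0 (y - N) := by
    apply max_le_max le_rfl
    push_cast
    linarith
  linarith

/-! ### Levels of a function of the class -/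

variable {n : ℕ} (G : Geo n)

theorem slice_continuous_D {h : E n → ℝ} (hh : ContDiff ℝ 1 h) : Continuous (G.D h) := by
  unfold Geo.D
  exact (InnerProductSpace.toDual ℝ (E n)).symm.continuous.comp
    ((hh.continuous_fderiv one_ne_zero).clm_comp G.A_smooth.continuous)

theorem slice_hcs {o : E n} {ρ : ℝ} {h : E n → ℝ} (hc : G.Cls o ρ h) : HasCompactSupport h :=
  HasCompactSupport.intro (G.isCompact_gball o ρ) fun x hx => by
    by_contra h0
    exact hx (hc.supp x h0)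

theorem slice_integrable_D {o : E n} {ρ : ℝ} {h : E n → ℝ} (hc : G.Cls o ρ h) :
    Integrable (fun x => ‖G.D h x‖) G.vol := by
  apply ((slice_continuous_D G hc.smooth).norm).integrable_of_hasCompactSupport
  refine ((slice_hcs G hc).fderiv ℝ).mono ?_
  intro x hx
  rw [Function.mem_support] at hx ⊢
  intro h0
  apply hx
  simp [Geo.D, h0]

theorem slice_D_comp {h : E n → ℝ} (hh : ContDiff ℝ 1 h) (M k : ℝ) (x : E n) :
    G.D (fun x => sliceH (M * h x - k)) x = (sliceH' (M * h x - k) * M) • G.D h x := by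
  refine ext_inner_right ℝ fun v => ?_
  rw [G.inner_D, real_inner_smul_left, G.inner_D]
  have h1 : HasFDerivAt h (fderiv ℝ h x) x := (hh.differentiable one_ne_zero x).hasFDerivAt
  have h2 : HasFDerivAt (fun x => M * h x - k) (M • fderiv ℝ h x) x :=
    (h1.const_mul M).sub_const k
  have h3 := (slice_hasDerivAt_H (M * h x - k)).comp_hasFDerivAt x h2
  have h4 : fderiv ℝ (fun x => sliceH (M * h x - k)) x =
      sliceH' (M * h x - k) • M • fderiv ℝ h x := h3.fderiv
  rw [h4]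
  simp [mul_assoc]

theorem slice_cls {o : E n} {ρ : ℝ} {h : E n → ℝ} (hc : G.Cls o ρ h) (M : ℝ) (k : ℕ) :
    G.Cls o ρ (fun x => sliceH (M * h x - (k + 1 : ℕ))) where
  smooth := slice_contDiff_H.comp ((contDiff_const.mul hc.smooth).sub contDiff_const)
  nonneg x := slice_H_nonneg _
  le_one x := slice_H_le_one _
  supp x hx := by
    apply hc.supp x
    intro h0
    apply hx
    rw [h0, mul_zero]
    apply slice_H_low
    push_cast
    have : (0 : ℝ) ≤ k := k.cast_nonneg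
    linarith

theorem slice_per_sum {o : E n} {ρ : ℝ} {h : E n → ℝ} (hc : G.Cls o ρ h) {M : ℝ} (hM : 0 ≤ M)
    (N : ℕ) :
    ∑ k ∈ Finset.range N, G.per (fun x => sliceH (M * h x - (k + 1 : ℕ))) ≤ M * G.per h := by
  unfold Geo.per
  rw [← integral_finsetSum _ fun k _ => slice_integrable_D G (slice_cls G hc M k),
    ← integral_const_mul]
  apply integral_mono
  · exact integrable_finsetSum _ fun k _ => slice_integrable_D G (slice_cls G hc M k)
  · exact (slice_integrable_D G hc).const_mul M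
  intro x
  simp only
  have : ∀ k : ℕ, ‖G.D (fun x => sliceH (M * h x - (k + 1 : ℕ))) x‖ =
      sliceH' (M * h x - (k + 1 : ℕ)) * (M * ‖G.D h x‖) := by
    intro k
    rw [slice_D_comp G hc.smooth, norm_smul, Real.norm_of_nonneg
      (mul_nonneg (slice_H'_nonneg _) hM), mul_assoc]
  simp only [this]
  rw [← Finset.sum_mul]
  have h1 := slice_sum_H'_le (M * h x) N
  have h2 : 0 ≤ M * ‖G.D h x‖ := by positivity
  linarith only [mul_nonneg (sub_nonneg.2 h1) (sub_nonneg.2 h2)]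

/-! ### The norm -/

theorem slice_vol_ball_lt (o : E n) (ρ : ℝ) : G.vol {x | ‖G.lg o x‖ ≤ ρ} < ⊤ :=
  (G.isCompact_gball o ρ).measure_lt_top

theorem slice_meas_ball (o : E n) (ρ : ℝ) : MeasurableSet {x | ‖G.lg o x‖ ≤ ρ} :=
  (G.isCompact_gball o ρ).isClosed.measurableSet

/-- Each point is in at most two layers. -/
theorem slice_layer_sum {o : E n} {ρ : ℝ} {h : E n → ℝ} (hc : G.Cls o ρ h) {M : ℝ} (hM : 0 ≤ M)
    (N : ℕ) :
    ∑ k ∈ Finset.range N, G.vol.real {x | 0 < sliceH (M * h x - (k + 1 : ℕ)) ∧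
      sliceH (M * h x - (k + 1 : ℕ)) < 1} ≤ 2 * G.vol.real {x | ‖G.lg o x‖ ≤ ρ} := by
  set B : Set (E n) := {x | ‖G.lg o x‖ ≤ ρ} with hB
  set hk : ℕ → E n → ℝ := fun k x => sliceH (M * h x - (k + 1 : ℕ)) with hhk
  have hcls : ∀ k, G.Cls o ρ (hk k) := fun k => slice_cls G hc M k
  set L : ℕ → Set (E n) := fun k => {x | 0 < hk k x ∧ hk k x < 1} with hL
  have hLm : ∀ k, MeasurableSet (L k) := fun k =>
    (measurableSet_lt measurable_const (hcls k).smooth.continuous.measurable).inter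
      (measurableSet_lt (hcls k).smooth.continuous.measurable measurable_const)
  have hLB : ∀ k, L k ⊆ B := fun k x hx => (hcls k).supp x hx.1.ne'
  have hLfin : ∀ k, G.vol (L k) < ⊤ := fun k =>
    (measure_mono (hLB k)).trans_lt (slice_vol_ball_lt G o ρ)
  have hcount : ∀ x, ∑ k ∈ Finset.range N, (L k).indicator (1 : E n → ℝ) x ≤
      2 * B.indicator (1 : E n → ℝ) x := by
    intro x
    by_cases hx : x ∈ B
    · rw [indicator_of_mem hx, Pi.one_apply, mul_one]
      set y := M * h x with hy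
      have hy0 : 0 ≤ y := mul_nonneg hM (hc.nonneg x)
      have h1 : ∑ k ∈ Finset.range N, (L k).indicator (1 : E n → ℝ) x ≤
          ∑ k ∈ Finset.range N, if k ∈ Finset.Icc (⌊y⌋₊ - 1) ⌊y⌋₊ then (1 : ℝ) else 0 := by
        apply Finset.sum_le_sum
        intro k _
        by_cases hk1 : x ∈ L k
        · rw [indicator_of_mem hk1]
          have h2 := slice_layer hk1.1 hk1.2
          have h3 : (k : ℝ) < y := by
            have := h2.1
            push_cast at this
            linarith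
          have h4 : y < (k : ℝ) + 2 := by
            have := h2.2
            push_cast at this
            linarith
          have h5 : k ≤ ⌊y⌋₊ := Nat.le_floor h3.le
          have h6 : ⌊y⌋₊ < k + 2 := by
            rw [Nat.floor_lt hy0]
            push_cast
            exact h4
          rw [if_pos (Finset.mem_Icc.mpr ⟨by omega, h5⟩)]
          simp
        · rw [indicator_of_notMem hk1]
          split_ifs <;> norm_num
      refine h1.trans ?_
      rw [← Finset.sum_filter, Finset.sum_const, nsmul_eq_mul, mul_one]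
      have h7 : (Finset.filter (fun k => k ∈ Finset.Icc (⌊y⌋₊ - 1) ⌊y⌋₊) (Finset.range N)).card ≤
          2 := by
        calc _ ≤ (Finset.Icc (⌊y⌋₊ - 1) ⌊y⌋₊).card := by
              apply Finset.card_le_card
              intro k hk2
              exact (Finset.mem_filter.mp hk2).2
          _ ≤ 2 := by
              rw [Nat.card_Icc]
              omega
      exact_mod_cast h7
    · rw [indicator_of_notMem hx, mul_zero]
      apply Finset.sum_nonpos
      intro k _
      rw [indicator_of_notMem fun hk1 => hx (hLB k hk1)]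
  have hint : ∀ k, Integrable ((L k).indicator (1 : E n → ℝ)) G.vol := fun k =>
    (integrable_indicator_iff (hLm k)).mpr (integrableOn_const (hLfin k).ne)
  have hintB : Integrable (B.indicator (1 : E n → ℝ)) G.vol :=
    (integrable_indicator_iff (slice_meas_ball G o ρ)).mpr
      (integrableOn_const (slice_vol_ball_lt G o ρ).ne)
  have hfin := integral_mono (integrable_finsetSum (Finset.range N) fun k _ => hint k)
    (hintB.const_mul 2) hcount
  rw [integral_finsetSum _ fun k _ => hint k, integral_const_mul,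
    integral_indicator_one (slice_meas_ball G o ρ)] at hfin
  simpa only [integral_indicator_one (hLm _)] using hfin

end Vale.Agent.P219.TP
end

section

/-!
# P219, all dimensions: the unit bundle measure of `|dh|` and its limits

`bm G h` is the image of `|dh| dvol` under `x ↦ (x, ν(x))`, where `ν = -D h / |D h|` is the
outward unit normal (in the frame) of the superlevel sets of `h`.
-/

open MeasureTheory Set Filter Topology Metric
open scoped ENNReal NNReal ContDiff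

namespace Vale.Agent.P219.End

open Vale.Agent.P219.TP

variable {n : ℕ} (G : Geo n)

/-- Outward unit normal of the superlevel sets of `h`, in the frame. -/
noncomputable def nrm (h : _root_.Vale.Agent.P219.TP.E n → ℝ) (x : _root_.Vale.Agent.P219.TP.E n) : _root_.Vale.Agent.P219.TP.E n := -(‖G.D h x‖⁻¹ • G.D h x)

/-- The measure `(x, ν(x))_# (|dh| dvol)` on `E n × E n`. -/
noncomputable def bm (h : _root_.Vale.Agent.P219.TP.E n → ℝ) : Measure (_root_.Vale.Agent.P219.TP.E n × _root_.Vale.Agent.P219.TP.E n) :=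
  (G.vol.withDensity fun x => ENNReal.ofReal ‖G.D h x‖).map fun x => (x, nrm G h x)

/-- The unit bundle over the closed geodesic ball. -/
def KS (o : _root_.Vale.Agent.P219.TP.E n) (ρ : ℝ) : Set (_root_.Vale.Agent.P219.TP.E n × _root_.Vale.Agent.P219.TP.E n) := {x | ‖G.lg o x‖ ≤ ρ} ×ˢ sphere (0 : _root_.Vale.Agent.P219.TP.E n) 1

theorem isCompact_KS (o : _root_.Vale.Agent.P219.TP.E n) (ρ : ℝ) : IsCompact (KS G o ρ) :=
  (G.isCompact_gball o ρ).prod (isCompact_sphere _ _)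

theorem norm_nrm {h : _root_.Vale.Agent.P219.TP.E n → ℝ} {x : _root_.Vale.Agent.P219.TP.E n} (hx : G.D h x ≠ 0) : ‖nrm G h x‖ = 1 := by
  unfold nrm
  rw [norm_neg, norm_smul, norm_inv, norm_norm, inv_mul_cancel₀ (norm_ne_zero_iff.2 hx)]

/-- `D h = - |D h| ν`. -/
theorem D_eq_nrm (h : _root_.Vale.Agent.P219.TP.E n → ℝ) (x : _root_.Vale.Agent.P219.TP.E n) : G.D h x = -(‖G.D h x‖ • nrm G h x) := by
  unfold nrm
  rcases eq_or_ne (G.D h x) 0 with h0 | h0
  · simp [h0]
  · rw [smul_neg, neg_neg, smul_smul, mul_inv_cancel₀ (norm_ne_zero_iff.2 h0), one_smul]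

theorem measurable_nrm {h : _root_.Vale.Agent.P219.TP.E n → ℝ} (hh : ContDiff ℝ 1 h) : Measurable (nrm G h) := by
  have h1 : Measurable (G.D h) := (slice_continuous_D G hh).measurable
  unfold nrm
  exact (h1.norm.inv.smul h1).neg

theorem D_eq_zero_of_notMem {o : _root_.Vale.Agent.P219.TP.E n} {ρ : ℝ} {h : _root_.Vale.Agent.P219.TP.E n → ℝ} (hc : G.Cls o ρ h) {x : _root_.Vale.Agent.P219.TP.E n}
    (hx : ρ < ‖G.lg o x‖) : G.D h x = 0 := by
  have hcont : Continuous fun y => ‖G.lg o y‖ :=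
    (G.lg_smooth.continuous.comp (continuous_const.prodMk continuous_id)).norm
  have hopen : {y | ρ < ‖G.lg o y‖} ∈ 𝓝 x :=
    (isOpen_lt continuous_const hcont).mem_nhds hx
  have heq : h =ᶠ[𝓝 x] fun _ => 0 := by
    filter_upwards [hopen] with y hy
    by_contra h0
    exact absurd (hc.supp y h0) (not_le.2 hy)
  unfold Geo.D
  rw [heq.fderiv_eq]
  simp

/-- The measure `|dh| dvol`. -/
noncomputable def dm (h : _root_.Vale.Agent.P219.TP.E n → ℝ) : Measure (_root_.Vale.Agent.P219.TP.E n) :=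
  G.vol.withDensity fun x => ENNReal.ofReal ‖G.D h x‖

theorem dm_univ {o : _root_.Vale.Agent.P219.TP.E n} {ρ : ℝ} {h : _root_.Vale.Agent.P219.TP.E n → ℝ} (hc : G.Cls o ρ h) :
    dm G h univ = ENNReal.ofReal (G.per h) := by
  unfold dm Geo.per
  rw [withDensity_apply _ MeasurableSet.univ, Measure.restrict_univ,
    ofReal_integral_eq_lintegral_ofReal (slice_integrable_D G hc)
      (Filter.Eventually.of_forall fun x => norm_nonneg _)]

theorem bm_eq (h : _root_.Vale.Agent.P219.TP.E n → ℝ) : bm G h = (dm G h).map fun x => (x, nrm G h x) := rfl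

theorem measurable_pair {h : _root_.Vale.Agent.P219.TP.E n → ℝ} (hh : ContDiff ℝ 1 h) :
    Measurable fun x => (x, nrm G h x) := measurable_id.prodMk (measurable_nrm G hh)

theorem bm_univ {o : _root_.Vale.Agent.P219.TP.E n} {ρ : ℝ} {h : _root_.Vale.Agent.P219.TP.E n → ℝ} (hc : G.Cls o ρ h) :
    bm G h univ = ENNReal.ofReal (G.per h) := by
  rw [bm_eq, Measure.map_apply (measurable_pair G hc.smooth) MeasurableSet.univ, preimage_univ,
    dm_univ G hc]

theorem isFiniteMeasure_bm {o : _root_.Vale.Agent.P219.TP.E n} {ρ : ℝ} {h : _root_.Vale.Agent.P219.TP.E n → ℝ} (hc : G.Cls o ρ h) :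
    IsFiniteMeasure (bm G h) := ⟨by rw [bm_univ G hc]; exact ENNReal.ofReal_lt_top⟩

/-- The measure `|dh| dvol` does not charge the critical points. -/
theorem ae_dm_D_ne {h : _root_.Vale.Agent.P219.TP.E n → ℝ} (hh : ContDiff ℝ 1 h) : ∀ᵐ x ∂(dm G h), G.D h x ≠ 0 := by
  unfold dm
  rw [ae_withDensity_iff ((slice_continuous_D G hh).norm.measurable.ennreal_ofReal)]
  refine Filter.Eventually.of_forall fun x hx h0 => hx ?_
  rw [h0, norm_zero, ENNReal.ofReal_zero]

theorem bm_compl {o : _root_.Vale.Agent.P219.TP.E n} {ρ : ℝ} {h : _root_.Vale.Agent.P219.TP.E n → ℝ} (hc : G.Cls o ρ h) :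
    bm G h (KS G o ρ)ᶜ = 0 := by
  rw [bm_eq, Measure.map_apply (measurable_pair G hc.smooth)
    (isCompact_KS G o ρ).measurableSet.compl]
  rw [← nonpos_iff_eq_zero]
  have h1 := ae_dm_D_ne G hc.smooth
  rw [ae_iff] at h1
  refine (measure_mono ?_).trans h1.le
  intro x hx
  simp only [mem_ofPred_eq, not_not]
  by_contra h0
  apply hx
  refine ⟨?_, ?_⟩
  · simp only [mem_ofPred_eq]
    by_contra h2
    exact h0 (D_eq_zero_of_notMem G hc (not_le.1 h2))
  · rw [mem_sphere_zero_iff_norm]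
    exact norm_nrm G h0

/-- Integration against the bundle measure. -/
theorem integral_bm {o : _root_.Vale.Agent.P219.TP.E n} {ρ : ℝ} {h : _root_.Vale.Agent.P219.TP.E n → ℝ} (hc : G.Cls o ρ h)
    {f : _root_.Vale.Agent.P219.TP.E n × _root_.Vale.Agent.P219.TP.E n → ℝ} (hf : ContinuousOn f (KS G o ρ)) :
    ∫ z, f z ∂(bm G h) = ∫ x, f (x, nrm G h x) * ‖G.D h x‖ ∂G.vol := by
  have := isFiniteMeasure_bm G hc
  have h1 : Integrable f (bm G h) :=
    integrable_of_continuousOn (isCompact_KS G o ρ) (bm_compl G hc) hf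
  rw [bm_eq] at h1 ⊢
  rw [integral_map (measurable_pair G hc.smooth).aemeasurable h1.1]
  unfold dm
  rw [integral_withDensity_eq_integral_toReal_smul₀
    ((slice_continuous_D G hc.smooth).norm.measurable.ennreal_ofReal.aemeasurable)
    (Filter.Eventually.of_forall fun x => ENNReal.ofReal_lt_top)]
  refine integral_congr_ae (Filter.Eventually.of_forall fun x => ?_)
  simp only
  rw [ENNReal.toReal_ofReal (norm_nonneg _), smul_eq_mul, mul_comm]

/-- Limit along an ultrafilter. -/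
theorem exists_limit_ultra {o : _root_.Vale.Agent.P219.TP.E n} {ρ : ℝ} {ι : Type*} (U : Ultrafilter ι) (h : ι → _root_.Vale.Agent.P219.TP.E n → ℝ)
    (hc : ∀ j, G.Cls o ρ (h j)) {C : ℝ} (hC : ∀ j, G.per (h j) ≤ C) :
    ∃ V : Measure (_root_.Vale.Agent.P219.TP.E n × _root_.Vale.Agent.P219.TP.E n), IsFiniteMeasure V ∧ V (KS G o ρ)ᶜ = 0 ∧
      ∀ f : _root_.Vale.Agent.P219.TP.E n × _root_.Vale.Agent.P219.TP.E n → ℝ, ContinuousOn f (KS G o ρ) →
        Tendsto (fun j => ∫ x, f (x, nrm G (h j) x) * ‖G.D (h j) x‖ ∂G.vol) U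
          (𝓝 (∫ z, f z ∂V)) := by
  obtain ⟨V, h1, _, h3, h4⟩ := exists_limit_measure U (fun j => bm G (h j)) C.toNNReal
    (isCompact_KS G o ρ) (fun j => by
      rw [bm_univ G (hc j)]
      exact ENNReal.ofReal_le_ofReal (hC j)) (fun j => bm_compl G (hc j))
  refine ⟨V, h1, h3, fun f hf => ?_⟩
  exact (h4 f hf).congr fun j => integral_bm G (hc j) hf

end Vale.Agent.P219.End
end

section

/-! # Cut-off of the contraction rate (task H6) -/

open MeasureTheory Set Metric
open scoped ENNReal ContDiff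

namespace Vale.Agent.P219.TPH

open Vale.Agent.P219.TP

variable {n : ℕ}

end Vale.Agent.P219.TPH
end

section

/-! # The line theorem (task H11) -/

open MeasureTheory Set Metric
open scoped ENNReal ContDiff

namespace Vale.Agent.P219.TPH


end Vale.Agent.P219.TPH
end

section

/-! # Linear differential equations on the whole line -/

open Set
open scoped ContDiff

set_option linter.unusedSectionVars false

namespace Vale.Agent.P219.CH

variable {W : Type} [NormedAddCommGroup W] [NormedSpace ℝ W] [CompleteSpace W]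

/-- The terms of the Volterra series. -/
noncomputable def OdeVol (A : ℝ → W →L[ℝ] W) : ℕ → ℝ → W →L[ℝ] W
  | 0 => fun _ => ContinuousLinearMap.id ℝ W
  | n + 1 => fun t => ∫ s in (0 : ℝ)..t, (A s).comp (OdeVol A n s)

theorem Ode_cont {A : ℝ → W →L[ℝ] W} (hA : Continuous A) (n : ℕ) : Continuous (OdeVol A n) := by
  induction n with
  | zero => exact continuous_const
  | succ n ih =>
    exact intervalIntegral.continuous_primitive
      (fun a b => (hA.clm_comp ih).intervalIntegrable a b) 0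

theorem Ode_deriv {A : ℝ → W →L[ℝ] W} (hA : Continuous A) (n : ℕ) (t : ℝ) :
    HasDerivAt (OdeVol A (n + 1)) ((A t).comp (OdeVol A n t)) t := by
  have hc : Continuous fun s => (A s).comp (OdeVol A n s) := hA.clm_comp (Ode_cont hA n)
  exact intervalIntegral.integral_hasDerivAt_right (hc.intervalIntegrable 0 t)
    (hc.stronglyMeasurableAtFilter _ _) hc.continuousAt

theorem Ode_bound {A : ℝ → W →L[ℝ] W} (hA : Continuous A) {T M : ℝ}
    (hM : ∀ s, |s| ≤ T → ‖A s‖ ≤ M) (n : ℕ) (t : ℝ) (ht : |t| ≤ T) :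
    ‖OdeVol A n t‖ ≤ M ^ n * |t| ^ n / n.factorial := by
  induction n generalizing t with
  | zero => simpa [OdeVol] using ContinuousLinearMap.norm_id_le (𝕜 := ℝ) (E := W)
  | succ n ih =>
    have hM0 : 0 ≤ M := (norm_nonneg _).trans (hM t ht)
    have hc : Continuous fun s => (A s).comp (OdeVol A n s) := hA.clm_comp (Ode_cont hA n)
    have h1 : ‖OdeVol A (n + 1) t‖ ≤ ∫ s in uIoc (0 : ℝ) t, ‖(A s).comp (OdeVol A n s)‖ :=
      intervalIntegral.norm_integral_le_integral_norm_uIoc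
    have h2 : ∫ s in uIoc (0 : ℝ) t, ‖(A s).comp (OdeVol A n s)‖ ≤
        ∫ s in uIoc (0 : ℝ) t, M ^ (n + 1) / n.factorial * |s - 0| ^ n := by
      refine MeasureTheory.setIntegral_mono_on ?_ ?_ measurableSet_uIoc fun s hs => ?_
      · exact (hc.norm.intervalIntegrable 0 t).def'
      · have : Continuous fun s : ℝ => M ^ (n + 1) / n.factorial * |s - 0| ^ n := by fun_prop
        exact (this.intervalIntegrable 0 t).def'
      · have hs' : |s| ≤ |t| := by
          have := Set.abs_sub_left_of_mem_uIcc (uIoc_subset_uIcc hs)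
          simpa using this
        calc ‖(A s).comp (OdeVol A n s)‖ ≤ ‖A s‖ * ‖OdeVol A n s‖ :=
              ContinuousLinearMap.opNorm_comp_le _ _
          _ ≤ M * (M ^ n * |s| ^ n / n.factorial) :=
              mul_le_mul (hM s (hs'.trans ht)) (ih s (hs'.trans ht)) (norm_nonneg _) hM0
          _ = M ^ (n + 1) / n.factorial * |s - 0| ^ n := by
              rw [sub_zero]
              ring
    have h3 : ∫ s in uIoc (0 : ℝ) t, M ^ (n + 1) / n.factorial * |s - 0| ^ n =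
        M ^ (n + 1) * |t| ^ (n + 1) / (n + 1).factorial := by
      rw [MeasureTheory.integral_const_mul, integral_pow_abs_sub_uIoc, sub_zero,
        Nat.factorial_succ]
      push_cast
      have : (n.factorial : ℝ) ≠ 0 := by positivity
      field_simp
    exact (h1.trans h2).trans h3.le

/-- The fundamental solution of `P' = A P`. -/
theorem exists_fundamental {A : ℝ → W →L[ℝ] W} (hA : ContDiff ℝ ∞ A) :
    ∃ P : ℝ → W →L[ℝ] W, ContDiff ℝ ∞ P ∧ P 0 = ContinuousLinearMap.id ℝ W ∧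
      ∀ t, HasDerivAt P ((A t).comp (P t)) t := by
  have hc := hA.continuous
  have hbd : ∀ T : ℝ, ∃ M : ℝ, 0 ≤ M ∧ ∀ s, |s| ≤ T → ‖A s‖ ≤ M := by
    intro T
    obtain ⟨M, hM⟩ := (isCompact_Icc (a := -T) (b := T)).exists_bound_of_continuousOn
      hc.continuousOn
    exact ⟨max M 0, le_max_right _ _, fun s hs => (hM s (abs_le.1 hs)).trans (le_max_left _ _)⟩
  have hsum : ∀ (M T : ℝ), Summable fun n : ℕ => M ^ n * T ^ n / n.factorial := by
    intro M T
    have := Real.summable_pow_div_factorial (M * T)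
    simpa [mul_pow] using this
  have hs : ∀ t, Summable fun n => OdeVol A n t := by
    intro t
    obtain ⟨M, -, hM⟩ := hbd |t|
    exact Summable.of_norm_bounded (hsum M |t|) fun n => Ode_bound hc hM n t le_rfl
  have hd : ∀ t, HasDerivAt (fun z => ∑' n, OdeVol A n z) ((A t).comp (∑' n, OdeVol A n t)) t := by
    intro t
    obtain ⟨M, hM0, hM⟩ := hbd (|t| + 1)
    set g' : ℕ → ℝ → W →L[ℝ] W := fun n y => match n with
      | 0 => 0
      | n + 1 => (A y).comp (OdeVol A n y) with hg'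
    have hu : Summable fun n : ℕ => match n with
      | 0 => (0 : ℝ)
      | n + 1 => M * (M ^ n * (|t| + 1) ^ n / n.factorial) := by
      rw [← summable_nat_add_iff 1]
      exact (hsum M (|t| + 1)).mul_left M
    have h1 := hasDerivAt_tsum_of_isPreconnected (g := OdeVol A) (g' := g') (y := t) (y₀ := t)
      (t := Ioo (-(|t| + 1)) (|t| + 1)) hu isOpen_Ioo isPreconnected_Ioo ?_ ?_ ?_ (hs t) ?_
    · have h2 : Summable fun n => g' n t := by
        rw [← summable_nat_add_iff 1]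
        exact ((ContinuousLinearMap.compL ℝ W W W (A t)).summable (hs t))
      refine h1.congr_deriv ?_
      rw [h2.tsum_eq_zero_add]
      simp only [hg', zero_add]
      exact ((ContinuousLinearMap.compL ℝ W W W (A t)).map_tsum (hs t)).symm
    · intro n y _
      cases n with
      | zero => exact hasDerivAt_const y _
      | succ n => exact Ode_deriv hc n y
    · intro n y hy
      have hy' : |y| ≤ |t| + 1 := abs_le.2 ⟨hy.1.le, hy.2.le⟩
      cases n with
      | zero => simp [hg']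
      | succ n =>
        refine (ContinuousLinearMap.opNorm_comp_le _ _).trans ?_
        refine mul_le_mul (hM y hy') ((Ode_bound hc hM n y hy').trans ?_) (norm_nonneg _) hM0
        gcongr
    · exact ⟨by linarith [neg_abs_le t], by linarith [le_abs_self t]⟩
    · exact ⟨by linarith [neg_abs_le t], by linarith [le_abs_self t]⟩
  refine ⟨fun t => ∑' n, OdeVol A n t, ?_, ?_, hd⟩
  · rw [contDiff_infty]
    intro m
    induction m with
    | zero =>
      exact contDiff_zero.2 (continuous_iff_continuousAt.2 fun t => (hd t).continuousAt)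
    | succ m ih =>
      push_cast
      rw [contDiff_succ_iff_deriv]
      refine ⟨fun t => (hd t).differentiableAt, by simp, ?_⟩
      have : deriv (fun z => ∑' n, OdeVol A n z) = fun t => (A t).comp (∑' n, OdeVol A n t) :=
        funext fun t => (hd t).deriv
      rw [this]
      exact (hA.of_le (by exact_mod_cast le_top)).clm_comp ih
  · have h0 : ∀ n, OdeVol A (n + 1) 0 = 0 := fun n => by simp [OdeVol]
    show ∑' n, OdeVol A n 0 = _
    rw [(hs 0).tsum_eq_zero_add]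
    simp only [h0, tsum_zero, add_zero]
    rfl

end Vale.Agent.P219.CH
end

section

/-!
Geodesic flow of a metric `G` on a finite dimensional space `V` (one global chart).
-/

open Set Filter Topology
open scoped ContDiff
open Vale.Agent.P255

noncomputable section

namespace Vale.Agent.P219.CH

variable {V : Type} [NormedAddCommGroup V] [NormedSpace ℝ V]

/-- geodesic completeness: the geodesic vector field has a global integral curve through every
point -/
def GeoComplete (G : V → V →L[ℝ] V →L[ℝ] ℝ) : Prop :=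
  ∀ z : V × V, ∃ c : ℝ → V × V, c 0 = z ∧ ∀ t, HasDerivAt c (geoField G (c t)) t

/-- the global geodesic flow -/
structure GFlow (G : V → V →L[ℝ] V →L[ℝ] ℝ) where
  /-- the flow -/
  Φ : ℝ → V × V → V × V
  smooth : ContDiff ℝ ∞ fun q : ℝ × (V × V) => Φ q.1 q.2
  zero : ∀ z, Φ 0 z = z
  eqn : ∀ t z, HasDerivAt (fun s => Φ s z) (geoField G (Φ t z)) t
  uniq : ∀ c : ℝ → V × V, (∀ t, HasDerivAt c (geoField G (c t)) t) → ∀ t, c t = Φ t (c 0)

namespace GFlow

variable {G : V → V →L[ℝ] V →L[ℝ] ℝ} (F : GFlow G)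

/-- the exponential map -/
def ex (x v : V) : V := (F.Φ 1 (x, v)).1

/-- the velocity of the geodesic with initial velocity `v` at time `t` -/
def vel (t : ℝ) (x v : V) : V := (F.Φ t (x, v)).2

end GFlow

end Vale.Agent.P219.CH
end
end

section

/-!
Elementary properties of the geodesic flow.
-/

open Set Filter Topology
open scoped ContDiff
open Vale.Agent.P255

noncomputable section

namespace Vale.Agent.P219.CH

variable {V : Type} [NormedAddCommGroup V] [NormedSpace ℝ V]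
variable {G : V → V →L[ℝ] V →L[ℝ] ℝ}

theorem hasDerivAt_fst' {f : ℝ → V × V} {f' : V × V} {t : ℝ} (h : HasDerivAt f f' t) :
    HasDerivAt (fun s => (f s).1) f'.1 t :=
  (ContinuousLinearMap.fst ℝ V V).hasFDerivAt.comp_hasDerivAt t h

theorem hasDerivAt_snd' {f : ℝ → V × V} {f' : V × V} {t : ℝ} (h : HasDerivAt f f' t) :
    HasDerivAt (fun s => (f s).2) f'.2 t :=
  (ContinuousLinearMap.snd ℝ V V).hasFDerivAt.comp_hasDerivAt t h

namespace GFlow

variable (F : GFlow G)

theorem add (s t : ℝ) (z : V × V) : F.Φ (s + t) z = F.Φ t (F.Φ s z) := by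
  have h := F.uniq (fun r => F.Φ (s + r) z) (fun r => by
    have h1 := F.eqn (s + r) z
    exact h1.comp_const_add s r) t
  simpa using h

variable [FiniteDimensional ℝ V]

omit [FiniteDimensional ℝ V] in
theorem smul_aux (t c : ℝ) (x v : V) :
    F.Φ t (x, c • v) = ((F.Φ (c * t) (x, v)).1, c • (F.Φ (c * t) (x, v)).2) := by
  have h := F.uniq (fun r => ((F.Φ (c * r) (x, v)).1, c • (F.Φ (c * r) (x, v)).2)) (fun r => by
    have h1 : HasDerivAt (fun r => F.Φ (c * r) (x, v)) (c • geoField G (F.Φ (c * r) (x, v))) r := by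
      have h2 : HasDerivAt (fun r : ℝ => c * r) c r := by
        simpa using (hasDerivAt_id r).const_mul c
      exact (F.eqn (c * r) (x, v)).scomp r h2
    have h3 : HasDerivAt (fun r => (F.Φ (c * r) (x, v)).1)
        (c • (F.Φ (c * r) (x, v)).2) r := hasDerivAt_fst' h1
    have h4 : HasDerivAt (fun r => (F.Φ (c * r) (x, v)).2)
        (c • (- chris G (F.Φ (c * r) (x, v)).1 (F.Φ (c * r) (x, v)).2
          (F.Φ (c * r) (x, v)).2)) r := hasDerivAt_snd' h1
    have h5 := h3.prodMk (h4.const_smul c)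
    refine h5.congr_deriv ?_
    simp only [geoField, chris_smul_left, chris_smul_right, smul_neg]) t
  rw [h]
  simp [F.zero]

theorem smul (h : IsMetricOn G univ) (t c : ℝ) (x v : V) :
    F.Φ t (x, c • v) = ((F.Φ (c * t) (x, v)).1, c • (F.Φ (c * t) (x, v)).2) :=
  F.smul_aux t c x v

theorem fst_eq (h : IsMetricOn G univ) (t : ℝ) (x v : V) : (F.Φ t (x, v)).1 = F.ex x (t • v) := by
  rw [ex, F.smul h, mul_one]

theorem ex_zero (h : IsMetricOn G univ) (x : V) : F.ex x 0 = x := by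
  have h1 := F.fst_eq h 0 x 0
  rw [F.zero, zero_smul] at h1
  exact h1.symm

omit [FiniteDimensional ℝ V] in
theorem ex_smooth : ContDiff ℝ ∞ fun q : V × V => F.ex q.1 q.2 := by
  have h1 : ContDiff ℝ ∞ fun q : V × V => ((1 : ℝ), q) := contDiff_const.prodMk contDiff_id
  exact contDiff_fst.comp (F.smooth.comp h1)

omit [FiniteDimensional ℝ V] in
theorem vel_smooth : ContDiff ℝ ∞ fun q : ℝ × V × V => F.vel q.1 q.2.1 q.2.2 :=
  contDiff_snd.comp F.smooth

/-- the velocity of `t ↦ ex x (t v)` -/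
theorem fderiv_ray (h : IsMetricOn G univ) (x v : V) (t : ℝ) :
    fderiv ℝ (F.ex x) (t • v) v = F.vel t x v := by
  have h1 : ContDiff ℝ ∞ (F.ex x) := by
    have h2 : ContDiff ℝ ∞ fun w : V => (x, w) := contDiff_const.prodMk contDiff_id
    exact F.ex_smooth.comp h2
  have h3 : HasFDerivAt (F.ex x) (fderiv ℝ (F.ex x) (t • v)) (t • v) :=
    (h1.differentiable (by simp)).differentiableAt.hasFDerivAt
  have h4 : HasDerivAt (fun s : ℝ => s • v) v t := by
    simpa using (hasDerivAt_id t).smul_const v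
  have h5 : HasDerivAt (fun s : ℝ => F.ex x (s • v)) (fderiv ℝ (F.ex x) (t • v) v) t := by
    exact HasFDerivAt.comp_hasDerivAt (f := fun s : ℝ => s • v) t h3 h4
  have h6 : HasDerivAt (fun s : ℝ => F.ex x (s • v)) (F.vel t x v) t := by
    have h7 : (fun s : ℝ => F.ex x (s • v)) = fun s => (F.Φ s (x, v)).1 :=
      funext fun s => (F.fst_eq h s x v).symm
    rw [h7]
    exact hasDerivAt_fst' (F.eqn t (x, v))
  exact h5.unique h6

theorem flow_eq (h : IsMetricOn G univ) (s : ℝ) (x v : V) :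
    F.Φ s (x, v) = (F.ex x (s • v), F.vel s x v) := by
  rw [← F.fst_eq h]
  rfl

theorem ex_add (h : IsMetricOn G univ) (s t : ℝ) (x v : V) :
    F.ex x ((s + t) • v) = F.ex (F.ex x (s • v)) (t • F.vel s x v) := by
  rw [← F.fst_eq h, F.add, F.flow_eq h s x v, F.fst_eq h]

theorem vel_add (h : IsMetricOn G univ) (s t : ℝ) (x v : V) :
    F.vel (s + t) x v = F.vel t (F.ex x (s • v)) (F.vel s x v) := by
  rw [vel, F.add, F.flow_eq h s x v]
  rfl

theorem vel_smul (h : IsMetricOn G univ) (t c : ℝ) (x v : V) :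
    F.vel t x (c • v) = c • F.vel (c * t) x v := by
  rw [vel, F.smul h]
  rfl

/-- conservation of energy -/
theorem energy (h : IsMetricOn G univ) (t : ℝ) (x v : V) :
    G (F.ex x (t • v)) (F.vel t x v) (F.vel t x v) = G x v v := by
  set c : ℝ → V := fun s => (F.Φ s (x, v)).1 with hc
  have hd : ∀ s, HasDerivAt c (F.vel s x v) s := fun s => hasDerivAt_fst' (F.eqn s (x, v))
  have hdc : deriv c = fun s => F.vel s x v := funext fun s => (hd s).deriv
  have hdd : ∀ s, HasDerivAt (deriv c)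
      (- chris G (c s) (F.vel s x v) (F.vel s x v)) s := fun s => by
    rw [hdc]
    exact hasDerivAt_snd' (F.eqn s (x, v))
  have hen : ∀ s, HasDerivAt (fun s => G (c s) (deriv c s) (deriv c s)) 0 s := fun s => by
    refine h.hasDerivAt_speed (mem_univ _) (hd s).differentiableAt (hdd s).differentiableAt ?_
    rw [(hdd s).deriv, hdc]
  have hconst := is_const_of_deriv_eq_zero (fun s => (hen s).differentiableAt)
    (fun s => (hen s).deriv) t 0
  have h0 : F.Φ 0 (x, v) = (x, v) := F.zero _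
  have h1 : F.vel 0 x v = v := by rw [vel, h0]
  have h2 : c 0 = x := by rw [hc]; simp only [h0]
  have h3 : c t = F.ex x (t • v) := F.fst_eq h t x v
  simp only [hdc] at hconst
  rw [h2, h3, h1] at hconst
  exact hconst

end GFlow

end Vale.Agent.P219.CH
end
end

section

/-! # Parallel transport along a curve -/

open Set Filter Topology
open scoped ContDiff
open Vale.Agent.P255

noncomputable section

namespace Vale.Agent.P219.CH

variable {V : Type} [NormedAddCommGroup V] [NormedSpace ℝ V] [FiniteDimensional ℝ V]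
variable {G : V → V →L[ℝ] V →L[ℝ] ℝ}

/-- parallel transport along `c` from `c 0` -/
theorem exists_parallel (h : IsMetricOn G univ) {c : ℝ → V} (hc : ContDiff ℝ ∞ c) :
    ∃ P : ℝ → V →L[ℝ] V, ContDiff ℝ ∞ P ∧ P 0 = ContinuousLinearMap.id ℝ V ∧
      (∀ t w, covD G c (fun s => P s w) t = 0) ∧
      ∀ t u w, G (c t) (P t u) (P t w) = G (c 0) u w := by
  have : CompleteSpace V := FiniteDimensional.complete ℝ V
  have hc' : ContDiff ℝ ∞ (deriv c) := by
    have h1 : ContDiff ℝ (∞ + 1) c := by simpa using hc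
    exact (contDiff_succ_iff_deriv.1 h1).2.2
  have hB : ContDiff ℝ ∞ (fun t => chrisB G (c t)) :=
    contDiff_iff_contDiffAt.2 fun t => (h.contDiffAt_chrisB (mem_univ _)).comp t hc.contDiffAt
  have hA : ContDiff ℝ ∞ (fun t => -(chrisB G (c t) (deriv c t))) := (hB.clm_apply hc').neg
  obtain ⟨P, hP, hP0, hPd⟩ := exists_fundamental hA
  have hPw : ∀ w t, HasDerivAt (fun s => P s w) (-(chrisB G (c t) (deriv c t) (P t w))) t := by
    intro w t
    have h1 := (hPd t).clm_apply (hasDerivAt_const t w)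
    refine h1.congr_deriv ?_
    simp
  have hcov : ∀ t w, covD G c (fun s => P s w) t = 0 := by
    intro t w
    unfold covD
    rw [(hPw w t).deriv, ← chrisB_apply]
    simp
  refine ⟨P, hP, hP0, hcov, fun t u w => ?_⟩
  have hd : ∀ s, HasDerivAt (fun s => G (c s) (P s u) (P s w)) 0 s := by
    intro s
    have h1 := h.hasDerivAt_inner (c := c) (X := fun s => P s u) (Y := fun s => P s w)
      (mem_univ _) (hc.differentiable (by simp) s) (hPw u s).differentiableAt
      (hPw w s).differentiableAt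
    refine h1.congr_deriv ?_
    rw [hcov, hcov]
    simp
  have h2 := is_const_of_deriv_eq_zero (fun s => (hd s).differentiableAt)
    (fun s => (hd s).deriv) t 0
  simpa [hP0] using h2

/-- first Bianchi identity -/
theorem curv_bianchi1 (h : IsMetricOn G univ) (x u v w : V) :
    curv G x u v w + curv G x v w u + curv G x w u v = 0 := by
  have hs : ∀ a b c, fderiv ℝ (chrisB G) x a b c = fderiv ℝ (chrisB G) x a c b := by
    intro a b c
    rw [← h.fderiv_chris (mem_univ _), ← h.fderiv_chris (mem_univ _)]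
    have : (fun p => chris G p b c) = fun p => chris G p c b :=
      funext fun p => h.chris_symm (mem_univ _) b c
    rw [this]
  have hb : ∀ a b, chrisB G x a b = chrisB G x b a := by
    intro a b
    rw [chrisB_apply, chrisB_apply, h.chris_symm (mem_univ _)]
  rw [h.curv_eq (mem_univ _), h.curv_eq (mem_univ _), h.curv_eq (mem_univ _),
    hs u v w, hs v w u, hs w u v, hb v w, hb w u, hb u v]
  abel

/-- pair symmetry of the curvature tensor -/
theorem curv_pair_symm (h : IsMetricOn G univ) (x a b c e : V) :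
    G x (curv G x a b c) e = G x (curv G x c e a) b := by
  have anti1 : ∀ a b c, curv G x b a c = - curv G x a b c := by
    intro a b c
    rw [h.curv_eq (mem_univ _), h.curv_eq (mem_univ _)]
    abel
  have A1 : ∀ a b c e, G x (curv G x b a c) e = - G x (curv G x a b c) e := by
    intro a b c e
    rw [anti1 a b c]; simp
  have A2 : ∀ a b c e, G x (curv G x a b e) c = - G x (curv G x a b c) e := by
    intro a b c e
    rw [h.curv_antisymm (mem_univ _) a b e c, h.symm x (mem_univ _)]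
  have B : ∀ a b c e, G x (curv G x a b c) e + G x (curv G x b c a) e +
      G x (curv G x c a b) e = 0 := by
    intro a b c e
    have := congrArg (fun z => G x z e) (curv_bianchi1 h x a b c)
    simpa using this
  have b1 := B a b c e
  have b2 := B b c e a
  have b3 := B c e a b
  have b4 := B e a b c
  have := A1 a b c e
  have := A2 b c a e
  have := A2 c e b a
  have := A2 e b a c
  have := A1 c a b e
  have := A2 a c b e
  have := A1 b c a e
  have := A1 e b c a
  have := A2 b e c a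
  have := A1 b e c a
  have := A2 c b e a
  have := A2 b c e a
  have := A1 e a b c
  have := A2 a e b c
  have := A2 e a c b
  have := A1 a e c b
  have := A2 c a e b
  have := A2 a c e b
  have := A1 a c e b
  have := A2 a b e c
  have := A2 c e a b
  have := A1 a c b e
  have := A2 b e a c
  have := A2 e c a b
  linarith

/-- symmetry of the Jacobi operator -/
theorem curv_jacobi_symm (h : IsMetricOn G univ) (x u v w : V) :
    G x (curv G x u v v) w = G x (curv G x w v v) u := by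
  have anti1 : ∀ a b c, curv G x b a c = - curv G x a b c := by
    intro a b c
    rw [h.curv_eq (mem_univ _), h.curv_eq (mem_univ _)]
    abel
  rw [curv_pair_symm h x u v v w, anti1 w v u, map_neg, neg_apply,
    h.curv_antisymm (mem_univ _) w v u v, neg_neg, h.symm x (mem_univ _)]

end Vale.Agent.P219.CH
end
end

section

/-!
The isometry `E n → (E n, g_x)` defined by a triangular orthonormal frame, and its inverse.
-/

open Matrix
open scoped ContDiff

noncomputable section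

namespace Vale.Agent.P219.CH

variable {n : ℕ}

/-- the linear isometry `(ℝⁿ, eucl) → (ℝⁿ, g_x)` of the frame -/
def frA (e : Fin n → E n → E n) (x : E n) : E n →L[ℝ] E n :=
  ∑ a, (EuclideanSpace.proj a : E n →L[ℝ] ℝ).smulRight (e a x)

/-- the inverse isometry -/
def frB (M : RiemMetric n) (e : Fin n → E n → E n) (x : E n) : E n →L[ℝ] E n :=
  ∑ a, (M.g x (e a x)).smulRight (basisVec a)

variable {M : RiemMetric n} {e : Fin n → E n → E n}

theorem frA_apply (x u : E n) : frA e x u = ∑ a, u a • e a x := by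
  simp [frA, _root_.sum_apply]

theorem frB_apply (x w : E n) (a : Fin n) : frB M e x w a = M.g x (e a x) w := by
  have : frB M e x w = ∑ b, M.g x (e b x) w • (basisVec b : E n) := by
    simp [frB, _root_.sum_apply]
  rw [this]
  have h := E_expand (n := n) (WithLp.toLp 2 fun b => M.g x (e b x) w)
  simp only at h
  rw [← h]

theorem g_frA (he : TriangularFrame M e) (x u v : E n) :
    M.g x (frA e x u) (frA e x v) = inner ℝ u v := by
  rw [frA_apply, frA_apply, map_sum]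
  simp only [_root_.sum_apply, map_smul, _root_.smul_apply, map_sum, he.orthonormal, smul_eq_mul]
  simp [PiLp.inner_apply, mul_comm]

theorem frA_frB (he : TriangularFrame M e) (x w : E n) : frA e x (frB M e x w) = w := by
  rw [frA_apply]
  simp only [frB_apply]
  conv_rhs => rw [frame_complete he x w]
  simp only [M.symm x w]

theorem frB_frA (he : TriangularFrame M e) (x u : E n) : frB M e x (frA e x u) = u := by
  ext a
  rw [frB_apply, frA_apply]
  simp [map_sum, he.orthonormal]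

theorem inner_frB (he : TriangularFrame M e) (x v w : E n) :
    inner ℝ (frB M e x v) (frB M e x w) = M.g x v w := by
  rw [← g_frA he x, frA_frB he, frA_frB he]

theorem norm_frB_sq (he : TriangularFrame M e) (x w : E n) : ‖frB M e x w‖ ^ 2 = M.g x w w := by
  rw [← real_inner_self_eq_norm_sq, inner_frB he]

theorem g_frA_self (he : TriangularFrame M e) (x u : E n) :
    M.g x (frA e x u) (frA e x u) = ‖u‖ ^ 2 := by
  rw [g_frA he, real_inner_self_eq_norm_sq]

theorem frA_smooth (he : TriangularFrame M e) : ContDiff ℝ ∞ (frA e) := by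
  unfold frA
  refine ContDiff.sum fun a _ => ?_
  exact ContDiff.smulRight contDiff_const (he.smooth a)

theorem frB_smooth (he : TriangularFrame M e) : ContDiff ℝ ∞ (frB M e) := by
  unfold frB
  refine ContDiff.sum fun a _ => ?_
  exact ContDiff.smulRight (M.smooth.clm_apply (he.smooth a)) contDiff_const

theorem frA_det (he : TriangularFrame M e) (x : E n) :
    volDensity M x * |(frA e x).det| = 1 := by
  have h1 : (frA e x).det = ∏ a, e a x a := by
    rw [← frame_det he x, ContinuousLinearMap.det,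
      ← LinearMap.det_toMatrix (EuclideanSpace.basisFun (Fin n) ℝ).toBasis, ← det_transpose]
    congr 1
    ext a i
    rw [transpose_apply, LinearMap.toMatrix_apply]
    simp only [OrthonormalBasis.coe_toBasis, EuclideanSpace.basisFun_apply,
      ContinuousLinearMap.coe_coe, frA_apply, frameMat, of_apply]
    simp [OrthonormalBasis.coe_toBasis_repr_apply]
  have h2 : 0 < ∏ a, e a x a := Finset.prod_pos fun a _ => he.positive a x
  rw [h1, abs_of_pos h2, volDensity_eq he, Finset.prod_inv_distrib]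
  field_simp

end Vale.Agent.P219.CH
end
end

section

open MeasureTheory Set Filter Topology
open scoped ENNReal ContDiff

namespace Vale.Agent.P219

variable {n : ℕ}

/-- Limit argument: if for every domain the approximating functions have gradient integrals
asymptotically at least the model area, the isoperimetric inequality holds. -/
theorem isop_of_liminf (M : RiemMetric n) (e : Fin n → E n → E n) (he : TriangularFrame M e)
    (κ : ℝ) (hn : 2 ≤ n)
    (h : ∀ (D : SmoothDomain n) (r A : ℝ), 0 < r →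
      ∫ x in D.carrier, volDensity M x = modelVol n κ r →
      (∀ η > 0, ∀ᶠ ε in 𝓝[>] (0 : ℝ),
        ∫ x, covNorm M x (fderiv ℝ (Feps D ε) x) * volDensity M x ≤ A + η) →
      modelArea n κ r ≤ A) : IsoperimetricIneq M κ := by
  intro D
  have hV : 0 ≤ ∫ x in D.carrier, volDensity M x :=
    integral_nonneg fun x => (volDensity_gt M e he x).le
  obtain ⟨r, hr, hrV⟩ := modelVol_surj n (by omega) κ _ hV
  refine ⟨r, hr, by rw [riemVol_eq M e he, hrV], ?_⟩
  by_cases hr0 : r = 0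
  · have : modelArea n κ r = 0 := by
      rw [hr0, modelArea, sn_zero, zero_pow (by omega), mul_zero]
    rw [this]
    simp
  have hrpos : 0 < r := lt_of_le_of_ne hr (Ne.symm hr0)
  by_cases hA : riemArea M D = ⊤
  · rw [hA]; exact le_top
  have hfin := h D r (riemArea M D).toReal hrpos hrV.symm ?_
  · exact ENNReal.ofReal_le_of_le_toReal hfin
  intro η hη
  filter_upwards [Feps_area M e he D hη, self_mem_nhdsWithin] with ε h1 h2
  have hF1 : ContDiff ℝ 1 (Feps D ε) := (Feps_smooth D ε).of_le (by simp)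
  have hnn : ∀ x, 0 ≤ covNorm M x (fderiv ℝ (Feps D ε) x) * volDensity M x := fun x =>
    mul_nonneg (covNorm_nonneg M e he x _) (volDensity_gt M e he x).le
  have hc : Continuous fun x => covNorm M x (fderiv ℝ (Feps D ε) x) * volDensity M x :=
    (covNorm_fderiv_continuous M e he hF1).mul (volDensity_smooth M e he).continuous
  rw [integral_eq_lintegral_of_nonneg_ae (Eventually.of_forall hnn) hc.aestronglyMeasurable]
  have h3 := ENNReal.toReal_mono (by finiteness) h1
  rw [ENNReal.toReal_add hA (by finiteness), ENNReal.toReal_ofReal hη.le] at h3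
  exact h3

end Vale.Agent.P219
end

section

/-! # Scaling of a metric by a constant, in coordinates -/

open MeasureTheory Matrix
open scoped ENNReal ContDiff

namespace Vale.Agent.P219.Co

/-- The metric `c g`. -/
noncomputable def scale {n : ℕ} (M : RiemMetric n) (c : ℝ) (hc : 0 < c) : RiemMetric n where
  g x := c • M.g x
  smooth := fun i j => by
    have h : ContDiff ℝ ∞ fun x => c * M.g x i j := contDiff_const.mul (M.smooth i j)
    exact h
  pos := fun x => (M.pos x).smul hc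

variable {n : ℕ} {M : RiemMetric n}

theorem scale_g_apply {c : ℝ} (hc : 0 < c) (x : E n) (i j : Fin n) :
    (scale M c hc).g x i j = c * M.g x i j := rfl

theorem scale_g {c : ℝ} (hc : 0 < c) (x : E n) : (scale M c hc).g x = c • M.g x := rfl

theorem scale_pd_const_mul (c : ℝ) (i : Fin n) (f : E n → ℝ) (x : E n) :
    pd i (fun y => c * f y) x = c * pd i f x := by
  unfold pd lineDeriv
  exact deriv_const_mul_field c

theorem scale_det_isUnit (x : E n) : IsUnit (M.g x).det := (M.pos x).det_pos.ne'.isUnit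

theorem scale_inv {c : ℝ} (hc : 0 < c) (x : E n) :
    ((scale M c hc).g x)⁻¹ = c⁻¹ • (M.g x)⁻¹ := by
  rw [scale_g]
  have h := Matrix.inv_smul' (A := M.g x) (Units.mk0 c hc.ne') (scale_det_isUnit x)
  have h2 : ((Units.mk0 c hc.ne') • M.g x) = c • M.g x := rfl
  rw [h2] at h
  rw [h]
  rfl

theorem scale_christoffel {c : ℝ} (hc : 0 < c) (k i j : Fin n) (x : E n) :
    christoffel (scale M c hc) k i j x = christoffel M k i j x := by
  unfold christoffel
  congr 1
  apply Finset.sum_congr rfl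
  intro l _
  rw [scale_inv]
  have h1 : pd i (fun y => (scale M c hc).g y j l) x = c * pd i (fun y => M.g y j l) x :=
    scale_pd_const_mul c i _ x
  have h2 : pd j (fun y => (scale M c hc).g y i l) x = c * pd j (fun y => M.g y i l) x :=
    scale_pd_const_mul c j _ x
  have h3 : pd l (fun y => (scale M c hc).g y i j) x = c * pd l (fun y => M.g y i j) x :=
    scale_pd_const_mul c l _ x
  rw [h1, h2, h3, Matrix.smul_apply, smul_eq_mul]
  field_simp

theorem scale_riem {c : ℝ} (hc : 0 < c) (i j k m : Fin n) (x : E n) :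
    riem (scale M c hc) i j k m x = c * riem M i j k m x := by
  unfold riem
  rw [Finset.mul_sum]
  apply Finset.sum_congr rfl
  intro l _
  have h : ∀ k i j, christoffel (scale M c hc) k i j = christoffel M k i j := fun k i j =>
    funext fun x => scale_christoffel hc k i j x
  simp only [h, scale_g_apply]
  ring

theorem scale_complete {c : ℝ} (hc : 0 < c) (h : GeodesicallyComplete M) :
    GeodesicallyComplete (scale M c hc) := by
  intro x v
  obtain ⟨γ, p, h0, h1, h2⟩ := h x v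
  refine ⟨γ, p, h0, h1, fun t k => ⟨(h2 t k).1, ?_⟩⟩
  simp only [scale_christoffel]
  exact (h2 t k).2

theorem scale_form {c : ℝ} (hc : 0 < c) (x : E n) (u v : Fin n → ℝ) :
    u ⬝ᵥ (scale M c hc).g x *ᵥ v = c * (u ⬝ᵥ M.g x *ᵥ v) := by
  rw [scale_g, Matrix.smul_mulVec, dotProduct_smul, smul_eq_mul]

theorem scale_sec {κ : ℝ} (hκ : κ < 0) (h : SecLE M κ) :
    SecLE (scale M (-κ) (neg_pos.2 hκ)) (-1) := by
  intro x u v
  simp only [scale_form, scale_riem]
  have h1 := mul_le_mul_of_nonneg_left (h x u v) (neg_pos.2 hκ).le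
  have h2 : ∑ i, ∑ j, ∑ k, ∑ m, u i * v j * v k * u m * (-κ * riem M i j k m x) =
      -κ * ∑ i, ∑ j, ∑ k, ∑ m, u i * v j * v k * u m * riem M i j k m x := by
    simp only [Finset.mul_sum]
    refine Finset.sum_congr rfl fun i _ => Finset.sum_congr rfl fun j _ =>
      Finset.sum_congr rfl fun k _ => Finset.sum_congr rfl fun m _ => ?_
    ring
  rw [h2]
  refine h1.trans (le_of_eq ?_)
  ring

theorem scale_volDensity {b : ℝ} (hb : 0 < b) {c : ℝ} (hc : 0 < c) (hbc : c = b ^ 2) (x : E n) :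
    volDensity (scale M c hc) x = b ^ n * volDensity M x := by
  unfold volDensity
  rw [scale_g, Matrix.det_smul, Fintype.card_fin, hbc, ← pow_mul, mul_comm 2 n, pow_mul,
    Real.sqrt_mul (sq_nonneg _), Real.sqrt_sq (pow_nonneg hb.le n)]

theorem scale_gradNorm {b : ℝ} (hb : 0 < b) {c : ℝ} (hc : 0 < c) (hbc : c = b ^ 2)
    (f : E n → ℝ) (x : E n) :
    gradNorm (scale M c hc) f x = b⁻¹ * gradNorm M f x := by
  unfold gradNorm
  rw [scale_inv, Matrix.smul_mulVec, dotProduct_smul, smul_eq_mul, hbc, ← inv_pow,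
    Real.sqrt_mul (sq_nonneg _), Real.sqrt_sq (inv_nonneg.2 hb.le)]

theorem scale_riemVol {b : ℝ} (hb : 0 < b) {c : ℝ} (hc : 0 < c) (hbc : c = b ^ 2)
    (S : Set (E n)) :
    riemVol (scale M c hc) S = ENNReal.ofReal (b ^ n) * riemVol M S := by
  unfold riemVol
  rw [← lintegral_const_mul' _ _ ENNReal.ofReal_ne_top]
  congr 1
  funext x
  rw [scale_volDensity hb hc hbc, ENNReal.ofReal_mul (pow_nonneg hb.le n)]

theorem scale_riemArea (hn : 1 ≤ n) {b : ℝ} (hb : 0 < b) {c : ℝ} (hc : 0 < c) (hbc : c = b ^ 2)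
    (D : SmoothDomain n) :
    riemArea (scale M c hc) D = ENNReal.ofReal (b ^ (n - 1)) * riemArea M D := by
  unfold riemArea
  rw [← lintegral_const_mul' _ _ ENNReal.ofReal_ne_top]
  congr 1
  funext x
  rw [← ENNReal.ofReal_mul (pow_nonneg hb.le (n - 1)), scale_volDensity hb hc hbc,
    scale_gradNorm hb hc hbc]
  congr 1
  obtain ⟨m, rfl⟩ : ∃ m, n = m + 1 := ⟨n - 1, by omega⟩
  rw [Nat.add_sub_cancel, pow_succ]
  field_simp

theorem scale_sn_one (r : ℝ) : sn √(-(-1)) r = Real.sinh r := by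
  unfold sn
  rw [neg_neg, Real.sqrt_one, if_neg one_ne_zero, one_mul, div_one]

theorem scale_sn {κ b : ℝ} (hb : 0 < b) (hκ : -κ = b ^ 2) (r : ℝ) :
    sn √(-κ) r = Real.sinh (b * r) / b := by
  unfold sn
  rw [hκ, Real.sqrt_sq hb.le, if_neg hb.ne']

theorem scale_modelArea {κ b : ℝ} (hb : 0 < b) (hκ : -κ = b ^ 2) (r : ℝ) :
    modelArea n (-1) (b * r) = b ^ (n - 1) * modelArea n κ r := by
  unfold modelArea
  rw [scale_sn_one, scale_sn hb hκ, div_pow]
  field_simp

theorem scale_modelVol (hn : 1 ≤ n) {κ b : ℝ} (hb : 0 < b) (hκ : -κ = b ^ 2) (r : ℝ) :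
    modelVol n (-1) (b * r) = b ^ n * modelVol n κ r := by
  unfold modelVol
  simp only [scale_sn_one, scale_sn hb hκ]
  have h := intervalIntegral.mul_integral_comp_mul_left (a := 0) (b := r)
    (f := fun t => Real.sinh t ^ (n - 1)) b
  rw [mul_zero] at h
  rw [← h]
  obtain ⟨m, rfl⟩ : ∃ m, n = m + 1 := ⟨n - 1, by omega⟩
  simp only [Nat.add_sub_cancel, div_pow]
  rw [intervalIntegral.integral_div, pow_succ]
  field_simp

/-- PROOF: `vol' = c^{n/2} vol`, `area' = c^{(n-1)/2} area`, `c = -κ = b²`: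
`modelVol n (-1) (b r) = b^n modelVol n κ r`, `modelArea n (-1) (b r) = b^{n-1} modelArea n κ r`. -/
theorem isop_of_scale (hn : 1 ≤ n) {κ : ℝ} (hκ : κ < 0)
    (h : IsoperimetricIneq (scale M (-κ) (neg_pos.2 hκ)) (-1)) : IsoperimetricIneq M κ := by
  intro D
  obtain ⟨R, hR0, hV, hA⟩ := h D
  set b : ℝ := √(-κ) with hbdef
  have hb : 0 < b := Real.sqrt_pos.2 (neg_pos.2 hκ)
  have hb2 : -κ = b ^ 2 := (Real.sq_sqrt (neg_pos.2 hκ).le).symm
  have hR : b * (R / b) = R := by field_simp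
  refine ⟨R / b, div_nonneg hR0 hb.le, ?_, ?_⟩
  · rw [scale_riemVol hb _ hb2, ← hR, scale_modelVol hn hb hb2,
      ENNReal.ofReal_mul (pow_nonneg hb.le n)] at hV
    exact (ENNReal.mul_right_inj (by simpa using pow_pos hb n) ENNReal.ofReal_ne_top).1 hV
  · rw [scale_riemArea hn hb _ hb2, ← hR, scale_modelArea hb hb2,
      ENNReal.ofReal_mul (pow_nonneg hb.le (n - 1))] at hA
    exact (ENNReal.mul_le_mul_iff_right (by simpa using pow_pos hb (n - 1))
      ENNReal.ofReal_ne_top).1 hA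

end Vale.Agent.P219.Co
end

section

/-! # Equality case: from pairs of boundary points to a flat ball -/

open MeasureTheory Set Metric Filter Topology
open scoped ENNReal ContDiff

namespace Vale.Agent.P219.TP

variable {n : ℕ} (G : Geo n)

/-- PROOF: `‖z‖ ≤ ‖T z‖` (norm_le_T) and `|det T| = 1`. -/
theorem isometry_of_det (x v : E n) (h : |(G.T x v).det| = 1) (z : E n) :
    ‖G.T x v z‖ = ‖z‖ := by
  by_contra hne
  have hlt : ‖z‖ < ‖G.T x v z‖ := lt_of_le_of_ne (G.norm_le_T x v z) (Ne.symm hne)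
  have hpos : 0 < ‖G.T x v z‖ := lt_of_le_of_lt (norm_nonneg _) hlt
  -- rescale so that `‖c z‖ < 1 < ‖T (c z)‖`
  obtain ⟨c, hc0, hc1, hc2⟩ : ∃ c : ℝ, 0 < c ∧ c * ‖z‖ < 1 ∧ 1 < c * ‖G.T x v z‖ := by
    set a := ‖z‖
    set b := ‖G.T x v z‖
    have ha : 0 ≤ a := norm_nonneg _
    have hab : 0 < a + b := by linarith
    refine ⟨2 / (a + b), by positivity, ?_, ?_⟩
    · rw [div_mul_eq_mul_div, div_lt_one hab]; linarith
    · rw [div_mul_eq_mul_div, one_lt_div hab]; linarith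
  set T := G.T x v with hT
  have hdet : (T : E n →L[ℝ] E n).det ≠ 0 := G.det_T_ne x v
  have hpre : (volume : Measure (E n)) (T ⁻¹' closedBall (0 : E n) 1) =
      (volume : Measure (E n)) (closedBall (0 : E n) 1) := by
    rw [Measure.addHaar_preimage_continuousLinearMap _ hdet, abs_inv, h]
    simp
  have hsub : T ⁻¹' closedBall (0 : E n) 1 ⊆ closedBall (0 : E n) 1 := by
    intro y hy
    rw [mem_preimage, mem_closedBall_zero_iff] at hy
    rw [mem_closedBall_zero_iff]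
    exact (G.norm_le_T x v y).trans hy
  set U : Set (E n) := ball (0 : E n) 1 \ (T ⁻¹' closedBall (0 : E n) 1) with hU
  have hcl : IsClosed (T ⁻¹' closedBall (0 : E n) 1) :=
    isClosed_closedBall.preimage T.continuous
  have hUo : IsOpen U := isOpen_ball.sdiff hcl
  have hUne : U.Nonempty := by
    refine ⟨c • z, ?_, ?_⟩
    · rw [mem_ball_zero_iff, norm_smul, Real.norm_of_nonneg hc0.le]
      exact hc1
    · rw [mem_preimage, mem_closedBall_zero_iff, map_smul, norm_smul, Real.norm_of_nonneg hc0.le]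
      exact not_le.2 hc2
  have hUpos : 0 < (volume : Measure (E n)) U := hUo.measure_pos _ hUne
  have hdisj : Disjoint (T ⁻¹' closedBall (0 : E n) 1) U := disjoint_sdiff_right
  have hun : T ⁻¹' closedBall (0 : E n) 1 ∪ U ⊆ closedBall (0 : E n) 1 := by
    refine union_subset hsub (fun y hy => ball_subset_closedBall hy.1)
  have hle := measure_mono (μ := (volume : Measure (E n))) hun
  rw [measure_union hdisj hUo.measurableSet, hpre] at hle
  have hfin : (volume : Measure (E n)) (closedBall (0 : E n) 1) ≠ ⊤ := measure_closedBall_lt_top.ne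
  have := ENNReal.add_lt_add_left (a := (volume : Measure (E n)) (closedBall (0 : E n) 1)) hfin hUpos
  rw [add_zero] at this
  exact absurd hle (not_le.2 this)

/-- The exponential map as a homeomorphism. -/
noncomputable def exHomeo (p : E n) : E n ≃ₜ E n where
  toFun := G.ex p
  invFun := G.lg p
  left_inv := G.lg_ex p
  right_inv := G.ex_lg p
  continuous_toFun :=
    (G.ex_smooth.comp (contDiff_const.prodMk contDiff_id)).continuous
  continuous_invFun :=
    (G.lg_smooth.comp (contDiff_const.prodMk contDiff_id)).continuous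

theorem mem_sphere_iff_inner {N v : E n} {R : ℝ} (hR : 0 < R) (hN : ‖N‖ = 1) :
    v ∈ sphere (R • N) R ↔ 2 * R * inner ℝ v N = ‖v‖ ^ 2 := by
  rw [mem_sphere_iff_norm, ← sq_eq_sq₀ (norm_nonneg _) hR.le, norm_sub_sq_real, norm_smul, hN,
    mul_one, Real.norm_of_nonneg hR.le, inner_smul_right]
  constructor <;> intro h <;> linarith

theorem mem_ball_iff_inner {N v : E n} {R : ℝ} (hR : 0 < R) (hN : ‖N‖ = 1) :
    v ∈ ball (R • N) R ↔ ‖v‖ ^ 2 < 2 * R * inner ℝ v N := by
  rw [mem_ball_iff_norm, ← sq_lt_sq₀ (norm_nonneg _) hR.le, norm_sub_sq_real, norm_smul, hN,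
    mul_one, Real.norm_of_nonneg hR.le, inner_smul_right]
  constructor <;> intro h <;> linarith

/-- An open bounded set `Ω` whose frontier lies in the image of a sphere through `p` is the image of
the ball. PROOF: `Ω' = {v | ex p v ∈ Ω}` is open, bounded (`lg p` is continuous, `Ω` bounded), its
frontier lies in the sphere `S = {v | ‖v - R N‖ = R}` (or is `{0}`, which is in `S`); the open ball and
the exterior of `S` are connected (n ≥ 2), hence `Ω'` is the open ball. -/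
theorem eq_ball (hn : 2 ≤ n) {Ω : Set (E n)} (ho : IsOpen Ω) (hb : Bornology.IsBounded Ω)
    (hne : Ω.Nonempty) {p N : E n} {R : ℝ} (hR : 0 < R) (hN : ‖N‖ = 1)
    (hfr : ∀ q ∈ frontier Ω, q ≠ p → 2 * R * inner ℝ (G.lg p q) N = ‖G.lg p q‖ ^ 2) :
    Ω = G.ex p '' ball (R • N) R ∧ frontier Ω = G.ex p '' sphere (R • N) R := by
  set e : E n ≃ₜ E n := exHomeo G p with he
  have hev : ∀ v, e v = G.ex p v := fun v => rfl
  set W : Set (E n) := e ⁻¹' Ω with hW
  have hWo : IsOpen W := ho.preimage e.continuous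
  have hWfr : frontier W ⊆ sphere (R • N) R := by
    intro v hv
    rw [hW, ← e.preimage_frontier] at hv
    rw [mem_sphere_iff_inner hR hN]
    by_cases hq : e v = p
    · have h0 : v = 0 := by
        have h1 : G.ex p v = G.ex p 0 := by rw [G.ex_zero]; exact hq
        have h2 := congrArg (G.lg p) h1
        rwa [G.lg_ex, G.lg_ex] at h2
      rw [h0]; simp
    · have h1 := hfr (e v) hv hq
      rw [hev, G.lg_ex] at h1
      exact h1
  have hWne : W.Nonempty := by
    obtain ⟨y, hy⟩ := hne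
    refine ⟨e.symm y, ?_⟩
    rw [hW, mem_preimage, e.apply_symm_apply]
    exact hy
  have hWb : Bornology.IsBounded W := by
    have hc : IsCompact (closure Ω) := hb.isCompact_closure
    have hc2 : IsCompact (e.symm '' closure Ω) := hc.image e.symm.continuous
    refine hc2.isBounded.subset ?_
    intro v hv
    exact ⟨e v, subset_closure hv, e.symm_apply_apply v⟩
  have hconn : ∀ t : Set (E n), IsPreconnected t → (t ∩ W).Nonempty →
      Disjoint t (sphere (R • N) R) → t ⊆ W := by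
    intro t ht h1 h2
    refine ht.subset_left_of_subset_union hWo isClosed_closure.isOpen_compl
      (disjoint_compl_right_iff_subset.2 subset_closure) ?_ h1
    intro y hy
    by_cases hyW : y ∈ closure W
    · left
      by_contra hyn
      have : y ∈ frontier W := ⟨hyW, by rwa [hWo.interior_eq]⟩
      exact (Set.disjoint_left.1 h2) hy (hWfr this)
    · right; exact hyW
  have hWcb : W ⊆ closedBall (R • N) R := by
    intro v hv
    by_contra hout
    rw [mem_closedBall_iff_norm, not_le] at hout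
    set d := v - R • N with hd
    have hdpos : 0 < ‖d‖ := hR.trans hout
    have hray : (fun t : ℝ => R • N + t • d) '' Ici 1 ⊆ W := by
      refine hconn _ (isPreconnected_Ici.image _ (by fun_prop)) ?_ ?_
      · refine ⟨v, ⟨1, self_mem_Ici, ?_⟩, hv⟩
        simp [hd]
      · rw [Set.disjoint_left]
        rintro _ ⟨t, ht, rfl⟩ hs
        rw [mem_sphere_iff_norm, add_sub_cancel_left, norm_smul, Real.norm_of_nonneg
          (zero_le_one.trans ht)] at hs
        have : ‖d‖ ≤ t * ‖d‖ := le_mul_of_one_le_left hdpos.le ht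
        linarith
    obtain ⟨M, hM⟩ := hWb.exists_norm_le
    set t : ℝ := max 1 ((M + R + 1) / ‖d‖) with ht
    have h1 := hM _ (hray ⟨t, mem_Ici.2 (le_max_left _ _), rfl⟩)
    have h2 : (M + R + 1) ≤ t * ‖d‖ := by
      rw [← div_le_iff₀ hdpos]; exact le_max_right _ _
    have h3 : ‖t • d‖ ≤ ‖R • N + t • d‖ + ‖R • N‖ := by
      calc ‖t • d‖ = ‖(R • N + t • d) - R • N‖ := by rw [add_sub_cancel_left]
        _ ≤ _ := norm_sub_le _ _
    rw [norm_smul, norm_smul, hN, mul_one, Real.norm_of_nonneg hR.le,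
      Real.norm_of_nonneg (zero_le_one.trans (le_max_left _ _) : (0:ℝ) ≤ t)] at h3
    simp only at h1
    linarith only [h3, h2, h1]
  have hWb' : W ⊆ ball (R • N) R := by
    rw [← interior_closedBall _ hR.ne']
    exact hWo.subset_interior_iff.2 hWcb
  have hWeq : W = ball (R • N) R := by
    refine Subset.antisymm hWb' (hconn _ (convex_ball _ _).isPreconnected ?_ ?_)
    · obtain ⟨v, hv⟩ := hWne
      exact ⟨v, hWb' hv, hv⟩
    · rw [Set.disjoint_left]
      intro y h1 h2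
      rw [mem_ball] at h1
      rw [mem_sphere] at h2
      linarith
  have hΩ : Ω = e '' ball (R • N) R := by
    rw [← hWeq, hW, e.image_preimage]
  refine ⟨hΩ, ?_⟩
  have h2 := e.image_frontier (ball (R • N) R)
  rw [frontier_ball _ hR.ne', ← hΩ] at h2
  exact h2.symm

/-- Equality case: `Ω` is isometric to a Euclidean ball. PROOF: eq_ball, isometry_of_det at the
points of the sphere, and mono (`‖T p (s v) z‖ ≤ ‖T p v z‖` for `z ⟂ v`, gauss, norm_le_T). -/
theorem flat_ball (hn : 2 ≤ n) {Ω : Set (E n)} (ho : IsOpen Ω) (hb : Bornology.IsBounded Ω)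
    (hne : Ω.Nonempty) {p N : E n} {R : ℝ} (hR : 0 < R) (hN : ‖N‖ = 1)
    (hfr : ∀ q ∈ frontier Ω, q ≠ p → 2 * R * inner ℝ (G.lg p q) N = ‖G.lg p q‖ ^ 2 ∧
      |(G.T p (G.lg p q)).det| = 1) :
    Ω = G.ex p '' ball (R • N) R ∧
      ∀ v ∈ ball (R • N) R, ∀ z, ‖G.T p v z‖ = ‖z‖ := by
  obtain ⟨h1, h2⟩ := eq_ball G hn ho hb hne hR hN (fun q hq hqp => (hfr q hq hqp).1)
  refine ⟨h1, fun v hv z => ?_⟩
  rw [mem_ball_iff_inner hR hN] at hv
  have hv0 : v ≠ 0 := by
    rintro rfl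
    simp at hv
  have hvpos : 0 < ‖v‖ ^ 2 := pow_pos (norm_pos_iff.2 hv0) 2
  set t : ℝ := 2 * R * inner ℝ v N / ‖v‖ ^ 2 with ht
  have ht1 : 1 < t := by rw [ht, one_lt_div hvpos]; exact hv
  have ht0 : 0 < t := zero_lt_one.trans ht1
  set u : E n := t • v with hu
  have hu0 : u ≠ 0 := smul_ne_zero ht0.ne' hv0
  have hus : u ∈ sphere (R • N) R := by
    rw [mem_sphere_iff_inner hR hN, hu, inner_smul_left, norm_smul, Real.norm_of_nonneg ht0.le]
    have : t * ‖v‖ ^ 2 = 2 * R * inner ℝ v N := by rw [ht, div_mul_cancel₀ _ hvpos.ne']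
    simp only [conj_trivial]
    calc 2 * R * (t * inner ℝ v N) = t * (2 * R * inner ℝ v N) := by ring
      _ = t * (t * ‖v‖ ^ 2) := by rw [this]
      _ = _ := by ring
  have hq : G.ex p u ∈ frontier Ω := by rw [h2]; exact ⟨u, hus, rfl⟩
  have hqp : G.ex p u ≠ p := by
    intro h
    have h3 : G.ex p u = G.ex p 0 := by rw [G.ex_zero]; exact h
    have h4 := congrArg (G.lg p) h3
    rw [G.lg_ex, G.lg_ex] at h4
    exact hu0 h4
  have hdet := (hfr _ hq hqp).2
  rw [G.lg_ex] at hdet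
  have hiso := isometry_of_det G p u hdet
  set s : ℝ := t⁻¹ with hs
  have hs0 : 0 ≤ s := inv_nonneg.2 ht0.le
  have hs1 : s ≤ 1 := inv_le_one_of_one_le₀ ht1.le
  have hvs : v = s • u := by rw [hs, hu, smul_smul, inv_mul_cancel₀ ht0.ne', one_smul]
  -- orthogonal decomposition
  have hv2 : (inner ℝ v v : ℝ) ≠ 0 := by
    rw [real_inner_self_eq_norm_sq]
    exact hvpos.ne'
  set c : ℝ := inner ℝ v z / inner ℝ v v with hc
  set z' : E n := z - c • v with hz'
  have hz : z = c • v + z' := by rw [hz']; abel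
  have hoo : (inner ℝ v z' : ℝ) = 0 := by
    rw [hz', inner_sub_right, inner_smul_right, hc, div_mul_cancel₀ _ hv2, sub_self]
  have hou : (inner ℝ u z' : ℝ) = 0 := by
    rw [hu, inner_smul_left, hoo, mul_zero]
  have k1 : ‖G.T p v z'‖ ≤ ‖z'‖ := by
    have := G.mono p u z' s hou hs0 hs1
    rwa [← hvs, hiso] at this
  have k2 : ‖z'‖ ≤ ‖G.T p v z'‖ := G.norm_le_T p v z'
  have k3 : ‖G.T p v z'‖ = ‖z'‖ := le_antisymm k1 k2
  have e2 : (inner ℝ (G.T p v v) (G.T p v z') : ℝ) = 0 := by rw [G.gauss, hoo]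
  have e3 : (inner ℝ (G.T p v v) (G.T p v v) : ℝ) = inner ℝ v v := G.gauss p v v
  have e4 : ‖G.T p v z‖ ^ 2 = c ^ 2 * ‖v‖ ^ 2 + ‖G.T p v z'‖ ^ 2 := by
    rw [hz, map_add, map_smul, ← real_inner_self_eq_norm_sq, inner_add_left, inner_add_right,
      inner_add_right, inner_smul_left, inner_smul_right, inner_smul_left, inner_smul_right, e2, e3,
      real_inner_comm (G.T p v v) (G.T p v z'), e2, real_inner_self_eq_norm_sq,
      real_inner_self_eq_norm_sq]
    simp
    ring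
  have e5 : ‖z‖ ^ 2 = c ^ 2 * ‖v‖ ^ 2 + ‖z'‖ ^ 2 := by
    conv_lhs => rw [hz]
    rw [← real_inner_self_eq_norm_sq, inner_add_left, inner_add_right,
      inner_add_right, inner_smul_left, inner_smul_right, inner_smul_left, inner_smul_right, hoo,
      real_inner_comm v z', hoo, real_inner_self_eq_norm_sq, real_inner_self_eq_norm_sq]
    simp
    ring
  have e6 : ‖G.T p v z‖ ^ 2 = ‖z‖ ^ 2 := by rw [e4, e5, k3]
  exact (sq_eq_sq₀ (norm_nonneg _) (norm_nonneg _)).1 e6

end Vale.Agent.P219.TP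
end

section

/-!
# P219 / End : consequences of the exact identity

The defect is nonnegative, it dominates each of its three parts, and it decreases under
`u = g w^γ ↦ φ(g) w^γ` with `|φ'| ≤ 1`, `0 ≤ φ(t) ≤ t`.
-/

open MeasureTheory Set Metric
open scoped ContDiff

namespace Vale.Agent.P219.End

variable {n : ℕ}

theorem one_le_inf : (1 : WithTop ℕ∞) ≤ ∞ := by exact_mod_cast le_top

namespace Lim

variable (L : Lim n) {c : E n} {ε : ℝ}

/-- first part of the defect -/
noncomputable def d1 (c : E n) (ε : ℝ) (u : E n → ℝ) : ℝ :=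
  ∫ z, L.w c ε z.1 ^ (L.m - 2) * L.G (L.gq c ε u) (L.gq c ε u) z ∂L.V

/-- second part of the defect -/
noncomputable def d2 (c : E n) (ε : ℝ) (u : E n → ℝ) : ℝ :=
  ∫ z, u z.1 ^ 2 * (L.H0 / L.m - L.nc c z / (L.F c z.1 + ε)) ^ 2 ∂L.V

theorem ident' (hε : 0 < ε) (hk : L.k2 * ε < 2) {u : E n → ℝ} (hu : ContDiff ℝ ∞ u) :
    L.Def c ε u = 4 / (L.m * (L.m - 2)) * L.d1 c ε u + L.d2 c ε u +
      2 / L.m * L.Dl c (L.tf c ε u) :=
  L.ident hε hk (hu.of_le one_le_inf)

theorem cA_pos : 0 < 4 / (L.m * (L.m - 2)) := by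
  have := L.m_pos
  have := L.m_sub_pos
  positivity

theorem d1_nonneg (hε : 0 < ε) (hk : L.k2 * ε < 2) (u : E n → ℝ) : 0 ≤ L.d1 c ε u :=
  L.integral_nonneg_of fun z _ hz =>
    mul_nonneg (Real.rpow_nonneg (L.w_pos hε hk z.1).le _) (L.G_self_nonneg _ hz)

theorem d2_nonneg (u : E n → ℝ) : 0 ≤ L.d2 c ε u :=
  L.integral_nonneg_of fun z _ _ => mul_nonneg (sq_nonneg _) (sq_nonneg _)

theorem d3_nonneg (hc : c ∈ L.K) (hε : 0 < ε) {u : E n → ℝ} (hu : ContDiff ℝ ∞ u) :
    0 ≤ L.Dl c (L.tf c ε u) :=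
  L.Dl_nonneg hc (L.tf_smooth hε hu le_rfl) (L.tf_nonneg hε u)

theorem Def_nonneg (hc : c ∈ L.K) (hε : 0 < ε) (hk : L.k2 * ε < 2) {u : E n → ℝ}
    (hu : ContDiff ℝ ∞ u) : 0 ≤ L.Def c ε u := by
  rw [L.ident' hε hk hu]
  have h1 := mul_nonneg L.cA_pos.le (L.d1_nonneg (c := c) hε hk u)
  have h2 := L.d2_nonneg (c := c) (ε := ε) u
  have h3 := mul_nonneg (show 0 ≤ 2 / L.m by have := L.m_pos; positivity) (L.d3_nonneg hc hε hu)
  linarith

/-- `∫ u² w² ≤ E(u)` -/
theorem w_le_En (hc : c ∈ L.K) (hε : 0 < ε) (hk : L.k2 * ε < 2) {u : E n → ℝ}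
    (hu : ContDiff ℝ ∞ u) : ∫ z, u z.1 ^ 2 * L.w c ε z.1 ^ 2 ∂L.V ≤ L.En u := by
  have := L.Def_nonneg hc hε hk hu
  unfold Def at this
  linarith

theorem d1_le (hc : c ∈ L.K) (hε : 0 < ε) (hk : L.k2 * ε < 2) {u : E n → ℝ}
    (hu : ContDiff ℝ ∞ u) : L.d1 c ε u ≤ L.m * (L.m - 2) / 4 * L.Def c ε u := by
  have h2 := L.d2_nonneg (c := c) (ε := ε) u
  have h3 := mul_nonneg (show 0 ≤ 2 / L.m by have := L.m_pos; positivity) (L.d3_nonneg hc hε hu)
  have h4 : 4 / (L.m * (L.m - 2)) * L.d1 c ε u ≤ L.Def c ε u := by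
    rw [L.ident' hε hk hu]
    linarith only [h3, h2]
  have hm := L.m_pos
  have hm2 := L.m_sub_pos
  have h5 := mul_le_mul_of_nonneg_left h4 (show 0 ≤ L.m * (L.m - 2) / 4 by positivity)
  refine le_trans (le_of_eq ?_) h5
  field_simp

theorem d2_le (hc : c ∈ L.K) (hε : 0 < ε) (hk : L.k2 * ε < 2) {u : E n → ℝ}
    (hu : ContDiff ℝ ∞ u) : L.d2 c ε u ≤ L.Def c ε u := by
  have h1 := mul_nonneg L.cA_pos.le (L.d1_nonneg (c := c) hε hk u)
  have h3 := mul_nonneg (show 0 ≤ 2 / L.m by have := L.m_pos; positivity) (L.d3_nonneg hc hε hu)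
  rw [L.ident' hε hk hu]
  linarith only [h3, h1]

theorem d3_le (hc : c ∈ L.K) (hε : 0 < ε) (hk : L.k2 * ε < 2) {u : E n → ℝ}
    (hu : ContDiff ℝ ∞ u) : L.Dl c (L.tf c ε u) ≤ L.m / 2 * L.Def c ε u := by
  have h1 := mul_nonneg L.cA_pos.le (L.d1_nonneg (c := c) hε hk u)
  have h2 := L.d2_nonneg (c := c) (ε := ε) u
  have hm := L.m_pos
  have h4 : 2 / L.m * L.Dl c (L.tf c ε u) ≤ L.Def c ε u := by
    rw [L.ident' hε hk hu]
    linarith
  have h5 := mul_le_mul_of_nonneg_left h4 (show 0 ≤ L.m / 2 by positivity)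
  refine le_trans (le_of_eq ?_) h5
  field_simp

/-- the truncated function `φ(g) w^γ` -/
noncomputable def tr (c : E n) (ε : ℝ) (φ : ℝ → ℝ) (u : E n → ℝ) (x : E n) : ℝ :=
  φ (L.gq c ε u x) * L.w c ε x ^ L.gm

theorem tr_smooth (hε : 0 < ε) (hk : L.k2 * ε < 2) {u : E n → ℝ} (hu : ContDiff ℝ ∞ u)
    {φ : ℝ → ℝ} (hφ : ContDiff ℝ ∞ φ) : ContDiff ℝ ∞ (L.tr c ε φ u) :=
  (hφ.comp (L.gq_smooth hε hk hu le_rfl)).mul (L.w_rpow_smooth hε hk L.gm)

theorem gq_tr (hε : 0 < ε) (hk : L.k2 * ε < 2) (φ : ℝ → ℝ) (u : E n → ℝ) :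
    L.gq c ε (L.tr c ε φ u) = fun x => φ (L.gq c ε u x) := by
  funext x
  exact mul_div_cancel_right₀ _ (Real.rpow_pos_of_pos (L.w_pos hε hk x) _).ne'

theorem gq_pos (hε : 0 < ε) (hk : L.k2 * ε < 2) {u : E n → ℝ} {x : E n} (hu : 0 < u x) :
    0 < L.gq c ε u x := div_pos hu (Real.rpow_pos_of_pos (L.w_pos hε hk x) _)

theorem tr_bounds (hε : 0 < ε) (hk : L.k2 * ε < 2) {u : E n → ℝ} (hu : ∀ x, 0 < u x)
    {φ : ℝ → ℝ} (hφ : ∀ t, 0 < t → 0 ≤ φ t ∧ φ t ≤ t) (x : E n) :
    0 ≤ L.tr c ε φ u x ∧ L.tr c ε φ u x ≤ u x := by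
  have hw := Real.rpow_pos_of_pos (L.w_pos (c := c) hε hk x) L.gm
  obtain ⟨h1, h2⟩ := hφ _ (L.gq_pos (c := c) hε hk (hu x))
  refine ⟨mul_nonneg h1 hw.le, ?_⟩
  have h3 := mul_le_mul_of_nonneg_right h2 hw.le
  rwa [L.gq_mul hε hk] at h3

/-- monotonicity of the defect under truncation -/
theorem Def_tr_le (hc : c ∈ L.K) (hε : 0 < ε) (hk : L.k2 * ε < 2) {u : E n → ℝ}
    (hu : ContDiff ℝ ∞ u) (hu0 : ∀ x, 0 < u x) {φ : ℝ → ℝ} (hφ : ContDiff ℝ ∞ φ)
    (h1 : ∀ t, 0 < t → |deriv φ t| ≤ 1) (h2 : ∀ t, 0 < t → 0 ≤ φ t ∧ φ t ≤ t) :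
    L.Def c ε (L.tr c ε φ u) ≤ L.Def c ε u := by
  have hv := L.tr_smooth (c := c) hε hk hu hφ
  have hb := L.tr_bounds (c := c) hε hk hu0 h2
  rw [L.ident' hε hk hu, L.ident' hε hk hv]
  have hsq : ∀ x, L.tr c ε φ u x ^ 2 ≤ u x ^ 2 := fun x =>
    pow_le_pow_left₀ (hb x).1 (hb x).2 2
  have cF : Continuous fun z : E n × E n => L.F c z.1 := (L.Fc_cont c).comp continuous_fst
  have e1 : L.d1 c ε (L.tr c ε φ u) ≤ L.d1 c ε u := by
    have hgs : ContDiff ℝ 1 (L.gq c ε u) := (L.gq_smooth hε hk hu le_rfl).of_le one_le_inf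
    have hgv : ContDiff ℝ 1 (L.gq c ε (L.tr c ε φ u)) :=
      (L.gq_smooth hε hk hv le_rfl).of_le one_le_inf
    have cw : Continuous fun z : E n × E n => L.w c ε z.1 ^ (L.m - 2) :=
      (L.w_rpow_smooth hε hk (L.m - 2)).continuous.comp continuous_fst
    refine L.integral_mono_of (cw.mul (L.G_cont hgv hgv)) (cw.mul (L.G_cont hgs hgs)) ?_
    intro z _ hz
    refine mul_le_mul_of_nonneg_left ?_ (Real.rpow_nonneg (L.w_pos hε hk z.1).le _)
    have hg := L.G_self_nonneg (L.gq c ε u) hz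
    have hD : D L.A (L.gq c ε (L.tr c ε φ u)) z.1 =
        deriv φ (L.gq c ε u z.1) • D L.A (L.gq c ε u) z.1 := by
      rw [L.gq_tr hε hk]
      exact D_comp ((hφ.differentiable (by norm_num) _).hasDerivAt)
        (hgs.differentiable (by norm_num) _)
    have hG : L.G (L.gq c ε (L.tr c ε φ u)) (L.gq c ε (L.tr c ε φ u)) z =
        deriv φ (L.gq c ε u z.1) ^ 2 * L.G (L.gq c ε u) (L.gq c ε u) z := by
      show gv _ _ _ = _ * gv _ _ _
      rw [hD, gv_smul_left, gv_smul_right]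
      ring
    rw [hG]
    have h3 := h1 _ (L.gq_pos (c := c) hε hk (hu0 z.1))
    have h4 : deriv φ (L.gq c ε u z.1) ^ 2 ≤ 1 := by
      rw [← sq_abs]
      exact pow_le_one₀ (abs_nonneg _) h3
    exact mul_le_of_le_one_left hg h4
  have e2 : L.d2 c ε (L.tr c ε φ u) ≤ L.d2 c ε u := by
    have cn := L.nc_cont c
    have hp : ∀ z : E n × E n, L.F c z.1 + ε ≠ 0 := fun z => (L.Fe_pos hε z.1).ne'
    have cq : Continuous fun z : E n × E n => (L.H0 / L.m - L.nc c z / (L.F c z.1 + ε)) ^ 2 :=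
      (continuous_const.sub (cn.div (cF.add continuous_const) hp)).pow 2
    have cu : Continuous fun z : E n × E n => u z.1 := hu.continuous.comp continuous_fst
    have cv : Continuous fun z : E n × E n => L.tr c ε φ u z.1 := hv.continuous.comp continuous_fst
    refine L.integral_mono_of ((cv.pow 2).mul cq) ((cu.pow 2).mul cq) ?_
    intro z _ _
    exact mul_le_mul_of_nonneg_right (hsq z.1) (sq_nonneg _)
  have e3 : L.Dl c (L.tf c ε (L.tr c ε φ u)) ≤ L.Dl c (L.tf c ε u) := by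
    refine L.Dl_mono hc (L.tf_smooth hε hv le_rfl) (L.tf_smooth hε hu le_rfl) fun x => ?_
    exact div_le_div_of_nonneg_right (hsq x) (L.Fe_pos hε x).le
  have f1 := mul_le_mul_of_nonneg_left e1 L.cA_pos.le
  have f3 := mul_le_mul_of_nonneg_left e3 (show 0 ≤ 2 / L.m by have := L.m_pos; positivity)
  linarith only [e2, f1, f3]

end Lim

end Vale.Agent.P219.End
end

section

/-! # The weak type inequality from a potential estimate and the growth of the measure. -/

namespace Vale.Agent.P219.End.WS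

open MeasureTheory Real
open scoped ENNReal

variable {Z : Type*} [MeasurableSpace Z]

/-- Riesz potentials of order one of sets, for measures of growth `m`. -/
theorem lintegral_rpow_le_of_growth {V : Measure Z} {m Λ : ℝ} (hm : 1 < m) (hΛ : 0 ≤ Λ)
    {r : Z → ℝ} (hr : Measurable r) (h0 : ∀ z, 0 ≤ r z)
    (hgr : ∀ ρ > 0, V {z | r z < ρ} ≤ ENNReal.ofReal (Λ * ρ ^ m)) {E : Set Z}
    (hEfin : V E ≠ ∞) :
    ∫⁻ z in E, ENNReal.ofReal (r z ^ (1 - m)) ∂V ≤
      ENNReal.ofReal (2 ^ m * Λ + 1) * V E ^ (1 / m) := by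
  rcases eq_or_ne (V E) 0 with hz | hz
  · rw [Measure.restrict_eq_zero.2 hz, lintegral_zero_measure]
    exact bot_le
  have hm0 : 0 < m := by linarith
  set v : ℝ := (V E).toReal with hv
  have hvpos : 0 < v := ENNReal.toReal_pos hz hEfin
  have hVE : V E = ENNReal.ofReal v := (ENNReal.ofReal_toReal hEfin).symm
  set ρ : ℝ := v ^ (1 / m) with hρ
  have hρ0 : 0 < ρ := rpow_pos_of_pos hvpos _
  have hρm : ρ ^ m = v := by rw [hρ, ← rpow_mul hvpos.le, one_div_mul_cancel hm0.ne', rpow_one]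
  have hρj : ∀ j : ℕ, 0 < ρ / 2 ^ j := fun j => by positivity
  have hms : ∀ c : ℝ, MeasurableSet {z | r z < c} := fun c => measurableSet_lt hr measurable_const
  have hpt : ∀ z, ENNReal.ofReal (r z ^ (1 - m)) ≤
      (∑' j : ℕ, Set.indicator {z | r z < ρ / 2 ^ j}
        (fun _ => ENNReal.ofReal ((ρ / 2 ^ (j + 1)) ^ (1 - m))) z) +
        ENNReal.ofReal (ρ ^ (1 - m)) := by
    intro z
    rcases (h0 z).eq_or_lt with h | h
    · rw [← h, zero_rpow (by linarith only [hm]), ENNReal.ofReal_zero]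
      exact bot_le
    rcases le_or_gt ρ (r z) with h1 | h1
    · refine le_trans ?_ le_add_self
      exact ENNReal.ofReal_le_ofReal (rpow_le_rpow_of_nonpos hρ0 h1 (by linarith))
    · have hex : ∃ j : ℕ, ρ / 2 ^ (j + 1) ≤ r z := by
        have hlim : Filter.Tendsto (fun j : ℕ => ρ / 2 ^ (j + 1)) Filter.atTop (nhds 0) := by
          have h2 : Filter.Tendsto (fun n : ℕ => (ρ / 2) * (1 / 2 : ℝ) ^ n) Filter.atTop
              (nhds ((ρ / 2) * 0)) := (tendsto_pow_atTop_nhds_zero_of_lt_one (by norm_num)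
                (by norm_num)).const_mul _
          rw [mul_zero] at h2
          refine h2.congr fun n => ?_
          rw [one_div, inv_pow, pow_succ]
          field_simp
        exact ((hlim.eventually (gt_mem_nhds h)).mono fun j hj => le_of_lt hj).exists
      classical
      obtain ⟨j, hj, hmin⟩ : ∃ j : ℕ, ρ / 2 ^ (j + 1) ≤ r z ∧ r z < ρ / 2 ^ j := by
        refine ⟨Nat.find hex, Nat.find_spec hex, ?_⟩
        rcases Nat.eq_zero_or_pos (Nat.find hex) with h2 | h2
        · rw [h2, pow_zero, div_one]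
          exact h1
        · obtain ⟨k, hk⟩ : ∃ k, Nat.find hex = k + 1 := ⟨Nat.find hex - 1, by omega⟩
          have h3 := Nat.find_min hex (show k < Nat.find hex by omega)
          rw [hk]
          exact not_le.1 h3
      refine le_trans ?_ le_self_add
      refine le_trans ?_ (ENNReal.le_tsum j)
      rw [Set.indicator_of_mem (by exact hmin)]
      exact ENNReal.ofReal_le_ofReal (rpow_le_rpow_of_nonpos (hρj (j + 1)) hj (by linarith))
  calc ∫⁻ z in E, ENNReal.ofReal (r z ^ (1 - m)) ∂V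
      ≤ ∫⁻ z in E, ((∑' j : ℕ, Set.indicator {z | r z < ρ / 2 ^ j}
        (fun _ => ENNReal.ofReal ((ρ / 2 ^ (j + 1)) ^ (1 - m))) z) +
        ENNReal.ofReal (ρ ^ (1 - m))) ∂V := lintegral_mono hpt
    _ = ∑' j : ℕ, ENNReal.ofReal ((ρ / 2 ^ (j + 1)) ^ (1 - m)) *
          (V.restrict E) {z | r z < ρ / 2 ^ j} + ENNReal.ofReal (ρ ^ (1 - m)) * V E := by
        rw [lintegral_add_right _ measurable_const, lintegral_tsum fun j =>
          (measurable_const.indicator (hms _)).aemeasurable, lintegral_const,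
          Measure.restrict_apply_univ]
        congr 1
        exact tsum_congr fun j => lintegral_indicator_const (hms _) _
    _ ≤ ∑' j : ℕ, ENNReal.ofReal ((ρ / 2 ^ (j + 1)) ^ (1 - m)) *
          ENNReal.ofReal (Λ * (ρ / 2 ^ j) ^ m) + ENNReal.ofReal (ρ ^ (1 - m)) * V E := by
        refine add_le_add (ENNReal.tsum_le_tsum fun j => ?_) le_rfl
        exact mul_le_mul' le_rfl ((Measure.restrict_apply_le _ _).trans (hgr _ (hρj j)))
    _ = ∑' j : ℕ, ENNReal.ofReal (2 ^ (m - 1) * Λ * ρ * (1 / 2) ^ j) + ENNReal.ofReal ρ := by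
        congr 1
        · refine tsum_congr fun j => ?_
          rw [← ENNReal.ofReal_mul (rpow_nonneg (hρj _).le _)]
          congr 1
          have h2j : (0 : ℝ) < 2 ^ j := by positivity
          have e1 : (ρ / 2 ^ (j + 1)) ^ (1 - m) = ρ ^ (1 - m) * (2 ^ j) ^ (m - 1) * 2 ^ (m - 1) := by
            rw [div_rpow hρ0.le (by positivity), pow_succ, mul_rpow h2j.le (by norm_num),
              show (1 : ℝ) - m = -(m - 1) by ring, rpow_neg h2j.le, rpow_neg (by norm_num : (0:ℝ) ≤ 2)]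
            field_simp
          have e2 : (ρ / 2 ^ j) ^ m = ρ ^ m / (2 ^ j) ^ m := div_rpow hρ0.le h2j.le m
          have e3 : ((2 : ℝ) ^ j) ^ (m - 1) = (2 ^ j) ^ m / 2 ^ j := rpow_sub_one h2j.ne' m
          have e4 : ρ ^ (1 - m) * ρ ^ m = ρ := by
            rw [← rpow_add hρ0, show (1 - m) + m = 1 by ring, rpow_one]
          have h2m : (0 : ℝ) < (2 ^ j) ^ m := rpow_pos_of_pos h2j _
          rw [e1, e2, e3, one_div, inv_pow]
          calc ρ ^ (1 - m) * ((2 ^ j) ^ m / 2 ^ j) * 2 ^ (m - 1) * (Λ * (ρ ^ m / (2 ^ j) ^ m))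
              = (ρ ^ (1 - m) * ρ ^ m) * 2 ^ (m - 1) * Λ * (2 ^ j)⁻¹ := by field_simp
            _ = _ := by rw [e4]; ring
        · rw [hVE, ← ENNReal.ofReal_mul (rpow_nonneg hρ0.le _)]
          congr 1
          rw [← hρm, ← rpow_add hρ0, show (1 - m) + m = 1 by ring, rpow_one]
    _ = ENNReal.ofReal (2 ^ m * Λ + 1) * V E ^ (1 / m) := by
        have hsum : Summable fun j : ℕ => 2 ^ (m - 1) * Λ * ρ * (1 / 2 : ℝ) ^ j :=
          summable_geometric_two.mul_left _
        rw [← ENNReal.ofReal_tsum_of_nonneg (fun j => by (clear * - hΛ hvpos; positivity)) hsum, tsum_mul_left,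
          tsum_geometric_two, ← ENNReal.ofReal_add (by (clear * - hΛ hvpos; positivity)) hρ0.le, hVE,
          ENNReal.ofReal_rpow_of_pos hvpos, ← hρ, ← ENNReal.ofReal_mul (by positivity)]
        congr 1
        have e5 : (2 : ℝ) ^ m = 2 ^ (m - 1) * 2 := by
          rw [← rpow_add_one (by norm_num), sub_add_cancel]
        rw [e5]
        ring

/-- The weak type inequality from a potential estimate. -/
theorem weak_of_potential {V : Measure Z} [IsFiniteMeasure V] {m C₂ C₃ : ℝ} (hm : 1 < m)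
    (hC₂ : 0 ≤ C₂) (hC₃ : 0 ≤ C₃) {Φ g : Z → ℝ} (hΦm : Measurable Φ) (hΦ : ∀ z, 0 ≤ Φ z)
    (hΦi : Integrable Φ V) (hgm : Measurable g) (hg : ∀ z, 0 ≤ g z) (hgi : Integrable g V)
    {K : Z → Z → ℝ≥0∞} (hKm : Measurable (Function.uncurry K))
    (hK : ∀ z, ∀ E, MeasurableSet E →
      ∫⁻ p in E, K p z ∂V ≤ ENNReal.ofReal C₃ * V E ^ (1 / m))
    (hP : ∀ᵐ p ∂V, ENNReal.ofReal (Φ p) ≤
      ∫⁻ z, K p z * ENNReal.ofReal (g z) ∂V + ENNReal.ofReal (C₂ * ∫ z, Φ z ∂V))
    {t : ℝ} (ht : 0 < t) :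
    t * (V.real {z | t ≤ Φ z}) ^ ((m - 1) / m) ≤
      (C₃ + C₂ * V.real Set.univ ^ ((m - 1) / m)) * ∫ z, (g z + Φ z) ∂V := by
  have hm0 : 0 < m := by linarith
  set E : Set Z := {z | t ≤ Φ z} with hEdef
  have hE : MeasurableSet E := measurableSet_le measurable_const hΦm
  set v : ℝ := V.real E with hv
  have hv0 : 0 ≤ v := measureReal_nonneg
  have hVE : V E = ENNReal.ofReal v := (ofReal_measureReal).symm
  have hI1 : 0 ≤ ∫ z, g z ∂V := integral_nonneg hg
  have hI2 : 0 ≤ ∫ z, Φ z ∂V := integral_nonneg hΦ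
  have hsplit : ∫ z, (g z + Φ z) ∂V = ∫ z, g z ∂V + ∫ z, Φ z ∂V := integral_add hgi hΦi
  rcases hv0.eq_or_lt with h0 | hpos
  · rw [← h0, zero_rpow (by have : 0 < (m - 1) / m := div_pos (by linarith) hm0
                            exact this.ne'), mul_zero]
    exact mul_nonneg (by (clear * - hC₃ hC₂; positivity)) (by rw [hsplit]; (clear * - hI1 hI2; positivity))
  have h1 : ENNReal.ofReal t * V E ≤ ENNReal.ofReal C₃ * V E ^ (1 / m) *
      ENNReal.ofReal (∫ z, g z ∂V) + ENNReal.ofReal (C₂ * ∫ z, Φ z ∂V) * V E := by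
    calc ENNReal.ofReal t * V E = ∫⁻ p in E, ENNReal.ofReal t ∂V := by
          rw [lintegral_const, Measure.restrict_apply_univ]
      _ ≤ ∫⁻ p in E, ENNReal.ofReal (Φ p) ∂V :=
          setLIntegral_mono' hE fun p hp => ENNReal.ofReal_le_ofReal hp
      _ ≤ ∫⁻ p in E, (∫⁻ z, K p z * ENNReal.ofReal (g z) ∂V +
            ENNReal.ofReal (C₂ * ∫ z, Φ z ∂V)) ∂V :=
          lintegral_mono_ae (ae_restrict_of_ae hP)
      _ = ∫⁻ p in E, ∫⁻ z, K p z * ENNReal.ofReal (g z) ∂V ∂V +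
            ENNReal.ofReal (C₂ * ∫ z, Φ z ∂V) * V E := by
          rw [lintegral_add_right _ measurable_const, lintegral_const,
            Measure.restrict_apply_univ]
      _ = ∫⁻ z, ∫⁻ p in E, K p z * ENNReal.ofReal (g z) ∂V ∂V +
            ENNReal.ofReal (C₂ * ∫ z, Φ z ∂V) * V E := by
          rw [lintegral_lintegral_swap]
          exact (hKm.mul (hgm.ennreal_ofReal.comp measurable_snd)).aemeasurable
      _ ≤ ENNReal.ofReal C₃ * V E ^ (1 / m) * ENNReal.ofReal (∫ z, g z ∂V) +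
            ENNReal.ofReal (C₂ * ∫ z, Φ z ∂V) * V E := by
          refine add_le_add ?_ le_rfl
          rw [ofReal_integral_eq_lintegral_ofReal hgi (Filter.Eventually.of_forall hg),
            ← lintegral_const_mul _ hgm.ennreal_ofReal]
          refine lintegral_mono fun z => ?_
          rw [lintegral_mul_const _ (show Measurable fun p => K p z from
            hKm.comp (measurable_id.prodMk measurable_const))]
          exact mul_le_mul' (hK z E hE) le_rfl
  have h2 : t * v ≤ C₃ * v ^ (1 / m) * (∫ z, g z ∂V) + C₂ * (∫ z, Φ z ∂V) * v := by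
    rw [hVE, ENNReal.ofReal_rpow_of_pos hpos, ← ENNReal.ofReal_mul ht.le,
      ← ENNReal.ofReal_mul hC₃, ← ENNReal.ofReal_mul (by positivity),
      ← ENNReal.ofReal_mul (by (clear * - hC₂ hI2; positivity)), ← ENNReal.ofReal_add (by (clear * - hC₃ hpos hI1; positivity))
        (by (clear * - hC₂ hI2 hpos; positivity))] at h1
    exact (ENNReal.ofReal_le_ofReal_iff (by (clear * - hC₃ hpos hI1 hC₂ hI2; positivity))).1 h1
  have hvm : 0 < v ^ (1 / m) := rpow_pos_of_pos hpos _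
  have hvv : v = v ^ ((m - 1) / m) * v ^ (1 / m) := by
    rw [← rpow_add hpos, show (m - 1) / m + 1 / m = 1 by field_simp; ring, rpow_one]
  have h3 : t * v ^ ((m - 1) / m) ≤ C₃ * (∫ z, g z ∂V) +
      C₂ * (∫ z, Φ z ∂V) * v ^ ((m - 1) / m) := by
    refine le_of_mul_le_mul_right ?_ hvm
    calc t * v ^ ((m - 1) / m) * v ^ (1 / m) = t * v := by rw [mul_assoc, ← hvv]
      _ ≤ _ := h2
      _ = (C₃ * (∫ z, g z ∂V) + C₂ * (∫ z, Φ z ∂V) * v ^ ((m - 1) / m)) * v ^ (1 / m) := by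
        nth_rewrite 2 [hvv]
        ring
  have h4 : v ^ ((m - 1) / m) ≤ V.real Set.univ ^ ((m - 1) / m) :=
    rpow_le_rpow hv0 (measureReal_mono (Set.subset_univ _)) (by
      have : 0 < (m - 1) / m := div_pos (by linarith only [hm]) hm0
      exact this.le)
  have h5 : 0 ≤ V.real Set.univ ^ ((m - 1) / m) := rpow_nonneg measureReal_nonneg _
  rw [hsplit]
  calc t * v ^ ((m - 1) / m) ≤ C₃ * (∫ z, g z ∂V) +
      C₂ * (∫ z, Φ z ∂V) * v ^ ((m - 1) / m) := h3
    _ ≤ C₃ * (∫ z, g z ∂V) + C₂ * (∫ z, Φ z ∂V) * V.real Set.univ ^ ((m - 1) / m) := by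
      gcongr
    _ ≤ _ := by
      have h6 : 0 ≤ C₃ * ∫ z, Φ z ∂V := by (clear * - hC₃ hI2; positivity)
      have h7 : 0 ≤ C₂ * V.real Set.univ ^ ((m - 1) / m) * ∫ z, g z ∂V := by (clear * - hC₂ hI1; positivity)
      linarith only [h7, h6]

end Vale.Agent.P219.End.WS
end

section

/-!
# P219 / End : elementary facts on the bubbles (for `G3`)
-/

open MeasureTheory Set Metric
open scoped ENNReal ContDiff

namespace Vale.Agent.P219.End

variable {n : ℕ}

namespace Lim

variable (L : Lim n)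

/-- `ε (2 - k2 ε)` -/
noncomputable def kap_g (ε : ℝ) : ℝ := ε * (2 - L.k2 * ε)

theorem kap_pos_g {ε : ℝ} (h0 : 0 < ε) (h : L.k2 * ε < 2) : 0 < L.kap_g ε :=
  mul_pos h0 (by linarith)

theorem kap_le_g {ε : ℝ} (h0 : 0 < ε) : L.kap_g ε ≤ 2 * ε := by
  unfold kap_g
  have := mul_nonneg L.k2_nonneg h0.le
  linarith only [mul_nonneg (le_of_lt (sub_pos.2 h0)) (sub_nonneg.2 this)]

theorem le_kap_g {ε : ℝ} (h0 : 0 < ε) (h : L.k2 * ε ≤ 1) : ε ≤ L.kap_g ε := by
  unfold kap_g
  nlinarith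

theorem Fe_pos_g (c x : E n) {ε : ℝ} (h0 : 0 < ε) : 0 < L.F c x + ε := by
  linarith [L.F_nonneg c x]

theorem w_eq_g (c x : E n) (ε : ℝ) : L.w c ε x = √(L.kap_g ε) / (L.F c x + ε) := rfl

theorem w_posB_g (c x : E n) {ε : ℝ} (h0 : 0 < ε) (h : L.k2 * ε < 2) : 0 < L.w c ε x :=
  div_pos (Real.sqrt_pos.2 (L.kap_pos_g h0 h)) (L.Fe_pos_g c x h0)

theorem w_rpow_g (c x : E n) {ε : ℝ} (h0 : 0 < ε) (h : L.k2 * ε < 2) (q : ℝ) :
    L.w c ε x ^ q = L.kap_g ε ^ (q / 2) * (L.F c x + ε) ^ (-q) := by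
  rw [w_eq_g, Real.div_rpow (Real.sqrt_nonneg _) (L.Fe_pos_g c x h0).le, Real.sqrt_eq_rpow,
    ← Real.rpow_mul (L.kap_pos_g h0 h).le, Real.rpow_neg (L.Fe_pos_g c x h0).le]
  rw [div_eq_mul_inv]
  congr 2
  ring

theorem w_sq_g (c x : E n) {ε : ℝ} (h0 : 0 < ε) (h : L.k2 * ε < 2) :
    L.w c ε x ^ 2 = L.kap_g ε / (L.F c x + ε) ^ 2 := by
  rw [w_eq_g, div_pow, Real.sq_sqrt (L.kap_pos_g h0 h).le]

theorem w_contB_g (c : E n) {ε : ℝ} (h0 : 0 < ε) : Continuous (L.w c ε) := by
  unfold w bub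
  exact continuous_const.div ((L.Fc_cont c).add continuous_const)
    (fun x => (L.Fe_pos_g c x h0).ne')

theorem w_smoothB_g (c : E n) {ε : ℝ} (h0 : 0 < ε) : ContDiff ℝ ∞ (L.w c ε) := by
  unfold w bub
  exact contDiff_const.div ((L.Fc_smooth c).add contDiff_const) (fun x => (L.Fe_pos_g c x h0).ne')

theorem w_rpow_smoothB_g (c : E n) {ε : ℝ} (h0 : 0 < ε) (h : L.k2 * ε < 2) (q : ℝ) :
    ContDiff ℝ ∞ (fun x => L.w c ε x ^ q) :=
  (L.w_smoothB_g c h0).rpow_const_of_ne (fun x => (L.w_posB_g c x h0 h).ne')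

/-- `F` is bounded on `K × K`. -/
theorem F_bound_g : ∃ B > 0, ∀ c ∈ L.K, ∀ x ∈ L.K, L.F c x ≤ B := by
  obtain ⟨C, hC⟩ := (L.K_compact.prod L.K_compact).exists_bound_of_continuousOn
    (L.F_smooth.continuous.continuousOn)
  refine ⟨|C| + 1, by positivity, fun c hc x hx => ?_⟩
  have h := hC (c, x) ⟨hc, hx⟩
  have h1 := le_abs_self (L.F c x)
  have h2 := le_abs_self C
  simp only [Real.norm_eq_abs] at h
  linarith

/-- comparison of two bubbles with the same centre -/
theorem w_scale_g (c x : E n) {ε ε' Λ : ℝ} (h0 : 0 < ε) (h1 : ε ≤ ε') (h2 : ε' ≤ Λ * ε)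
    (h3 : L.k2 * ε' ≤ 1) : L.w c ε' x ^ L.m ≤ (2 * Λ) ^ (L.m / 2) * L.w c ε x ^ L.m := by
  have h0' : 0 < ε' := lt_of_lt_of_le h0 h1
  have hk : L.k2 * ε ≤ 1 := le_trans (mul_le_mul_of_nonneg_left h1 L.k2_nonneg) h3
  have hm := L.three_le
  have hΛ : 0 < Λ := by
    by_contra hneg
    push Not at hneg
    linarith only [h2, h0', mul_nonneg (le_of_lt (sub_pos.2 h0)) (sub_nonneg.2 hneg)]
  rw [L.w_rpow_g c x h0' (by linarith), L.w_rpow_g c x h0 (by linarith), ← mul_assoc,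
    ← Real.mul_rpow (by positivity) (L.kap_pos_g h0 (by linarith)).le]
  have a1 : L.kap_g ε' ≤ 2 * Λ * L.kap_g ε := by
    have b1 := L.kap_le_g h0'
    have b2 := L.le_kap_g h0 hk
    (by_contra nlg; linarith only [mul_pos (sub_pos.2 (not_le.1 nlg)) (sub_pos.2 h0), mul_nonneg (le_of_lt (sub_pos.2 h0)) (sub_nonneg.2 h2), mul_nonneg (le_of_lt (sub_pos.2 h0)) (sub_nonneg.2 b1), mul_nonneg (sub_nonneg.2 h2) (sub_nonneg.2 b2), mul_nonneg (le_of_lt (sub_pos.2 h0')) (sub_nonneg.2 b2)])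
  have a2 : L.kap_g ε' ^ (L.m / 2) ≤ (2 * Λ * L.kap_g ε) ^ (L.m / 2) :=
    Real.rpow_le_rpow (L.kap_pos_g h0' (by linarith)).le a1 (by linarith)
  have a3 : (L.F c x + ε') ^ (-L.m) ≤ (L.F c x + ε) ^ (-L.m) :=
    Real.rpow_le_rpow_of_nonpos (L.Fe_pos_g c x h0) (by linarith) (by linarith)
  exact mul_le_mul a2 a3 (Real.rpow_nonneg (L.Fe_pos_g c x h0').le _)
    (Real.rpow_nonneg (by have := L.kap_pos_g h0 (by linarith); positivity) _)

/-- `w² ≤ 2 / (F + ε)` -/
theorem w_sq_le_g (c x : E n) {ε : ℝ} (h0 : 0 < ε) (h : L.k2 * ε < 2) :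
    L.w c ε x ^ 2 ≤ 2 / (L.F c x + ε) := by
  rw [L.w_sq_g c x h0 h, div_le_div_iff₀ (by have := L.Fe_pos_g c x h0; positivity)
    (L.Fe_pos_g c x h0)]
  have h1 := L.kap_le_g h0
  have h2 := L.F_nonneg c x
  have h3 := L.Fe_pos_g c x h0
  have h4 : L.kap_g ε * (L.F c x + ε) ≤ (2 * (L.F c x + ε)) * (L.F c x + ε) := by
    apply mul_le_mul_of_nonneg_right _ h3.le
    linarith
  linarith only [h4]

/-- `w |∇F| ≤ √(2 + k2 B)` if `F ≤ B` -/
theorem w_mul_grad_le_g (c x : E n) {ε B : ℝ} (h0 : 0 < ε) (h : L.k2 * ε < 2)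
    (hB : L.F c x ≤ B) :
    L.w c ε x * √(2 * L.F c x + L.k2 * L.F c x ^ 2) ≤ √(2 + L.k2 * B) := by
  have hF := L.F_nonneg c x
  have hk := L.k2_nonneg
  have hp := L.Fe_pos_g c x h0
  have hw := (L.w_posB_g c x h0 h).le
  rw [show L.w c ε x = √(L.w c ε x ^ 2) from (Real.sqrt_sq hw).symm,
    ← Real.sqrt_mul (sq_nonneg _)]
  apply Real.sqrt_le_sqrt
  rw [L.w_sq_g c x h0 h, div_mul_eq_mul_div, div_le_iff₀ (by positivity)]
  have e1 : 2 * L.F c x + L.k2 * L.F c x ^ 2 ≤ (2 + L.k2 * B) * L.F c x := by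
    linarith only [mul_le_mul_of_nonneg_left hB (mul_nonneg hk hF)]
  have e2 : L.kap_g ε * (2 * L.F c x + L.k2 * L.F c x ^ 2) ≤
      2 * ε * ((2 + L.k2 * B) * L.F c x) := by
    apply mul_le_mul (L.kap_le_g h0) e1 (by positivity) (by positivity)
  have e3 : 0 ≤ 2 + L.k2 * B := by
    have : 0 ≤ B := hF.trans hB
    positivity
  linarith only [e2, mul_nonneg e3 (sq_nonneg (L.F c x)), mul_nonneg e3 (sq_nonneg ε)]

end Lim

end Vale.Agent.P219.End
end

section

/-!
# P219 / End : reversed monotonicity at the centre of a bubble with small defect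
-/

open MeasureTheory Set Metric
open scoped ENNReal ContDiff

namespace Vale.Agent.P219.End

variable {n : ℕ}

namespace Lim

variable (L : Lim n)

/-- The formula for the derivative of `J`. -/
def DerivJ_g : Prop := ∀ (c : E n) (Φ : E n → ℝ), ContDiff ℝ ∞ Φ → ∀ ε : ℝ, 0 < ε → L.k2 * ε < 2 →
  HasDerivAt (fun e => L.J Φ c e) ((ε * (2 - L.k2 * ε))⁻¹ *
    (L.Dl c (fun x => Φ x * L.w c ε x ^ L.m) - L.H0 * ∫ z, Φ z.1 * L.w c ε z.1 ^ L.m * L.nc c z ∂L.V +
      ∫ z, L.w c ε z.1 ^ L.m * L.G Φ (L.F c) z ∂L.V +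
      L.m * ∫ z, Φ z.1 * L.w c ε z.1 ^ L.m * L.nc c z ^ 2 / (L.F c z.1 + ε) ∂L.V)) ε

/-- `g = u w^{-(m-2)/2}` -/
noncomputable def gq_g (c : E n) (ε : ℝ) (u : E n → ℝ) (x : E n) : ℝ :=
  u x * L.w c ε x ^ (-((L.m - 2) / 2))

theorem gq_smooth_g (c : E n) {ε : ℝ} (h0 : 0 < ε) (h : L.k2 * ε < 2) {u : E n → ℝ}
    (hu : ContDiff ℝ ∞ u) : ContDiff ℝ ∞ (L.gq_g c ε u) :=
  hu.mul (L.w_rpow_smoothB_g c h0 h _)

theorem gq_pos_g (c : E n) {ε : ℝ} (h0 : 0 < ε) (h : L.k2 * ε < 2) {u : E n → ℝ}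
    (hu : ∀ x, 0 < u x) (x : E n) : 0 < L.gq_g c ε u x :=
  mul_pos (hu x) (Real.rpow_pos_of_pos (L.w_posB_g c x h0 h) _)

/-- `g w^a = u` -/
theorem gq_mul_g (c : E n) {ε : ℝ} (h0 : 0 < ε) (h : L.k2 * ε < 2) (u : E n → ℝ) (x : E n) :
    L.gq_g c ε u x * L.w c ε x ^ ((L.m - 2) / 2) = u x := by
  unfold gq_g
  rw [mul_assoc, ← Real.rpow_add (L.w_posB_g c x h0 h), neg_add_cancel, Real.rpow_zero, mul_one]

/-- `g² w^m = u² w²` -/
theorem gq_sq_g (c : E n) {ε : ℝ} (h0 : 0 < ε) (h : L.k2 * ε < 2) (u : E n → ℝ) (x : E n) :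
    L.gq_g c ε u x ^ 2 * L.w c ε x ^ L.m = u x ^ 2 * L.w c ε x ^ 2 := by
  have hw := L.w_posB_g c x h0 h
  have e : L.w c ε x ^ L.m = (L.w c ε x ^ ((L.m - 2) / 2)) ^ 2 * L.w c ε x ^ 2 := by
    rw [← Real.rpow_natCast (L.w c ε x ^ ((L.m - 2) / 2)) 2, ← Real.rpow_mul hw.le,
      ← Real.rpow_natCast (L.w c ε x) 2, ← Real.rpow_add hw]
    congr 1
    push_cast
    ring
  rw [e, ← mul_assoc, ← mul_pow, L.gq_mul_g c h0 h]

/-- `g w^m = w^a u w²` -/
theorem gq_one_g (c : E n) {ε : ℝ} (h0 : 0 < ε) (h : L.k2 * ε < 2) (u : E n → ℝ) (x : E n) :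
    L.w c ε x ^ L.m * L.gq_g c ε u x =
      L.w c ε x ^ ((L.m - 2) / 2) * u x * L.w c ε x ^ 2 := by
  have hw := L.w_posB_g c x h0 h
  have e : L.w c ε x ^ L.m =
      L.w c ε x ^ ((L.m - 2) / 2) * L.w c ε x ^ ((L.m - 2) / 2) * L.w c ε x ^ 2 := by
    rw [← Real.rpow_add hw, ← Real.rpow_natCast (L.w c ε x) 2, ← Real.rpow_add hw]
    congr 1
    push_cast
    ring
  rw [e, ← L.gq_mul_g c h0 h u x]
  ring

/-- The gradient of `g²`. -/
theorem G_sq_g {g F : E n → ℝ} (hg : ContDiff ℝ ∞ g) (z : E n × E n) :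
    L.G (fun x => g x ^ 2) F z = 2 * g z.1 * L.G g F z := by
  have h : D L.A (fun x => g x ^ 2) z.1 = (2 * g z.1) • D L.A g z.1 := by
    have h1 : HasDerivAt (fun t : ℝ => t ^ 2) (2 * g z.1) (g z.1) := by
      simpa using hasDerivAt_pow 2 (g z.1)
    exact D_comp h1 (hg.differentiable (by simp) _)
  show gv _ _ _ = 2 * g z.1 * gv _ _ _
  rw [h, gv_smul_left]

/-- Young's inequality for the gradient term. -/
theorem grad_term_le_g (c : E n) {ε B s : ℝ} (h0 : 0 < ε) (h : L.k2 * ε < 2) (hs : 0 < s)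
    {u : E n → ℝ} (hu : ContDiff ℝ ∞ u) (hu0 : ∀ x, 0 < u x) {z : E n × E n}
    (hz : ‖z.2‖ = 1) (hB : L.F c z.1 ≤ B) :
    L.w c ε z.1 ^ L.m * |L.G (fun x => L.gq_g c ε u x ^ 2) (L.F c) z| ≤
      √(2 + L.k2 * B) * (s⁻¹ * (L.w c ε z.1 ^ (L.m - 2) * L.G (L.gq_g c ε u) (L.gq_g c ε u) z) +
        s * (u z.1 ^ 2 * L.w c ε z.1 ^ 2)) := by
  set g := L.gq_g c ε u with hg
  have hgs : ContDiff ℝ ∞ g := L.gq_smooth_g c h0 h hu
  have hgp : 0 < g z.1 := L.gq_pos_g c h0 h hu0 z.1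
  have hw := L.w_posB_g c z.1 h0 h
  set X := L.G g g z with hX
  have hX0 : 0 ≤ X := L.G_self_nonneg g hz
  have c1 : |L.G g (L.F c) z| ≤ √X * √(2 * L.F c z.1 + L.k2 * L.F c z.1 ^ 2) := by
    refine (gv_abs_le hz.le _ _).trans ?_
    refine mul_le_mul_of_nonneg_left ?_ (Real.sqrt_nonneg _)
    apply Real.sqrt_le_sqrt
    refine (gv_self_le _ _).trans ?_
    exact (L.grad c z.1).le
  have c2 := L.w_mul_grad_le_g c z.1 h0 h hB
  set a := L.w c ε z.1 ^ ((L.m - 2) / 2) with ha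
  have ha0 : 0 < a := Real.rpow_pos_of_pos hw _
  have ha2 : L.w c ε z.1 ^ (L.m - 2) = a ^ 2 := by
    rw [ha, ← Real.rpow_natCast (L.w c ε z.1 ^ ((L.m - 2) / 2)) 2, ← Real.rpow_mul hw.le]
    congr 1
    push_cast
    ring
  rw [L.G_sq_g hgs, abs_mul, abs_of_pos (by positivity : (0:ℝ) < 2 * g z.1), ha2]
  calc L.w c ε z.1 ^ L.m * (2 * g z.1 * |L.G g (L.F c) z|)
      = 2 * (L.w c ε z.1 ^ L.m * g z.1) * |L.G g (L.F c) z| := by ring
    _ = 2 * (a * u z.1 * L.w c ε z.1 ^ 2) * |L.G g (L.F c) z| := by rw [L.gq_one_g c h0 h]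
    _ ≤ 2 * (a * u z.1 * L.w c ε z.1 ^ 2) *
        (√X * √(2 * L.F c z.1 + L.k2 * L.F c z.1 ^ 2)) := by
        refine mul_le_mul_of_nonneg_left c1 ?_
        have := hu0 z.1
        positivity
    _ = 2 * (a * √X) * (u z.1 * L.w c ε z.1) *
        (L.w c ε z.1 * √(2 * L.F c z.1 + L.k2 * L.F c z.1 ^ 2)) := by ring
    _ ≤ 2 * (a * √X) * (u z.1 * L.w c ε z.1) * √(2 + L.k2 * B) := by
        refine mul_le_mul_of_nonneg_left c2 ?_
        have := hu0 z.1
        (clear * - hw this; positivity)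
    _ ≤ _ := by
        have y : 2 * (a * √X) * (u z.1 * L.w c ε z.1) ≤
            s⁻¹ * (a ^ 2 * X) + s * (u z.1 ^ 2 * L.w c ε z.1 ^ 2) := by
          have y1 : a ^ 2 * X = (a * √X) ^ 2 := by rw [mul_pow, Real.sq_sqrt hX0]
          rw [y1, ← mul_pow]
          set p := a * √X
          set q := u z.1 * L.w c ε z.1
          have y2 : 0 ≤ s⁻¹ * (p - s * q) ^ 2 := by (clear * - hs; positivity)
          have y3 : s⁻¹ * (p - s * q) ^ 2 = s⁻¹ * p ^ 2 - 2 * p * q + s * q ^ 2 := by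
            field_simp
            ring
          linarith only [y3, y2]
        calc _ = √(2 + L.k2 * B) * (2 * (a * √X) * (u z.1 * L.w c ε z.1)) := by ring
          _ ≤ _ := mul_le_mul_of_nonneg_left y (Real.sqrt_nonneg _)

/-- `∫ u² n²/(F+ε)²` is small. -/
theorem nc_term_le_g (c : E n) {ε δ : ℝ} (h0 : 0 < ε) {u : E n → ℝ}
    (hu : Continuous u)
    (hd2 : ∫ z, u z.1 ^ 2 * (L.H0 / L.m - L.nc c z / (L.F c z.1 + ε)) ^ 2 ∂L.V ≤ δ)
    (hR : ∫ z, u z.1 ^ 2 ∂L.V ≤ δ) :
    ∫ z, u z.1 ^ 2 * (L.nc c z / (L.F c z.1 + ε)) ^ 2 ∂L.V ≤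
      (2 + 2 * (L.H0 / L.m) ^ 2) * δ := by
  have k1 : Continuous fun z : E n × E n => u z.1 := hu.comp continuous_fst
  have k2 : Continuous fun z : E n × E n => L.nc c z / (L.F c z.1 + ε) := by
    refine (L.nc_cont c).div (((L.Fc_cont c).comp continuous_fst).add continuous_const) ?_
    intro z
    exact (L.Fe_pos_g c z.1 h0).ne'
  have i1 := L.integrable_of_cont (f := fun z => u z.1 ^ 2 *
    (L.H0 / L.m - L.nc c z / (L.F c z.1 + ε)) ^ 2) (by continuity)
  have i2 := L.integrable_of_cont (f := fun z => u z.1 ^ 2) (by fun_prop)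
  calc ∫ z, u z.1 ^ 2 * (L.nc c z / (L.F c z.1 + ε)) ^ 2 ∂L.V
      ≤ ∫ z, (2 * (u z.1 ^ 2 * (L.H0 / L.m - L.nc c z / (L.F c z.1 + ε)) ^ 2) +
          2 * (L.H0 / L.m) ^ 2 * u z.1 ^ 2) ∂L.V := by
        refine L.integral_mono_of (by continuity) (by fun_prop) fun z _ _ => ?_
        set t := L.nc c z / (L.F c z.1 + ε)
        set b := L.H0 / L.m
        have : 0 ≤ u z.1 ^ 2 * ((b - t) + b) ^ 2 := by (clear * -; positivity)
        linarith only [mul_nonneg (sq_nonneg (u z.1)) (sq_nonneg (2 * b - t))]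
    _ = 2 * ∫ z, u z.1 ^ 2 * (L.H0 / L.m - L.nc c z / (L.F c z.1 + ε)) ^ 2 ∂L.V +
          2 * (L.H0 / L.m) ^ 2 * ∫ z, u z.1 ^ 2 ∂L.V := by
        rw [integral_add (i1.const_mul 2) (i2.const_mul _), integral_const_mul,
          integral_const_mul]
    _ ≤ 2 * δ + 2 * (L.H0 / L.m) ^ 2 * δ := by
        have : 0 ≤ 2 * (L.H0 / L.m) ^ 2 := by positivity
        linarith only [hd2, mul_le_mul_of_nonneg_left hR this]
    _ = _ := by ring

/-- data common to the four terms -/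
theorem gw_le_g (c : E n) {ε e C₁ : ℝ} (h0 : 0 < ε) (hk : L.k2 * ε < 2) {u : E n → ℝ}
    (hs : ∀ x, L.w c e x ^ L.m ≤ C₁ * L.w c ε x ^ L.m) (x : E n) :
    L.gq_g c ε u x ^ 2 * L.w c e x ^ L.m ≤ C₁ * (u x ^ 2 * L.w c ε x ^ 2) := by
  calc L.gq_g c ε u x ^ 2 * L.w c e x ^ L.m ≤ L.gq_g c ε u x ^ 2 * (C₁ * L.w c ε x ^ L.m) :=
        mul_le_mul_of_nonneg_left (hs x) (sq_nonneg _)
    _ = C₁ * (L.gq_g c ε u x ^ 2 * L.w c ε x ^ L.m) := by ring
    _ = _ := by rw [L.gq_sq_g c h0 hk]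

theorem term_one_g {c : E n} (hc : c ∈ L.K) {ε e C₁ δ : ℝ} (h0 : 0 < ε) (hk : L.k2 * ε < 2)
    (he0 : 0 < e) (hke : L.k2 * e < 2) (hC₁0 : 0 < C₁)
    {u : E n → ℝ} (hu : ContDiff ℝ ∞ u)
    (hs : ∀ x, L.w c e x ^ L.m ≤ C₁ * L.w c ε x ^ L.m)
    (hd3 : 2 / L.m * L.Dl c (fun x => u x ^ 2 / (L.F c x + ε)) ≤ δ) :
    L.Dl c (fun x => L.gq_g c ε u x ^ 2 * L.w c e x ^ L.m) ≤ C₁ * L.m * δ := by
  have hm0 := L.m_pos
  have s1 : ContDiff ℝ ∞ (fun x => L.gq_g c ε u x ^ 2 * L.w c e x ^ L.m) :=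
    ((L.gq_smooth_g c h0 hk hu).pow 2).mul (L.w_rpow_smoothB_g c he0 hke L.m)
  have s2 : ContDiff ℝ ∞ (fun x => u x ^ 2 / (L.F c x + ε)) :=
    (hu.pow 2).div ((L.Fc_smooth c).add contDiff_const) fun x => (L.Fe_pos_g c x h0).ne'
  have s3 : ContDiff ℝ ∞ (fun x => 2 * C₁ * (u x ^ 2 / (L.F c x + ε))) :=
    contDiff_const.mul s2
  have h1 : L.Dl c (fun x => L.gq_g c ε u x ^ 2 * L.w c e x ^ L.m) ≤
      L.Dl c (fun x => 2 * C₁ * (u x ^ 2 / (L.F c x + ε))) := by
    refine L.Dl_mono hc s1 s3 fun x => ?_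
    refine (L.gw_le_g c h0 hk hs x).trans ?_
    have h2 := L.w_sq_le_g c x h0 hk
    calc C₁ * (u x ^ 2 * L.w c ε x ^ 2) ≤ C₁ * (u x ^ 2 * (2 / (L.F c x + ε))) := by
          gcongr
      _ = _ := by ring
  rw [L.Dl_smul c _ (s2.of_le (by exact_mod_cast le_top))] at h1
  have h3 : L.Dl c (fun x => u x ^ 2 / (L.F c x + ε)) ≤ L.m / 2 * δ := by
    have : L.Dl c (fun x => u x ^ 2 / (L.F c x + ε)) =
        L.m / 2 * (2 / L.m * L.Dl c (fun x => u x ^ 2 / (L.F c x + ε))) := by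
      field_simp
    rw [this]
    exact mul_le_mul_of_nonneg_left hd3 (by positivity)
  calc _ ≤ _ := h1
    _ ≤ 2 * C₁ * (L.m / 2 * δ) := mul_le_mul_of_nonneg_left h3 (by positivity)
    _ = C₁ * L.m * δ := by ring

theorem term_two_g {c : E n} {ε e C₁ δ : ℝ} (h0 : 0 < ε) (hk : L.k2 * ε < 2)
    (he0 : 0 < e) (hke : L.k2 * e < 2) (hC₁0 : 0 < C₁)
    {u : E n → ℝ} (hu : ContDiff ℝ ∞ u)
    (hs : ∀ x, L.w c e x ^ L.m ≤ C₁ * L.w c ε x ^ L.m)
    (hd2 : ∫ z, u z.1 ^ 2 * (L.H0 / L.m - L.nc c z / (L.F c z.1 + ε)) ^ 2 ∂L.V ≤ δ)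
    (hR : ∫ z, u z.1 ^ 2 ∂L.V ≤ δ) :
    -(L.H0 * ∫ z, L.gq_g c ε u z.1 ^ 2 * L.w c e z.1 ^ L.m * L.nc c z ∂L.V) ≤
        C₁ * |L.H0| * (3 + 2 * (L.H0 / L.m) ^ 2) * δ := by
  have hn := L.nc_term_le_g c h0 hu.continuous hd2 hR
  set b := L.H0 / L.m with hb
  have ku : Continuous fun z : E n × E n => u z.1 := hu.continuous.comp continuous_fst
  have kg : Continuous fun z : E n × E n => L.gq_g c ε u z.1 :=
    (L.gq_smooth_g c h0 hk hu).continuous.comp continuous_fst
  have kn := L.nc_cont c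
  have kF : Continuous fun z : E n × E n => L.F c z.1 := (L.Fc_cont c).comp continuous_fst
  have kq : Continuous fun z : E n × E n => L.nc c z / (L.F c z.1 + ε) :=
    kn.div (kF.add continuous_const) fun z => (L.Fe_pos_g c z.1 h0).ne'
  have kwe : Continuous fun z : E n × E n => L.w c e z.1 ^ L.m :=
    (L.w_rpow_smoothB_g c he0 hke L.m).continuous.comp continuous_fst
  have h1 : |∫ z, L.gq_g c ε u z.1 ^ 2 * L.w c e z.1 ^ L.m * L.nc c z ∂L.V| ≤
      C₁ * ((3 + 2 * b ^ 2) * δ) := by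
    calc |∫ z, L.gq_g c ε u z.1 ^ 2 * L.w c e z.1 ^ L.m * L.nc c z ∂L.V|
        ≤ ∫ z, |L.gq_g c ε u z.1 ^ 2 * L.w c e z.1 ^ L.m * L.nc c z| ∂L.V :=
          abs_integral_le_integral_abs
      _ ≤ ∫ z, C₁ * (u z.1 ^ 2 + u z.1 ^ 2 * (L.nc c z / (L.F c z.1 + ε)) ^ 2) ∂L.V := by
          refine L.integral_mono_of (by continuity) (by fun_prop) fun z _ _ => ?_
          have p1 : 0 ≤ L.gq_g c ε u z.1 ^ 2 * L.w c e z.1 ^ L.m :=
            mul_nonneg (sq_nonneg _) (Real.rpow_nonneg (L.w_posB_g c z.1 he0 hke).le _)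
          rw [abs_mul, abs_of_nonneg p1]
          have hFp := L.Fe_pos_g c z.1 h0
          set t := L.nc c z / (L.F c z.1 + ε) with ht
          have e1 : |L.nc c z| = |t| * (L.F c z.1 + ε) := by
            rw [ht, abs_div, abs_of_pos hFp]
            field_simp
          have e2 : L.w c ε z.1 ^ 2 * (L.F c z.1 + ε) ≤ 2 := by
            have := L.w_sq_le_g c z.1 h0 hk
            rwa [le_div_iff₀ hFp] at this
          have e3 : 2 * |t| ≤ 1 + t ^ 2 := by
            linarith only [sq_abs t, sq_nonneg (|t| - 1)]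
          calc L.gq_g c ε u z.1 ^ 2 * L.w c e z.1 ^ L.m * |L.nc c z|
              ≤ C₁ * (u z.1 ^ 2 * L.w c ε z.1 ^ 2) * |L.nc c z| :=
                mul_le_mul_of_nonneg_right (L.gw_le_g c h0 hk hs z.1) (abs_nonneg _)
            _ = C₁ * u z.1 ^ 2 * |t| * (L.w c ε z.1 ^ 2 * (L.F c z.1 + ε)) := by
                rw [e1]; ring
            _ ≤ C₁ * u z.1 ^ 2 * |t| * 2 :=
                mul_le_mul_of_nonneg_left e2 (by (clear * - hC₁0; positivity))
            _ = C₁ * u z.1 ^ 2 * (2 * |t|) := by ring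
            _ ≤ C₁ * u z.1 ^ 2 * (1 + t ^ 2) :=
                mul_le_mul_of_nonneg_left e3 (by (clear * - hC₁0; positivity))
            _ = _ := by ring
      _ = C₁ * (∫ z, u z.1 ^ 2 ∂L.V +
            ∫ z, u z.1 ^ 2 * (L.nc c z / (L.F c z.1 + ε)) ^ 2 ∂L.V) := by
          rw [integral_const_mul, integral_add (L.integrable_of_cont (by fun_prop))
            (L.integrable_of_cont (by fun_prop))]
      _ ≤ C₁ * ((3 + 2 * b ^ 2) * δ) := by
          refine mul_le_mul_of_nonneg_left ?_ hC₁0.le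
          linarith only [hn, hR]
  calc -(L.H0 * ∫ z, L.gq_g c ε u z.1 ^ 2 * L.w c e z.1 ^ L.m * L.nc c z ∂L.V)
      ≤ |L.H0 * ∫ z, L.gq_g c ε u z.1 ^ 2 * L.w c e z.1 ^ L.m * L.nc c z ∂L.V| := neg_le_abs _
    _ = |L.H0| * |∫ z, L.gq_g c ε u z.1 ^ 2 * L.w c e z.1 ^ L.m * L.nc c z ∂L.V| := abs_mul _ _
    _ ≤ |L.H0| * (C₁ * ((3 + 2 * b ^ 2) * δ)) := by gcongr
    _ = C₁ * |L.H0| * (3 + 2 * b ^ 2) * δ := by ring

theorem term_three_g {c : E n} (hc : c ∈ L.K) {ε e C₁ δ B E₂ : ℝ} (h0 : 0 < ε)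
    (hk : L.k2 * ε < 2) (he0 : 0 < e) (hke : L.k2 * e < 2) (hC₁0 : 0 < C₁) (hδ0 : 0 < δ)
    (hB : ∀ c ∈ L.K, ∀ x ∈ L.K, L.F c x ≤ B)
    {u : E n → ℝ} (hu : ContDiff ℝ ∞ u) (hu0 : ∀ x, 0 < u x)
    (hs : ∀ x, L.w c e x ^ L.m ≤ C₁ * L.w c ε x ^ L.m)
    (hd1 : 4 / (L.m * (L.m - 2)) *
        ∫ z, L.w c ε z.1 ^ (L.m - 2) * L.G (L.gq_g c ε u) (L.gq_g c ε u) z ∂L.V ≤ δ)
    (hE2 : ∫ z, u z.1 ^ 2 * L.w c ε z.1 ^ 2 ∂L.V ≤ E₂) :
    ∫ z, L.w c e z.1 ^ L.m * L.G (fun x => L.gq_g c ε u x ^ 2) (L.F c) z ∂L.V ≤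
        C₁ * √(2 + L.k2 * B) * (L.m * (L.m - 2) / 4 + E₂) * √δ := by
  have hm0 := L.m_pos
  have hm2 := L.m_sub_pos
  have hs0 : 0 < √δ := Real.sqrt_pos.2 hδ0
  set g := L.gq_g c ε u with hg
  have hgs : ContDiff ℝ ∞ g := L.gq_smooth_g c h0 hk hu
  have hg2 : ContDiff ℝ ∞ (fun x => g x ^ 2) := hgs.pow 2
  have ku : Continuous fun z : E n × E n => u z.1 := hu.continuous.comp continuous_fst
  have kw : Continuous fun z : E n × E n => L.w c ε z.1 := (L.w_contB_g c h0).comp continuous_fst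
  have kwe : Continuous fun z : E n × E n => L.w c e z.1 ^ L.m :=
    (L.w_rpow_smoothB_g c he0 hke L.m).continuous.comp continuous_fst
  have kGm : Continuous (L.G (fun x => g x ^ 2) (L.F c)) :=
    L.G_cont (hg2.of_le (by exact_mod_cast le_top)) (L.Fc_smooth1 c)
  have kG : Continuous (L.G g g) :=
    L.G_cont (hgs.of_le (by exact_mod_cast le_top)) (hgs.of_le (by exact_mod_cast le_top))
  have kw2 : Continuous fun z : E n × E n => L.w c ε z.1 ^ (L.m - 2) :=
    (L.w_rpow_smoothB_g c h0 hk (L.m - 2)).continuous.comp continuous_fst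
  set P : ℝ := √(2 + L.k2 * B) with hP
  have hP0 : 0 ≤ P := Real.sqrt_nonneg _
  have hd1' : ∫ z, L.w c ε z.1 ^ (L.m - 2) * L.G g g z ∂L.V ≤
      L.m * (L.m - 2) / 4 * δ := by
    have : ∫ z, L.w c ε z.1 ^ (L.m - 2) * L.G g g z ∂L.V = L.m * (L.m - 2) / 4 *
        (4 / (L.m * (L.m - 2)) * ∫ z, L.w c ε z.1 ^ (L.m - 2) * L.G g g z ∂L.V) := by
      field_simp
    rw [this]
    exact mul_le_mul_of_nonneg_left hd1 (by (clear * - hm0 hm2; positivity))
  calc ∫ z, L.w c e z.1 ^ L.m * L.G (fun x => g x ^ 2) (L.F c) z ∂L.V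
      ≤ ∫ z, C₁ * (P * ((√δ)⁻¹ * (L.w c ε z.1 ^ (L.m - 2) * L.G g g z) +
          √δ * (u z.1 ^ 2 * L.w c ε z.1 ^ 2))) ∂L.V := by
        refine L.integral_mono_of (by continuity) (by fun_prop) fun z hz1 hz2 => ?_
        have hwe0 : 0 ≤ L.w c e z.1 ^ L.m := Real.rpow_nonneg (L.w_posB_g c z.1 he0 hke).le _
        calc L.w c e z.1 ^ L.m * L.G (fun x => g x ^ 2) (L.F c) z
            ≤ L.w c e z.1 ^ L.m * |L.G (fun x => g x ^ 2) (L.F c) z| :=
              mul_le_mul_of_nonneg_left (le_abs_self _) hwe0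
          _ ≤ C₁ * L.w c ε z.1 ^ L.m * |L.G (fun x => g x ^ 2) (L.F c) z| :=
              mul_le_mul_of_nonneg_right (hs _) (abs_nonneg _)
          _ = C₁ * (L.w c ε z.1 ^ L.m * |L.G (fun x => g x ^ 2) (L.F c) z|) := by ring
          _ ≤ _ := mul_le_mul_of_nonneg_left
              (L.grad_term_le_g c h0 hk hs0 hu hu0 hz2 (hB c hc z.1 hz1)) hC₁0.le
    _ = C₁ * (P * ((√δ)⁻¹ * ∫ z, L.w c ε z.1 ^ (L.m - 2) * L.G g g z ∂L.V +
          √δ * ∫ z, u z.1 ^ 2 * L.w c ε z.1 ^ 2 ∂L.V)) := by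
        rw [integral_const_mul, integral_const_mul,
          integral_add (L.integrable_of_cont (by fun_prop))
            (L.integrable_of_cont (by fun_prop)), integral_const_mul, integral_const_mul]
    _ ≤ C₁ * (P * ((√δ)⁻¹ * (L.m * (L.m - 2) / 4 * δ) + √δ * E₂)) := by gcongr
    _ = _ := by
        have : (√δ)⁻¹ * (L.m * (L.m - 2) / 4 * δ) = L.m * (L.m - 2) / 4 * √δ := by
          nth_rewrite 2 [← Real.mul_self_sqrt hδ0.le]
          field_simp
        rw [this]
        ring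

theorem term_four_g {c : E n} {ε e C₁ δ : ℝ} (h0 : 0 < ε) (hk : L.k2 * ε < 2)
    (he : ε ≤ e) (hke : L.k2 * e < 2) (hC₁0 : 0 < C₁)
    {u : E n → ℝ} (hu : ContDiff ℝ ∞ u)
    (hs : ∀ x, L.w c e x ^ L.m ≤ C₁ * L.w c ε x ^ L.m)
    (hd2 : ∫ z, u z.1 ^ 2 * (L.H0 / L.m - L.nc c z / (L.F c z.1 + ε)) ^ 2 ∂L.V ≤ δ)
    (hR : ∫ z, u z.1 ^ 2 ∂L.V ≤ δ) :
    L.m * ∫ z, L.gq_g c ε u z.1 ^ 2 * L.w c e z.1 ^ L.m * L.nc c z ^ 2 / (L.F c z.1 + e) ∂L.V ≤
        2 * L.m * C₁ * (2 + 2 * (L.H0 / L.m) ^ 2) * δ := by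
  have hn := L.nc_term_le_g c h0 hu.continuous hd2 hR
  have he0 : 0 < e := lt_of_lt_of_le h0 he
  have hm0 := L.m_pos
  set b := L.H0 / L.m with hb
  have ku : Continuous fun z : E n × E n => u z.1 := hu.continuous.comp continuous_fst
  have kg : Continuous fun z : E n × E n => L.gq_g c ε u z.1 :=
    (L.gq_smooth_g c h0 hk hu).continuous.comp continuous_fst
  have kn := L.nc_cont c
  have kF : Continuous fun z : E n × E n => L.F c z.1 := (L.Fc_cont c).comp continuous_fst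
  have kq : Continuous fun z : E n × E n => L.nc c z / (L.F c z.1 + ε) :=
    kn.div (kF.add continuous_const) fun z => (L.Fe_pos_g c z.1 h0).ne'
  have kwe : Continuous fun z : E n × E n => L.w c e z.1 ^ L.m :=
    (L.w_rpow_smoothB_g c he0 hke L.m).continuous.comp continuous_fst
  have kd : Continuous fun z : E n × E n =>
      L.gq_g c ε u z.1 ^ 2 * L.w c e z.1 ^ L.m * L.nc c z ^ 2 / (L.F c z.1 + e) :=
    (((kg.pow 2).mul kwe).mul (kn.pow 2)).div (kF.add continuous_const)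
      fun z => (L.Fe_pos_g c z.1 he0).ne'
  calc L.m * ∫ z, L.gq_g c ε u z.1 ^ 2 * L.w c e z.1 ^ L.m * L.nc c z ^ 2 /
          (L.F c z.1 + e) ∂L.V
      ≤ L.m * ∫ z, 2 * C₁ * (u z.1 ^ 2 * (L.nc c z / (L.F c z.1 + ε)) ^ 2) ∂L.V := by
        refine mul_le_mul_of_nonneg_left ?_ hm0.le
        refine L.integral_mono_of kd (by continuity) fun z _ _ => ?_
        have hFp := L.Fe_pos_g c z.1 h0
        have hFe := L.Fe_pos_g c z.1 he0
        have e2 := L.w_sq_le_g c z.1 h0 hk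
        rw [div_le_iff₀ hFe]
        calc L.gq_g c ε u z.1 ^ 2 * L.w c e z.1 ^ L.m * L.nc c z ^ 2
            ≤ C₁ * (u z.1 ^ 2 * L.w c ε z.1 ^ 2) * L.nc c z ^ 2 :=
              mul_le_mul_of_nonneg_right (L.gw_le_g c h0 hk hs z.1) (sq_nonneg _)
          _ ≤ C₁ * (u z.1 ^ 2 * (2 / (L.F c z.1 + ε))) * L.nc c z ^ 2 := by gcongr
          _ = 2 * C₁ * (u z.1 ^ 2 * (L.nc c z / (L.F c z.1 + ε)) ^ 2) *
                (L.F c z.1 + ε) := by field_simp
          _ ≤ _ := by
              refine mul_le_mul_of_nonneg_left ?_ (by (clear * - hC₁0; positivity))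
              linarith only [he]
    _ = L.m * (2 * C₁ * ∫ z, u z.1 ^ 2 * (L.nc c z / (L.F c z.1 + ε)) ^ 2 ∂L.V) := by
        rw [integral_const_mul]
    _ ≤ L.m * (2 * C₁ * ((2 + 2 * b ^ 2) * δ)) := by gcongr
    _ = 2 * L.m * C₁ * (2 + 2 * b ^ 2) * δ := by ring

/-- Reversed monotonicity. -/
theorem revmono_g (hM : L.DerivJ_g) {Λ E₂ : ℝ} (hΛ : 1 ≤ Λ) (hE : 0 ≤ E₂) :
    ∃ C > 0, ∀ c ∈ L.K, ∀ ε : ℝ, 0 < ε → L.k2 * (Λ * ε) ≤ 1 → ∀ u : E n → ℝ, ContDiff ℝ ∞ u →
      (∀ x, 0 < u x) → ∀ δ : ℝ, 0 < δ → δ ≤ 1 →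
      4 / (L.m * (L.m - 2)) *
        ∫ z, L.w c ε z.1 ^ (L.m - 2) * L.G (L.gq_g c ε u) (L.gq_g c ε u) z ∂L.V ≤ δ →
      ∫ z, u z.1 ^ 2 * (L.H0 / L.m - L.nc c z / (L.F c z.1 + ε)) ^ 2 ∂L.V ≤ δ →
      2 / L.m * L.Dl c (fun x => u x ^ 2 / (L.F c x + ε)) ≤ δ →
      ∫ z, u z.1 ^ 2 ∂L.V ≤ δ →
      ∫ z, u z.1 ^ 2 * L.w c ε z.1 ^ 2 ∂L.V ≤ E₂ →
      L.J (fun x => L.gq_g c ε u x ^ 2) c (Λ * ε) ≤
        L.J (fun x => L.gq_g c ε u x ^ 2) c ε + C * √δ := by
  obtain ⟨B, hB0, hB⟩ := L.F_bound_g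
  have hm0 := L.m_pos
  have hm2 := L.m_sub_pos
  have hk2 := L.k2_nonneg
  set C₁ : ℝ := (2 * Λ) ^ (L.m / 2) with hC₁
  have hC₁0 : 0 < C₁ := Real.rpow_pos_of_pos (by linarith only [hΛ]) _
  set C₂ : ℝ := C₁ * L.m + C₁ * |L.H0| * (3 + 2 * (L.H0 / L.m) ^ 2) +
    C₁ * √(2 + L.k2 * B) * (L.m * (L.m - 2) / 4 + E₂) +
    2 * L.m * C₁ * (2 + 2 * (L.H0 / L.m) ^ 2) with hC₂
  have hC₂0 : 0 < C₂ := by (clear * - hΛ hm0 hk2 hB0 hm2 hE; positivity)
  refine ⟨C₂ * Λ, by (clear * - hΛ hm0 hk2 hB0 hm2 hE; positivity), ?_⟩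
  intro c hc ε h0 hkΛ u hu hu0 δ hδ0 hδ1 hd1 hd2 hd3 hR hE2
  have hεΛ : ε ≤ Λ * ε := le_mul_of_one_le_left h0.le hΛ
  have hk : L.k2 * ε < 2 := by
    have := mul_le_mul_of_nonneg_left hεΛ hk2
    linarith only [this, hkΛ]
  have hg2 : ContDiff ℝ ∞ (fun x => L.gq_g c ε u x ^ 2) := (L.gq_smooth_g c h0 hk hu).pow 2
  have hsd : δ ≤ √δ := by
    have h1 : √δ ≤ 1 := Real.sqrt_le_one.2 hδ1
    calc δ = √δ * √δ := (Real.mul_self_sqrt hδ0.le).symm
      _ ≤ 1 * √δ := mul_le_mul_of_nonneg_right h1 (Real.sqrt_nonneg _)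
      _ = √δ := one_mul _
  have hs0 : 0 < √δ := Real.sqrt_pos.2 hδ0
  -- bound of the derivative
  have hder : ∀ e ∈ Set.Icc ε (Λ * ε), (e * (2 - L.k2 * e))⁻¹ *
      (L.Dl c (fun x => L.gq_g c ε u x ^ 2 * L.w c e x ^ L.m) -
        L.H0 * ∫ z, L.gq_g c ε u z.1 ^ 2 * L.w c e z.1 ^ L.m * L.nc c z ∂L.V +
      ∫ z, L.w c e z.1 ^ L.m * L.G (fun x => L.gq_g c ε u x ^ 2) (L.F c) z ∂L.V +
      L.m * ∫ z, L.gq_g c ε u z.1 ^ 2 * L.w c e z.1 ^ L.m * L.nc c z ^ 2 /
        (L.F c z.1 + e) ∂L.V) ≤ ε⁻¹ * (C₂ * √δ) := by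
    intro e he
    have he0 : 0 < e := lt_of_lt_of_le h0 he.1
    have hke : L.k2 * e ≤ 1 := (mul_le_mul_of_nonneg_left he.2 hk2).trans hkΛ
    have hke2 : L.k2 * e < 2 := by linarith only [hke]
    have hs : ∀ x, L.w c e x ^ L.m ≤ C₁ * L.w c ε x ^ L.m := fun x =>
      L.w_scale_g c x h0 he.1 he.2 hke
    have T1 := L.term_one_g hc h0 hk he0 hke2 hC₁0 hu hs hd3
    have T2 := L.term_two_g h0 hk he0 hke2 hC₁0 hu hs hd2 hR
    have T3 := L.term_three_g hc h0 hk he0 hke2 hC₁0 hδ0 hB hu hu0 hs hd1 hE2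
    have T4 := L.term_four_g h0 hk he.1 hke2 hC₁0 hu hs hd2 hR
    have T1' : C₁ * L.m * δ ≤ C₁ * L.m * √δ := mul_le_mul_of_nonneg_left hsd (by positivity)
    have T2' : C₁ * |L.H0| * (3 + 2 * (L.H0 / L.m) ^ 2) * δ ≤
        C₁ * |L.H0| * (3 + 2 * (L.H0 / L.m) ^ 2) * √δ :=
      mul_le_mul_of_nonneg_left hsd (by (clear * - hΛ; positivity))
    have T4' : 2 * L.m * C₁ * (2 + 2 * (L.H0 / L.m) ^ 2) * δ ≤
        2 * L.m * C₁ * (2 + 2 * (L.H0 / L.m) ^ 2) * √δ :=
      mul_le_mul_of_nonneg_left hsd (by (clear * - hm0 hΛ; positivity))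
    have hkap : ε ≤ e * (2 - L.k2 * e) := he.1.trans (L.le_kap_g he0 hke)
    have hi : (e * (2 - L.k2 * e))⁻¹ ≤ ε⁻¹ := inv_anti₀ h0 hkap
    have hi0 : 0 < (e * (2 - L.k2 * e))⁻¹ := inv_pos.2 (lt_of_lt_of_le h0 hkap)
    calc _ ≤ (e * (2 - L.k2 * e))⁻¹ * (C₂ * √δ) := by
          refine mul_le_mul_of_nonneg_left ?_ hi0.le
          rw [hC₂]
          linarith only [T4', T2', T1', T4, T3, T2, T1]
      _ ≤ _ := mul_le_mul_of_nonneg_right hi (by (clear * - hΛ hm0 hk2 hB0 hm2 hE hδ0; positivity))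
  have hdr := fun (e : ℝ) (he : e ∈ Set.Icc ε (Λ * ε)) => hM c _ hg2 e
    (lt_of_lt_of_le h0 he.1)
    (by linarith only [(mul_le_mul_of_nonneg_left he.2 hk2).trans hkΛ])
  have hmv := (convex_Icc ε (Λ * ε)).image_sub_le_mul_sub_of_deriv_le
    (f := fun e => L.J (fun x => L.gq_g c ε u x ^ 2) c e)
    (fun e he => (hdr e he).continuousAt.continuousWithinAt)
    (fun e he => (hdr e (interior_subset he)).differentiableAt.differentiableWithinAt)
    (C := ε⁻¹ * (C₂ * √δ)) (fun e he => by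
      rw [(hdr e (interior_subset he)).deriv]
      exact hder e (interior_subset he)) ε ⟨le_rfl, hεΛ⟩ (Λ * ε) ⟨hεΛ, le_rfl⟩ hεΛ
  have h6 : ε⁻¹ * (C₂ * √δ) * (Λ * ε - ε) = C₂ * √δ * (Λ - 1) * (ε⁻¹ * ε) := by ring
  rw [h6, inv_mul_cancel₀ h0.ne', mul_one] at hmv
  have h7 : 0 ≤ C₂ * √δ := by (clear * - hΛ hm0 hk2 hB0 hm2 hE hδ0; positivity)
  linarith only [h7, hmv]

end Lim

end Vale.Agent.P219.End
end

section

/-!
# P219 / End : the error half of `sup_bound` (leaf B5b)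

Tonelli, the average of the kernel and the smallness of the defect.
-/

open MeasureTheory Set Metric
open scoped ENNReal ContDiff Topology

namespace Vale.Agent.P219.End.Lim

variable {n : ℕ} (L : Lim n)

theorem sb_eps {s : ℝ} (hs : L.Ad s) : 0 < s ^ 2 / 2 ∧ L.k2 * (s ^ 2 / 2) < 2 := by
  have h1 : 0 < s ^ 2 / 2 := by have := hs.1; positivity
  refine ⟨h1, ?_⟩
  have := hs.2.2
  linarith only [this]

theorem sb_ws_pos {s : ℝ} (hs : L.Ad s) (c x : E n) : 0 < L.ws c s x :=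
  L.w_pos (L.sb_eps hs).1 (L.sb_eps hs).2 x

theorem sb_ws_smooth {s : ℝ} (hs : L.Ad s) (c : E n) : ContDiff ℝ ∞ (L.ws c s) :=
  L.w_smooth (L.sb_eps hs).1

theorem sb_wsp_smooth {s : ℝ} (hs : L.Ad s) (c : E n) (a : ℝ) :
    ContDiff ℝ ∞ fun x => L.ws c s x ^ a :=
  L.w_rpow_smooth (L.sb_eps hs).1 (L.sb_eps hs).2 a

theorem sb_gs_smooth {s : ℝ} (hs : L.Ad s) (c : E n) {u : E n → ℝ} (hu : SP u) :
    ContDiff ℝ ∞ (L.gs c s u) :=
  hu.1.div (L.sb_wsp_smooth hs c _) fun x => (Real.rpow_pos_of_pos (L.sb_ws_pos hs c x) _).ne'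

theorem sb_gs_pos {s : ℝ} (hs : L.Ad s) (c : E n) {u : E n → ℝ} (hu : SP u) (x : E n) :
    0 < L.gs c s u x :=
  div_pos (hu.2 x) (Real.rpow_pos_of_pos (L.sb_ws_pos hs c x) _)

/-- `g² w^(m-2) = u²` -/
theorem sb_gs_sq {s : ℝ} (hs : L.Ad s) (c : E n) (u : E n → ℝ) (x : E n) :
    L.gs c s u x ^ 2 * L.ws c s x ^ (L.m - 2) = u x ^ 2 := by
  have hw := L.sb_ws_pos hs c x
  have h : L.ws c s x ^ (L.m - 2) = (L.ws c s x ^ ((L.m - 2) / 2)) ^ 2 := by
    rw [← Real.rpow_natCast, ← Real.rpow_mul hw.le]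
    norm_num
  rw [h]
  unfold gs
  have h2 := (Real.rpow_pos_of_pos hw ((L.m - 2) / 2)).ne'
  field_simp

/-- `g² w^m = u² w²` -/
theorem sb_gs_sq' {s : ℝ} (hs : L.Ad s) (c : E n) (u : E n → ℝ) (x : E n) :
    L.gs c s u x ^ 2 * L.ws c s x ^ L.m = u x ^ 2 * L.ws c s x ^ 2 := by
  have hw := L.sb_ws_pos hs c x
  rw [← L.sb_gs_sq hs c u x]
  have h : L.ws c s x ^ L.m = L.ws c s x ^ (L.m - 2) * L.ws c s x ^ 2 := by
    rw [← Real.rpow_natCast (L.ws c s x) 2, ← Real.rpow_add hw]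
    norm_num
  rw [h]
  ring

theorem sb_ds_comm (c x : E n) : L.ds c x = L.ds x c := by
  unfold ds
  rw [L.F_comm]

theorem sb_ds_nonneg (c x : E n) : 0 ≤ L.ds c x := Real.sqrt_nonneg _

theorem sb_ds_cont : Continuous fun p : E n × E n => L.ds p.1 p.2 :=
  (continuous_const.mul L.F_smooth.continuous).sqrt

theorem sb_kS_nonneg {S d : ℝ} (hS : 0 ≤ S) (hd : 0 ≤ d) : 0 ≤ L.kS S d := by
  unfold kS
  have h1 : 0 ≤ S / (S + d) := by positivity
  exact mul_nonneg (Real.rpow_nonneg h1 _) (Real.rpow_nonneg hd _)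

theorem sb_kS_meas (S : ℝ) : Measurable fun d : ℝ => L.kS S d := by
  unfold kS
  have h1 : Measurable fun d : ℝ => S / (S + d) := by fun_prop
  exact (h1.pow_const _).mul (measurable_id.pow_const _)

/-- statement B3d of the skeleton -/
def KInt : Prop := ∀ c : E n, c ∈ L.K → ∀ S : ℝ, 0 < S →
  Integrable (fun z : E n × E n => L.kS S (L.ds c z.1)) L.V

/-- statement B3f of the skeleton -/
def KAvg : Prop := ∀ N Λ : ℝ, 1 ≤ N → 1 ≤ Λ → ∃ C > 0, ∀ c ∈ L.K, ∀ s : ℝ, 0 < s →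
    L.Ad (Λ * s) → ∀ x ∈ L.K,
    (∫ z in {z | L.ds c z.1 ≤ N * s}, L.kS (Λ * s) (L.ds z.1 x) ∂L.V
      ≤ C * s ^ L.m * L.ws c s x ^ (L.m - 1)) ∧
    ∫ z in {z | L.ds c z.1 ≤ N * s}, L.ds z.1 x * L.kS (Λ * s) (L.ds z.1 x) ∂L.V
      ≤ C * s ^ L.m * L.ws c s x ^ (L.m - 2)

/-- the gradient of `g` is small -/
theorem sb_grad {s : ℝ} (hs : L.Ad s) {c : E n} (hc : c ∈ L.K) {u : E n → ℝ}
    (hu : SP u) {δ : ℝ} (hD : L.Def c (s ^ 2 / 2) u ≤ δ) :
    ∫ z, L.ws c s z.1 ^ (L.m - 2) * L.G (L.gs c s u) (L.gs c s u) z ∂L.V ≤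
      L.m * (L.m - 2) / 4 * δ := by
  have h := L.d1_le hc (L.sb_eps hs).1 (L.sb_eps hs).2 hu.1
  have hm := L.m_pos
  have hm2 := L.m_sub_pos
  exact h.trans (mul_le_mul_of_nonneg_left hD (by positivity))

theorem sb_G_sq {g : E n → ℝ} (hg : ContDiff ℝ 1 g) (z : E n × E n) :
    L.G (fun x => g x ^ 2) (fun x => g x ^ 2) z = 4 * g z.1 ^ 2 * L.G g g z := by
  have h : D L.A (fun x => g x ^ 2) z.1 = (2 * g z.1) • D L.A g z.1 :=
    D_comp (f := fun t => t ^ 2) (by simpa using hasDerivAt_pow 2 (g z.1))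
      (hg.differentiable (by norm_num) _)
  show gv _ _ _ = 4 * g z.1 ^ 2 * gv _ _ _
  rw [h, gv_smul_left, gv_smul_right]
  ring

theorem sb_sqrt_G {g : E n → ℝ} (hg : ContDiff ℝ 1 g) (h0 : ∀ x, 0 ≤ g x) (z : E n × E n) :
    √(L.G (fun x => g x ^ 2) (fun x => g x ^ 2) z) = 2 * g z.1 * √(L.G g g z) := by
  rw [L.sb_G_sq hg z, Real.sqrt_mul (by positivity), show 4 * g z.1 ^ 2 = (2 * g z.1) ^ 2 by ring,
    Real.sqrt_sq (by have := h0 z.1; positivity)]

/-- the integrand of the error -/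
noncomputable def erk (S : ℝ) (g : E n → ℝ) (z₀ z : E n × E n) : ℝ :=
  (g z.1 ^ 2 * L.ds z₀.1 z.1 + √(L.G (fun x => g x ^ 2) (fun x => g x ^ 2) z)) *
    L.kS S (L.ds z₀.1 z.1)

theorem erk_meas (S : ℝ) {g : E n → ℝ} (hg : ContDiff ℝ ∞ g) :
    Measurable fun p : (E n × E n) × (E n × E n) => L.erk S g p.1 p.2 := by
  have h1 : Continuous fun p : (E n × E n) × (E n × E n) => L.ds p.1.1 p.2.1 :=
    L.sb_ds_cont.comp ((continuous_fst.comp continuous_fst).prodMk
      (continuous_fst.comp continuous_snd))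
  have h2 : Continuous fun p : (E n × E n) × (E n × E n) => g p.2.1 ^ 2 :=
    (hg.continuous.comp (continuous_fst.comp continuous_snd)).pow 2
  have hg1 : ContDiff ℝ 1 fun x => g x ^ 2 := (hg.pow 2).of_le one_le_inf
  have h3 : Continuous fun p : (E n × E n) × (E n × E n) =>
      √(L.G (fun x => g x ^ 2) (fun x => g x ^ 2) p.2) :=
    ((L.G_cont hg1 hg1).comp continuous_snd).sqrt
  have h4 := (L.sb_kS_meas S).comp h1.measurable
  exact ((h2.mul h1).add h3).measurable.mul h4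

end Vale.Agent.P219.End.Lim
end

section

open MeasureTheory Set Filter Topology
open scoped ENNReal ContDiff

namespace Vale.Agent.P219

variable {n k : ℕ}

end Vale.Agent.P219
end
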