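import Mathlib
import Vale.Agent.P219.Bdl.B6
import Vale.Agent.P219.Bdl.B2
import Vale.Agent.P219.Bdl.B5
import Vale.Agent.P219.Bdl.B4
import Vale.Agent.P219.Bdl.B3
import Vale.Agent.P219.Bdl.B1

set_option linter.all false

section

/-! # Minimising sequences with thin layers (task H17) -/

open MeasureTheory Set Metric
open scoped ENNReal ContDiff

namespace Vale.Agent.P219.TPH

open Vale.Agent.P219.TP

variable {n : ℕ} (G : Geo n)

/-- Volume of the geodesic ball. -/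
theorem sliceh_V1_nonneg (h : _root_.Vale.Agent.P219.TP.E n → ℝ) : 0 ≤ V1 G h := measureReal_nonneg

theorem sliceh_V1_le {o : _root_.Vale.Agent.P219.TP.E n} {ρ : ℝ} {h : _root_.Vale.Agent.P219.TP.E n → ℝ} (hc : G.Cls o ρ h) :
    V1 G h ≤ G.vol.real {x | ‖G.lg o x‖ ≤ ρ} := by
  unfold V1
  refine measureReal_mono ?_ (slice_vol_ball_lt G o ρ).ne
  intro x hx
  apply hc.supp x
  rw [show h x = 1 from hx]
  exact one_ne_zero

theorem sliceh_V1_step {o : _root_.Vale.Agent.P219.TP.E n} {ρ : ℝ} {h : _root_.Vale.Agent.P219.TP.E n → ℝ} (hc : G.Cls o ρ h) {N k : ℕ}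
    (hk : k < N) : V1 G h ≤ V1 G (fun x => sliceH (((N : ℝ) + 1) * h x - (k + 1 : ℕ))) := by
  unfold V1
  refine measureReal_mono ?_ ?_
  · intro x hx
    have h1 : h x = 1 := hx
    have h2 : (k : ℝ) + 1 ≤ N := by exact_mod_cast hk
    show sliceH (((N : ℝ) + 1) * h x - (k + 1 : ℕ)) = 1
    rw [h1]
    apply slice_H_high
    push_cast
    linarith
  · refine ((measure_mono ?_).trans_lt (slice_vol_ball_lt G o ρ)).ne
    intro x hx
    have h1 : sliceH (((N : ℝ) + 1) * h x - (k + 1 : ℕ)) = 1 := hx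
    apply (slice_cls G hc ((N : ℝ) + 1) k).supp x
    rw [h1]
    exact one_ne_zero

/-- PROOF: as `TP.exists_thin`: `h_k = sliceH((N+1) h - (k+1))`, `k < N`;
`{h = 1} ⊆ {h_k = 1}`, so `V1 h ≤ V1 h_k`, `I (V1 h) ≤ I (V1 h_k)`; `slice_per_sum`,
`slice_layer_sum`. -/
theorem exists_thin_H {I : ℝ → ℝ} (hI0 : ∀ V, 0 ≤ V → 0 ≤ I V) (hImono : MonotoneOn I (Ici 0))
    (o : _root_.Vale.Agent.P219.TP.E n) (ρ : ℝ) {J : ℝ} (hJ : ∀ h, G.Cls o ρ h → J ≤ G.per h - I (V1 G h))
    (hJ' : ∀ ε > 0, ∃ h, G.Cls o ρ h ∧ G.per h - I (V1 G h) < J + ε) :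
    ∀ ε > 0, ∃ h, G.Cls o ρ h ∧ G.per h - I (V1 G h) < J + ε ∧
      G.vol.real {x | 0 < h x ∧ h x < 1} < ε := by
  intro ε hε
  by_contra hcon
  push Not at hcon
  obtain ⟨h, hc, hd⟩ := hJ' (ε / 2) (by positivity)
  set V : ℝ := G.vol.real {x | ‖G.lg o x‖ ≤ ρ} with hV
  obtain ⟨N, hN⟩ := exists_nat_gt ((J + ε / 2 + 2 * V + I (V1 G h)) / (ε / 2))
  rw [div_lt_iff₀ (by positivity)] at hN
  set M : ℝ := (N : ℝ) + 1 with hM
  have hM0 : 0 < M := by positivity
  set hk : ℕ → _root_.Vale.Agent.P219.TP.E n → ℝ := fun k x => sliceH (M * h x - (k + 1 : ℕ)) with hhk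
  have hcls : ∀ k, G.Cls o ρ (hk k) := fun k => slice_cls G hc M k
  have hI1 : ∀ k ∈ Finset.range N, I (V1 G h) ≤ I (V1 G (hk k)) := fun k hkN =>
    hImono (sliceh_V1_nonneg G _) (sliceh_V1_nonneg G _)
      (sliceh_V1_step G hc (Finset.mem_range.1 hkN))
  have h1 : ∑ k ∈ Finset.range N, (G.per (hk k) - I (V1 G (hk k))) ≤
      M * (G.per h - I (V1 G h)) + I (V1 G h) := by
    have e2 : ∑ k ∈ Finset.range N, G.per (hk k) ≤ M * G.per h := slice_per_sum G hc hM0.le N
    have e3 := Finset.sum_le_sum hI1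
    rw [Finset.sum_const, Finset.card_range, nsmul_eq_mul] at e3
    rw [Finset.sum_sub_distrib]
    have e4 : M * (G.per h - I (V1 G h)) + I (V1 G h) = M * G.per h - N * I (V1 G h) := by
      rw [hM]
      ring
    rw [e4]
    linarith only [e3, e2]
  have h2 : ∀ k ∈ Finset.range N, J + ε - G.vol.real {x | 0 < hk k x ∧ hk k x < 1} ≤
      G.per (hk k) - I (V1 G (hk k)) := by
    intro k _
    by_cases hlt : G.per (hk k) - I (V1 G (hk k)) < J + ε
    · have e1 := hcon (hk k) (hcls k) hlt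
      have e2 := hJ (hk k) (hcls k)
      linarith
    · push Not at hlt
      have e3 : 0 ≤ G.vol.real {x | 0 < hk k x ∧ hk k x < 1} := measureReal_nonneg
      linarith
  have h3 := Finset.sum_le_sum h2
  rw [Finset.sum_sub_distrib, Finset.sum_const, Finset.card_range, nsmul_eq_mul] at h3
  have h4 : ∑ k ∈ Finset.range N, G.vol.real {x | 0 < hk k x ∧ hk k x < 1} ≤ 2 * V :=
    slice_layer_sum G hc hM0.le N
  have h6 : M * (G.per h - I (V1 G h)) < M * (J + ε / 2) := mul_lt_mul_of_pos_left hd hM0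
  have h7 : M * (J + ε / 2) = N * (J + ε) - N * (ε / 2) + (J + ε / 2) := by rw [hM]; ring
  linarith only [h6, h4, h3, h1, hN]

/-- PROOF: `exists_thin_H` with `ε = 1/(j+1)`, and compactness of `[0, vol B]` for `V1 h_j`. -/
theorem exists_min_seq {I : ℝ → ℝ} (hI0 : ∀ V, 0 ≤ V → 0 ≤ I V) (hImono : MonotoneOn I (Ici 0))
    (o : _root_.Vale.Agent.P219.TP.E n) (ρ : ℝ) {J : ℝ} (hJ : ∀ h, G.Cls o ρ h → J ≤ G.per h - I (V1 G h))
    (hJ' : ∀ ε > 0, ∃ h, G.Cls o ρ h ∧ G.per h - I (V1 G h) < J + ε) :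
    ∃ Vs : ℝ, 0 ≤ Vs ∧ ∀ ε > 0, ∃ h, G.Cls o ρ h ∧ G.per h - I (V1 G h) < J + ε ∧
      G.vol.real {x | 0 < h x ∧ h x < 1} < ε ∧ |V1 G h - Vs| < ε := by
  have h0 := exists_thin_H G hI0 hImono o ρ hJ hJ'
  have hpos : ∀ j : ℕ, (0 : ℝ) < 1 / ((j : ℝ) + 1) := fun j => by positivity
  choose h hc hd hl using fun j : ℕ => h0 (1 / ((j : ℝ) + 1)) (hpos j)
  obtain ⟨Vs, hVs, φ, hφ, hlim⟩ := isCompact_Icc.tendsto_subseq
    (x := fun j => V1 G (h j)) (fun j => ⟨sliceh_V1_nonneg G (h j), sliceh_V1_le G (hc j)⟩ :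
      ∀ j, V1 G (h j) ∈ Icc 0 (G.vol.real {x | ‖G.lg o x‖ ≤ ρ}))
  refine ⟨Vs, hVs.1, fun ε hε => ?_⟩
  have e1 : ∀ᶠ j in Filter.atTop, |V1 G (h (φ j)) - Vs| < ε := by
    have := (Metric.tendsto_nhds.1 hlim) ε hε
    filter_upwards [this] with j hj
    rwa [Real.dist_eq] at hj
  have e2 : ∀ᶠ j : ℕ in Filter.atTop, 1 / ((φ j : ℝ) + 1) < ε :=
    ((tendsto_one_div_add_atTop_nhds_zero_nat (𝕜 := ℝ)).comp hφ.tendsto_atTop).eventually
      (gt_mem_nhds hε)
  obtain ⟨j, hj1, hj2⟩ := (e1.and e2).exists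
  exact ⟨h (φ j), hc _, (hd _).trans (by linarith), (hl _).trans hj2, hj1⟩

theorem deficit_bddBelow {I : ℝ → ℝ} (hImono : MonotoneOn I (Ici 0)) (o : _root_.Vale.Agent.P219.TP.E n) (ρ : ℝ) :
    ∃ C : ℝ, ∀ h, G.Cls o ρ h → -C ≤ G.per h - I (V1 G h) := by
  refine ⟨I (G.vol.real {x | ‖G.lg o x‖ ≤ ρ}), fun h hc => ?_⟩
  have hper : 0 ≤ G.per h := by
    unfold Geo.per
    exact integral_nonneg fun x => norm_nonneg _
  have h1 := hImono (sliceh_V1_nonneg G h) measureReal_nonneg (sliceh_V1_le G hc)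
  linarith

end Vale.Agent.P219.TPH
end

section

/-! # P219, all dimensions: from near minimisers to one-sided stationarity of the limit -/

open MeasureTheory Set Metric Filter Topology
open scoped ENNReal NNReal ContDiff

namespace Vale.Agent.P219.SA

open Vale.Agent.P219.TP Vale.Agent.P219.TPH
open Vale.Agent.P219.End (KS nrm isCompact_KS exists_limit_ultra)

variable {n : ℕ} (G : Geo n)

/-- A minimising sequence with thin layers, along an ultrafilter. -/
structure MinSeq (o : _root_.Vale.Agent.P219.TP.E n) (ρ : ℝ) (I : ℝ → ℝ) (J Vs : ℝ) (U : Ultrafilter ℕ)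
    (h : ℕ → _root_.Vale.Agent.P219.TP.E n → ℝ) : Prop where
  cls : ∀ j, G.Cls o ρ (h j)
  inf : ∀ g, G.Cls o ρ g → J ≤ G.per g - I (V1 G g)
  lim : Tendsto (fun j => G.per (h j) - I (V1 G (h j))) U (𝓝 J)
  thin : Tendsto (fun j => G.vol.real {x | 0 < h j x ∧ h j x < 1}) U (𝓝 0)
  vol : Tendsto (fun j => V1 G (h j)) U (𝓝 Vs)

/-- `V` is the limit of the measures `|dh_j| dvol` on the unit normal bundle. -/
structure IsLim (o : _root_.Vale.Agent.P219.TP.E n) (ρ : ℝ) (U : Ultrafilter ℕ) (h : ℕ → _root_.Vale.Agent.P219.TP.E n → ℝ)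
    (V : Measure (_root_.Vale.Agent.P219.TP.E n × _root_.Vale.Agent.P219.TP.E n)) : Prop where
  fin : IsFiniteMeasure V
  supp : V (KS G o ρ)ᶜ = 0
  lim : ∀ φ : _root_.Vale.Agent.P219.TP.E n × _root_.Vale.Agent.P219.TP.E n → ℝ, ContinuousOn φ (KS G o ρ) →
    Tendsto (fun j => ∫ x, φ (x, nrm G (h j) x) * ‖G.D (h j) x‖ ∂G.vol) U (𝓝 (∫ z, φ z ∂V))

theorem exists_isLim {o : _root_.Vale.Agent.P219.TP.E n} {ρ : ℝ} {h : ℕ → _root_.Vale.Agent.P219.TP.E n → ℝ} (hc : ∀ j, G.Cls o ρ (h j))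
    {A : ℝ} (hA : ∀ j, G.per (h j) ≤ A) (U : Ultrafilter ℕ) :
    ∃ V : Measure (_root_.Vale.Agent.P219.TP.E n × _root_.Vale.Agent.P219.TP.E n), IsLim G o ρ U h V := by
  obtain ⟨V, h1, h2, h3⟩ := exists_limit_ultra G U h hc hA
  exact ⟨V, h1, h2, h3⟩

theorem IsLim.mass {o : _root_.Vale.Agent.P219.TP.E n} {ρ : ℝ} {U : Ultrafilter ℕ} {h : ℕ → _root_.Vale.Agent.P219.TP.E n → ℝ}
    {V : Measure (_root_.Vale.Agent.P219.TP.E n × _root_.Vale.Agent.P219.TP.E n)} (hV : IsLim G o ρ U h V) :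
    Tendsto (fun j => G.per (h j)) U (𝓝 (V.real univ)) := by
  have h1 := hV.lim (fun _ => 1) continuousOn_const
  simp only [one_mul, integral_const, smul_eq_mul, mul_one] at h1
  exact h1

/-- First variation of perimeter and volume along a contraction, `a` = perimeter integrand,
`b` = volume integrand. -/
def Var (o : _root_.Vale.Agent.P219.TP.E n) (ρ : ℝ) (a b : _root_.Vale.Agent.P219.TP.E n × _root_.Vale.Agent.P219.TP.E n → ℝ) : Prop :=
  ∃ C t₀ : ℝ, 0 ≤ C ∧ 0 < t₀ ∧ ∀ h, G.Cls o ρ h → ∀ t : ℝ, 0 ≤ t → t ≤ t₀ →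
    ∃ h', G.Cls o ρ h' ∧
      G.per h' ≤ G.per h - t * (∫ x, a (x, nrm G h x) * ‖G.D h x‖ ∂G.vol) +
        C * t ^ 2 * G.per h ∧
      V1 G h - t * (∫ x, b (x, nrm G h x) * ‖G.D h x‖ ∂G.vol) -
        C * t * G.vol.real {x | 0 < h x ∧ h x < 1} - C * t ^ 2 ≤ V1 G h'

theorem pass_small {a b : ℝ} (ha : 0 ≤ a) (hb : 0 < b) :
    ∃ t₀ > 0, ∀ t, 0 ≤ t → t ≤ t₀ → a * t ≤ b := by
  refine ⟨b / (a + 1), by positivity, fun t h0 h1 => ?_⟩
  rw [le_div_iff₀ (by positivity)] at h1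
  linarith only [h1, h0]

/-- The arithmetic of one descent step. -/
theorem pass_arith {J P P' IV IV' X Y d H C c t th s M B : ℝ} (ht : 0 < t)
    (hC : 0 ≤ C) (hM : P ≤ M) (hd : 0 < d)
    (h1 : J ≤ P' - IV') (h2 : P' ≤ P - t * X + C * t ^ 2 * P)
    (hs : s = t * Y + C * t * th + C * t ^ 2) (h3 : IV - H * s - c * |s| ≤ IV')
    (h4 : P - IV ≤ J + t * (d / 16)) (hsB : |s| ≤ t * B) (hc : 0 ≤ c) (hcB : c * B ≤ d / 16)
    (hXY : H * Y - X ≤ -(d / 2)) (hCM : C * M * t ≤ d / 16) (hHC : H * C * t ≤ d / 16)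
    (hHth : H * C * th ≤ d / 16) : False := by
  have e1 : c * |s| ≤ t * (d / 16) := by
    calc c * |s| ≤ c * (t * B) := mul_le_mul_of_nonneg_left hsB hc
      _ = t * (c * B) := by ring
      _ ≤ t * (d / 16) := mul_le_mul_of_nonneg_left hcB ht.le
  have e2 : C * t ^ 2 * P ≤ t * (d / 16) := by
    calc C * t ^ 2 * P ≤ C * t ^ 2 * M := mul_le_mul_of_nonneg_left hM (by positivity)
      _ = t * (C * M * t) := by ring
      _ ≤ t * (d / 16) := mul_le_mul_of_nonneg_left hCM ht.le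
  have e3 : H * s = t * (H * Y) + t * (H * C * th) + t * (H * C * t) := by rw [hs]; ring
  have e4 : t * (H * C * th) ≤ t * (d / 16) := mul_le_mul_of_nonneg_left hHth ht.le
  have e5 : t * (H * C * t) ≤ t * (d / 16) := mul_le_mul_of_nonneg_left hHC ht.le
  have e6 : t * (H * Y - X) ≤ t * (-(d / 2)) := mul_le_mul_of_nonneg_left hXY ht.le
  have e7 : 0 < t * d := mul_pos ht hd
  linarith only [e7, e6, e5, e4, e3, e2, e1, h4, h3, h2, h1]

/-- **One-sided stationarity of the limit.** -/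
theorem stat_pass {o : _root_.Vale.Agent.P219.TP.E n} {ρ : ℝ} {I : ℝ → ℝ} {J Vs H : ℝ} {U : Ultrafilter ℕ}
    {h : ℕ → _root_.Vale.Agent.P219.TP.E n → ℝ} {V : Measure (_root_.Vale.Agent.P219.TP.E n × _root_.Vale.Agent.P219.TP.E n)} (hImono : MonotoneOn I (Ici 0)) (hVs : 0 < Vs)
    (hH : 0 ≤ H) (hId : HasStrictDerivAt I H Vs) (hm : MinSeq G o ρ I J Vs U h)
    (hV : IsLim G o ρ U h V) {a b : _root_.Vale.Agent.P219.TP.E n × _root_.Vale.Agent.P219.TP.E n → ℝ} (ha : ContinuousOn a (KS G o ρ))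
    (hb : ContinuousOn b (KS G o ρ))
    (hvar : Var G o ρ a b) : 0 ≤ H * (∫ z, b z ∂V) - ∫ z, a z ∂V := by
  by_contra hneg
  rw [not_le] at hneg
  obtain ⟨C, t₀, hC, ht₀, hcon⟩ := hvar
  have hXl := hV.lim a ha
  have hYl := hV.lim b hb
  have hPl := IsLim.mass G hV
  set X : ℝ := ∫ z, a z ∂V with hX
  set Y : ℝ := ∫ z, b z ∂V with hY
  set M : ℝ := V.real univ + 1 with hM
  have hM0 : 0 ≤ M := by
    have : 0 ≤ V.real univ := measureReal_nonneg
    linarith
  obtain ⟨d, hd⟩ : ∃ d, d = X - H * Y := ⟨_, rfl⟩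
  have hd0 : 0 < d := by linarith
  set B : ℝ := |Y| + 1 + 2 * C with hB
  have hB0 : 0 < B := by (clear * - hC; positivity)
  obtain ⟨c, hcp, hcs⟩ := pass_small hB0.le (b := d / 16) (by positivity)
  have hcB : c * B ≤ d / 16 := by
    have := hcs c hcp.le le_rfl
    linarith only [this]
  obtain ⟨δ₁, hδ₁, hstrict⟩ : ∃ δ₁ > 0, ∀ V V' : ℝ, |V - Vs| < δ₁ → |V' - Vs| < δ₁ →
      |I V' - I V - (V' - V) * H| ≤ c * |V' - V| := by
    have h1 := hId.isLittleO.def hcp
    obtain ⟨δ₁, hδ₁, h2⟩ := Metric.eventually_nhds_iff.1 h1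
    refine ⟨δ₁, hδ₁, fun V V' hV hV' => ?_⟩
    have h3 := @h2 (V', V) (by
      rw [Prod.dist_eq, Real.dist_eq, Real.dist_eq]
      exact max_lt hV' hV)
    simpa [Real.norm_eq_abs, smul_eq_mul] using h3
  have hδV : 0 < min δ₁ Vs / 4 := by positivity
  obtain ⟨t₁, ht₁, ht₁'⟩ := pass_small hB0.le hδV
  obtain ⟨t₂, ht₂, ht₂'⟩ := pass_small (a := C * M) (by (clear * - hC; positivity))
    (b := d / 16) (by positivity)
  obtain ⟨t₃, ht₃, ht₃'⟩ := pass_small (a := H * C) (by (clear * - hH hC; positivity))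
    (b := d / 16) (by positivity)
  obtain ⟨t, ht⟩ : ∃ t : ℝ, t = min (min t₀ 1) (min t₁ (min t₂ t₃)) := ⟨_, rfl⟩
  have htp : 0 < t := by rw [ht]; (clear * - ht₀ ht₁ ht₂ ht₃; positivity)
  have htt₀ : t ≤ t₀ := ht ▸ (min_le_left _ _).trans (min_le_left _ _)
  have ht1 : t ≤ 1 := ht ▸ (min_le_left _ _).trans (min_le_right _ _)
  have htB := ht₁' t htp.le (ht ▸ (min_le_right _ _).trans (min_le_left _ _))
  have htM := ht₂' t htp.le (ht ▸ (min_le_right _ _).trans ((min_le_right _ _).trans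
    (min_le_left _ _)))
  have htH := ht₃' t htp.le (ht ▸ (min_le_right _ _).trans ((min_le_right _ _).trans
    (min_le_right _ _)))
  -- eventually
  have E1 : ∀ᶠ j in (U : Filter ℕ), G.per (h j) < M :=
    hPl.eventually (gt_mem_nhds (by linarith only []))
  have E2 : ∀ᶠ j in (U : Filter ℕ),
      H * (∫ x, b (x, nrm G (h j) x) * ‖G.D (h j) x‖ ∂G.vol) -
        (∫ x, a (x, nrm G (h j) x) * ‖G.D (h j) x‖ ∂G.vol) < -(d / 2) :=
    ((hYl.const_mul H).sub hXl).eventually (gt_mem_nhds (by linarith only [hd0, hd]))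
  have E3 : ∀ᶠ j in (U : Filter ℕ), |∫ x, b (x, nrm G (h j) x) * ‖G.D (h j) x‖ ∂G.vol| <
      |Y| + 1 := hYl.abs.eventually (gt_mem_nhds (by linarith only []))
  have E4 : ∀ᶠ j in (U : Filter ℕ), H * C * G.vol.real {x | 0 < h j x ∧ h j x < 1} < d / 16 := by
    have := hm.thin.const_mul (H * C)
    rw [mul_zero] at this
    exact this.eventually (gt_mem_nhds (by positivity))
  have E5 : ∀ᶠ j in (U : Filter ℕ), G.vol.real {x | 0 < h j x ∧ h j x < 1} < 1 :=
    hm.thin.eventually (gt_mem_nhds one_pos)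
  have E6 : ∀ᶠ j in (U : Filter ℕ), |V1 G (h j) - Vs| < min δ₁ Vs / 4 := by
    have := (Metric.tendsto_nhds.1 hm.vol) _ hδV
    filter_upwards [this] with j hj
    rwa [Real.dist_eq] at hj
  have E7 : ∀ᶠ j in (U : Filter ℕ), G.per (h j) - I (V1 G (h j)) < J + t * (d / 16) :=
    hm.lim.eventually (gt_mem_nhds (by linarith only [mul_pos htp (show 0 < d / 16 by positivity)]))
  obtain ⟨j, e1, e2, e3, e4, e5, e6, e7⟩ :=
    (E1.and (E2.and (E3.and (E4.and (E5.and (E6.and E7)))))).exists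
  obtain ⟨h', hh', hper, hvol⟩ := hcon (h j) (hm.cls j) t htp.le htt₀
  set Xj : ℝ := ∫ x, a (x, nrm G (h j) x) * ‖G.D (h j) x‖ ∂G.vol with hXj
  set Yj : ℝ := ∫ x, b (x, nrm G (h j) x) * ‖G.D (h j) x‖ ∂G.vol with hYj
  set th : ℝ := G.vol.real {x | 0 < h j x ∧ h j x < 1} with hth
  have hth0 : 0 ≤ th := measureReal_nonneg
  obtain ⟨s, hs⟩ : ∃ s, s = t * Yj + C * t * th + C * t ^ 2 := ⟨_, rfl⟩
  have hsB : |s| ≤ t * B := by
    have h1 : |t * Yj| ≤ t * (|Y| + 1) := by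
      rw [abs_mul, abs_of_pos htp]
      exact mul_le_mul_of_nonneg_left e3.le htp.le
    have h2 : C * t * th ≤ C * t * 1 := mul_le_mul_of_nonneg_left e5.le (by positivity)
    have h3 : C * t ^ 2 ≤ C * t * 1 := by
      have : C * t ^ 2 = C * t * t := by ring
      rw [this]
      exact mul_le_mul_of_nonneg_left ht1 (by (clear * - hC htp; positivity))
    have h4 : 0 ≤ C * t * th := by (clear * - hC htp; positivity)
    have h5 : 0 ≤ C * t ^ 2 := by (clear * - hC htp; positivity)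
    have h6 := abs_le.1 h1
    have h7 : t * B = t * (|Y| + 1) + 2 * (C * t * 1) := by rw [hB]; ring
    rw [hs, h7, abs_le]
    constructor
    · linarith
    · linarith
  have hsx : |s| ≤ min δ₁ Vs / 4 := hsB.trans (by linarith only [htB])
  have hmin : min δ₁ Vs ≤ δ₁ := min_le_left _ _
  have hmin' : min δ₁ Vs ≤ Vs := min_le_right _ _
  have e6' := abs_lt.1 e6
  have hsx' := abs_le.1 hsx
  have hVx : V1 G (h j) - s ≤ V1 G h' := by rw [hs]; linarith only [hvol]
  have hVx0 : 0 ≤ V1 G (h j) - s := by linarith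
  have hI1 : I (V1 G (h j) - s) ≤ I (V1 G h') := hImono hVx0 measureReal_nonneg hVx
  have hI2 := hstrict (V1 G (h j)) (V1 G (h j) - s) (by rw [abs_lt]; constructor <;> linarith)
    (by rw [abs_lt]; constructor <;> linarith)
  have hI3 : I (V1 G (h j)) - H * s - c * |s| ≤ I (V1 G h') := by
    have h1 : V1 G (h j) - s - V1 G (h j) = -s := by ring
    rw [h1, abs_neg] at hI2
    have h2 := (abs_le.1 hI2).1
    linarith only [h2, hI1]
  exact pass_arith (J := J) (P := G.per (h j)) (P' := G.per h') (IV := I (V1 G (h j)))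
    (IV' := I (V1 G h')) (X := Xj) (Y := Yj) (d := d) htp hC e1.le hd0 (hm.inf h' hh')
    hper hs hI3 (by linarith only [e7]) hsB hcp.le hcB e2.le htM (by linarith only [htH])
    (by linarith only [e4])

end Vale.Agent.P219.SA
end

section

/-!
The sharp Sobolev inequality for functions with values in `[0,1]` implies the isoperimetric
inequality.
-/

open MeasureTheory Set Filter Topology
open scoped ENNReal ContDiff

namespace Vale.Agent.P219.CH

variable {n : ℕ}

end Vale.Agent.P219.CH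
end

section

/-! # P219, Gaussian Poincaré inequality of Maurey and Pisier in `L¹` (block L2, part a) -/

open MeasureTheory Set Metric
open scoped ENNReal ContDiff

namespace Vale.Agent.P219.TP

variable {n : ℕ}

/-- Density of the centred Gaussian with weight `exp (-t |v|²)`. -/
noncomputable def gd (t : ℝ) (v : E n) : ℝ :=
  (t / Real.pi) ^ ((n : ℝ) / 2) * Real.exp (-t * ‖v‖ ^ 2)

theorem gd_continuous (t : ℝ) : Continuous (gd (n := n) t) := by
  unfold gd
  fun_prop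

theorem gd_nonneg {t : ℝ} (ht : 0 < t) (v : E n) : 0 ≤ gd t v := by
  unfold gd
  have := Real.pi_pos
  positivity

theorem integral_gd {t : ℝ} (ht : 0 < t) : ∫ v : E n, gd t v = 1 := by
  unfold gd
  rw [integral_const_mul, GaussianFourier.integral_rexp_neg_mul_sq_norm ht]
  simp only [finrank_euclideanSpace, Fintype.card_fin]
  rw [← Real.mul_rpow (by have := Real.pi_pos; positivity) (by have := Real.pi_pos; positivity)]
  have : t / Real.pi * (Real.pi / t) = 1 := by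
    have := Real.pi_pos
    field_simp
  rw [this, Real.one_rpow]

theorem integrable_gd {t : ℝ} (ht : 0 < t) : Integrable (gd (n := n) t) := by
  by_contra h
  have h1 := integral_undef h
  rw [integral_gd ht] at h1
  exact one_ne_zero h1

/-- The centred Gaussian probability measure with weight `exp (-t |v|²)`. -/
noncomputable def gm (n : ℕ) (t : ℝ) : Measure (E n) :=
  volume.withDensity fun v => ENNReal.ofReal (gd t v)

theorem gd_meas (t : ℝ) : Measurable fun v : E n => ENNReal.ofReal (gd t v) :=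
  (gd_continuous t).measurable.ennreal_ofReal

theorem gm_prob {t : ℝ} (ht : 0 < t) : IsProbabilityMeasure (gm n t) := by
  constructor
  unfold gm
  rw [withDensity_apply _ MeasurableSet.univ, Measure.restrict_univ,
    ← ofReal_integral_eq_lintegral_ofReal (integrable_gd ht)
      (.of_forall fun v => gd_nonneg ht v), integral_gd ht, ENNReal.ofReal_one]

theorem lintegral_gm (t : ℝ) {F : E n → ℝ≥0∞} (hF : Measurable F) :
    ∫⁻ v, F v ∂(gm n t) = ∫⁻ v, ENNReal.ofReal (gd t v) * F v := by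
  unfold gm
  rw [lintegral_withDensity_eq_lintegral_mul _ (gd_meas t) hF]
  rfl

/-- Rotation of the product. -/
noncomputable def rotP (θ : ℝ) (z : E n × E n) : E n × E n :=
  (Real.cos θ • z.1 + Real.sin θ • z.2, -Real.sin θ • z.1 + Real.cos θ • z.2)

theorem shear_fst (a : ℝ) : MeasurePreserving (fun z : E n × E n => (z.1 + a • z.2, z.2))
    (volume.prod volume) (volume.prod volume) := by
  have h : MeasurePreserving (fun z : E n × E n => (z.1, z.2 + a • z.1))
      (volume.prod volume) (volume.prod volume) := by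
    refine MeasurePreserving.skew_product (MeasurePreserving.id volume)
      (g := fun x y => y + a • x) (by fun_prop) ?_
    refine .of_forall fun x => ?_
    exact (measurePreserving_add_right volume (a • x)).map_eq
  have h2 := (Measure.measurePreserving_swap (μ := (volume : Measure (E n)))
    (ν := (volume : Measure (E n)))).comp (h.comp Measure.measurePreserving_swap)
  exact h2

theorem shear_snd (a : ℝ) : MeasurePreserving (fun z : E n × E n => (z.1, z.2 + a • z.1))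
    (volume.prod volume) (volume.prod volume) := by
  refine MeasurePreserving.skew_product (MeasurePreserving.id volume)
    (g := fun x y => y + a • x) (by fun_prop) ?_
  refine .of_forall fun x => ?_
  exact (measurePreserving_add_right volume (a • x)).map_eq

theorem rotP_mp {θ : ℝ} (hc : Real.cos (θ / 2) ≠ 0) :
    MeasurePreserving (rotP (n := n) θ) (volume.prod volume) (volume.prod volume) := by
  set a : ℝ := Real.sin (θ / 2) / Real.cos (θ / 2) with ha
  have h := (shear_fst (n := n) a).comp ((shear_snd (n := n) (-Real.sin θ)).comp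
    (shear_fst (n := n) a))
  have e1 : Real.sin θ = 2 * Real.sin (θ / 2) * Real.cos (θ / 2) := by
    rw [← Real.sin_two_mul]; ring_nf
  have e2 : Real.cos θ = 2 * Real.cos (θ / 2) ^ 2 - 1 := by
    rw [← Real.cos_two_mul]; ring_nf
  have e3 := Real.sin_sq_add_cos_sq (θ / 2)
  have h1 : 1 - a * Real.sin θ = Real.cos θ := by
    rw [ha, e1, e2]
    field_simp
    nlinarith [e3]
  have h2 : a + a * (1 - a * Real.sin θ) = Real.sin θ := by
    rw [h1, ha, e1, e2]
    field_simp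
    ring
  convert h using 1
  funext z
  simp only [rotP, Function.comp]
  ext1
  · simp only
    have : z.1 + a • z.2 + a • (z.2 + -Real.sin θ • (z.1 + a • z.2)) =
      (1 - a * Real.sin θ) • z.1 + (a + a * (1 - a * Real.sin θ)) • z.2 := by
      module
    rw [this, h2, h1]
  · simp only
    have : z.2 + -Real.sin θ • (z.1 + a • z.2) =
      -Real.sin θ • z.1 + (1 - a * Real.sin θ) • z.2 := by
      module
    rw [this, h1]

theorem rotP_norm (θ : ℝ) (z : E n × E n) :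
    ‖(rotP θ z).1‖ ^ 2 + ‖(rotP θ z).2‖ ^ 2 = ‖z.1‖ ^ 2 + ‖z.2‖ ^ 2 := by
  unfold rotP
  simp only
  rw [norm_add_sq_real, norm_add_sq_real]
  simp only [norm_smul, inner_smul_left, inner_smul_right, norm_neg, Real.norm_eq_abs, mul_pow,
    sq_abs, conj_trivial]
  have := Real.sin_sq_add_cos_sq θ
  linear_combination (‖z.1‖ ^ 2 + ‖z.2‖ ^ 2) * this

theorem gd_rot (t θ : ℝ) (z : E n × E n) :
    gd t (rotP θ z).1 * gd t (rotP θ z).2 = gd t z.1 * gd t z.2 := by
  unfold gd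
  have h := rotP_norm θ z
  have h1 : ∀ u v : E n, (t / Real.pi) ^ ((n : ℝ) / 2) * Real.exp (-t * ‖u‖ ^ 2) *
      ((t / Real.pi) ^ ((n : ℝ) / 2) * Real.exp (-t * ‖v‖ ^ 2)) =
      ((t / Real.pi) ^ ((n : ℝ) / 2)) ^ 2 * Real.exp (-t * (‖u‖ ^ 2 + ‖v‖ ^ 2)) := by
    intro u v
    rw [mul_add, Real.exp_add]
    ring
  rw [h1, h1, h]

theorem gm_prod (t : ℝ) : (gm n t).prod (gm n t) =
    (volume.prod volume).withDensity
      fun z : E n × E n => ENNReal.ofReal (gd t z.1) * ENNReal.ofReal (gd t z.2) := by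
  unfold gm
  exact prod_withDensity (gd_meas t) (gd_meas t)

theorem lintegral_rot {t : ℝ} (ht : 0 < t) {θ : ℝ} (hc : Real.cos (θ / 2) ≠ 0)
    {F : E n × E n → ℝ≥0∞} (hF : Measurable F) :
    ∫⁻ z, F (rotP θ z) ∂((gm n t).prod (gm n t)) = ∫⁻ z, F z ∂((gm n t).prod (gm n t)) := by
  have hr : Continuous (rotP (n := n) θ) := by unfold rotP; fun_prop
  have hd : Measurable fun z : E n × E n =>
      ENNReal.ofReal (gd t z.1) * ENNReal.ofReal (gd t z.2) :=
    ((gd_meas t).comp measurable_fst).mul ((gd_meas t).comp measurable_snd)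
  have hFr : Measurable fun z => F (rotP θ z) := hF.comp hr.measurable
  rw [gm_prod, lintegral_withDensity_eq_lintegral_mul _ hd hFr,
    lintegral_withDensity_eq_lintegral_mul _ hd hF]
  have h := (rotP_mp (n := n) hc).lintegral_comp (f := fun z =>
    ENNReal.ofReal (gd t z.1) * ENNReal.ofReal (gd t z.2) * F z) (hd.mul hF)
  simp only [Pi.mul_apply]
  rw [← h]
  refine lintegral_congr fun z => ?_
  rw [← ENNReal.ofReal_mul (gd_nonneg ht _), ← ENNReal.ofReal_mul (gd_nonneg ht _), gd_rot]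

theorem int_lin_one (m : ℕ) {e : E (m + 1)} (he : ‖e‖ = 1) :
    Integrable (fun x : E (m + 1) => |inner ℝ e x| * Real.exp (-‖x‖ ^ 2)) ∧
    ∫ x : E (m + 1), |inner ℝ e x| * Real.exp (-‖x‖ ^ 2) = Real.pi ^ ((m : ℝ) / 2) := by
  have hpi := Real.pi_pos
  have h1 := gauss_moment m (k := 1) le_rfl he
  have he' : ‖-e‖ = 1 := by rw [norm_neg, he]
  have h2 := gauss_moment m (k := 1) le_rfl he'
  have hv : Real.pi ^ ((m : ℝ) / 2) * (Real.Gamma (((1 : ℕ) + 1 : ℝ) / 2) / 2) =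
      Real.pi ^ ((m : ℝ) / 2) / 2 := by
    norm_num
    ring
  rw [hv] at h1 h2
  have hp : 0 < Real.pi ^ ((m : ℝ) / 2) / 2 := by positivity
  have i1 : Integrable (fun x : E (m + 1) => max 0 (inner ℝ e x) ^ 1 * Real.exp (-‖x‖ ^ 2)) := by
    by_contra h
    rw [integral_undef h] at h1
    linarith only [h1, hp]
  have i2 : Integrable (fun x : E (m + 1) => max 0 (inner ℝ (-e) x) ^ 1 * Real.exp (-‖x‖ ^ 2)) := by
    by_contra h
    rw [integral_undef h] at h2
    linarith only [h2, hp]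
  have e : (fun x : E (m + 1) => |inner ℝ e x| * Real.exp (-‖x‖ ^ 2)) =
      fun x => max 0 (inner ℝ e x) ^ 1 * Real.exp (-‖x‖ ^ 2) +
        max 0 (inner ℝ (-e) x) ^ 1 * Real.exp (-‖x‖ ^ 2) := by
    funext x
    rw [inner_neg_left, pow_one, pow_one, ← add_mul]
    congr 1
    rcases le_total 0 (inner ℝ e x : ℝ) with h | h
    · rw [abs_of_nonneg h, max_eq_right h, max_eq_left (by linarith only [h]), add_zero]
    · rw [abs_of_nonpos h, max_eq_left h, max_eq_right (by linarith only [h]), zero_add]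
  rw [e]
  refine ⟨i1.add i2, ?_⟩
  rw [integral_add i1 i2, h1, h2]
  ring

theorem int_lin (m : ℕ) {t : ℝ} (ht : 0 < t) {e : E (m + 1)} (he : ‖e‖ = 1) :
    Integrable (fun x : E (m + 1) => |inner ℝ e x| * gd t x) ∧
    ∫ x : E (m + 1), |inner ℝ e x| * gd t x = 1 / √(Real.pi * t) := by
  have hpi := Real.pi_pos
  obtain ⟨i1, h1⟩ := int_lin_one m he
  have hst : 0 < √t := Real.sqrt_pos.2 ht
  have h2 := Measure.integral_comp_smul (volume : Measure (E (m + 1)))
    (fun x : E (m + 1) => |inner ℝ e x| * Real.exp (-‖x‖ ^ 2)) (√t)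
  have i2 : Integrable (fun x : E (m + 1) => |inner ℝ e (√t • x)| * Real.exp (-‖√t • x‖ ^ 2)) :=
    (integrable_comp_smul_iff volume
      (fun x : E (m + 1) => |inner ℝ e x| * Real.exp (-‖x‖ ^ 2)) hst.ne').2 i1
  have e1 : (fun x : E (m + 1) => |inner ℝ e x| * gd t x) = fun x =>
      ((t / Real.pi) ^ (((m + 1 : ℕ) : ℝ) / 2) / √t) *
        (|inner ℝ e (√t • x)| * Real.exp (-‖√t • x‖ ^ 2)) := by
    funext x
    rw [inner_smul_right, abs_mul, abs_of_pos hst, norm_smul, Real.norm_eq_abs, abs_of_pos hst,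
      mul_pow, Real.sq_sqrt ht.le]
    unfold gd
    rw [show -t * ‖x‖ ^ 2 = -(t * ‖x‖ ^ 2) by ring]
    field_simp
  rw [e1]
  refine ⟨i2.const_mul _, ?_⟩
  rw [integral_const_mul, h2, h1, finrank_euclideanSpace, Fintype.card_fin, smul_eq_mul,
    abs_of_pos (by positivity)]
  have e2 : (t / Real.pi) ^ (((m + 1 : ℕ) : ℝ) / 2) =
      (√t) ^ (m + 1) / (Real.pi ^ ((m : ℝ) / 2) * √Real.pi) := by
    rw [Real.div_rpow ht.le hpi.le]
    congr 1
    · rw [Real.sqrt_eq_rpow, ← Real.rpow_natCast, ← Real.rpow_mul ht.le]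
      congr 1
      ring
    · rw [Real.sqrt_eq_rpow, ← Real.rpow_add hpi]
      congr 1
      push_cast
      ring
  rw [e2, Real.sqrt_mul hpi.le]
  have h3 : 0 < Real.pi ^ ((m : ℝ) / 2) := by positivity
  have h4 : 0 < √Real.pi := Real.sqrt_pos.2 hpi
  field_simp

/-- First absolute moment of a linear functional. -/
theorem lintegral_lin (hn : 1 ≤ n) {t : ℝ} (ht : 0 < t) (L : E n →L[ℝ] ℝ) :
    ∫⁻ v, ‖L v‖ₑ ∂(gm n t) = ENNReal.ofReal (1 / √(Real.pi * t)) * ‖L‖ₑ := by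
  obtain ⟨m, rfl⟩ : ∃ m, n = m + 1 := ⟨n - 1, by omega⟩
  rw [lintegral_gm t (by exact Continuous.measurable (by continuity))]
  by_cases hL : L = 0
  · subst hL
    have h0 : ‖(0 : E (m + 1) →L[ℝ] ℝ)‖ₑ = 0 := by
      rw [← ofReal_norm, norm_zero, ENNReal.ofReal_zero]
    rw [h0]
    simp
  set g := (InnerProductSpace.toDual ℝ (E (m + 1))).symm L with hg
  have hgL : ∀ v, L v = inner ℝ g v := fun v => by
    rw [hg, InnerProductSpace.toDual_symm_apply]
  have hgn : ‖g‖ = ‖L‖ := by rw [hg, LinearIsometryEquiv.norm_map]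
  have hL0 : 0 < ‖L‖ := norm_pos_iff.2 hL
  have hg0 : 0 < ‖g‖ := hgn ▸ hL0
  set e : E (m + 1) := ‖g‖⁻¹ • g with he
  have he1 : ‖e‖ = 1 := by
    rw [he, norm_smul, norm_inv, norm_norm, inv_mul_cancel₀ hg0.ne']
  have hLe : ∀ v, |L v| = ‖L‖ * |inner ℝ e v| := fun v => by
    rw [hgL, he, inner_smul_left, abs_mul]
    simp only [conj_trivial, abs_inv, abs_norm]
    rw [hgn, ← mul_assoc, mul_inv_cancel₀ hL0.ne', one_mul]
  obtain ⟨i1, h1⟩ := int_lin m ht he1
  have e3 : ∀ v : E (m + 1), ENNReal.ofReal (gd t v) * ‖L v‖ₑ =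
      ‖L‖ₑ * ENNReal.ofReal (|inner ℝ e v| * gd t v) := by
    intro v
    rw [← ofReal_norm, ← ofReal_norm, Real.norm_eq_abs, hLe,
      ENNReal.ofReal_mul (norm_nonneg _), ENNReal.ofReal_mul (abs_nonneg _)]
    ring
  simp only [e3]
  rw [lintegral_const_mul' _ _ (by simp), ← ofReal_integral_eq_lintegral_ofReal i1
    (.of_forall fun v => mul_nonneg (abs_nonneg _) (gd_nonneg ht v)), h1, mul_comm]

theorem rotP_hasDeriv (z : E n × E n) (θ : ℝ) :
    HasDerivAt (fun θ : ℝ => (rotP θ z).1) (rotP θ z).2 θ := by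
  unfold rotP
  exact ((Real.hasDerivAt_cos θ).smul_const z.1).add ((Real.hasDerivAt_sin θ).smul_const z.2)

theorem mp_point {k : E n → ℝ} (hk : ContDiff ℝ 1 k) (z : E n × E n) :
    ‖k z.1 - k z.2‖ₑ ≤ ∫⁻ θ in Ioc (0 : ℝ) (Real.pi / 2),
      ‖fderiv ℝ k (rotP θ z).1 (rotP θ z).2‖ₑ := by
  have hc : Continuous fun θ : ℝ => fderiv ℝ k (rotP θ z).1 (rotP θ z).2 := by
    have h1 : Continuous fun θ : ℝ => (rotP θ z).1 := by unfold rotP; fun_prop
    have h2 : Continuous fun θ : ℝ => (rotP θ z).2 := by unfold rotP; fun_prop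
    exact ((hk.continuous_fderiv one_ne_zero).comp h1).clm_apply h2
  have h := intervalIntegral.integral_eq_sub_of_hasDerivAt (a := 0) (b := Real.pi / 2)
    (f := fun θ : ℝ => k (rotP θ z).1)
    (f' := fun θ : ℝ => fderiv ℝ k (rotP θ z).1 (rotP θ z).2)
    (fun θ _ => ((hk.differentiable one_ne_zero) _).hasFDerivAt.comp_hasDerivAt θ
      (rotP_hasDeriv z θ)) (hc.intervalIntegrable _ _)
  have e0 : (rotP 0 z).1 = z.1 := by simp [rotP]
  have e1 : (rotP (Real.pi / 2) z).1 = z.2 := by simp [rotP]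
  simp only [e0, e1] at h
  rw [intervalIntegral.integral_of_le (by have := Real.pi_pos; positivity)] at h
  rw [← enorm_neg, neg_sub, ← h]
  exact enorm_integral_le_lintegral_enorm _

/-- The `L¹` Gaussian Poincaré inequality of Maurey and Pisier. -/
theorem mp_lint (hn : 1 ≤ n) {t : ℝ} (ht : 0 < t) {k : E n → ℝ} (hk : ContDiff ℝ 1 k) :
    ∫⁻ x, ∫⁻ y, ‖k x - k y‖ₑ ∂(gm n t) ∂(gm n t) ≤
      ENNReal.ofReal (1 / 2 * √(Real.pi / t)) * ∫⁻ x, ‖fderiv ℝ k x‖ₑ ∂(gm n t) := by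
  have hpi := Real.pi_pos
  have := gm_prob (n := n) ht
  have hkc := hk.continuous
  have hdc := hk.continuous_fderiv one_ne_zero
  have m1 : Measurable fun z : E n × E n => ‖k z.1 - k z.2‖ₑ := by
    have : Continuous fun z : E n × E n => k z.1 - k z.2 :=
      (hkc.comp continuous_fst).sub (hkc.comp continuous_snd)
    exact this.measurable.enorm
  rw [← lintegral_prod (fun z : E n × E n => ‖k z.1 - k z.2‖ₑ) m1.aemeasurable]
  have mF : Measurable fun z : E n × E n => ‖fderiv ℝ k z.1 z.2‖ₑ := by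
    have : Continuous fun z : E n × E n => fderiv ℝ k z.1 z.2 :=
      (hdc.comp continuous_fst).clm_apply continuous_snd
    exact this.measurable.enorm
  have mG : Measurable fun q : (E n × E n) × ℝ =>
      ‖fderiv ℝ k (rotP q.2 q.1).1 (rotP q.2 q.1).2‖ₑ := by
    have h1 : Continuous fun q : (E n × E n) × ℝ => rotP q.2 q.1 := by unfold rotP; fun_prop
    have : Continuous fun q : (E n × E n) × ℝ => fderiv ℝ k (rotP q.2 q.1).1 (rotP q.2 q.1).2 :=
      (hdc.comp (continuous_fst.comp h1)).clm_apply (continuous_snd.comp h1)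
    exact this.measurable.enorm
  calc ∫⁻ z, ‖k z.1 - k z.2‖ₑ ∂((gm n t).prod (gm n t))
      ≤ ∫⁻ z, ∫⁻ θ in Ioc (0 : ℝ) (Real.pi / 2),
        ‖fderiv ℝ k (rotP θ z).1 (rotP θ z).2‖ₑ ∂volume ∂((gm n t).prod (gm n t)) :=
        lintegral_mono fun z => mp_point hk z
    _ = ∫⁻ θ in Ioc (0 : ℝ) (Real.pi / 2), ∫⁻ z,
        ‖fderiv ℝ k (rotP θ z).1 (rotP θ z).2‖ₑ ∂((gm n t).prod (gm n t)) ∂volume :=
        lintegral_lintegral_swap mG.aemeasurable
    _ = ∫⁻ θ in Ioc (0 : ℝ) (Real.pi / 2), ∫⁻ z,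
        ‖fderiv ℝ k z.1 z.2‖ₑ ∂((gm n t).prod (gm n t)) ∂volume := by
        refine setLIntegral_congr_fun measurableSet_Ioc fun θ hθ => ?_
        refine lintegral_rot ht ?_ mF
        have : 0 < Real.cos (θ / 2) :=
          Real.cos_pos_of_mem_Ioo ⟨by linarith only [hθ.1, hpi], by linarith only [hθ.2, hpi]⟩
        exact this.ne'
    _ = ENNReal.ofReal (Real.pi / 2) *
        ∫⁻ z, ‖fderiv ℝ k z.1 z.2‖ₑ ∂((gm n t).prod (gm n t)) := by
        rw [setLIntegral_const, Real.volume_Ioc, sub_zero, mul_comm]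
    _ = ENNReal.ofReal (Real.pi / 2) *
        ∫⁻ x, ∫⁻ y, ‖fderiv ℝ k x y‖ₑ ∂(gm n t) ∂(gm n t) := by
        rw [lintegral_prod _ mF.aemeasurable]
    _ = ENNReal.ofReal (Real.pi / 2) *
        ∫⁻ x, ENNReal.ofReal (1 / √(Real.pi * t)) * ‖fderiv ℝ k x‖ₑ ∂(gm n t) := by
        congr 1
        exact lintegral_congr fun x => lintegral_lin hn ht _
    _ = ENNReal.ofReal (1 / 2 * √(Real.pi / t)) * ∫⁻ x, ‖fderiv ℝ k x‖ₑ ∂(gm n t) := by
        rw [lintegral_const_mul _ hdc.measurable.enorm, ← mul_assoc,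
          ← ENNReal.ofReal_mul (by positivity)]
        congr 2
        rw [Real.sqrt_mul hpi.le, Real.sqrt_div hpi.le]
        have h1 : 0 < √Real.pi := Real.sqrt_pos.2 hpi
        have h2 : 0 < √t := Real.sqrt_pos.2 ht
        have h3 : √Real.pi ^ 2 = Real.pi := Real.sq_sqrt hpi.le
        field_simp
        rw [h3]

end Vale.Agent.P219.TP
end

section

/-! # P219, density: Gaussian averages in normal coordinates -/

open MeasureTheory Set Metric Filter Topology
open scoped ENNReal ContDiff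

namespace Vale.Agent.P219.TPH

open Vale.Agent.P219.TP

variable {n : ℕ} (G : Geo n)

/-- Change of variables `y = ex x v`. -/
theorem integral_vol_ex (x : _root_.Vale.Agent.P219.TP.E n) (F : _root_.Vale.Agent.P219.TP.E n → ℝ) :
    ∫ y, F y ∂G.vol = ∫ v, |(G.T x v).det| * F (G.ex x v) := by
  rw [ibp_integral_vol]
  have hinj : InjOn (G.ex x) univ := fun v _ v' _ h => by
    rw [← G.lg_ex x v, ← G.lg_ex x v', h]
  have him : G.ex x '' univ = univ := by
    rw [image_univ]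
    exact Set.range_eq_univ.2 fun y => ⟨G.lg x y, G.ex_lg x y⟩
  have hd : ∀ v ∈ (univ : Set (_root_.Vale.Agent.P219.TP.E n)), HasFDerivWithinAt (G.ex x) (fderiv ℝ (G.ex x) v) univ v :=
    fun v _ => ((G.ex_smooth_right x).differentiable (by simp) v).hasFDerivAt.hasFDerivWithinAt
  have h := integral_image_eq_integral_abs_det_fderiv_smul volume MeasurableSet.univ hd hinj
    (fun y => G.w y * F y)
  rw [him, Measure.restrict_univ] at h
  rw [h]
  congr 1
  funext v
  rw [smul_eq_mul, ← mul_assoc, mul_comm |_| _, G.w_J]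

/-- Gaussian average of `h` at `c`. -/
noncomputable def pj (h : _root_.Vale.Agent.P219.TP.E n → ℝ) (c : _root_.Vale.Agent.P219.TP.E n) (t : ℝ) : ℝ := ∫ v, h (G.ex c v) * gd t v

/-- The Gaussian kernel. -/
noncomputable def kp (c : _root_.Vale.Agent.P219.TP.E n) (t : ℝ) (y : _root_.Vale.Agent.P219.TP.E n) : ℝ := gd t (G.lg c y) / |(G.T c (G.lg c y)).det|

theorem pj_eq (h : _root_.Vale.Agent.P219.TP.E n → ℝ) (c : _root_.Vale.Agent.P219.TP.E n) (t : ℝ) : pj G h c t = ∫ y, h y * kp G c t y ∂G.vol := by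
  rw [integral_vol_ex G c]
  unfold pj kp
  congr 1
  funext v
  rw [G.lg_ex]
  have h1 : |(G.T c v).det| ≠ 0 := abs_ne_zero.2 (G.det_T_ne c v)
  field_simp

theorem det_cont : Continuous fun z : _root_.Vale.Agent.P219.TP.E n × _root_.Vale.Agent.P219.TP.E n => |(G.T z.1 z.2).det| :=
  (ContinuousLinearMap.continuous_det.comp G.T_smooth.continuous).abs

theorem kp_cont : Continuous fun z : (_root_.Vale.Agent.P219.TP.E n × ℝ) × _root_.Vale.Agent.P219.TP.E n => kp G z.1.1 (Real.exp z.1.2) z.2 := by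
  unfold kp gd
  have h1 : Continuous fun z : (_root_.Vale.Agent.P219.TP.E n × ℝ) × _root_.Vale.Agent.P219.TP.E n => G.lg z.1.1 z.2 :=
    G.lg_smooth.continuous.comp
      (by fun_prop : Continuous fun z : (E n × ℝ) × E n => (z.1.1, z.2))
  have h2 : Continuous fun z : (_root_.Vale.Agent.P219.TP.E n × ℝ) × _root_.Vale.Agent.P219.TP.E n => |(G.T z.1.1 (G.lg z.1.1 z.2)).det| :=
    (det_cont G).comp ((by fun_prop : Continuous fun z : (E n × ℝ) × E n => z.1.1).prodMk h1)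
  refine Continuous.div ?_ h2 fun z => abs_ne_zero.2 (G.det_T_ne _ _)
  refine Continuous.mul ?_ ?_
  · exact Continuous.rpow_const (by fun_prop) fun z => Or.inr (by positivity)
  · have h3 : Continuous fun z : (_root_.Vale.Agent.P219.TP.E n × ℝ) × _root_.Vale.Agent.P219.TP.E n => ‖G.lg z.1.1 z.2‖ := h1.norm
    fun_prop

/-- The geodesic ball. -/
def gB (o : _root_.Vale.Agent.P219.TP.E n) (ρ : ℝ) : Set (_root_.Vale.Agent.P219.TP.E n) := {x | ‖G.lg o x‖ ≤ ρ}

theorem gB_compact (o : _root_.Vale.Agent.P219.TP.E n) (ρ : ℝ) : IsCompact (gB G o ρ) := G.isCompact_gball o ρ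

theorem vol_gB_lt (o : _root_.Vale.Agent.P219.TP.E n) (ρ : ℝ) : G.vol (gB G o ρ) < ⊤ := G.vol_compact_lt_top (gB_compact G o ρ)

/-- Modulus of continuity of all Gaussian averages. -/
theorem omega_cont (o : _root_.Vale.Agent.P219.TP.E n) (ρ : ℝ) (z₀ : _root_.Vale.Agent.P219.TP.E n × ℝ) {ε : ℝ} (hε : 0 < ε) :
    ∀ᶠ z in 𝓝 z₀, ∫ y in gB G o ρ, |kp G z.1 (Real.exp z.2) y - kp G z₀.1 (Real.exp z₀.2) y| ∂G.vol
      < ε := by
  have hk := kp_cont G
  have hc : Continuous (Function.uncurry fun (z : _root_.Vale.Agent.P219.TP.E n × ℝ) (y : _root_.Vale.Agent.P219.TP.E n) =>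
      |kp G z.1 (Real.exp z.2) y - kp G z₀.1 (Real.exp z₀.2) y|) := by
    refine Continuous.abs (Continuous.sub hk ?_)
    exact hk.comp (by fun_prop : Continuous fun z : (E n × ℝ) × E n => (z₀, z.2))
  have h1 := continuous_parametric_integral_of_continuous (μ := G.vol) hc (gB_compact G o ρ)
  have h2 := h1.tendsto z₀
  simp only [sub_self, abs_zero, integral_zero] at h2
  exact h2.eventually (gt_mem_nhds hε)

theorem meas_kp (c : _root_.Vale.Agent.P219.TP.E n) {t : ℝ} (ht : 0 < t) : Continuous fun y => kp G c t y := by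
  have h := (kp_cont G).comp (by fun_prop : Continuous fun y : E n => ((c, Real.log t), y))
  simp only [Function.comp_def, Real.exp_log ht] at h
  exact h

theorem int_kp {h : _root_.Vale.Agent.P219.TP.E n → ℝ} (hm : Measurable h) (hb : ∀ x, |h x| ≤ 1) {o : _root_.Vale.Agent.P219.TP.E n} {ρ : ℝ}
    (hs : ∀ x, h x ≠ 0 → ‖G.lg o x‖ ≤ ρ) (c : _root_.Vale.Agent.P219.TP.E n) {t : ℝ} (ht : 0 < t) :
    Integrable (fun y => h y * kp G c t y) G.vol := by
  have h1 : IntegrableOn (fun y => kp G c t y) (gB G o ρ) G.vol :=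
    (meas_kp G c ht).continuousOn.integrableOn_compact (gB_compact G o ρ)
  have h2 : IntegrableOn (fun y => h y * kp G c t y) (gB G o ρ) G.vol :=
    h1.bdd_mul (c := 1) hm.aestronglyMeasurable (.of_forall fun y => by
      rw [Real.norm_eq_abs]; exact hb y)
  refine (integrableOn_iff_integrable_of_support_subset ?_).1 h2
  intro y hy
  have : h y ≠ 0 := by
    intro h0
    exact hy (by simp [h0])
  exact hs y this

theorem pj_diff {h : _root_.Vale.Agent.P219.TP.E n → ℝ} (hm : Measurable h) (hb : ∀ x, |h x| ≤ 1) {o : _root_.Vale.Agent.P219.TP.E n} {ρ : ℝ}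
    (hs : ∀ x, h x ≠ 0 → ‖G.lg o x‖ ≤ ρ) (c c' : _root_.Vale.Agent.P219.TP.E n) {t t' : ℝ} (ht : 0 < t) (ht' : 0 < t') :
    |pj G h c t - pj G h c' t'| ≤ ∫ y in gB G o ρ, |kp G c t y - kp G c' t' y| ∂G.vol := by
  rw [pj_eq, pj_eq, ← integral_sub (int_kp G hm hb hs c ht) (int_kp G hm hb hs c' ht')]
  have e1 : ∫ y, (h y * kp G c t y - h y * kp G c' t' y) ∂G.vol =
      ∫ y in gB G o ρ, (h y * kp G c t y - h y * kp G c' t' y) ∂G.vol := by
    refine (setIntegral_eq_integral_of_forall_compl_eq_zero fun y hy => ?_).symm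
    have : h y = 0 := by
      by_contra h0
      exact hy (hs y h0)
    simp [this]
  rw [e1]
  refine (abs_integral_le_integral_abs).trans ?_
  refine integral_mono_of_nonneg (.of_forall fun y => abs_nonneg _) ?_ (.of_forall fun y => ?_)
  · exact (((meas_kp G c ht).sub (meas_kp G c' ht')).abs).continuousOn.integrableOn_compact
      (gB_compact G o ρ)
  · show |h y * kp G c t y - h y * kp G c' t' y| ≤ |kp G c t y - kp G c' t' y|
    rw [← mul_sub, abs_mul]
    exact mul_le_of_le_one_left (abs_nonneg _) (hb y)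

/-- Bounds of the averages. -/
theorem int_pj {h : _root_.Vale.Agent.P219.TP.E n → ℝ} (hm : Measurable h) (hb : ∀ x, |h x| ≤ 1) (c : _root_.Vale.Agent.P219.TP.E n) {t : ℝ}
    (ht : 0 < t) : Integrable fun v => h (G.ex c v) * gd t v := by
  refine (integrable_gd ht).bdd_mul (c := 1) ?_ (.of_forall fun v => ?_)
  · exact (hm.comp ((G.ex_smooth_right c).continuous.measurable)).aestronglyMeasurable
  · rw [Real.norm_eq_abs]; exact hb _

theorem pj_nonneg {h : _root_.Vale.Agent.P219.TP.E n → ℝ} (h0 : ∀ x, 0 ≤ h x) (c : _root_.Vale.Agent.P219.TP.E n) {t : ℝ} (ht : 0 < t) :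
    0 ≤ pj G h c t := integral_nonneg fun v => mul_nonneg (h0 _) (gd_nonneg ht v)

theorem pj_le_one {h : _root_.Vale.Agent.P219.TP.E n → ℝ} (hm : Measurable h) (h0 : ∀ x, 0 ≤ h x) (h1 : ∀ x, h x ≤ 1)
    (c : _root_.Vale.Agent.P219.TP.E n) {t : ℝ} (ht : 0 < t) : pj G h c t ≤ 1 := by
  have hb : ∀ x, |h x| ≤ 1 := fun x => by rw [abs_of_nonneg (h0 x)]; exact h1 x
  rw [← integral_gd (n := n) ht]
  refine integral_mono (int_pj G hm hb c ht) (integrable_gd ht) fun v => ?_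
  exact mul_le_of_le_one_left (gd_nonneg ht v) (h1 _)

theorem pj_one_sub {h : _root_.Vale.Agent.P219.TP.E n → ℝ} (hm : Measurable h) (hb : ∀ x, |h x| ≤ 1)
    (c : _root_.Vale.Agent.P219.TP.E n) {t : ℝ} (ht : 0 < t) : pj G (fun x => 1 - h x) c t = 1 - pj G h c t := by
  unfold pj
  have : (fun v => (1 - h (G.ex c v)) * gd t v) = fun v => gd t v - h (G.ex c v) * gd t v := by
    funext v; ring
  rw [this, integral_sub (integrable_gd ht) (int_pj G hm hb c ht), integral_gd ht]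

/-- Tail of the Gaussian. -/
theorem gd_tail {t δ : ℝ} (ht : 0 < t) :
    ∫⁻ v in {v : _root_.Vale.Agent.P219.TP.E n | δ ≤ ‖v‖}, ENNReal.ofReal (gd t v) ≤
      ENNReal.ofReal ((2 : ℝ) ^ ((n : ℝ) / 2) * Real.exp (-(t / 2) * max δ 0 ^ 2)) := by
  have hpi := Real.pi_pos
  have hcm : MeasurableSet {v : _root_.Vale.Agent.P219.TP.E n | δ ≤ ‖v‖} := measurableSet_le measurable_const (by fun_prop)
  have h1 : ∀ v ∈ {v : _root_.Vale.Agent.P219.TP.E n | δ ≤ ‖v‖}, ENNReal.ofReal (gd t v) ≤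
      ENNReal.ofReal ((2 : ℝ) ^ ((n : ℝ) / 2) * Real.exp (-(t / 2) * max δ 0 ^ 2)) *
        ENNReal.ofReal (gd (t / 2) v) := by
    intro v hv
    rw [← ENNReal.ofReal_mul (by positivity)]
    refine ENNReal.ofReal_le_ofReal ?_
    unfold gd
    have e1 : (t / Real.pi) ^ ((n : ℝ) / 2) =
        (2 : ℝ) ^ ((n : ℝ) / 2) * (t / 2 / Real.pi) ^ ((n : ℝ) / 2) := by
      rw [← Real.mul_rpow (by norm_num) (by positivity)]
      congr 1
      field_simp
    have e2 : Real.exp (-t * ‖v‖ ^ 2) ≤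
        Real.exp (-(t / 2) * max δ 0 ^ 2) * Real.exp (-(t / 2) * ‖v‖ ^ 2) := by
      rw [← Real.exp_add]
      refine Real.exp_le_exp.2 ?_
      have h2 : max δ 0 ≤ ‖v‖ := max_le hv (norm_nonneg _)
      have h3 : max δ 0 ^ 2 ≤ ‖v‖ ^ 2 := pow_le_pow_left₀ (le_max_right _ _) h2 2
      linarith only [mul_nonneg (le_of_lt (sub_pos.2 ht)) (sub_nonneg.2 h3)]
    rw [e1]
    have h4 : 0 ≤ (2 : ℝ) ^ ((n : ℝ) / 2) * (t / 2 / Real.pi) ^ ((n : ℝ) / 2) := by positivity
    calc (2 : ℝ) ^ ((n : ℝ) / 2) * (t / 2 / Real.pi) ^ ((n : ℝ) / 2) * Real.exp (-t * ‖v‖ ^ 2)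
        ≤ (2 : ℝ) ^ ((n : ℝ) / 2) * (t / 2 / Real.pi) ^ ((n : ℝ) / 2) *
          (Real.exp (-(t / 2) * max δ 0 ^ 2) * Real.exp (-(t / 2) * ‖v‖ ^ 2)) :=
          mul_le_mul_of_nonneg_left e2 h4
      _ = _ := by ring
  refine (setLIntegral_mono ((gd_meas _).const_mul _) h1).trans ?_
  rw [lintegral_const_mul _ (gd_meas _)]
  refine mul_le_of_le_one_right' ?_
  refine (setLIntegral_le_lintegral _ _).trans ?_
  rw [← ofReal_integral_eq_lintegral_ofReal (integrable_gd (by positivity))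
      (.of_forall fun v => gd_nonneg (by positivity) v), integral_gd (by positivity),
      ENNReal.ofReal_one]

theorem lintegral_gd {t : ℝ} (ht : 0 < t) : ∫⁻ v : _root_.Vale.Agent.P219.TP.E n, ENNReal.ofReal (gd t v) = 1 := by
  rw [← ofReal_integral_eq_lintegral_ofReal (integrable_gd ht)
      (.of_forall fun v => gd_nonneg ht v), integral_gd ht, ENNReal.ofReal_one]

/-- For `t` large most of the Gaussian mass is close to `0`. -/
theorem gd_ball {δ : ℝ} (hδ : 0 < δ) : ∃ T : ℝ, ∀ t ≥ T, 0 < t →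
    ENNReal.ofReal (1 / 2) ≤ ∫⁻ v in {v : _root_.Vale.Agent.P219.TP.E n | ‖v‖ < δ}, ENNReal.ofReal (gd t v) := by
  have hlim : Tendsto (fun t : ℝ => (2 : ℝ) ^ ((n : ℝ) / 2) * Real.exp (-(t / 2) * max δ 0 ^ 2))
      atTop (𝓝 0) := by
    rw [max_eq_left hδ.le]
    have h1 : Tendsto (fun t : ℝ => Real.exp (-(t / 2) * δ ^ 2)) atTop (𝓝 0) := by
      refine Real.tendsto_exp_atBot.comp ?_
      have : (fun t : ℝ => -(t / 2) * δ ^ 2) = fun t : ℝ => -(δ ^ 2 / 2 * t) := by
        funext t; ring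
      rw [this]
      exact tendsto_neg_atTop_atBot.comp (tendsto_id.const_mul_atTop (by positivity))
    simpa using h1.const_mul ((2 : ℝ) ^ ((n : ℝ) / 2))
  obtain ⟨T, hT⟩ := (hlim.eventually (gt_mem_nhds (show (0 : ℝ) < 1 / 2 by norm_num))).exists_forall_of_atTop
  refine ⟨T, fun t htT ht => ?_⟩
  have h1 := gd_tail (n := n) (δ := δ) ht
  have h2 := hT t htT
  have h3 : ∫⁻ v in {v : _root_.Vale.Agent.P219.TP.E n | δ ≤ ‖v‖}, ENNReal.ofReal (gd t v) ≤ ENNReal.ofReal (1 / 2) :=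
    h1.trans (ENNReal.ofReal_le_ofReal h2.le)
  have hcm : MeasurableSet {v : _root_.Vale.Agent.P219.TP.E n | ‖v‖ < δ} := measurableSet_lt (by fun_prop) measurable_const
  have h4 := lintegral_add_compl (μ := (volume : Measure (_root_.Vale.Agent.P219.TP.E n)))
    (fun v : _root_.Vale.Agent.P219.TP.E n => ENNReal.ofReal (gd t v)) hcm
  have h5 : {v : _root_.Vale.Agent.P219.TP.E n | ‖v‖ < δ}ᶜ = {v : _root_.Vale.Agent.P219.TP.E n | δ ≤ ‖v‖} := by
    ext v; simp
  rw [h5, lintegral_gd ht] at h4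
  by_contra hlt
  rw [not_le] at hlt
  have h6 : (∫⁻ v in {v : _root_.Vale.Agent.P219.TP.E n | ‖v‖ < δ}, ENNReal.ofReal (gd t v)) +
      ∫⁻ v in {v : _root_.Vale.Agent.P219.TP.E n | δ ≤ ‖v‖}, ENNReal.ofReal (gd t v) < ENNReal.ofReal (1 / 2) +
        ENNReal.ofReal (1 / 2) :=
    ENNReal.add_lt_add_of_lt_of_le (ne_top_of_le_ne_top ENNReal.ofReal_ne_top h3) hlt h3
  rw [h4, ← ENNReal.ofReal_add (by norm_num) (by norm_num)] at h6
  norm_num at h6

/-- Triangle inequality. -/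
theorem lg_tri (x y w : _root_.Vale.Agent.P219.TP.E n) : ‖G.lg x (G.ex y w)‖ ≤ ‖G.lg x y‖ + ‖w‖ := by
  have h1 := G.lg_nonexp x (G.ex y w) y
  have h2 : ‖G.lg (G.ex y w) y‖ = ‖w‖ := by
    rw [G.lg_back, norm_neg, G.norm_V]
  rw [h2] at h1
  calc ‖G.lg x (G.ex y w)‖ = ‖(G.lg x (G.ex y w) - G.lg x y) + G.lg x y‖ := by
        rw [sub_add_cancel]
    _ ≤ ‖G.lg x (G.ex y w) - G.lg x y‖ + ‖G.lg x y‖ := norm_add_le _ _
    _ ≤ _ := by linarith

/-- The `L¹` estimate (Liouville). -/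
theorem l1_est {f : _root_.Vale.Agent.P219.TP.E n → ℝ} (hm : Measurable f) (h0 : ∀ x, 0 ≤ f x) {t δ : ℝ}
    (ht2 : ENNReal.ofReal (1 / 2) ≤ ∫⁻ v in {v : _root_.Vale.Agent.P219.TP.E n | ‖v‖ < δ}, ENNReal.ofReal (gd t v))
    {S S' : Set (_root_.Vale.Agent.P219.TP.E n)} (hS : MeasurableSet S) (hS' : MeasurableSet S')
    (hSS : ∀ y ∈ S', ∀ w : _root_.Vale.Agent.P219.TP.E n, ‖w‖ < δ → G.ex y w ∈ S) :
    ENNReal.ofReal (1 / 2) * ∫⁻ y in S', ENNReal.ofReal (f y) ∂G.vol ≤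
      ∫⁻ c in S, ∫⁻ v, ENNReal.ofReal (f (G.ex c v)) * ENNReal.ofReal (gd t v) ∂volume ∂G.vol := by
  have hex : Continuous fun z : _root_.Vale.Agent.P219.TP.E n × _root_.Vale.Agent.P219.TP.E n => G.ex z.1 z.2 := G.ex_smooth.continuous
  set F : _root_.Vale.Agent.P219.TP.E n × _root_.Vale.Agent.P219.TP.E n → ℝ≥0∞ := fun z => S.indicator (fun _ => 1) (G.ex z.1 z.2) *
    (ENNReal.ofReal (f z.1) * ENNReal.ofReal (gd t z.2)) with hF
  have mF : Measurable F := by
    have m1 : Measurable fun z : _root_.Vale.Agent.P219.TP.E n × _root_.Vale.Agent.P219.TP.E n => S.indicator (fun _ => (1 : ℝ≥0∞)) (G.ex z.1 z.2) :=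
      (measurable_const.indicator hS).comp hex.measurable
    have m2 : Measurable fun z : _root_.Vale.Agent.P219.TP.E n × _root_.Vale.Agent.P219.TP.E n => ENNReal.ofReal (f z.1) :=
      (hm.comp measurable_fst).ennreal_ofReal
    have m3 : Measurable fun z : _root_.Vale.Agent.P219.TP.E n × _root_.Vale.Agent.P219.TP.E n => ENNReal.ofReal (gd t z.2) :=
      (gd_meas t).comp measurable_snd
    exact m1.mul (m2.mul m3)
  have h := G.liouville mF
  have e1 : ∀ x v, F (G.ex x v, -G.V 1 x v) = S.indicator (fun _ => 1) x *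
      (ENNReal.ofReal (f (G.ex x v)) * ENNReal.ofReal (gd t v)) := by
    intro x v
    simp only [hF]
    have h1 : G.ex (G.ex x v) (-G.V 1 x v) = x := by
      rw [← G.lg_back, G.ex_lg]
    rw [h1]
    have h2 : gd t (-G.V 1 x v) = gd t v := by
      unfold gd
      rw [norm_neg, G.norm_V]
    rw [h2]
  simp only [e1] at h
  have e2 : ∫⁻ c in S, ∫⁻ v, ENNReal.ofReal (f (G.ex c v)) * ENNReal.ofReal (gd t v) ∂volume ∂G.vol
      = ∫⁻ x, ∫⁻ v, S.indicator (fun _ => 1) x *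
      (ENNReal.ofReal (f (G.ex x v)) * ENNReal.ofReal (gd t v)) ∂volume ∂G.vol := by
    rw [← lintegral_indicator hS]
    refine lintegral_congr fun x => ?_
    by_cases hx : x ∈ S
    · simp only [indicator_of_mem hx, one_mul]
    · simp only [indicator_of_notMem hx, zero_mul, lintegral_zero]
  rw [e2, h]
  rw [← lintegral_const_mul _ (hm.ennreal_ofReal), ← lintegral_indicator hS']
  refine lintegral_mono fun y => ?_
  by_cases hy : y ∈ S'
  · rw [indicator_of_mem hy]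
    have h1 : ∫⁻ v in {v : _root_.Vale.Agent.P219.TP.E n | ‖v‖ < δ}, ENNReal.ofReal (f y) * ENNReal.ofReal (gd t v) ≤
        ∫⁻ v, F (y, v) := by
      have hcm : MeasurableSet {v : _root_.Vale.Agent.P219.TP.E n | ‖v‖ < δ} :=
        measurableSet_lt (by fun_prop) measurable_const
      rw [← lintegral_indicator hcm]
      refine lintegral_mono fun v => ?_
      by_cases hv : ‖v‖ < δ
      · rw [indicator_of_mem (by exact hv)]
        simp only [hF]
        rw [indicator_of_mem (hSS y hy v hv), one_mul]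
      · rw [indicator_of_notMem (by exact hv)]
        exact zero_le
    refine le_trans ?_ h1
    rw [lintegral_const_mul _ (gd_meas t), mul_comm]
    gcongr
  · rw [indicator_of_notMem hy]
    exact zero_le

end Vale.Agent.P219.TPH
end

section

/-! # P219, density: integrated density estimate -/

open MeasureTheory Set Metric Filter Topology
open scoped ENNReal ContDiff

namespace Vale.Agent.P219.TPH

open Vale.Agent.P219.TP

variable {n : ℕ} (G : Geo n)

/-- Gaussian density of `|Dh|` at `c`. -/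
noncomputable def Th (h : _root_.Vale.Agent.P219.TP.E n → ℝ) (c : _root_.Vale.Agent.P219.TP.E n) (t : ℝ) : ℝ :=
  (t / Real.pi) ^ (((n : ℝ) - 1) / 2) * ∫ y, Real.exp (-t * ‖G.lg c y‖ ^ 2) * ‖G.D h y‖ ∂G.vol

theorem exp_lg_cont (t : ℝ) : Continuous fun z : _root_.Vale.Agent.P219.TP.E n × _root_.Vale.Agent.P219.TP.E n => Real.exp (-t * ‖G.lg z.1 z.2‖ ^ 2) := by
  have h1 : Continuous fun z : _root_.Vale.Agent.P219.TP.E n × _root_.Vale.Agent.P219.TP.E n => ‖G.lg z.1 z.2‖ := G.lg_smooth.continuous.norm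
  continuity

theorem exp_lg_meas (t : ℝ) (y : _root_.Vale.Agent.P219.TP.E n) :
    Measurable fun c => ENNReal.ofReal (Real.exp (-t * ‖G.lg c y‖ ^ 2)) := by
  have h1 : Continuous fun c => ‖G.lg c y‖ :=
    (G.lg_smooth.continuous.comp (continuous_id.prodMk continuous_const)).norm
  have h2 : Continuous fun c => Real.exp (-t * ‖G.lg c y‖ ^ 2) := by continuity
  exact h2.measurable.ennreal_ofReal

theorem Th_int {o : _root_.Vale.Agent.P219.TP.E n} {ρ : ℝ} {h : _root_.Vale.Agent.P219.TP.E n → ℝ} (hh : G.Cls o ρ h) (c : _root_.Vale.Agent.P219.TP.E n) {t : ℝ} (ht : 0 < t) :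
    Integrable (fun y => Real.exp (-t * ‖G.lg c y‖ ^ 2) * ‖G.D h y‖) G.vol := by
  refine (perc_D_integrable G hh).bdd_mul (c := 1) ?_ (.of_forall fun y => ?_)
  · exact ((exp_lg_cont G t).comp (by fun_prop : Continuous fun y : E n => (c, y))).aestronglyMeasurable
  · rw [Real.norm_eq_abs, abs_of_pos (Real.exp_pos _)]
    refine Real.exp_le_one_iff.2 ?_
    have := mul_nonneg ht.le (sq_nonneg ‖G.lg c y‖)
    linarith

/-- Upper bound of the Jacobian on the ball. -/
theorem exists_detBound (o : _root_.Vale.Agent.P219.TP.E n) (ρ : ℝ) : ∃ C : ℝ, 0 ≤ C ∧ ∀ y v : _root_.Vale.Agent.P219.TP.E n,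
    ‖G.lg o y‖ ≤ ρ → ‖G.lg o (G.ex y v)‖ ≤ ρ → |(G.T y v).det| ≤ C := by
  have hK : IsCompact ((gB G o ρ) ×ˢ (closedBall (0 : _root_.Vale.Agent.P219.TP.E n) (2 * ρ))) :=
    (gB_compact G o ρ).prod (isCompact_closedBall 0 (2 * ρ))
  obtain ⟨C, hC⟩ := hK.exists_bound_of_continuousOn (det_cont G).continuousOn
  refine ⟨max C 0, le_max_right _ _, fun y v hy hv => ?_⟩
  have h1 := perc_norm_lg_le G hy hv
  rw [G.lg_ex] at h1
  have h2 := hC (y, v) ⟨hy, by simpa using h1⟩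
  rw [Real.norm_eq_abs, abs_abs] at h2
  exact h2.trans (le_max_left _ _)

theorem lint_exp {t : ℝ} (ht : 0 < t) : ∫⁻ v : _root_.Vale.Agent.P219.TP.E n, ENNReal.ofReal (Real.exp (-t * ‖v‖ ^ 2)) =
    ENNReal.ofReal ((Real.pi / t) ^ ((n : ℝ) / 2)) := by
  have hpi := Real.pi_pos
  have h5 := GaussianFourier.integral_rexp_neg_mul_sq_norm (V := _root_.Vale.Agent.P219.TP.E n) ht
  have h6 : Integrable fun v : _root_.Vale.Agent.P219.TP.E n => Real.exp (-t * ‖v‖ ^ 2) := by
    by_contra h7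
    rw [integral_undef h7] at h5
    have : 0 < (Real.pi / t) ^ ((Module.finrank ℝ (_root_.Vale.Agent.P219.TP.E n) : ℝ) / 2) := by positivity
    linarith
  rw [← ofReal_integral_eq_lintegral_ofReal h6 (.of_forall fun v => (Real.exp_pos _).le), h5]
  simp

theorem inner_gauss {o : _root_.Vale.Agent.P219.TP.E n} {ρ C : ℝ} (hC0 : 0 ≤ C) (hC : ∀ y v : _root_.Vale.Agent.P219.TP.E n,
    ‖G.lg o y‖ ≤ ρ → ‖G.lg o (G.ex y v)‖ ≤ ρ → |(G.T y v).det| ≤ C) {t : ℝ} (ht : 0 < t)
    {S : Set (_root_.Vale.Agent.P219.TP.E n)} (hS : MeasurableSet S) (hSK : S ⊆ gB G o ρ) {y : _root_.Vale.Agent.P219.TP.E n} (hy : ‖G.lg o y‖ ≤ ρ) :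
    ∫⁻ c in S, ENNReal.ofReal (Real.exp (-t * ‖G.lg c y‖ ^ 2)) ∂G.vol ≤
      ENNReal.ofReal (C * (Real.pi / t) ^ ((n : ℝ) / 2)) := by
  have m5 := exp_lg_meas G t y
  rw [← lintegral_indicator hS, G.lintegral_vol_ex y (m5.indicator hS)]
  have h3 : ∀ v, ENNReal.ofReal |(G.T y v).det| * S.indicator (fun c => ENNReal.ofReal
      (Real.exp (-t * ‖G.lg c y‖ ^ 2))) (G.ex y v) ≤
      ENNReal.ofReal C * ENNReal.ofReal (Real.exp (-t * ‖v‖ ^ 2)) := by
    intro v
    by_cases hv : G.ex y v ∈ S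
    · rw [indicator_of_mem hv]
      have h4 : ‖G.lg (G.ex y v) y‖ = ‖v‖ := by
        rw [G.norm_lg_comm, G.lg_ex]
      rw [h4]
      have h5 := ENNReal.ofReal_le_ofReal (hC y v hy (hSK hv))
      exact mul_le_mul' h5 le_rfl
    · rw [indicator_of_notMem hv, mul_zero]
      exact zero_le
  refine (lintegral_mono h3).trans ?_
  have m4 : Measurable fun v : _root_.Vale.Agent.P219.TP.E n => ENNReal.ofReal (Real.exp (-t * ‖v‖ ^ 2)) := by
    fun_prop
  rw [lintegral_const_mul _ m4, ENNReal.ofReal_mul hC0, lint_exp ht]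

theorem Th_integral (o : _root_.Vale.Agent.P219.TP.E n) (ρ : ℝ) : ∃ C : ℝ, 0 ≤ C ∧ ∀ (h : _root_.Vale.Agent.P219.TP.E n → ℝ) (t : ℝ)
    (S : Set (_root_.Vale.Agent.P219.TP.E n)), G.Cls o ρ h → 0 < t → MeasurableSet S → S ⊆ gB G o ρ →
    ∫⁻ c in S, ENNReal.ofReal (Th G h c t) ∂G.vol ≤
      ENNReal.ofReal (C * √(Real.pi / t) * G.per h) := by
  obtain ⟨C, hC0, hC⟩ := exists_detBound G o ρ
  refine ⟨C, hC0, fun h t S hh ht hS hSK => ?_⟩
  have hpi := Real.pi_pos
  have hDm : Measurable fun y => ENNReal.ofReal ‖G.D h y‖ :=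
    (perc_D_cont G hh.smooth).norm.measurable.ennreal_ofReal
  have hem : Measurable fun z : _root_.Vale.Agent.P219.TP.E n × _root_.Vale.Agent.P219.TP.E n =>
      ENNReal.ofReal (Real.exp (-t * ‖G.lg z.1 z.2‖ ^ 2)) :=
    (exp_lg_cont G t).measurable.ennreal_ofReal
  obtain ⟨P, hP⟩ : ∃ P : ℝ, P = (t / Real.pi) ^ (((n : ℝ) - 1) / 2) := ⟨_, rfl⟩
  have hP0 : 0 ≤ P := by rw [hP]; positivity
  have e1 : ∀ c, ENNReal.ofReal (Th G h c t) = ENNReal.ofReal P *
      ∫⁻ y, ENNReal.ofReal (Real.exp (-t * ‖G.lg c y‖ ^ 2)) * ENNReal.ofReal ‖G.D h y‖ ∂G.vol := by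
    intro c
    unfold Th
    rw [← hP, ENNReal.ofReal_mul hP0, ofReal_integral_eq_lintegral_ofReal (Th_int G hh c ht)
      (.of_forall fun y => by positivity)]
    congr 1
    refine lintegral_congr fun y => ?_
    rw [ENNReal.ofReal_mul (by positivity)]
  simp only [e1]
  have m2 : Measurable fun z : _root_.Vale.Agent.P219.TP.E n × _root_.Vale.Agent.P219.TP.E n => ENNReal.ofReal (Real.exp (-t * ‖G.lg z.1 z.2‖ ^ 2)) *
      ENNReal.ofReal ‖G.D h z.2‖ := hem.mul (hDm.comp measurable_snd)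
  rw [lintegral_const_mul _ (m2.lintegral_prod_right'),
    lintegral_lintegral_swap m2.aemeasurable]
  have e2 : ∀ y, ∫⁻ c in S, ENNReal.ofReal (Real.exp (-t * ‖G.lg c y‖ ^ 2)) *
      ENNReal.ofReal ‖G.D h y‖ ∂G.vol ≤
      ENNReal.ofReal (C * (Real.pi / t) ^ ((n : ℝ) / 2)) * ENNReal.ofReal ‖G.D h y‖ := by
    intro y
    by_cases hy : ‖G.lg o y‖ ≤ ρ
    · have m5 := exp_lg_meas G t y
      rw [lintegral_mul_const _ m5]
      exact mul_le_mul' (inner_gauss G hC0 hC ht hS hSK hy) le_rfl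
    · rw [perc_D_of_eventually G (perc_D_zero G hh (not_le.mp hy))]
      simp
  refine (mul_le_mul' le_rfl (lintegral_mono e2)).trans ?_
  rw [lintegral_const_mul _ hDm, ← ofReal_integral_eq_lintegral_ofReal (perc_D_integrable G hh)
    (.of_forall fun y => norm_nonneg _), ← ENNReal.ofReal_mul (by positivity),
    ← ENNReal.ofReal_mul hP0]
  refine ENNReal.ofReal_le_ofReal (le_of_eq ?_)
  have h8 : P * (Real.pi / t) ^ ((n : ℝ) / 2) = √(Real.pi / t) := by
    rw [hP, Real.sqrt_eq_rpow, show t / Real.pi = (Real.pi / t)⁻¹ by rw [inv_div],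
      Real.inv_rpow (by positivity), ← Real.rpow_neg (by positivity),
      ← Real.rpow_add (by positivity)]
    congr 1
    ring
  rw [← h8, Geo.per]
  ring

end Vale.Agent.P219.TPH
end

section

/-! # P219, density: the mass near a point of constant sign vanishes -/

open MeasureTheory Set Metric Filter Topology
open scoped ENNReal ContDiff

namespace Vale.Agent.P219.TPH

open Vale.Agent.P219.TP

variable {n : ℕ} (G : Geo n)

theorem unif_lt {U : Filter ℕ} {S : Set (_root_.Vale.Agent.P219.TP.E n)} (hS : IsCompact S) {F : ℕ → _root_.Vale.Agent.P219.TP.E n → ℝ} {a : ℝ}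
    (hF : ∀ c ∈ S, ∀ ε > 0, ∀ᶠ j in U, F j c < a + ε)
    (heq : ∀ c₀ ∈ S, ∀ ε > 0, ∀ᶠ c in 𝓝 c₀, ∀ j, |F j c - F j c₀| < ε) {ε : ℝ} (hε : 0 < ε) :
    ∀ᶠ j in U, ∀ c ∈ S, F j c < a + ε := by
  refine hS.induction_on (p := fun s => ∀ᶠ j in U, ∀ c ∈ s, F j c < a + ε) ?_ ?_ ?_ ?_
  · exact .of_forall fun j c hc => absurd hc (notMem_empty c)
  · intro s t hst ht
    exact ht.mono fun j hj c hc => hj c (hst hc)
  · intro s t hs ht
    filter_upwards [hs, ht] with j h1 h2 c hc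
    exact hc.elim (h1 c) (h2 c)
  · intro x hx
    refine ⟨{c | ∀ j, |F j c - F j x| < ε / 2}, mem_nhdsWithin_of_mem_nhds
      (heq x hx (ε / 2) (by positivity)), ?_⟩
    filter_upwards [hF x hx (ε / 2) (by positivity)] with j hj c hc
    have := (abs_lt.1 (hc j)).2
    linarith

theorem pj_ofReal {f : _root_.Vale.Agent.P219.TP.E n → ℝ} (hm : Measurable f) (h0 : ∀ x, 0 ≤ f x) (h1 : ∀ x, f x ≤ 1)
    (c : _root_.Vale.Agent.P219.TP.E n) {t : ℝ} (ht : 0 < t) :
    ∫⁻ v, ENNReal.ofReal (f (G.ex c v)) * ENNReal.ofReal (gd t v) = ENNReal.ofReal (pj G f c t) := by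
  have hb : ∀ x, |f x| ≤ 1 := fun x => by rw [abs_of_nonneg (h0 x)]; exact h1 x
  unfold pj
  rw [ofReal_integral_eq_lintegral_ofReal (int_pj G hm hb c ht)
    (.of_forall fun v => mul_nonneg (h0 _) (gd_nonneg ht v))]
  refine lintegral_congr fun v => ?_
  rw [ENNReal.ofReal_mul (h0 _)]

/-- Combined estimate. -/
theorem comb {o : _root_.Vale.Agent.P219.TP.E n} {ρ C : ℝ} (hC0 : 0 ≤ C) (hC : ∀ (h : _root_.Vale.Agent.P219.TP.E n → ℝ) (t : ℝ)
    (S : Set (_root_.Vale.Agent.P219.TP.E n)), G.Cls o ρ h → 0 < t → MeasurableSet S → S ⊆ gB G o ρ →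
    ∫⁻ c in S, ENNReal.ofReal (Th G h c t) ∂G.vol ≤ ENNReal.ofReal (C * √(Real.pi / t) * G.per h))
    {h f : _root_.Vale.Agent.P219.TP.E n → ℝ} (hh : G.Cls o ρ h) (hm : Measurable f) (h0 : ∀ x, 0 ≤ f x)
    (h1 : ∀ x, f x ≤ 1) {t δ b ε : ℝ} (ht : 0 < t) (hε : 0 ≤ ε) (hb : 0 ≤ b)
    (ht2 : ENNReal.ofReal (1 / 2) ≤ ∫⁻ v in {v : _root_.Vale.Agent.P219.TP.E n | ‖v‖ < δ}, ENNReal.ofReal (gd t v))
    {S S' : Set (_root_.Vale.Agent.P219.TP.E n)} (hS : MeasurableSet S) (hSK : S ⊆ gB G o ρ) (hS' : MeasurableSet S')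
    (hSS : ∀ y ∈ S', ∀ w : _root_.Vale.Agent.P219.TP.E n, ‖w‖ < δ → G.ex y w ∈ S)
    (hf : ∀ c ∈ S, 4 * (pj G f c t * (1 - pj G f c t)) ≤ Th G h c t + 4 * b)
    (hfε : ∀ c ∈ S, pj G f c t < 1 / 2 + ε) :
    ∫⁻ y in S', ENNReal.ofReal (f y) ∂G.vol ≤
      ENNReal.ofReal (4 * (ε + b) * G.vol.real (gB G o ρ) + C * √(Real.pi / t) * G.per h) := by
  have hper : 0 ≤ G.per h := integral_nonneg fun _ => norm_nonneg _
  have e0 := l1_est G hm h0 ht2 hS hS' hSS
  have e1 : ∫⁻ c in S, ∫⁻ v, ENNReal.ofReal (f (G.ex c v)) * ENNReal.ofReal (gd t v) ∂volume ∂G.vol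
      ≤ ∫⁻ c in S, (ENNReal.ofReal (2 * (ε + b)) + ENNReal.ofReal (1 / 2) *
        ENNReal.ofReal (Th G h c t)) ∂G.vol := by
    refine setLIntegral_mono' hS fun c hc => ?_
    rw [pj_ofReal G hm h0 h1 c ht]
    have p0 := pj_nonneg G h0 c ht
    have p1 := pj_le_one G hm h0 h1 c ht
    have p2 := hf c hc
    have p3 := hfε c hc
    have p4 : pj G f c t ≤ 2 * (ε + b) + 1 / 2 * Th G h c t := by
      nlinarith [mul_nonneg p0 (by linarith only [p3] : 0 ≤ 1 + 2 * ε - 2 * pj G f c t),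
        mul_nonneg hε (by linarith : 0 ≤ 1 - pj G f c t)]
    rw [← ENNReal.ofReal_mul (by norm_num)]
    exact (ENNReal.ofReal_le_ofReal p4).trans ENNReal.ofReal_add_le
  have e2 : ∫⁻ c in S, (ENNReal.ofReal (2 * (ε + b)) + ENNReal.ofReal (1 / 2) *
        ENNReal.ofReal (Th G h c t)) ∂G.vol ≤ ENNReal.ofReal (1 / 2) *
      ENNReal.ofReal (4 * (ε + b) * G.vol.real (gB G o ρ) + C * √(Real.pi / t) * G.per h) := by
    rw [lintegral_add_left measurable_const, setLIntegral_const,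
      lintegral_const_mul' _ _ ENNReal.ofReal_ne_top]
    have a1 : G.vol S ≤ ENNReal.ofReal (G.vol.real (gB G o ρ)) := by
      rw [Measure.real, ENNReal.ofReal_toReal (vol_gB_lt G o ρ).ne]
      exact measure_mono hSK
    have a2 := hC h t S hh ht hS hSK
    refine (add_le_add (mul_le_mul' le_rfl a1) (mul_le_mul' le_rfl a2)).trans ?_
    rw [← ENNReal.ofReal_mul (by (clear * - hε hb; positivity)), ← ENNReal.ofReal_mul (by norm_num),
      ← ENNReal.ofReal_mul (by norm_num), ← ENNReal.ofReal_add (by (clear * - hε hb; positivity)) (by (clear * - hC0 ht hper; positivity))]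
    refine ENNReal.ofReal_le_ofReal (le_of_eq ?_)
    ring
  have e3 := (e0.trans e1).trans e2
  have h2 : ENNReal.ofReal (1 / 2) ≠ 0 := by
    rw [Ne, ENNReal.ofReal_eq_zero]; norm_num
  exact (ENNReal.mul_le_mul_iff_right h2 ENNReal.ofReal_ne_top).1 e3

/-- Equicontinuity of the averages. -/
theorem pj_equi {o : _root_.Vale.Agent.P219.TP.E n} {ρ : ℝ} {g : ℕ → _root_.Vale.Agent.P219.TP.E n → ℝ} (hg : ∀ j, G.Cls o ρ (g j))
    (z₀ : _root_.Vale.Agent.P219.TP.E n × ℝ) {ε : ℝ} (hε : 0 < ε) : ∀ᶠ z in 𝓝 z₀, ∀ j,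
    |pj G (g j) z.1 (Real.exp z.2) - pj G (g j) z₀.1 (Real.exp z₀.2)| < ε := by
  filter_upwards [omega_cont G o ρ z₀ hε] with z hz j
  refine lt_of_le_of_lt (pj_diff G (hg j).smooth.continuous.measurable (fun x => ?_)
    (hg j).supp _ _ (Real.exp_pos _) (Real.exp_pos _)) hz
  rw [abs_of_nonneg ((hg j).nonneg x)]
  exact (hg j).le_one x

theorem pj_equi' {o : _root_.Vale.Agent.P219.TP.E n} {ρ : ℝ} {g : ℕ → _root_.Vale.Agent.P219.TP.E n → ℝ} (hg : ∀ j, G.Cls o ρ (g j))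
    (c₀ : _root_.Vale.Agent.P219.TP.E n) {t : ℝ} (ht : 0 < t) {ε : ℝ} (hε : 0 < ε) : ∀ᶠ c in 𝓝 c₀, ∀ j,
    |pj G (g j) c t - pj G (g j) c₀ t| < ε := by
  have h1 := pj_equi G hg (c₀, Real.log t) hε
  have h2 : Tendsto (fun c : _root_.Vale.Agent.P219.TP.E n => (c, Real.log t)) (𝓝 c₀) (𝓝 (c₀, Real.log t)) :=
    (by fun_prop : Continuous fun c : E n => (c, Real.log t)).tendsto c₀
  have h3 := h2.eventually h1
  simp only [Real.exp_log ht] at h3
  exact h3

/-- The mass tends to zero. -/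
theorem mass_zero {U : Filter ℕ} {o : _root_.Vale.Agent.P219.TP.E n} {ρ A : ℝ} {g f : ℕ → _root_.Vale.Agent.P219.TP.E n → ℝ}
    (hg : ∀ j, G.Cls o ρ (g j)) (hfm : ∀ j, Measurable (f j)) (hf0 : ∀ j x, 0 ≤ f j x)
    (hf1 : ∀ j x, f j x ≤ 1) (hA : ∀ᶠ j in U, G.per (g j) ≤ A) {b : ℝ → ℕ → ℝ}
    (hb0 : ∀ t j, 0 < t → 0 ≤ b t j) (hb : ∀ t, 0 < t → Tendsto (b t) U (𝓝 0)) {T₁ δ : ℝ} (hδ : 0 < δ)
    {S S' : Set (_root_.Vale.Agent.P219.TP.E n)} (hS : IsCompact S) (hSK : S ⊆ gB G o ρ) (hS' : MeasurableSet S')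
    (hSS : ∀ y ∈ S', ∀ w : _root_.Vale.Agent.P219.TP.E n, ‖w‖ < δ → G.ex y w ∈ S)
    (hf : ∀ t, 0 < t → ∀ j, ∀ c ∈ S, 4 * (pj G (f j) c t * (1 - pj G (f j) c t)) ≤
      Th G (g j) c t + 4 * b t j)
    (hlim : ∀ t ≥ T₁, 0 < t → ∀ c ∈ S, ∀ ε > 0, ∀ᶠ j in U, pj G (f j) c t < 1 / 2 + ε)
    (heq : ∀ t, 0 < t → ∀ c₀ ∈ S, ∀ ε > 0, ∀ᶠ c in 𝓝 c₀, ∀ j,
      |pj G (f j) c t - pj G (f j) c₀ t| < ε) {η : ℝ} (hη : 0 < η) :
    ∀ᶠ j in U, ∫⁻ y in S', ENNReal.ofReal (f j y) ∂G.vol ≤ ENNReal.ofReal η := by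
  obtain ⟨C, hC0, hC⟩ := Th_integral G o ρ
  obtain ⟨T₂, hT₂⟩ := gd_ball (n := n) hδ
  -- choice of t
  have hlim1 : Tendsto (fun t : ℝ => C * √(Real.pi / t) * A) atTop (𝓝 0) := by
    have h1 : Tendsto (fun t : ℝ => √(Real.pi / t)) atTop (𝓝 0) := by
      have h2 : Tendsto (fun t : ℝ => Real.pi / t) atTop (𝓝 0) :=
        tendsto_const_nhds.div_atTop tendsto_id
      have h3 := (Real.continuous_sqrt.tendsto 0).comp h2
      rwa [Real.sqrt_zero] at h3
    simpa using (h1.const_mul C).mul_const A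
  obtain ⟨t, ht⟩ := ((hlim1.eventually (gt_mem_nhds (show (0 : ℝ) < η / 2 by positivity))).and
    ((eventually_ge_atTop T₁).and ((eventually_ge_atTop T₂).and (eventually_gt_atTop 0)))).exists
  obtain ⟨ht1, ht2, ht3, ht0⟩ := ht
  obtain ⟨W, hW⟩ : ∃ W, W = G.vol.real (gB G o ρ) := ⟨_, rfl⟩
  have hW0 : 0 ≤ W := by rw [hW]; exact measureReal_nonneg
  obtain ⟨ε, hε⟩ : ∃ ε, ε = η / (16 * (W + 1)) := ⟨_, rfl⟩
  have hεp : 0 < ε := by rw [hε]; (clear * - hη hW0; positivity)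
  have hu := unif_lt hS (hlim t ht2 ht0) (heq t ht0) hεp
  filter_upwards [hu, hA, (hb t ht0).eventually (gt_mem_nhds hεp)] with j h1 h2 h3
  refine (comb G hC0 hC (hg j) (hfm j) (hf0 j) (hf1 j) ht0 hεp.le (hb0 t j ht0) (hT₂ t ht3 ht0)
    hS.measurableSet hSK hS' hSS (hf t ht0 j) h1).trans ?_
  refine ENNReal.ofReal_le_ofReal ?_
  rw [← hW]
  have h4 : 4 * (ε + b t j) * W ≤ η / 2 := by
    have h5 : 4 * (ε + b t j) ≤ 8 * ε := by linarith only [h3]
    have h6 : 8 * ε * (W + 1) = η / 2 := by rw [hε]; field_simp; norm_num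
    have h7 : 4 * (ε + b t j) * W ≤ 8 * ε * W := mul_le_mul_of_nonneg_right h5 hW0
    linarith only [h7, h6, hεp]
  have h8 : C * √(Real.pi / t) * G.per (g j) ≤ C * √(Real.pi / t) * A :=
    mul_le_mul_of_nonneg_left h2 (by (clear * - hC0 ht0; positivity))
  linarith only [h8, h4, ht1]

end Vale.Agent.P219.TPH
end

section

/-!
# P219: the Maurey-Pisier inequality on a Cartan-Hadamard manifold (global form)

`mp_half`: for `h` of class `C¹` with compact support, `0 ≤ h ≤ 1`, every centre `c` and `t > 0`,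
`4 p (1 - p) ≤ (t / π) ^ ((n - 1) / 2) ∫ exp (- t r_c²) |dh| dvol + (t / π) ^ (n / 2) vol {0 < h < 1}`
where `p` is the Gaussian mean of `h ∘ exp_c`.
-/

open MeasureTheory Set Metric
open scoped ENNReal ContDiff

noncomputable section

namespace Vale.Agent.P219.MPG

open Vale.Agent.P219.TP

variable {n : ℕ} (G : Geo n)

/-- Change of variables in the exponential map. -/
theorem lintegral_ex (c : _root_.Vale.Agent.P219.TP.E n) (F : _root_.Vale.Agent.P219.TP.E n → ℝ≥0∞) :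
    ∫⁻ v : _root_.Vale.Agent.P219.TP.E n, ENNReal.ofReal |(G.T c v).det| * F (G.ex c v) = ∫⁻ x, F x ∂G.vol := by
  have hinj : Function.Injective (G.ex c) := Function.LeftInverse.injective (G.lg_ex c)
  have hsurj : Function.Surjective (G.ex c) := fun x => ⟨G.lg c x, G.ex_lg c x⟩
  have h1 := lintegral_image_eq_lintegral_abs_det_fderiv_mul (volume : Measure (_root_.Vale.Agent.P219.TP.E n))
    MeasurableSet.univ (fun v _ => (G.ex_diff c v).hasFDerivAt.hasFDerivWithinAt)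
    hinj.injOn (fun x => ENNReal.ofReal (G.w x) * F x)
  rw [image_univ, hsurj.range_eq, Measure.restrict_univ] at h1
  unfold Geo.vol
  rw [lintegral_withDensity_eq_lintegral_mul_non_measurable _
    (G.w_smooth.continuous.measurable.ennreal_ofReal)
    (Filter.Eventually.of_forall fun x => ENNReal.ofReal_lt_top)]
  simp only [Pi.mul_apply]
  rw [h1]
  refine lintegral_congr fun v => ?_
  rw [← mul_assoc, ← ENNReal.ofReal_mul (abs_nonneg _), mul_comm |_|, G.w_J]

/-- The exponential map increases the volume. -/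
theorem lintegral_ex_le (c : _root_.Vale.Agent.P219.TP.E n) (F : _root_.Vale.Agent.P219.TP.E n → ℝ≥0∞) :
    ∫⁻ v : _root_.Vale.Agent.P219.TP.E n, F (G.ex c v) ≤ ∫⁻ x, F x ∂G.vol := by
  rw [← lintegral_ex G c F]
  refine lintegral_mono fun v => ?_
  calc F (G.ex c v) = 1 * F (G.ex c v) := (one_mul _).symm
    _ ≤ _ := mul_le_mul_left (ENNReal.one_le_ofReal.2 (G.one_le_J c v)) _

/-- The gradient in the exponential chart. -/
theorem norm_fderiv_ex_le {h : _root_.Vale.Agent.P219.TP.E n → ℝ} (hh : ContDiff ℝ 1 h) (c v : _root_.Vale.Agent.P219.TP.E n) :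
    ‖fderiv ℝ (fun v => h (G.ex c v)) v‖ ≤ |(G.T c v).det| * ‖G.D h (G.ex c v)‖ := by
  set a := (InnerProductSpace.toDual ℝ (_root_.Vale.Agent.P219.TP.E n)).symm (fderiv ℝ (fun v => h (G.ex c v)) v) with ha
  have hd : HasFDerivAt (fun v => h (G.ex c v))
      ((fderiv ℝ h (G.ex c v)).comp (fderiv ℝ (G.ex c) v)) v :=
    ((hh.differentiable one_ne_zero) (G.ex c v)).hasFDerivAt.comp v (G.ex_diff c v).hasFDerivAt
  have h1 := det_mul_norm_le (B := ContinuousLinearMap.id ℝ (_root_.Vale.Agent.P219.TP.E n)) (C := G.T c v)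
    (N := a) (y := a) (z := G.D h (G.ex c v)) (by
      show LinearMap.det (LinearMap.id : _root_.Vale.Agent.P219.TP.E n →ₗ[ℝ] _root_.Vale.Agent.P219.TP.E n) ≠ 0
      rw [LinearMap.det_id]
      exact one_ne_zero) (G.det_T_ne c v) (fun ξ => G.norm_le_T c v ξ) (fun ξ => rfl) (by
      intro ξ
      rw [G.inner_D, G.T_spec, ha, InnerProductSpace.toDual_symm_apply, hd.fderiv]
      rfl)
  have h2 : |(ContinuousLinearMap.id ℝ (_root_.Vale.Agent.P219.TP.E n)).det| = 1 := by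
    show |LinearMap.det (LinearMap.id : _root_.Vale.Agent.P219.TP.E n →ₗ[ℝ] _root_.Vale.Agent.P219.TP.E n)| = 1
    rw [LinearMap.det_id, abs_one]
  rw [h2, one_mul] at h1
  have h3 : ‖a‖ = ‖fderiv ℝ (fun v => h (G.ex c v)) v‖ := LinearIsometryEquiv.norm_map _ _
  rwa [h3] at h1

theorem contDiff_ex (c : _root_.Vale.Agent.P219.TP.E n) : ContDiff ℝ 1 (G.ex c) :=
  (G.ex_smooth.comp (by fun_prop : ContDiff ℝ ∞ fun v : E n => (c, v))).of_le (by norm_cast)

theorem contDiff_comp_ex {h : _root_.Vale.Agent.P219.TP.E n → ℝ} (hh : ContDiff ℝ 1 h) (c : _root_.Vale.Agent.P219.TP.E n) :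
    ContDiff ℝ 1 fun v => h (G.ex c v) := hh.comp (contDiff_ex G c)

/-- **Maurey-Pisier on the manifold**, lower integrals. -/
theorem mp_geo (hn : 1 ≤ n) {t : ℝ} (ht : 0 < t) {h : _root_.Vale.Agent.P219.TP.E n → ℝ} (hh : ContDiff ℝ 1 h) (c : _root_.Vale.Agent.P219.TP.E n) :
    ∫⁻ v, ∫⁻ w, ‖h (G.ex c v) - h (G.ex c w)‖ₑ ∂(gm n t) ∂(gm n t) ≤
      ENNReal.ofReal (1 / 2 * √(Real.pi / t)) *
        ∫⁻ x, ENNReal.ofReal (gd t (G.lg c x) * ‖G.D h x‖) ∂G.vol := by
  refine (mp_lint hn ht (contDiff_comp_ex G hh c)).trans (mul_le_mul_right ?_ _)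
  have hm : Measurable fun v : _root_.Vale.Agent.P219.TP.E n => ‖fderiv ℝ (fun v => h (G.ex c v)) v‖ₑ :=
    ((contDiff_comp_ex G hh c).continuous_fderiv one_ne_zero).measurable.enorm
  rw [lintegral_gm t hm, ← lintegral_ex G c]
  refine lintegral_mono fun v => ?_
  rw [G.lg_ex, ← ENNReal.ofReal_mul (abs_nonneg _), ← ofReal_norm,
    ← ENNReal.ofReal_mul (gd_nonneg ht v)]
  refine ENNReal.ofReal_le_ofReal ?_
  have h1 := mul_le_mul_of_nonneg_left (norm_fderiv_ex_le G hh c v) (gd_nonneg ht v)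
  linarith only [h1]

/-- Gaussian mean in the exponential chart. -/
def pm (t : ℝ) (h : _root_.Vale.Agent.P219.TP.E n → ℝ) (c : _root_.Vale.Agent.P219.TP.E n) : ℝ := ∫ v, h (G.ex c v) ∂(gm n t)

/-- A function with values in `[0, 1]` on a probability space. -/
theorem var_le {Ω : Type*} [MeasurableSpace Ω] (μ : Measure Ω) [IsProbabilityMeasure μ]
    {k : Ω → ℝ} (hk : Measurable k) (h0 : ∀ x, 0 ≤ k x) (h1 : ∀ x, k x ≤ 1) :
    2 * ((∫ x, k x ∂μ) * (1 - ∫ x, k x ∂μ) - ∫ x, k x * (1 - k x) ∂μ) ≤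
      ∫ z : Ω × Ω, |k z.1 - k z.2| ∂(μ.prod μ) := by
  have hi : Integrable k μ := by
    refine Integrable.of_bound hk.aestronglyMeasurable 1 (Filter.Eventually.of_forall fun x => ?_)
    rw [Real.norm_eq_abs, abs_of_nonneg (h0 x)]
    exact h1 x
  have hi2 : Integrable (fun x => k x ^ 2) μ := by
    refine Integrable.of_bound (hk.pow_const 2).aestronglyMeasurable 1
      (Filter.Eventually.of_forall fun x => ?_)
    rw [Real.norm_eq_abs, abs_of_nonneg (sq_nonneg _)]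
    exact pow_le_one₀ (h0 x) (h1 x)
  have e1 : ∫ z : Ω × Ω, (k z.1 - k z.2) ^ 2 ∂(μ.prod μ) =
      2 * (∫ x, k x ^ 2 ∂μ) - 2 * (∫ x, k x ∂μ) ^ 2 := by
    have a1 : Integrable (fun z : Ω × Ω => k z.1 ^ 2) (μ.prod μ) := hi2.comp_fst μ
    have a2 : Integrable (fun z : Ω × Ω => k z.2 ^ 2) (μ.prod μ) := hi2.comp_snd μ
    have a3 : Integrable (fun z : Ω × Ω => k z.1 * k z.2) (μ.prod μ) := hi.mul_prod hi
    have e : ∀ z : Ω × Ω, (k z.1 - k z.2) ^ 2 = k z.1 ^ 2 + k z.2 ^ 2 - 2 * (k z.1 * k z.2) :=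
      fun z => by ring
    have a12 : Integrable (fun z : Ω × Ω => k z.1 ^ 2 + k z.2 ^ 2) (μ.prod μ) := a1.add a2
    simp only [e]
    rw [integral_sub a12 (a3.const_mul 2), integral_add a1 a2, integral_const_mul,
      integral_prod_mul]
    have b1 : ∫ z : Ω × Ω, k z.1 ^ 2 ∂(μ.prod μ) = ∫ x, k x ^ 2 ∂μ := by
      have := integral_prod_mul (μ := μ) (ν := μ) (fun x => k x ^ 2) (fun _ => (1 : ℝ))
      simpa using this
    have b2 : ∫ z : Ω × Ω, k z.2 ^ 2 ∂(μ.prod μ) = ∫ x, k x ^ 2 ∂μ := by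
      have := integral_prod_mul (μ := μ) (ν := μ) (fun _ => (1 : ℝ)) (fun x => k x ^ 2)
      simpa using this
    rw [b1, b2]
    ring
  have e2 : ∫ x, k x * (1 - k x) ∂μ = (∫ x, k x ∂μ) - ∫ x, k x ^ 2 ∂μ := by
    rw [← integral_sub hi hi2]
    congr 1
    ext x
    ring
  have hm : Measurable fun z : Ω × Ω => k z.1 - k z.2 :=
    (hk.comp measurable_fst).sub (hk.comp measurable_snd)
  have hb : ∀ z : Ω × Ω, |k z.1 - k z.2| ≤ 1 := fun z => by
    rw [abs_le]
    constructor <;> linarith [h0 z.1, h1 z.1, h0 z.2, h1 z.2]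
  have e3 : ∫ z : Ω × Ω, (k z.1 - k z.2) ^ 2 ∂(μ.prod μ) ≤
      ∫ z : Ω × Ω, |k z.1 - k z.2| ∂(μ.prod μ) := by
    refine integral_mono_of_nonneg (Filter.Eventually.of_forall fun z => sq_nonneg _)
      (Integrable.of_bound hm.abs.aestronglyMeasurable 1 (Filter.Eventually.of_forall fun z => ?_))
      (Filter.Eventually.of_forall fun z => ?_)
    · rw [Real.norm_eq_abs, abs_abs]
      exact hb z
    · simp only
      rw [← sq_abs]
      have := abs_nonneg (k z.1 - k z.2)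
      linarith only [mul_nonneg (sub_nonneg.2 this) (sub_nonneg.2 (hb z))]
  rw [e1] at e3
  rw [e2]
  linarith [e3]

/-- Integrability of the gradient against the Gaussian weight. -/
theorem integrable_gD {o : _root_.Vale.Agent.P219.TP.E n} {ρ : ℝ} {h : _root_.Vale.Agent.P219.TP.E n → ℝ} (hc : G.Cls o ρ h) (c : _root_.Vale.Agent.P219.TP.E n) (t : ℝ) :
    Integrable (fun x => gd t (G.lg c x) * ‖G.D h x‖) G.vol := by
  have hl : Continuous fun x => G.lg c x :=
    G.lg_smooth.continuous.comp (continuous_const.prodMk continuous_id)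
  have h1 : Continuous fun x => gd t (G.lg c x) * ‖G.D h x‖ :=
    ((gd_continuous t).comp hl).mul (perc_D_cont G hc.smooth).norm
  refine h1.integrable_of_hasCompactSupport ?_
  refine HasCompactSupport.intro (G.isCompact_gball o ρ) fun x hx => ?_
  rw [perc_D_of_eventually G (perc_D_zero G hc (not_le.mp hx)), norm_zero, mul_zero]

theorem gd_const {t : ℝ} (ht : 0 < t) :
    1 / 2 * √(Real.pi / t) * (t / Real.pi) ^ ((n : ℝ) / 2) =
      1 / 2 * (t / Real.pi) ^ (((n : ℝ) - 1) / 2) := by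
  have hpi := Real.pi_pos
  have h1 : √(Real.pi / t) = (t / Real.pi) ^ (-(1 / 2) : ℝ) := by
    rw [Real.sqrt_eq_rpow, Real.rpow_neg (by positivity), ← Real.inv_rpow (by positivity), inv_div]
  rw [h1, mul_assoc, ← Real.rpow_add (by positivity)]
  congr 2
  ring

/-- **Density from the mass**, with the exact layer term. -/
theorem mp_pm (hn : 1 ≤ n) {t : ℝ} (ht : 0 < t) {o : _root_.Vale.Agent.P219.TP.E n} {ρ : ℝ} {h : _root_.Vale.Agent.P219.TP.E n → ℝ}
    (hc : G.Cls o ρ h) (c : _root_.Vale.Agent.P219.TP.E n) :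
    4 * (pm G t h c * (1 - pm G t h c) - pm G t (fun x => h x * (1 - h x)) c) ≤
      (t / Real.pi) ^ (((n : ℝ) - 1) / 2) *
        ∫ x, Real.exp (-t * ‖G.lg c x‖ ^ 2) * ‖G.D h x‖ ∂G.vol := by
  have := gm_prob (n := n) ht
  have hpi := Real.pi_pos
  have hk : Continuous fun v => h (G.ex c v) := hc.smooth.continuous.comp (contDiff_ex G c).continuous
  have h1 := var_le (gm n t) hk.measurable (fun v => hc.nonneg _) (fun v => hc.le_one _)
  have hm : Measurable fun z : _root_.Vale.Agent.P219.TP.E n × _root_.Vale.Agent.P219.TP.E n => h (G.ex c z.1) - h (G.ex c z.2) :=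
    (hk.measurable.comp measurable_fst).sub (hk.measurable.comp measurable_snd)
  have hb : ∀ z : _root_.Vale.Agent.P219.TP.E n × _root_.Vale.Agent.P219.TP.E n, |h (G.ex c z.1) - h (G.ex c z.2)| ≤ 1 := fun z => by
    rw [abs_le]
    constructor <;> linarith [hc.nonneg (G.ex c z.1), hc.le_one (G.ex c z.1),
      hc.nonneg (G.ex c z.2), hc.le_one (G.ex c z.2)]
  have h2 : ENNReal.ofReal (∫ z : _root_.Vale.Agent.P219.TP.E n × _root_.Vale.Agent.P219.TP.E n, |h (G.ex c z.1) - h (G.ex c z.2)|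
      ∂((gm n t).prod (gm n t))) =
      ∫⁻ v, ∫⁻ w, ‖h (G.ex c v) - h (G.ex c w)‖ₑ ∂(gm n t) ∂(gm n t) := by
    rw [ofReal_integral_eq_lintegral_ofReal (Integrable.of_bound hm.abs.aestronglyMeasurable 1
      (Filter.Eventually.of_forall fun z => by rw [Real.norm_eq_abs, abs_abs]; exact hb z))
      (Filter.Eventually.of_forall fun z => abs_nonneg _),
      lintegral_prod _ hm.abs.ennreal_ofReal.aemeasurable]
    refine lintegral_congr fun v => lintegral_congr fun w => ?_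
    rw [← ofReal_norm, Real.norm_eq_abs]
  have h3 := mp_geo G hn ht hc.smooth c
  rw [← h2, ← ofReal_integral_eq_lintegral_ofReal (integrable_gD G hc c t)
    (Filter.Eventually.of_forall fun x => mul_nonneg (gd_nonneg ht _) (norm_nonneg _)),
    ← ENNReal.ofReal_mul (by positivity)] at h3
  have hI0 : 0 ≤ ∫ x, gd t (G.lg c x) * ‖G.D h x‖ ∂G.vol :=
    integral_nonneg fun x => mul_nonneg (gd_nonneg ht _) (norm_nonneg _)
  have h4 := (ENNReal.ofReal_le_ofReal_iff (by (clear * - ht hI0; positivity))).1 h3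
  have h5 : 1 / 2 * √(Real.pi / t) * ∫ x, gd t (G.lg c x) * ‖G.D h x‖ ∂G.vol =
      1 / 2 * ((t / Real.pi) ^ (((n : ℝ) - 1) / 2) *
        ∫ x, Real.exp (-t * ‖G.lg c x‖ ^ 2) * ‖G.D h x‖ ∂G.vol) := by
    have e : ∀ x, gd t (G.lg c x) * ‖G.D h x‖ = (t / Real.pi) ^ ((n : ℝ) / 2) *
        (Real.exp (-t * ‖G.lg c x‖ ^ 2) * ‖G.D h x‖) := fun x => by
      unfold gd
      ring
    simp only [e]
    rw [integral_const_mul, ← mul_assoc, gd_const ht]
    ring
  rw [h5] at h4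
  have h6 := h1.trans h4
  unfold pm
  linarith only [h6]

/-- Gaussian means of nonnegative functions are controlled by the volume integral. -/
theorem pm_le {t : ℝ} (ht : 0 < t) {f : _root_.Vale.Agent.P219.TP.E n → ℝ} (hf : Continuous f) (h0 : ∀ x, 0 ≤ f x)
    (hi : Integrable f G.vol) (c : _root_.Vale.Agent.P219.TP.E n) :
    pm G t f c ≤ (t / Real.pi) ^ ((n : ℝ) / 2) * ∫ x, f x ∂G.vol := by
  have hpi := Real.pi_pos
  have hk : Continuous fun v => f (G.ex c v) := hf.comp (contDiff_ex G c).continuous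
  have hI0 : 0 ≤ ∫ x, f x ∂G.vol := integral_nonneg h0
  have hC0 : 0 ≤ (t / Real.pi) ^ ((n : ℝ) / 2) := by positivity
  unfold pm
  rw [integral_eq_lintegral_of_nonneg_ae (Filter.Eventually.of_forall fun v => h0 _)
    hk.aestronglyMeasurable]
  refine ENNReal.toReal_le_of_le_ofReal (by (clear * - ht hI0; positivity)) ?_
  rw [lintegral_gm t hk.measurable.ennreal_ofReal, ENNReal.ofReal_mul hC0,
    ofReal_integral_eq_lintegral_ofReal hi (Filter.Eventually.of_forall h0)]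
  calc ∫⁻ v, ENNReal.ofReal (gd t v) * ENNReal.ofReal (f (G.ex c v))
      ≤ ∫⁻ v, ENNReal.ofReal ((t / Real.pi) ^ ((n : ℝ) / 2)) * ENNReal.ofReal (f (G.ex c v)) := by
        refine lintegral_mono fun v => mul_le_mul_left (ENNReal.ofReal_le_ofReal ?_) _
        unfold gd
        refine mul_le_of_le_one_right hC0 (Real.exp_le_one_iff.2 ?_)
        have := sq_nonneg ‖v‖
        linarith only [mul_nonneg (le_of_lt (sub_pos.2 ht)) (sub_nonneg.2 this)]
    _ = ENNReal.ofReal ((t / Real.pi) ^ ((n : ℝ) / 2)) * ∫⁻ v, ENNReal.ofReal (f (G.ex c v)) :=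
        lintegral_const_mul' _ _ ENNReal.ofReal_ne_top
    _ ≤ _ := mul_le_mul_right (lintegral_ex_le G c fun x => ENNReal.ofReal (f x)) _

/-- **Half mass gives density**: the form with the volume of the layer. -/
theorem mp_half (hn : 1 ≤ n) {t : ℝ} (ht : 0 < t) {o : _root_.Vale.Agent.P219.TP.E n} {ρ : ℝ} {h : _root_.Vale.Agent.P219.TP.E n → ℝ}
    (hc : G.Cls o ρ h) (c : _root_.Vale.Agent.P219.TP.E n) :
    4 * (pm G t h c * (1 - pm G t h c)) ≤
      (t / Real.pi) ^ (((n : ℝ) - 1) / 2) *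
        (∫ x, Real.exp (-t * ‖G.lg c x‖ ^ 2) * ‖G.D h x‖ ∂G.vol) +
      (t / Real.pi) ^ ((n : ℝ) / 2) * G.vol.real {x | 0 < h x ∧ h x < 1} := by
  have hpi := Real.pi_pos
  have h1 := mp_pm G hn ht hc c
  have hcont : Continuous fun x => h x * (1 - h x) :=
    hc.smooth.continuous.mul (continuous_const.sub hc.smooth.continuous)
  have h0 : ∀ x, 0 ≤ h x * (1 - h x) := fun x =>
    mul_nonneg (hc.nonneg x) (by linarith only [hc.le_one x])
  have hsup : HasCompactSupport fun x => h x * (1 - h x) := by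
    refine HasCompactSupport.intro (G.isCompact_gball o ρ) fun x hx => ?_
    by_contra h2
    exact hx (hc.supp x fun h3 => h2 (by rw [h3, zero_mul]))
  have hi := hcont.integrable_of_hasCompactSupport (μ := G.vol) hsup
  have h2 := pm_le G ht hcont h0 hi c
  have hms : MeasurableSet {x | 0 < h x ∧ h x < 1} :=
    (measurableSet_lt measurable_const hc.smooth.continuous.measurable).inter
      (measurableSet_lt hc.smooth.continuous.measurable measurable_const)
  have hfin : G.vol {x | 0 < h x ∧ h x < 1} < ⊤ :=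
    (measure_mono fun x hx => hc.supp x hx.1.ne').trans_lt (G.isCompact_gball o ρ).measure_lt_top
  have h3 : ∫ x, h x * (1 - h x) ∂G.vol ≤ 1 / 4 * G.vol.real {x | 0 < h x ∧ h x < 1} := by
    have h4 : ∀ x, h x * (1 - h x) ≤ ({x | 0 < h x ∧ h x < 1} : Set (_root_.Vale.Agent.P219.TP.E n)).indicator
        (fun _ => (1 / 4 : ℝ)) x := by
      intro x
      by_cases hx : x ∈ {x | 0 < h x ∧ h x < 1}
      · rw [indicator_of_mem hx]
        linarith only [sq_nonneg (h x - 1 / 2)]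
      · rw [indicator_of_notMem hx]
        have h5 := hc.nonneg x
        have h6 := hc.le_one x
        rcases h5.lt_or_eq with h7 | h7
        · have h8 : h x = 1 := by
            by_contra h9
            exact hx ⟨h7, lt_of_le_of_ne h6 h9⟩
          rw [h8]
          norm_num
        · rw [← h7]
          norm_num
    calc ∫ x, h x * (1 - h x) ∂G.vol ≤ ∫ x, ({x | 0 < h x ∧ h x < 1} : Set (_root_.Vale.Agent.P219.TP.E n)).indicator
          (fun _ => (1 / 4 : ℝ)) x ∂G.vol :=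
          integral_mono hi ((integrable_indicator_iff hms).2
            (integrableOn_const (hs := hfin.ne))) h4
      _ = _ := by
          rw [integral_indicator hms, setIntegral_const, smul_eq_mul, mul_comm]
  have hC0 : 0 ≤ (t / Real.pi) ^ ((n : ℝ) / 2) := by positivity
  have h4 := mul_le_mul_of_nonneg_left h3 hC0
  linarith only [h4, h2, h1]

end Vale.Agent.P219.MPG
end
end

section

/-! # P219, all dimensions: cutting off a test function near a point -/

open MeasureTheory Set Metric Filter Topology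
open scoped ENNReal ContDiff

namespace Vale.Agent.P219.TPH

open Vale.Agent.P219.TP

variable {n : ℕ}

theorem cutx_D_mul (G : Geo n) {f g : _root_.Vale.Agent.P219.TP.E n → ℝ} {y : _root_.Vale.Agent.P219.TP.E n} (hf : DifferentiableAt ℝ f y)
    (hg : DifferentiableAt ℝ g y) :
    G.D (fun z => f z * g z) y = f y • G.D g y + g y • G.D f y := by
  unfold Geo.D
  rw [fderiv_fun_mul hf hg, ContinuousLinearMap.add_comp, map_add, ContinuousLinearMap.smul_comp,
    ContinuousLinearMap.smul_comp]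
  simp

theorem cutx_D_one_sub (G : Geo n) (f : _root_.Vale.Agent.P219.TP.E n → ℝ) (y : _root_.Vale.Agent.P219.TP.E n) :
    G.D (fun z => 1 - f z) y = -G.D f y := by
  unfold Geo.D
  rw [fderiv_const_sub, ContinuousLinearMap.neg_comp, map_neg]

/-- The cut-off function. -/
noncomputable def cutx (G : Geo n) (x : _root_.Vale.Agent.P219.TP.E n) (r : ℝ) (y : _root_.Vale.Agent.P219.TP.E n) : ℝ :=
  Real.smoothTransition ((‖G.lg x y‖ ^ 2 - r ^ 2 / 4) / (3 * r ^ 2 / 4))

theorem cutx_smooth (G : Geo n) (x : _root_.Vale.Agent.P219.TP.E n) (r : ℝ) : ContDiff ℝ ∞ (cutx G x r) := by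
  unfold cutx
  have h1 : ContDiff ℝ ∞ fun y => G.lg x y := G.lg_smooth.comp (contDiff_const.prodMk contDiff_id)
  exact Real.smoothTransition.contDiff.comp (((h1.norm_sq ℝ).sub contDiff_const).div_const _)

theorem cutx_nonneg (G : Geo n) (x : _root_.Vale.Agent.P219.TP.E n) (r : ℝ) (y : _root_.Vale.Agent.P219.TP.E n) : 0 ≤ cutx G x r y :=
  Real.smoothTransition.nonneg _

theorem cutx_le_one (G : Geo n) (x : _root_.Vale.Agent.P219.TP.E n) (r : ℝ) (y : _root_.Vale.Agent.P219.TP.E n) : cutx G x r y ≤ 1 :=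
  Real.smoothTransition.le_one _

theorem cutx_zero (G : Geo n) (x : _root_.Vale.Agent.P219.TP.E n) {r : ℝ} (hr : 0 < r) {y : _root_.Vale.Agent.P219.TP.E n}
    (hy : ‖G.lg x y‖ ≤ r / 2) : cutx G x r y = 0 := by
  refine Real.smoothTransition.zero_of_nonpos ?_
  refine div_nonpos_of_nonpos_of_nonneg ?_ (by positivity)
  have h0 := norm_nonneg (G.lg x y)
  linarith only [mul_nonneg (sub_nonneg.2 hy) (sub_nonneg.2 h0), mul_nonneg (sub_nonneg.2 hy) (sub_nonneg.2 hy)]

theorem cutx_one (G : Geo n) (x : _root_.Vale.Agent.P219.TP.E n) {r : ℝ} (hr : 0 < r) {y : _root_.Vale.Agent.P219.TP.E n}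
    (hy : r ≤ ‖G.lg x y‖) : cutx G x r y = 1 := by
  refine Real.smoothTransition.one_of_one_le ?_
  rw [le_div_iff₀ (by positivity)]
  linarith only [mul_nonneg (le_of_lt (sub_pos.2 hr)) (sub_nonneg.2 hy), mul_nonneg (sub_nonneg.2 hy) (sub_nonneg.2 hy)]

theorem cutx_lt_of_ne (G : Geo n) (x : _root_.Vale.Agent.P219.TP.E n) {r : ℝ} (hr : 0 < r) {y : _root_.Vale.Agent.P219.TP.E n}
    (hy : cutx G x r y ≠ 1) : ‖G.lg x y‖ < r := by
  by_contra h
  exact hy (cutx_one G x hr (not_lt.1 h))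

theorem cutx_D_zero (G : Geo n) (x : _root_.Vale.Agent.P219.TP.E n) {r : ℝ} (hr : 0 < r) {y : _root_.Vale.Agent.P219.TP.E n}
    (hy : r < ‖G.lg x y‖) : G.D (cutx G x r) y = 0 := by
  have hc : Continuous fun z => ‖G.lg x z‖ :=
    (G.lg_smooth.continuous.comp (continuous_const.prodMk continuous_id)).norm
  have h1 : cutx G x r =ᶠ[nhds y] fun _ => 1 := by
    filter_upwards [(isOpen_lt continuous_const hc).mem_nhds hy] with z hz
    exact cutx_one G x hr (le_of_lt hz)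
  have h2 : fderiv ℝ (cutx G x r) y = 0 := by
    rw [h1.fderiv_eq, fderiv_fun_const]
    rfl
  rw [Geo.D, h2, ContinuousLinearMap.zero_comp, map_zero]

/-- Perimeter estimate for a function whose gradient is controlled. -/
theorem cutx_per (G : Geo n) {o : _root_.Vale.Agent.P219.TP.E n} {ρ : ℝ} {x : _root_.Vale.Agent.P219.TP.E n} {r C : ℝ}
    (hD : ∀ y, ‖G.lg x y‖ ≤ r → ‖G.D (cutx G x r) y‖ ≤ C)
    (hD0 : ∀ y, r < ‖G.lg x y‖ → G.D (cutx G x r) y = 0) {h h' a : _root_.Vale.Agent.P219.TP.E n → ℝ}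
    (hh : G.Cls o ρ h) (hh' : G.Cls o ρ h') (ha : Continuous a) (ha0 : ∀ y, 0 ≤ a y)
    (hle : ∀ y, ‖G.D h' y‖ ≤ cutx G x r y * ‖G.D h y‖ + a y * ‖G.D (cutx G x r) y‖) :
    G.per h' ≤ ∫ y, cutx G x r y * ‖G.D h y‖ ∂G.vol +
      C * ∫ y in {y | ‖G.lg x y‖ ≤ r}, a y ∂G.vol := by
  have hSm : MeasurableSet {y | ‖G.lg x y‖ ≤ r} := (G.isCompact_gball x r).measurableSet
  have hi1 : Integrable (fun y => cutx G x r y * ‖G.D h y‖) G.vol := by
    refine ((cutx_smooth G x r).continuous.mul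
      (perc_D_cont G hh.smooth).norm).integrable_of_hasCompactSupport ?_
    refine HasCompactSupport.intro (G.isCompact_gball o ρ) fun y hy => ?_
    show cutx G x r y * ‖G.D h y‖ = 0
    rw [perc_D_of_eventually G (perc_D_zero G hh (not_le.mp hy)), norm_zero, mul_zero]
  have hi2 : IntegrableOn a {y | ‖G.lg x y‖ ≤ r} G.vol :=
    ha.continuousOn.integrableOn_compact (G.isCompact_gball x r)
  have hi3 : Integrable ({y | ‖G.lg x y‖ ≤ r}.indicator fun y => C * a y) G.vol :=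
    (integrable_indicator_iff hSm).2 (hi2.const_mul C)
  unfold Geo.per
  calc ∫ y, ‖G.D h' y‖ ∂G.vol
      ≤ ∫ y, (cutx G x r y * ‖G.D h y‖ + {y | ‖G.lg x y‖ ≤ r}.indicator (fun y => C * a y) y)
          ∂G.vol := by
        refine integral_mono (perc_D_integrable G hh') (hi1.add hi3) fun y => ?_
        refine (hle y).trans ?_
        have : a y * ‖G.D (cutx G x r) y‖ ≤
            {y | ‖G.lg x y‖ ≤ r}.indicator (fun y => C * a y) y := by
          by_cases hy : ‖G.lg x y‖ ≤ r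
          · rw [indicator_of_mem (show y ∈ {y | ‖G.lg x y‖ ≤ r} from hy), mul_comm C]
            exact mul_le_mul_of_nonneg_left (hD y hy) (ha0 y)
          · rw [indicator_of_notMem (show y ∉ {y | ‖G.lg x y‖ ≤ r} from hy),
              hD0 y (not_le.1 hy), norm_zero, mul_zero]
        exact add_le_add le_rfl this
    _ = ∫ y, cutx G x r y * ‖G.D h y‖ ∂G.vol +
          C * ∫ y in {y | ‖G.lg x y‖ ≤ r}, a y ∂G.vol := by
        rw [integral_add hi1 hi3, integral_indicator hSm, integral_const_mul]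

/-- Finiteness of the volume of `{h = 1}`. -/
theorem cutx_fin (G : Geo n) {o : _root_.Vale.Agent.P219.TP.E n} {ρ : ℝ} {h : _root_.Vale.Agent.P219.TP.E n → ℝ} (hh : G.Cls o ρ h) :
    G.vol {y | h y = 1} ≠ ⊤ := by
  refine ne_top_of_le_ne_top (G.isCompact_gball o ρ).measure_lt_top.ne (measure_mono ?_)
  intro y hy
  refine hh.supp y ?_
  rw [show h y = 1 from hy]
  exact one_ne_zero

theorem cutx_mul_eq_one {a b : ℝ} (ha : 0 ≤ a) (ha1 : a ≤ 1) (hb : 0 ≤ b) (hb1 : b ≤ 1)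
    (h : a * b = 1) : a = 1 ∧ b = 1 := by
  constructor <;> nlinarith

/-- Markov: the volume removed by the cut-off. -/
theorem cutx_markov (G : Geo n) {o : _root_.Vale.Agent.P219.TP.E n} {ρ : ℝ} {x : _root_.Vale.Agent.P219.TP.E n} {r : ℝ} {h : _root_.Vale.Agent.P219.TP.E n → ℝ}
    (hh : G.Cls o ρ h) :
    G.vol.real {y | h y = 1 ∧ ‖G.lg x y‖ ≤ r} ≤ ∫ y in {y | ‖G.lg x y‖ ≤ r}, h y ∂G.vol := by
  have hSm : MeasurableSet {y | ‖G.lg x y‖ ≤ r} := (G.isCompact_gball x r).measurableSet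
  have hSf : G.vol {y | ‖G.lg x y‖ ≤ r} ≠ ⊤ := (G.isCompact_gball x r).measure_lt_top.ne
  have hm : MeasurableSet {y | h y = 1} :=
    (isClosed_singleton (x := (1 : ℝ)).preimage hh.smooth.continuous).measurableSet
  have hi : IntegrableOn h {y | ‖G.lg x y‖ ≤ r} G.vol :=
    hh.smooth.continuous.continuousOn.integrableOn_compact (G.isCompact_gball x r)
  have e1 : {y | h y = 1 ∧ ‖G.lg x y‖ ≤ r} = {y | h y = 1} ∩ {y | ‖G.lg x y‖ ≤ r} := rfl
  have e2 : G.vol.real {y | h y = 1 ∧ ‖G.lg x y‖ ≤ r} =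
      ∫ y in {y | ‖G.lg x y‖ ≤ r}, {y | h y = 1}.indicator (fun _ => (1 : ℝ)) y ∂G.vol := by
    rw [setIntegral_indicator hm, setIntegral_const, smul_eq_mul, mul_one, e1, inter_comm]
  rw [e2]
  have : IsFiniteMeasure (G.vol.restrict {y | ‖G.lg x y‖ ≤ r}) :=
    ⟨by rw [Measure.restrict_apply_univ]; exact hSf.lt_top⟩
  refine integral_mono ((integrable_const (1 : ℝ)).indicator hm) hi fun y => ?_
  by_cases hy : y ∈ {y | h y = 1}
  · rw [indicator_of_mem hy, show h y = 1 from hy]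
  · rw [indicator_of_notMem hy]
    exact hh.nonneg y

/-- **Cut-off competitors.** -/
theorem cut_exists (G : Geo n) (o x : _root_.Vale.Agent.P219.TP.E n) (ρ : ℝ) {r : ℝ} (hr : 0 < r) :
    ∃ χ : _root_.Vale.Agent.P219.TP.E n → ℝ, Continuous χ ∧ (∀ y, 0 ≤ χ y) ∧ (∀ y, χ y ≤ 1) ∧
      (∀ y, ‖G.lg x y‖ ≤ r / 2 → χ y = 0) ∧ ∃ C : ℝ, 0 ≤ C ∧
      (∀ h, G.Cls o ρ h → ∃ h', G.Cls o ρ h' ∧
        G.per h' ≤ ∫ y, χ y * ‖G.D h y‖ ∂G.vol +
          C * ∫ y in {y | ‖G.lg x y‖ ≤ r}, h y ∂G.vol ∧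
        V1 G h - ∫ y in {y | ‖G.lg x y‖ ≤ r}, h y ∂G.vol ≤ V1 G h' ∧ V1 G h' ≤ V1 G h) ∧
      ((∀ y, ‖G.lg x y‖ ≤ r → ‖G.lg o y‖ ≤ ρ) → ∀ h, G.Cls o ρ h → ∃ h', G.Cls o ρ h' ∧
        G.per h' ≤ ∫ y, χ y * ‖G.D h y‖ ∂G.vol +
          C * ∫ y in {y | ‖G.lg x y‖ ≤ r}, (1 - h y) ∂G.vol ∧ V1 G h ≤ V1 G h') := by
  have hχs := cutx_smooth G x r
  have hχ1 : ContDiff ℝ 1 (cutx G x r) := hχs.of_le (by exact_mod_cast le_top)
  have hχd : ∀ y, DifferentiableAt ℝ (cutx G x r) y := fun y => hχ1.differentiable (by simp) y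
  obtain ⟨C₀, hC₀⟩ := (G.isCompact_gball x r).exists_bound_of_continuousOn
    (perc_D_cont G hχ1).continuousOn
  have hD : ∀ y, ‖G.lg x y‖ ≤ r → ‖G.D (cutx G x r) y‖ ≤ max C₀ 0 := fun y hy =>
    (hC₀ y hy).trans (le_max_left _ _)
  have hD0 : ∀ y, r < ‖G.lg x y‖ → G.D (cutx G x r) y = 0 := fun y hy => cutx_D_zero G x hr hy
  refine ⟨cutx G x r, hχs.continuous, cutx_nonneg G x r, cutx_le_one G x r,
    fun y hy => cutx_zero G x hr hy, max C₀ 0, le_max_right _ _, fun h hh => ?_,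
    fun hball h hh => ?_⟩
  · have hhd : ∀ y, DifferentiableAt ℝ h y := fun y => hh.smooth.differentiable (by simp) y
    have hcls : G.Cls o ρ (fun y => cutx G x r y * h y) :=
      { smooth := hχ1.mul hh.smooth
        nonneg := fun y => mul_nonneg (cutx_nonneg G x r y) (hh.nonneg y)
        le_one := fun y => mul_le_one₀ (cutx_le_one G x r y) (hh.nonneg y) (hh.le_one y)
        supp := fun y hy => hh.supp y fun h0 => hy (by rw [h0, mul_zero]) }
    refine ⟨_, hcls, ?_, ?_, ?_⟩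
    · refine cutx_per G hD hD0 hh hcls hh.smooth.continuous hh.nonneg
        fun y => ?_
      rw [cutx_D_mul G (hχd y) (hhd y)]
      refine (norm_add_le _ _).trans (le_of_eq ?_)
      rw [norm_smul, norm_smul, Real.norm_of_nonneg (cutx_nonneg G x r y),
        Real.norm_of_nonneg (hh.nonneg y)]
    · have hsub : {y | h y = 1} ⊆ {y | cutx G x r y * h y = 1} ∪
          {y | h y = 1 ∧ ‖G.lg x y‖ ≤ r} := by
        intro y hy
        by_cases hc : cutx G x r y = 1
        · left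
          show cutx G x r y * h y = 1
          rw [hc, show h y = 1 from hy, mul_one]
        · right
          exact ⟨hy, (cutx_lt_of_ne G x hr hc).le⟩
      have hfin : G.vol ({y | cutx G x r y * h y = 1} ∪ {y | h y = 1 ∧ ‖G.lg x y‖ ≤ r}) ≠ ⊤ := by
        refine (measure_union_lt_top (cutx_fin G hcls).lt_top ?_).ne
        refine lt_of_le_of_lt (measure_mono ?_) (cutx_fin G hh).lt_top
        exact fun y hy => hy.1
      have h1 : V1 G h ≤ V1 G (fun y => cutx G x r y * h y) +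
          G.vol.real {y | h y = 1 ∧ ‖G.lg x y‖ ≤ r} :=
        (measureReal_mono hsub hfin).trans (measureReal_union_le _ _)
      have h2 := cutx_markov G (x := x) (r := r) hh
      linarith
    · refine measureReal_mono (fun y hy => ?_) (cutx_fin G hh)
      exact (cutx_mul_eq_one (cutx_nonneg G x r y) (cutx_le_one G x r y) (hh.nonneg y)
        (hh.le_one y) hy).2
  · have hh1 : ContDiff ℝ 1 fun y => 1 - h y := contDiff_const.sub hh.smooth
    have hhd : ∀ y, DifferentiableAt ℝ (fun y => 1 - h y) y := fun y =>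
      hh1.differentiable (by simp) y
    have hle1 : ∀ y, cutx G x r y * (1 - h y) ≤ 1 := fun y =>
      mul_le_one₀ (cutx_le_one G x r y) (by linarith [hh.le_one y]) (by linarith [hh.nonneg y])
    have hge0 : ∀ y, 0 ≤ cutx G x r y * (1 - h y) := fun y =>
      mul_nonneg (cutx_nonneg G x r y) (by linarith [hh.le_one y])
    have hcls : G.Cls o ρ (fun y => 1 - cutx G x r y * (1 - h y)) :=
      { smooth := contDiff_const.sub (hχ1.mul hh1)
        nonneg := fun y => by linarith [hle1 y]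
        le_one := fun y => by linarith [hge0 y]
        supp := fun y hy => by
          by_contra hy2
          refine hy ?_
          have h0 : h y = 0 := by
            by_contra h0
            exact hy2 (hh.supp y h0)
          have h1 : cutx G x r y = 1 := by
            by_contra h1
            exact hy2 (hball y (cutx_lt_of_ne G x hr h1).le)
          show 1 - cutx G x r y * (1 - h y) = 0
          rw [h0, h1]
          norm_num }
    refine ⟨_, hcls, ?_, ?_⟩
    · refine cutx_per G (a := fun y => 1 - h y) hD hD0 hh hcls hh1.continuous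
        (fun y => by linarith [hh.le_one y]) fun y => ?_
      rw [cutx_D_one_sub G (fun y => cutx G x r y * (1 - h y)) y, norm_neg,
        cutx_D_mul G (hχd y) (hhd y), cutx_D_one_sub G h y]
      refine (norm_add_le _ _).trans (le_of_eq ?_)
      rw [norm_smul, norm_smul, norm_neg, Real.norm_of_nonneg (cutx_nonneg G x r y),
        Real.norm_of_nonneg (show 0 ≤ 1 - h y by linarith [hh.le_one y])]
    · refine measureReal_mono (fun y hy => ?_) (cutx_fin G hcls)
      show 1 - cutx G x r y * (1 - h y) = 1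
      rw [show h y = 1 from hy]
      norm_num

end Vale.Agent.P219.TPH
end

section

/-!
# P219 / End : the surface case `m = 2` (dimension `n = 3`)

With `u = 1` the energy identity is `(H₀² / 4 - k2) μ(M) = ∫ w² + ∫ (H₀ / 2 - a n_c)² + D_c[a]`,
`a = 1 / (F_c + ε)`; the density at one point of the support gives `μ(M) (H₀² / 4 - k2) ≥ 4 π`.
-/

open MeasureTheory Set Metric
open scoped ENNReal ContDiff

namespace Vale.Agent.P219.End

namespace Dim3

variable {n : ℕ} {H0 k2 : ℝ} {A : E n → E n →L[ℝ] E n} {F : E n → E n → ℝ} {K : Set (E n)}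
  {V : Measure (E n × E n)}

theorem integrable_of_cont' [IsFiniteMeasure V] (hK : IsCompact K)
    (hV : ∀ᵐ z ∂V, z.1 ∈ K ∧ ‖z.2‖ = 1) {f : E n × E n → ℝ} (hf : Continuous f) :
    Integrable f V := by
  have hK' : IsCompact (K ×ˢ sphere (0 : E n) 1) := hK.prod (isCompact_sphere 0 1)
  obtain ⟨C, hC⟩ := hK'.exists_bound_of_continuousOn hf.continuousOn
  refine Integrable.of_bound hf.aestronglyMeasurable C ?_
  filter_upwards [hV] with z hz
  exact hC z ⟨hz.1, by simpa using hz.2⟩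

/-- a point of `K` all of whose neighbourhoods `{F p < e}` are charged -/
theorem exists_supp (hF : ∀ c, Continuous (F c)) (hFs : ∀ c, F c c = 0) (hK : IsCompact K)
    (hV : ∀ᵐ z ∂V, z.1 ∈ K ∧ ‖z.2‖ = 1) (hV0 : V ≠ 0) :
    ∃ p ∈ K, ∀ e > 0, 0 < V {z | F p z.1 < e} := by
  by_contra hcon
  push Not at hcon
  choose! e he0 he using hcon
  have hnhds : ∀ p ∈ K, {x | F p x < e p} ∈ nhds p := by
    intro p hp
    refine IsOpen.mem_nhds (isOpen_lt (hF p) continuous_const) ?_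
    show F p p < e p
    rw [hFs p]
    exact he0 p hp
  obtain ⟨t, ht, hcov⟩ := hK.elim_nhds_subcover (fun p => {x | F p x < e p}) hnhds
  apply hV0
  rw [← Measure.measure_univ_eq_zero]
  have h1 : V (⋃ p ∈ t, {z : E n × E n | F p z.1 < e p}) = 0 := by
    refine (measure_biUnion_null_iff t.countable_toSet).2 ?_
    intro p hp
    exact le_antisymm (he p (ht p hp)) bot_le
  have h2 : V {z : E n × E n | ¬ (z.1 ∈ K ∧ ‖z.2‖ = 1)} = 0 := ae_iff.1 hV
  refine measure_mono_null (t := (⋃ p ∈ t, {z : E n × E n | F p z.1 < e p}) ∪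
    {z : E n × E n | ¬ (z.1 ∈ K ∧ ‖z.2‖ = 1)}) ?_ (measure_union_null h1 h2)
  intro z _
  by_cases hz : z.1 ∈ K ∧ ‖z.2‖ = 1
  · left
    have := hcov hz.1
    simp only [mem_iUnion, mem_ofPred_eq] at this ⊢
    exact this
  · right
    exact hz

theorem sg_two : sg 2 = 4 * Real.pi := by
  unfold sg
  have h1 : ((2 : ℝ) / 2) = 1 := by norm_num
  rw [h1, Real.Gamma_one, Real.Gamma_two, Real.rpow_one, Real.rpow_two]
  norm_num

/-- the bubble integral is bounded by the energy of `u = 1` -/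
theorem bubble_le [IsFiniteMeasure V] (hA : Continuous A) (hF : ∀ c, ContDiff ℝ ∞ (F c))
    (hF0 : ∀ c x, 0 ≤ F c x) (hgrad : ∀ c x, ‖D A (F c) x‖ ^ 2 = 2 * F c x + k2 * F c x ^ 2)
    (hK : IsCompact K) (hV : ∀ᵐ z ∂V, z.1 ∈ K ∧ ‖z.2‖ = 1)
    (stat : ∀ c ∈ K, ∀ ψ : E n → ℝ, ContDiff ℝ ∞ ψ → (∀ x, 0 ≤ ψ x) →
      0 ≤ ∫ z, (H0 * ψ z.1 * inner ℝ (D A (F c) z.1) z.2 -
        2 * (1 + k2 * F c z.1) * ψ z.1 - Gam A ψ (F c) z) ∂V)
    {c : E n} (hc : c ∈ K) {ε : ℝ} (hε : 0 < ε) (hkε : k2 * ε < 2) :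
    ∫ z, bub k2 (F c) ε z.1 ^ (2 : ℝ) ∂V ≤ (H0 ^ 2 / 4 - k2) * V.real univ := by
  set ψ : E n → ℝ := fun x => (F c x + ε)⁻¹ with hψ
  have hpos : ∀ x, 0 < F c x + ε := fun x => by linarith [hF0 c x]
  have hψs : ContDiff ℝ ∞ ψ := by
    refine ContDiff.inv ((hF c).add contDiff_const) (fun x => (hpos x).ne')
  have hψ0 : ∀ x, 0 ≤ ψ x := fun x => (inv_pos.2 (hpos x)).le
  have hs := stat c hc ψ hψs hψ0
  have hFd : ∀ x, DifferentiableAt ℝ (F c) x := fun x =>
    (hF c).differentiable (by simp) x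
  have hD : ∀ x, D A ψ x = (-(ψ x) ^ 2) • D A (F c) x := by
    intro x
    have h1 : HasDerivAt (fun t : ℝ => (t + ε)⁻¹) (-(F c x + ε)⁻¹ ^ 2) (F c x) := by
      have h2 := ((hasDerivAt_id (F c x)).add_const ε).inv (hpos x).ne'
      refine h2.congr_deriv ?_
      rw [id_eq, inv_pow, neg_div, one_div]
    exact D_comp h1 (hFd x)
  have hG : ∀ z : E n × E n, Gam A ψ (F c) z =
      -(ψ z.1) ^ 2 * (2 * F c z.1 + k2 * F c z.1 ^ 2 - inner ℝ (D A (F c) z.1) z.2 ^ 2) := by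
    intro z
    rw [Gam_eq, hD, gv_smul_left, gv_self, hgrad]
  have hcont1 : Continuous fun z : E n × E n => bub k2 (F c) ε z.1 ^ (2 : ℝ) := by
    have : Continuous (bub k2 (F c) ε) := by
      unfold bub
      exact continuous_const.div ((hF c).continuous.add continuous_const)
        (fun x => (hpos x).ne')
    exact (this.comp continuous_fst).rpow_const (fun z => Or.inr (by norm_num))
  have hle : ∫ z, (H0 * ψ z.1 * inner ℝ (D A (F c) z.1) z.2 -
        2 * (1 + k2 * F c z.1) * ψ z.1 - Gam A ψ (F c) z) ∂V ≤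
      ∫ z, ((H0 ^ 2 / 4 - k2) - bub k2 (F c) ε z.1 ^ (2 : ℝ)) ∂V := by
    have hn : Continuous fun z : E n × E n => (inner ℝ (D A (F c) z.1) z.2 : ℝ) :=
      ((D_continuous hA ((hF c).of_le (by exact_mod_cast le_top))).comp continuous_fst).inner
        continuous_snd
    have hψc : Continuous fun z : E n × E n => ψ z.1 := hψs.continuous.comp continuous_fst
    have hFc : Continuous fun z : E n × E n => F c z.1 := (hF c).continuous.comp continuous_fst
    refine integral_mono (integrable_of_cont' hK hV ?_)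
      (integrable_of_cont' hK hV (continuous_const.sub hcont1)) ?_
    · have : (fun z : E n × E n => H0 * ψ z.1 * inner ℝ (D A (F c) z.1) z.2 -
          2 * (1 + k2 * F c z.1) * ψ z.1 - Gam A ψ (F c) z) = fun z =>
          H0 * ψ z.1 * inner ℝ (D A (F c) z.1) z.2 -
          2 * (1 + k2 * F c z.1) * ψ z.1 -
          (-(ψ z.1) ^ 2 * (2 * F c z.1 + k2 * F c z.1 ^ 2 -
            inner ℝ (D A (F c) z.1) z.2 ^ 2)) := by
        funext z
        rw [hG]
      rw [this]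
      fun_prop
    · intro z
      have hb : bub k2 (F c) ε z.1 ^ (2 : ℝ) = ε * (2 - k2 * ε) * ψ z.1 ^ 2 := by
        unfold bub
        rw [Real.rpow_two, div_pow, Real.sq_sqrt (mul_nonneg hε.le (by linarith))]
        simp only [hψ]
        field_simp
      simp only
      rw [hb, hG]
      have hinv : ψ z.1 * (F c z.1 + ε) = 1 := inv_mul_cancel₀ (hpos z.1).ne'
      set y := ψ z.1
      set f := F c z.1
      set ν : ℝ := inner ℝ (D A (F c) z.1) z.2
      have key : ε * (2 - k2 * ε) * y ^ 2 =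
          2 * (1 + k2 * f) * y - y ^ 2 * (2 * f + k2 * f ^ 2) - k2 := by
        have hε' : ε * y = 1 - f * y := by linarith
        have e1 : ε * (2 - k2 * ε) * y ^ 2 = 2 * (ε * y) * y - k2 * (ε * y) ^ 2 := by ring
        rw [e1, hε']
        ring
      rw [key]
      linarith only [sq_nonneg (H0 / 2 - y * ν)]
  have h3 := hs.trans hle
  rw [integral_sub (integrable_const _) (integrable_of_cont' hK hV hcont1), integral_const,
    smul_eq_mul, mul_comm] at h3
  linarith only [h3]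

/-- **The surface case**: the area of the limit measure is at least the area of the model sphere. -/
theorem main2 [IsFiniteMeasure V] (hk : 0 ≤ k2) (hA : Continuous A)
    (hF : ∀ c, ContDiff ℝ ∞ (F c)) (hF0 : ∀ c x, 0 ≤ F c x) (hFs : ∀ c, F c c = 0)
    (hgrad : ∀ c x, ‖D A (F c) x‖ ^ 2 = 2 * F c x + k2 * F c x ^ 2)
    (hK : IsCompact K) (hV : ∀ᵐ z ∂V, z.1 ∈ K ∧ ‖z.2‖ = 1) (hV0 : V ≠ 0)
    (stat : ∀ c ∈ K, ∀ ψ : E n → ℝ, ContDiff ℝ ∞ ψ → (∀ x, 0 ≤ ψ x) →
      0 ≤ ∫ z, (H0 * ψ z.1 * inner ℝ (D A (F c) z.1) z.2 -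
        2 * (1 + k2 * F c z.1) * ψ z.1 - Gam A ψ (F c) z) ∂V)
    (dens : ∀ p, (∀ e > 0, 0 < V {z | F p z.1 < e}) → ∀ e > 0, ∃ ε₀ > 0, ∀ ε, 0 < ε → ε < ε₀ →
      sg 2 - e ≤ ∫ z, bub k2 (F p) ε z.1 ^ (2 : ℝ) ∂V) :
    4 * Real.pi ≤ (H0 ^ 2 / 4 - k2) * V.real univ := by
  obtain ⟨p, hp, hsupp⟩ := exists_supp (fun c => (hF c).continuous) hFs hK hV hV0
  rw [← sg_two]
  refine le_of_forall_sub_le fun e he => ?_
  obtain ⟨ε₀, hε₀, h⟩ := dens p hsupp e he
  set ε := min (ε₀ / 2) (1 / (k2 + 1)) with hε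
  have hk1 : 0 < k2 + 1 := by linarith
  have h0 : 0 < ε := lt_min (by linarith) (by positivity)
  have h1 : ε < ε₀ := (min_le_left _ _).trans_lt (by linarith)
  have h2 : k2 * ε < 2 := by
    have : k2 * ε ≤ k2 * (1 / (k2 + 1)) := mul_le_mul_of_nonneg_left (min_le_right _ _) hk
    have h3 : k2 * (1 / (k2 + 1)) < 2 := by
      rw [mul_one_div, div_lt_iff₀ hk1]
      linarith
    linarith
  exact (h ε h0 h1).trans (bubble_le hA hF hF0 hgrad hK hV stat hp h0 h2)

end Dim3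

end Vale.Agent.P219.End
end

section

/-! # Weak type inequality implies a Sobolev inequality (truncation). -/

namespace Vale.Agent.P219.End.WS

open MeasureTheory Real

/-- A bound for the derivative of the smooth transition function. -/
theorem exists_deriv_bound : ∃ D : ℝ, 0 < D ∧ ∀ x, |deriv Real.smoothTransition x| ≤ D := by
  have hc : Continuous (deriv Real.smoothTransition) :=
    (Real.smoothTransition.contDiff (n := 1)).continuous_deriv le_rfl
  obtain ⟨x₀, _, hx₀⟩ := (isCompact_Icc (a := (-1 : ℝ)) (b := 2)).exists_isMaxOn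
    ⟨0, by norm_num, by norm_num⟩ (f := fun x => |deriv Real.smoothTransition x|)
    (hc.abs.continuousOn)
  refine ⟨|deriv Real.smoothTransition x₀| + 1, by positivity, fun x => ?_⟩
  by_cases hx : x ∈ Set.Icc (-1 : ℝ) 2
  · exact (hx₀ hx).trans (by simp)
  · have h0 : deriv Real.smoothTransition x = 0 := by
      rw [Set.mem_Icc, not_and_or, not_le, not_le] at hx
      rcases hx with hx | hx
      · have : Real.smoothTransition =ᶠ[nhds x] fun _ => 0 := by
          filter_upwards [Iio_mem_nhds (show x < 0 by linarith)] with y hy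
          exact Real.smoothTransition.zero_of_nonpos (le_of_lt hy)
        rw [this.deriv_eq, deriv_const]
      · have : Real.smoothTransition =ᶠ[nhds x] fun _ => 1 := by
          filter_upwards [Ioi_mem_nhds (show 1 < x by linarith)] with y hy
          exact Real.smoothTransition.one_of_one_le (le_of_lt hy)
        rw [this.deriv_eq, deriv_const]
    rw [h0, abs_zero]
    positivity

theorem deriv_smoothTransition_of_not_mem {x : ℝ} (hx : x ∉ Set.Ioo (0 : ℝ) 1) :
    deriv Real.smoothTransition x = 0 := by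
  rw [Set.mem_Ioo, not_and_or, not_lt, not_lt] at hx
  have hd : Differentiable ℝ Real.smoothTransition :=
    (Real.smoothTransition.contDiff (n := 1)).differentiable one_ne_zero
  rcases hx with hx | hx
  · -- minimum
    have h : IsLocalMin Real.smoothTransition x := by
      refine Filter.Eventually.of_forall fun y => ?_
      rw [Real.smoothTransition.zero_of_nonpos hx]
      exact Real.smoothTransition.nonneg y
    exact h.deriv_eq_zero
  · have h : IsLocalMax Real.smoothTransition x := by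
      refine Filter.Eventually.of_forall fun y => ?_
      rw [Real.smoothTransition.one_of_one_le hx]
      exact Real.smoothTransition.le_one y
    exact h.deriv_eq_zero

/-- The truncation between the levels `l` and `2 l`. -/
noncomputable def tr (l t : ℝ) : ℝ := l * Real.smoothTransition (t / l - 1)

theorem tr_contDiff (l : ℝ) : ContDiff ℝ (⊤ : ℕ∞) (tr l) := by
  unfold tr
  exact contDiff_const.mul (Real.smoothTransition.contDiff.comp
    ((contDiff_id.div_const l).sub contDiff_const))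

theorem tr_nonneg {l : ℝ} (hl : 0 < l) (t : ℝ) : 0 ≤ tr l t :=
  mul_nonneg hl.le (Real.smoothTransition.nonneg _)

theorem tr_le {l : ℝ} (hl : 0 < l) (t : ℝ) : tr l t ≤ if l < t then l else 0 := by
  unfold tr
  split_ifs with h
  · exact mul_le_of_le_one_right hl.le (Real.smoothTransition.le_one _)
  · rw [Real.smoothTransition.zero_of_nonpos, mul_zero]
    rw [sub_nonpos, div_le_one hl]
    exact not_lt.1 h

theorem tr_of_le {l t : ℝ} (hl : 0 < l) (ht : t ≤ l) : tr l t = 0 := by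
  unfold tr
  rw [Real.smoothTransition.zero_of_nonpos, mul_zero]
  rw [sub_nonpos, div_le_one hl]
  exact ht

theorem tr_of_ge {l t : ℝ} (hl : 0 < l) (ht : 2 * l ≤ t) : tr l t = l := by
  unfold tr
  rw [Real.smoothTransition.one_of_one_le, mul_one]
  rw [le_sub_iff_add_le, le_div_iff₀ hl]
  linarith

theorem deriv_tr {l : ℝ} (hl : 0 < l) (t : ℝ) :
    deriv (tr l) t = deriv Real.smoothTransition (t / l - 1) := by
  have hd : Differentiable ℝ Real.smoothTransition :=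
    (Real.smoothTransition.contDiff (n := 1)).differentiable one_ne_zero
  have h1 : HasDerivAt (fun t : ℝ => t / l - 1) (1 / l) t :=
    ((hasDerivAt_id t).div_const l).sub_const 1
  have h2 := ((hd (t / l - 1)).hasDerivAt.comp t h1).const_mul l
  have h3 : deriv (tr l) t = l * (deriv Real.smoothTransition (t / l - 1) * (1 / l)) := h2.deriv
  rw [h3]
  field_simp

theorem abs_deriv_tr_le {D : ℝ} (hD : ∀ x, |deriv Real.smoothTransition x| ≤ D) {l : ℝ}
    (hl : 0 < l) (t : ℝ) : |deriv (tr l) t| ≤ if l < t ∧ t < 2 * l then D else 0 := by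
  rw [deriv_tr hl]
  split_ifs with h
  · exact hD _
  · rw [deriv_smoothTransition_of_not_mem, abs_zero]
    rw [Set.mem_Ioo]
    intro h'
    refine h ⟨?_, ?_⟩
    · have := h'.1
      rw [sub_pos, one_lt_div hl] at this
      exact this
    · have := h'.2
      rw [sub_lt_iff_lt_add, div_lt_iff₀ hl] at this
      linarith

/-- dyadic sum of levels below `x` -/
theorem sum_levels_le (n : ℕ) : ∀ (l x : ℝ), 0 < l → 0 ≤ x →
    ∑ j ∈ Finset.range n, (if l / 2 ^ j < x then l / 2 ^ j else 0) ≤ 2 * x := by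
  induction n with
  | zero => intro l x _ hx; simpa using hx
  | succ n ih =>
    intro l x hl hx
    by_cases h : l < x
    · calc ∑ j ∈ Finset.range (n + 1), (if l / 2 ^ j < x then l / 2 ^ j else 0)
          ≤ ∑ j ∈ Finset.range (n + 1), l * (1 / 2) ^ j := by
            refine Finset.sum_le_sum fun j _ => ?_
            have : l / 2 ^ j = l * (1 / 2) ^ j := by rw [one_div, inv_pow]; rfl
            split_ifs
            · exact this.le
            · positivity
        _ = l * ∑ j ∈ Finset.range (n + 1), ((1 : ℝ) / 2) ^ j := by rw [Finset.mul_sum]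
        _ ≤ l * 2 := by
            refine mul_le_mul_of_nonneg_left ?_ hl.le
            rw [geom_sum_eq (by norm_num)]
            have h1 : (0 : ℝ) ≤ (1 / 2) ^ (n + 1) := by positivity
            have h2 : (((1 : ℝ) / 2) ^ (n + 1) - 1) / (1 / 2 - 1) =
                2 - 2 * (1 / 2) ^ (n + 1) := by ring
            rw [h2]
            linarith only [h1]
        _ ≤ 2 * x := by linarith
    · rw [Finset.sum_range_succ']
      have h2 : ¬ l / 2 ^ 0 < x := by simpa using h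
      rw [if_neg h2, add_zero]
      have h3 := ih (l / 2) x (by positivity) hx
      have h4 : ∀ j : ℕ, l / 2 ^ (j + 1) = l / 2 / 2 ^ j := fun j => by
        rw [pow_succ', div_div]
      simp only [h4]
      exact h3

theorem sum_annuli_le (n : ℕ) {D : ℝ} (hD : 0 ≤ D) {l x : ℝ} (hl : 0 < l) :
    ∑ j ∈ Finset.range n, (if l / 2 ^ j < x ∧ x < 2 * (l / 2 ^ j) then D else 0) ≤ D := by
  classical
  rw [← Finset.sum_filter, Finset.sum_const, nsmul_eq_mul]
  have hcard : (Finset.filter (fun j : ℕ => l / 2 ^ j < x ∧ x < 2 * (l / 2 ^ j))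
      (Finset.range n)).card ≤ 1 := by
    rw [Finset.card_le_one]
    have key : ∀ a b : ℕ, a < b → x < 2 * (l / 2 ^ b) → l / 2 ^ a < x → False := by
      intro a b hab h1 h2
      have h3 : (2 : ℝ) ^ (a + 1) ≤ 2 ^ b := pow_le_pow_right₀ (by norm_num) hab
      have h4 : 2 * (l / 2 ^ b) ≤ l / 2 ^ a := by
        rw [mul_div_assoc', div_le_div_iff₀ (by positivity) (by positivity)]
        calc 2 * l * 2 ^ a = l * 2 ^ (a + 1) := by ring
          _ ≤ l * 2 ^ b := mul_le_mul_of_nonneg_left h3 hl.le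
      linarith only [h4, h2, h1]
    intro a ha b hb
    rw [Finset.mem_filter] at ha hb
    rcases lt_trichotomy a b with h | h | h
    · exact (key a b h hb.2.2 ha.2.1).elim
    · exact h
    · exact (key b a h ha.2.2 hb.2.1).elim
  calc _ ≤ (1 : ℝ) * D := mul_le_mul_of_nonneg_right (by exact_mod_cast hcard) hD
    _ = D := one_mul D

/-- `∑ aᵢ ^ r ≤ (∑ aᵢ) ^ r` for `r ≥ 1`. -/
theorem sum_rpow_le {n : ℕ} {a : ℕ → ℝ} (ha : ∀ j, 0 ≤ a j) {r : ℝ} (hr : 1 ≤ r) :
    ∑ j ∈ Finset.range n, a j ^ r ≤ (∑ j ∈ Finset.range n, a j) ^ r := by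
  have hS : 0 ≤ ∑ j ∈ Finset.range n, a j := Finset.sum_nonneg fun j _ => ha j
  rcases hS.eq_or_lt with h0 | hpos
  · have h1 : ∀ j ∈ Finset.range n, a j = 0 :=
      (Finset.sum_eq_zero_iff_of_nonneg fun j _ => ha j).1 h0.symm
    rw [← h0, zero_rpow (by linarith), Finset.sum_eq_zero]
    intro j hj
    rw [h1 j hj, zero_rpow (by linarith)]
  · calc ∑ j ∈ Finset.range n, a j ^ r
        ≤ ∑ j ∈ Finset.range n, a j * (∑ j ∈ Finset.range n, a j) ^ (r - 1) := by
          refine Finset.sum_le_sum fun j hj => ?_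
          have hle : a j ≤ ∑ j ∈ Finset.range n, a j :=
            Finset.single_le_sum (fun i _ => ha i) hj
          rcases (ha j).eq_or_lt with h | h
          · rw [← h, zero_rpow (by linarith), zero_mul]
          · calc a j ^ r = a j * a j ^ (r - 1) := by
                  rw [← rpow_one_add' (ha j) (by linarith)]
                  congr 1
                  ring
              _ ≤ _ := mul_le_mul_of_nonneg_left (rpow_le_rpow (ha j) hle (by linarith)) (ha j)
      _ = (∑ j ∈ Finset.range n, a j) * (∑ j ∈ Finset.range n, a j) ^ (r - 1) := by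
          rw [Finset.sum_mul]
      _ = (∑ j ∈ Finset.range n, a j) ^ r := by
          rw [← rpow_one_add' hS (by linarith)]
          congr 1
          ring

variable {Z : Type*} [MeasurableSpace Z]

/-- The class of truncations. -/
structure IsTrunc (ψ : ℝ → ℝ) : Prop where
  smooth : ContDiff ℝ (⊤ : ℕ∞) ψ
  nonneg : ∀ t, 0 ≤ ψ t
  zero : ∃ a > 0, ∀ t ≤ a, ψ t = 0

theorem isTrunc_tr {l : ℝ} (hl : 0 < l) : IsTrunc (tr l) :=
  ⟨tr_contDiff l, tr_nonneg hl, l, hl, fun _ ht => tr_of_le hl ht⟩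

/-- The weak type inequality for all truncations of `u` (`g = |∇u|`). -/
def WT (V : Measure Z) (s C : ℝ) (u g : Z → ℝ) : Prop :=
  ∀ ψ : ℝ → ℝ, IsTrunc ψ → ∀ t : ℝ, 0 < t →
    t * (V.real {z | t ≤ ψ (u z)}) ^ s ≤ C * ∫ z, (|deriv ψ (u z)| * g z + ψ (u z)) ∂V


/-- Dyadic decomposition of `x ^ r`. -/
theorem rpow_le_sum {r : ℝ} (hr : 0 < r) {l x : ℝ} (hl : 0 < l) (hx0 : 0 ≤ x) (hx : x ≤ 4 * l)
    (n : ℕ) : x ^ r ≤ ∑ j ∈ Finset.range n,
      (if 2 * (l / 2 ^ j) ≤ x then (4 * (l / 2 ^ j)) ^ r else 0) + (4 * (l / 2 ^ n)) ^ r := by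
  induction n with
  | zero =>
    rw [Finset.range_zero, Finset.sum_empty, zero_add, pow_zero, div_one]
    exact rpow_le_rpow hx0 hx hr.le
  | succ n ih =>
    rw [Finset.sum_range_succ]
    have hpos : 0 ≤ (4 * (l / 2 ^ (n + 1))) ^ r := by positivity
    by_cases h : 2 * (l / 2 ^ n) ≤ x
    · rw [if_pos h]
      linarith
    · rw [if_neg h, add_zero]
      have h1 : x ≤ 4 * (l / 2 ^ (n + 1)) := by
        have h2 : 4 * (l / 2 ^ (n + 1)) = 2 * (l / 2 ^ n) := by
          rw [pow_succ]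
          field_simp
          ring
        rw [h2]
        exact (not_le.1 h).le
      have h3 : 0 ≤ ∑ j ∈ Finset.range n,
          (if 2 * (l / 2 ^ j) ≤ x then (4 * (l / 2 ^ j)) ^ r else 0) :=
        Finset.sum_nonneg fun j _ => by split_ifs <;> positivity
      linarith only [h3, rpow_le_rpow hx0 h1 hr.le]

/-- Strong `L¹` Sobolev inequality from the weak type inequality, by truncation. -/
theorem strong_of_weak {V : Measure Z} [IsFiniteMeasure V] {s C : ℝ} (hs : 0 < s) (hs1 : s ≤ 1)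
    (hC : 0 ≤ C) {u g : Z → ℝ} (hum : Measurable u) (hu : ∀ z, 0 ≤ u z) {B : ℝ}
    (huB : ∀ z, u z ≤ B) (hg : ∀ z, 0 ≤ g z) (hgi : Integrable g V)
    (hWT : WT V s C u g) {D : ℝ} (hD : ∀ x, |deriv Real.smoothTransition x| ≤ D) :
    (∫ z, u z ^ (1 / s) ∂V) ^ s ≤ 4 * (C * ∫ z, (D * g z + 2 * u z) ∂V) := by
  have hD0 : 0 ≤ D := (abs_nonneg _).trans (hD 0)
  set r : ℝ := 1 / s with hr
  have hr1 : 1 ≤ r := by rw [hr, le_div_iff₀ hs]; linarith only [hs1]
  have hr0 : 0 < r := by linarith only [hr1]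
  have hsr : s * r = 1 := by rw [hr]; field_simp
  set l : ℝ := max B 1 / 4 with hl'
  have hl : 0 < l := by positivity
  have huB' : ∀ z, u z ≤ 4 * l := fun z => by
    rw [hl']
    linarith only [le_max_left B 1, huB z]
  -- integrability
  have hui : Integrable u V := Integrable.of_bound hum.aestronglyMeasurable B
    (Filter.Eventually.of_forall fun z => by rw [norm_of_nonneg (hu z)]; exact huB z)
  have hbdd : ∀ (f : Z → ℝ), Measurable f → (∀ z, 0 ≤ f z) → (∀ K : ℝ, (∀ z, f z ≤ K) →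
      Integrable f V) := fun f hf h0 K hK => Integrable.of_bound hf.aestronglyMeasurable K
    (Filter.Eventually.of_forall fun z => by rw [norm_of_nonneg (h0 z)]; exact hK z)
  have hlj : ∀ j : ℕ, 0 < l / 2 ^ j := fun j => by positivity
  have htrm : ∀ j : ℕ, Measurable fun z => tr (l / 2 ^ j) (u z) := fun j =>
    (tr_contDiff _).continuous.measurable.comp hum
  have hdm : ∀ j : ℕ, Measurable fun z => |deriv (tr (l / 2 ^ j)) (u z)| := fun j =>
    (((tr_contDiff _).continuous_deriv (by simp)).abs).measurable.comp hum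
  have hi1 : ∀ j : ℕ, Integrable (fun z => |deriv (tr (l / 2 ^ j)) (u z)| * g z) V := fun j => by
    refine Integrable.mono' (hgi.const_mul D)
      ((hdm j).aestronglyMeasurable.mul hgi.aestronglyMeasurable)
      (Filter.Eventually.of_forall fun z => ?_)
    rw [norm_of_nonneg (mul_nonneg (abs_nonneg _) (hg z))]
    refine mul_le_mul_of_nonneg_right ((abs_deriv_tr_le hD (hlj j) _).trans ?_) (hg z)
    split_ifs
    · exact le_rfl
    · exact hD0
  have hi2 : ∀ j : ℕ, Integrable (fun z => tr (l / 2 ^ j) (u z)) V := fun j =>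
    hbdd _ (htrm j) (fun z => tr_nonneg (hlj j) _) (l / 2 ^ j) fun z =>
      (tr_le (hlj j) _).trans (by split_ifs; exacts [le_rfl, (hlj j).le])
  set T : ℝ := C * ∫ z, (D * g z + 2 * u z) ∂V with hT
  have hTi : Integrable (fun z => D * g z + 2 * u z) V := (hgi.const_mul D).add (hui.const_mul 2)
  have hT0 : 0 ≤ T := mul_nonneg hC (integral_nonneg fun z => by
    have := hg z
    have := hu z
    positivity)
  let a : ℕ → ℝ := fun j => (l / 2 ^ j) * (V.real {z | 2 * (l / 2 ^ j) ≤ u z}) ^ s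
  have ha0 : ∀ j, 0 ≤ a j := fun j => mul_nonneg (hlj j).le (rpow_nonneg measureReal_nonneg _)
  have ha1 : ∀ j, a j ≤ C * ∫ z, (|deriv (tr (l / 2 ^ j)) (u z)| * g z +
      tr (l / 2 ^ j) (u z)) ∂V := fun j => by
    refine le_trans ?_ (hWT _ (isTrunc_tr (hlj j)) (l / 2 ^ j) (hlj j))
    refine mul_le_mul_of_nonneg_left (rpow_le_rpow measureReal_nonneg
      (measureReal_mono fun z hz => ?_) hs.le) (hlj j).le
    rw [Set.mem_ofPred_eq] at hz ⊢
    rw [tr_of_ge (hlj j) hz]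
  have hsum : ∀ n : ℕ, ∑ j ∈ Finset.range n, a j ≤ T := by
    intro n
    calc ∑ j ∈ Finset.range n, a j
        ≤ ∑ j ∈ Finset.range n, C * ∫ z, (|deriv (tr (l / 2 ^ j)) (u z)| * g z +
            tr (l / 2 ^ j) (u z)) ∂V := Finset.sum_le_sum fun j _ => ha1 j
      _ = C * ∫ z, (∑ j ∈ Finset.range n, (|deriv (tr (l / 2 ^ j)) (u z)| * g z +
            tr (l / 2 ^ j) (u z))) ∂V := by
          rw [← Finset.mul_sum, integral_finsetSum]
          exact fun j _ => (hi1 j).add (hi2 j)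
      _ ≤ T := by
          refine mul_le_mul_of_nonneg_left (integral_mono (integrable_finsetSum _
            fun j _ => (hi1 j).add (hi2 j)) hTi fun z => ?_) hC
          change ∑ j ∈ Finset.range n, (|deriv (tr (l / 2 ^ j)) (u z)| * g z +
            tr (l / 2 ^ j) (u z)) ≤ D * g z + 2 * u z
          rw [Finset.sum_add_distrib, ← Finset.sum_mul]
          refine add_le_add (mul_le_mul_of_nonneg_right ?_ (hg z)) ?_
          · exact (Finset.sum_le_sum fun j _ => abs_deriv_tr_le hD (hlj j) _).trans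
              (sum_annuli_le n hD0 hl)
          · exact (Finset.sum_le_sum fun j _ => tr_le (hlj j) _).trans
              (sum_levels_le n l _ hl (hu z))
  have hmeas : ∀ c : ℝ, MeasurableSet {z | c ≤ u z} := fun c => measurableSet_le measurable_const hum
  have hmain : ∀ n : ℕ, ∫ z, u z ^ r ∂V ≤ (4 * T) ^ r + (4 * (l / 2 ^ n)) ^ r * V.real Set.univ := by
    intro n
    have hint : ∀ j : ℕ, Integrable (fun z => if 2 * (l / 2 ^ j) ≤ u z then
        (4 * (l / 2 ^ j)) ^ r else 0) V := fun j => by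
      have : (fun z => if 2 * (l / 2 ^ j) ≤ u z then (4 * (l / 2 ^ j)) ^ r else 0) =
          Set.indicator {z | 2 * (l / 2 ^ j) ≤ u z} fun _ => (4 * (l / 2 ^ j)) ^ r := by
        ext z
        rw [Set.indicator_apply]
        rfl
      rw [this]
      exact (integrable_const _).indicator (hmeas _)
    have hintv : ∀ j : ℕ, ∫ z, (if 2 * (l / 2 ^ j) ≤ u z then
        (4 * (l / 2 ^ j)) ^ r else 0) ∂V = 4 ^ r * a j ^ r := fun j => by
      have : (fun z => if 2 * (l / 2 ^ j) ≤ u z then (4 * (l / 2 ^ j)) ^ r else 0) =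
          Set.indicator {z | 2 * (l / 2 ^ j) ≤ u z} fun _ => (4 * (l / 2 ^ j)) ^ r := by
        ext z
        rw [Set.indicator_apply]
        rfl
      rw [this, integral_indicator_const _ (hmeas _), smul_eq_mul]
      simp only [a]
      rw [mul_rpow (by norm_num) (hlj j).le, mul_rpow (hlj j).le (rpow_nonneg measureReal_nonneg _),
        ← rpow_mul measureReal_nonneg, hsr, rpow_one]
      ring
    calc ∫ z, u z ^ r ∂V
        ≤ ∫ z, (∑ j ∈ Finset.range n, (if 2 * (l / 2 ^ j) ≤ u z then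
            (4 * (l / 2 ^ j)) ^ r else 0) + (4 * (l / 2 ^ n)) ^ r) ∂V := by
          refine integral_mono ?_ ?_ fun z => rpow_le_sum hr0 hl (hu z) (huB' z) n
          · exact hbdd _ (hum.pow_const r) (fun z => rpow_nonneg (hu z) _) ((4 * l) ^ r)
              fun z => rpow_le_rpow (hu z) (huB' z) hr0.le
          · exact (integrable_finsetSum _ fun j _ => hint j).add (integrable_const _)
      _ = ∑ j ∈ Finset.range n, 4 ^ r * a j ^ r + (4 * (l / 2 ^ n)) ^ r * V.real Set.univ := by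
          rw [integral_add (integrable_finsetSum _ fun j _ => hint j) (integrable_const _),
            integral_finsetSum _ fun j _ => hint j, integral_const, smul_eq_mul, mul_comm]
          congr 1
          exact Finset.sum_congr rfl fun j _ => hintv j
      _ ≤ (4 * T) ^ r + (4 * (l / 2 ^ n)) ^ r * V.real Set.univ := by
          refine add_le_add ?_ le_rfl
          rw [← Finset.mul_sum, mul_rpow (by norm_num) hT0]
          refine mul_le_mul_of_nonneg_left ?_ (by positivity)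
          exact (sum_rpow_le ha0 hr1).trans (rpow_le_rpow (Finset.sum_nonneg fun j _ => ha0 j)
            (hsum n) hr0.le)
  have hlim : Filter.Tendsto (fun n : ℕ => (4 * T) ^ r + (4 * (l / 2 ^ n)) ^ r * V.real Set.univ)
      Filter.atTop (nhds ((4 * T) ^ r + 0 * V.real Set.univ)) := by
    refine tendsto_const_nhds.add (Filter.Tendsto.mul_const _ ?_)
    have h1 : Filter.Tendsto (fun n : ℕ => 4 * (l / 2 ^ n)) Filter.atTop (nhds 0) := by
      have h2 : Filter.Tendsto (fun n : ℕ => (4 * l) * (1 / 2 : ℝ) ^ n) Filter.atTop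
          (nhds ((4 * l) * 0)) := (tendsto_pow_atTop_nhds_zero_of_lt_one (by norm_num)
            (by norm_num)).const_mul _
      rw [mul_zero] at h2
      refine h2.congr fun n => ?_
      rw [one_div, inv_pow]
      field_simp
    have h3 := h1.rpow_const (Or.inr hr0.le : (0 : ℝ) ≠ 0 ∨ 0 ≤ r)
    rwa [zero_rpow hr0.ne'] at h3
  have hfin : ∫ z, u z ^ r ∂V ≤ (4 * T) ^ r := by
    have := ge_of_tendsto' hlim hmain
    linarith only [this]
  calc (∫ z, u z ^ r ∂V) ^ s ≤ ((4 * T) ^ r) ^ s :=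
        rpow_le_rpow (integral_nonneg fun z => rpow_nonneg (hu z) _) hfin hs.le
    _ = 4 * T := by
        rw [← rpow_mul (by (clear * - hT0; positivity)), mul_comm r s, hsr, rpow_one]

/-- If `ψ` vanishes near `(-∞, 0]` then `ψ (t ^ q)` is a truncation. -/
theorem isTrunc_comp_rpow {ψ : ℝ → ℝ} (hψ : IsTrunc ψ) {q : ℝ} (hq : 0 < q) :
    IsTrunc (fun t => if 0 < t then ψ (t ^ q) else 0) := by
  obtain ⟨a, ha, h0⟩ := hψ.zero
  have hb : 0 < a ^ (1 / q) := rpow_pos_of_pos ha _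
  have hz : ∀ t ≤ a ^ (1 / q), (if 0 < t then ψ (t ^ q) else 0) = 0 := fun t ht => by
    split_ifs with h
    · refine h0 _ ?_
      calc t ^ q ≤ (a ^ (1 / q)) ^ q := rpow_le_rpow h.le ht hq.le
        _ = a := by rw [← rpow_mul ha.le, one_div, inv_mul_cancel₀ hq.ne', rpow_one]
    · rfl
  refine ⟨?_, fun t => ?_, a ^ (1 / q), hb, hz⟩
  · rw [contDiff_iff_contDiffAt]
    intro t
    rcases lt_or_ge 0 t with ht | ht
    · have h1 : (fun t => if 0 < t then ψ (t ^ q) else 0) =ᶠ[nhds t] fun t => ψ (t ^ q) := by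
        filter_upwards [Ioi_mem_nhds ht] with y hy
        exact if_pos hy
      refine ContDiffAt.congr_of_eventuallyEq ?_ h1
      exact hψ.smooth.contDiffAt.comp t (contDiffAt_id.rpow_const_of_ne ht.ne')
    · have h1 : (fun t => if 0 < t then ψ (t ^ q) else 0) =ᶠ[nhds t] fun _ => 0 := by
        filter_upwards [Iio_mem_nhds (lt_of_le_of_lt ht hb)] with y hy
        exact hz y (le_of_lt hy)
      exact contDiffAt_const.congr_of_eventuallyEq h1
  · split_ifs
    · exact hψ.nonneg _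
    · exact le_rfl

theorem WT.rpow {V : Measure Z} {s C : ℝ} {u g : Z → ℝ} (hu : ∀ z, 0 < u z)
    (h : WT V s C u g) {q : ℝ} (hq : 0 < q) :
    WT V s C (fun z => u z ^ q) (fun z => q * u z ^ (q - 1) * g z) := by
  intro ψ hψ t ht
  have h1 := h _ (isTrunc_comp_rpow hψ hq) t ht
  have e1 : ∀ z, (if 0 < u z then ψ (u z ^ q) else 0) = ψ (u z ^ q) := fun z => if_pos (hu z)
  have e2 : ∀ z, |deriv (fun t => if 0 < t then ψ (t ^ q) else 0) (u z)| * g z =
      |deriv ψ (u z ^ q)| * (q * u z ^ (q - 1) * g z) := fun z => by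
    have h2 : (fun t => if 0 < t then ψ (t ^ q) else 0) =ᶠ[nhds (u z)] fun t => ψ (t ^ q) := by
      filter_upwards [Ioi_mem_nhds (hu z)] with y hy
      exact if_pos hy
    rw [h2.deriv_eq]
    have h3 : HasDerivAt (fun t : ℝ => t ^ q) (q * u z ^ (q - 1)) (u z) :=
      Real.hasDerivAt_rpow_const (Or.inl (hu z).ne')
    have h4 : HasDerivAt ψ (deriv ψ (u z ^ q)) (u z ^ q) :=
      (hψ.smooth.differentiable (by simp)).differentiableAt.hasDerivAt
    have h5 : deriv (fun t => ψ (t ^ q)) (u z) = deriv ψ (u z ^ q) * (q * u z ^ (q - 1)) :=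
      (h4.comp (u z) h3).deriv
    rw [h5, abs_mul, abs_of_nonneg (mul_nonneg hq.le (rpow_nonneg (hu z).le _))]
    ring
  simp only [e1, e2] at h1
  exact h1

/-- Cauchy-Schwarz. -/
theorem integral_mul_le_sqrt {V : Measure Z} {f g : Z → ℝ} (hf : MemLp f 2 V) (hg : MemLp g 2 V)
    (hf0 : ∀ z, 0 ≤ f z) (hg0 : ∀ z, 0 ≤ g z) :
    ∫ z, f z * g z ∂V ≤ √(∫ z, f z ^ 2 ∂V) * √(∫ z, g z ^ 2 ∂V) := by
  have := integral_mul_le_Lp_mul_Lq_of_nonneg (μ := V) (p := 2) (q := 2)
    (Real.holderConjugate_iff.2 ⟨by norm_num, by norm_num⟩)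
    (Filter.Eventually.of_forall hf0) (Filter.Eventually.of_forall hg0)
    (by simpa using hf) (by simpa using hg)
  refine this.trans (le_of_eq ?_)
  rw [sqrt_eq_rpow, sqrt_eq_rpow]
  congr 2 <;> · refine integral_congr_ae (Filter.Eventually.of_forall fun z => ?_); simp

/-- The `L²` Sobolev inequality (exponent `2* = 2 m / (m - 2)`) from the weak type inequality with
exponent `s = (m - 1) / m`. -/
theorem sobolev_two {V : Measure Z} [IsFiniteMeasure V] {m C : ℝ} (hm : 2 < m)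
    (hC : 0 ≤ C) {u g : Z → ℝ} (hum : Measurable u) (hu : ∀ z, 0 < u z) {B : ℝ}
    (huB : ∀ z, u z ≤ B) (hg : ∀ z, 0 ≤ g z) (hg2 : MemLp g 2 V)
    (hWT : WT V ((m - 1) / m) C u g) {D : ℝ} (hD : ∀ x, |deriv Real.smoothTransition x| ≤ D) :
    (∫ z, u z ^ (2 * m / (m - 2)) ∂V) ^ ((m - 2) / m) ≤
      32 * C ^ 2 * ((D * (2 * (m - 1) / (m - 2))) ^ 2 * ∫ z, g z ^ 2 ∂V +
        4 * ∫ z, u z ^ 2 ∂V) := by
  have hD0 : 0 ≤ D := (abs_nonneg _).trans (hD 0)
  have hm1 : 0 < m - 1 := by linarith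
  have hm2 : 0 < m - 2 := by linarith
  have hm0 : 0 < m := by linarith
  set q : ℝ := 2 * (m - 1) / (m - 2) with hq
  have hq0 : 0 < q := by positivity
  have hq1 : 0 < q - 1 := by
    have : q - 1 = m / (m - 2) := by
      rw [hq]
      field_simp
      ring
    rw [this]
    positivity
  set s : ℝ := (m - 1) / m with hs
  have hs0 : 0 < s := by positivity
  have hs1 : s ≤ 1 := by rw [hs, div_le_one hm0]; linarith only []
  have e1 : q * (1 / s) = 2 * m / (m - 2) := by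
    rw [hq, hs]
    field_simp
  have e2 : (q - 1) * 2 = 2 * m / (m - 2) := by
    rw [hq]
    field_simp
    ring
  have hbdd : ∀ (f : Z → ℝ), Measurable f → (∀ z, 0 ≤ f z) → (∀ K : ℝ, (∀ z, f z ≤ K) →
      MemLp f 2 V) := fun f hf h0 K hK => MemLp.of_bound hf.aestronglyMeasurable K
    (Filter.Eventually.of_forall fun z => by rw [norm_of_nonneg (h0 z)]; exact hK z)
  have hu2 : MemLp u 2 V := hbdd u hum (fun z => (hu z).le) B huB
  have huq : MemLp (fun z => u z ^ (q - 1)) 2 V := hbdd _ (hum.pow_const _)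
    (fun z => rpow_nonneg (hu z).le _) (B ^ (q - 1))
    fun z => rpow_le_rpow (hu z).le (huB z) hq1.le
  have hgi : Integrable (fun z => q * u z ^ (q - 1) * g z) V := by
    have : Integrable (fun z => u z ^ (q - 1) * g z) V := huq.integrable_mul hg2
    refine (this.const_mul q).congr (Filter.Eventually.of_forall fun z => ?_)
    change q * (u z ^ (q - 1) * g z) = _
    ring
  have huqi : Integrable (fun z => u z ^ q) V := Integrable.of_bound
    (hum.pow_const _).aestronglyMeasurable (B ^ q) (Filter.Eventually.of_forall fun z => by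
      rw [norm_of_nonneg (rpow_nonneg (hu z).le _)]
      exact rpow_le_rpow (hu z).le (huB z) hq0.le)
  have hmain := strong_of_weak (V := V) hs0 hs1 hC (hum.pow_const q)
    (fun z => rpow_nonneg (hu z).le q) (fun z => rpow_le_rpow (hu z).le (huB z) hq0.le)
    (fun z => mul_nonneg (mul_nonneg hq0.le (rpow_nonneg (hu z).le _)) (hg z)) hgi
    (WT.rpow hu hWT hq0) hD
  set X : ℝ := ∫ z, u z ^ (2 * m / (m - 2)) ∂V with hX
  set G : ℝ := ∫ z, g z ^ 2 ∂V with hG
  set R : ℝ := ∫ z, u z ^ 2 ∂V with hR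
  have hX0 : 0 ≤ X := integral_nonneg fun z => rpow_nonneg (hu z).le _
  have hG0 : 0 ≤ G := integral_nonneg fun z => sq_nonneg _
  have hR0 : 0 ≤ R := integral_nonneg fun z => sq_nonneg _
  have h1 : ∫ z, (u z ^ q) ^ (1 / s) ∂V = X := by
    rw [hX]
    refine integral_congr_ae (Filter.Eventually.of_forall fun z => ?_)
    change (u z ^ q) ^ (1 / s) = _
    rw [← rpow_mul (hu z).le, e1]
  have hsq : ∫ z, (u z ^ (q - 1)) ^ 2 ∂V = X := by
    rw [hX]
    refine integral_congr_ae (Filter.Eventually.of_forall fun z => ?_)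
    change (u z ^ (q - 1)) ^ 2 = _
    rw [← rpow_natCast, ← rpow_mul (hu z).le]
    congr 1
  have h2 : ∫ z, u z ^ (q - 1) * g z ∂V ≤ √X * √G := by
    have := integral_mul_le_sqrt huq hg2 (fun z => rpow_nonneg (hu z).le _) hg
    rwa [hsq] at this
  have h3 : ∫ z, u z ^ q ∂V ≤ √X * √R := by
    have := integral_mul_le_sqrt huq hu2 (fun z => rpow_nonneg (hu z).le _) fun z => (hu z).le
    rw [hsq] at this
    refine le_trans (le_of_eq (integral_congr_ae (Filter.Eventually.of_forall fun z => ?_))) this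
    change u z ^ q = u z ^ (q - 1) * u z
    rw [← rpow_add_one (hu z).ne']
    congr 1
    ring
  have h4 : ∫ z, (D * (q * u z ^ (q - 1) * g z) + 2 * u z ^ q) ∂V ≤
      √X * (D * q * √G + 2 * √R) := by
    rw [integral_add (hgi.const_mul D) (huqi.const_mul 2), integral_const_mul, integral_const_mul]
    have h5 : ∫ z, q * u z ^ (q - 1) * g z ∂V = q * ∫ z, u z ^ (q - 1) * g z ∂V := by
      rw [← integral_const_mul]
      refine integral_congr_ae (Filter.Eventually.of_forall fun z => ?_)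
      change q * u z ^ (q - 1) * g z = q * (u z ^ (q - 1) * g z)
      ring
    rw [h5]
    have h6 := mul_le_mul_of_nonneg_left h2 (mul_nonneg hD0 hq0.le)
    have h7 := mul_le_mul_of_nonneg_left h3 (show (0 : ℝ) ≤ 2 by norm_num)
    linarith only [h7, h6]
  rw [h1] at hmain
  have hY0 : 0 ≤ D * q * √G + 2 * √R := by (clear * - hD0 hm1 hm; positivity)
  have h5 : X ^ s ≤ √X * (4 * C * (D * q * √G + 2 * √R)) :=
    calc X ^ s ≤ 4 * (C * ∫ z, (D * (q * u z ^ (q - 1) * g z) + 2 * u z ^ q) ∂V) := hmain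
      _ ≤ 4 * (C * (√X * (D * q * √G + 2 * √R))) := by gcongr
      _ = _ := by ring
  rcases hX0.eq_or_lt with h0 | hpos
  · rw [← h0, zero_rpow (by positivity)]
    (clear * -; positivity)
  · have hsX : 0 < √X := sqrt_pos.2 hpos
    have h6 : X ^ (s - 1 / 2) ≤ 4 * C * (D * q * √G + 2 * √R) := by
      rw [rpow_sub hpos, ← sqrt_eq_rpow, div_le_iff₀ hsX]
      linarith only [h5]
    have h7 : X ^ ((m - 2) / m) = (X ^ (s - 1 / 2)) ^ 2 := by
      rw [← rpow_natCast, ← rpow_mul hX0]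
      congr 1
      rw [hs]
      push_cast
      field_simp
      ring
    rw [h7]
    calc (X ^ (s - 1 / 2)) ^ 2 ≤ (4 * C * (D * q * √G + 2 * √R)) ^ 2 :=
          pow_le_pow_left₀ (rpow_nonneg hX0 _) h6 2
      _ = 16 * C ^ 2 * (D * q * √G + 2 * √R) ^ 2 := by ring
      _ ≤ 16 * C ^ 2 * (2 * ((D * q * √G) ^ 2 + (2 * √R) ^ 2)) := by
          refine mul_le_mul_of_nonneg_left ?_ (by (clear * -; positivity))
          linarith only [sq_nonneg (D * q * √G - 2 * √R)]
      _ = _ := by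
          rw [mul_pow (D * q), sq_sqrt hG0, mul_pow 2, sq_sqrt hR0]
          ring

end Vale.Agent.P219.End.WS
end

section

/-!
# P219 / End : averages of the truncated kernel over balls (B3f)
-/

open MeasureTheory Set Metric
open scoped ENNReal ContDiff Topology

namespace Vale.Agent.P219.End.Lim

variable {n : ℕ} (L : Lim n)

/-- a bound for `F` on `K × K` -/
theorem kav_bound : ∃ M : ℝ, 0 ≤ M ∧ ∀ c ∈ L.K, ∀ x ∈ L.K, L.F c x ≤ M := by
  obtain ⟨C, hC⟩ := (L.K_compact.prod L.K_compact).exists_bound_of_continuousOn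
    (f := fun z : E n × E n => L.F z.1 z.2) L.F_smooth.continuous.continuousOn
  refine ⟨max C 0, le_max_right _ _, fun c hc x hx => ?_⟩
  exact ((le_abs_self _).trans (hC (c, x) ⟨hc, hx⟩)).trans (le_max_left _ _)

/-- quasi-metric -/
theorem kav_tri : ∃ C : ℝ, 1 ≤ C ∧ ∀ c ∈ L.K, ∀ x ∈ L.K, ∀ y ∈ L.K,
    L.ds c x ≤ C * (L.ds c y + L.ds y x) := by
  obtain ⟨M, hM0, hM⟩ := L.kav_bound
  have hk := L.k2_nonneg
  refine ⟨√(1 + L.k2 * M / 2), ?_, ?_⟩
  · rw [Real.one_le_sqrt]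
    have := mul_nonneg hk hM0
    linarith only [this]
  intro c hc x _ y hy
  rename_i hx
  have h := L.tri c y x
  have e : ∀ a b, L.ds a b = √2 * √(L.F a b) := fun a b => by
    rw [ds, Real.sqrt_mul (by norm_num)]
  have h1 : √(1 + L.k2 * L.F c y / 2) ≤ √(1 + L.k2 * M / 2) := by
    apply Real.sqrt_le_sqrt
    have := mul_le_mul_of_nonneg_left (hM c hc y hy) hk
    linarith
  have h2 : √(1 + L.k2 * L.F y x / 2) ≤ √(1 + L.k2 * M / 2) := by
    apply Real.sqrt_le_sqrt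
    have := mul_le_mul_of_nonneg_left (hM y hy x hx) hk
    linarith only [this]
  rw [e, e, e]
  have a1 := mul_le_mul_of_nonneg_left h1 (Real.sqrt_nonneg (L.F y x))
  have a2 := mul_le_mul_of_nonneg_right h2 (Real.sqrt_nonneg (L.F c y))
  have a3 := mul_le_mul_of_nonneg_left (h.trans (add_le_add a1 a2)) (Real.sqrt_nonneg 2)
  calc √2 * √(L.F c x) ≤ _ := a3
    _ = _ := by ring

theorem kav_ds_comm (a b : E n) : L.ds a b = L.ds b a := by
  rw [ds, ds, L.F_comm]

theorem kav_ds_nonneg (a b : E n) : 0 ≤ L.ds a b := Real.sqrt_nonneg _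

theorem kav_ds_cont (x : E n) : Continuous fun z : E n × E n => L.ds z.1 x := by
  have h : Continuous fun z : E n × E n => L.F z.1 x :=
    L.F_smooth.continuous.comp (continuous_fst.prodMk continuous_const)
  exact (h.const_mul 2).sqrt

theorem kav_ds_cont' (x : E n) : Continuous fun z : E n × E n => L.ds x z.1 := by
  have h : Continuous fun z : E n × E n => L.F x z.1 :=
    L.F_smooth.continuous.comp (continuous_const.prodMk continuous_fst)
  exact (h.const_mul 2).sqrt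

/-- lower bound of the bubble -/
theorem kav_ws {s : ℝ} (hs : L.Ad s) (c x : E n) : s / (s ^ 2 + L.ds c x ^ 2) ≤ L.ws c s x := by
  obtain ⟨h0, h1, h2⟩ := hs
  have hF := L.F_nonneg c x
  have hd : L.ds c x ^ 2 = 2 * L.F c x := by rw [ds, Real.sq_sqrt (by linarith only [hF])]
  have hw : L.ws c s x = √(s ^ 2 / 2 * (2 - L.k2 * (s ^ 2 / 2))) / (L.F c x + s ^ 2 / 2) := rfl
  have hsq : s / 2 ≤ √(s ^ 2 / 2 * (2 - L.k2 * (s ^ 2 / 2))) := by
    apply Real.le_sqrt_of_sq_le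
    have h3 : 0 ≤ s ^ 2 * (1 - L.k2 * s ^ 2) := mul_nonneg (sq_nonneg s) (by linarith only [h2])
    have h4 : s ^ 2 / 2 * (2 - L.k2 * (s ^ 2 / 2)) - (s / 2) ^ 2 =
      s ^ 2 * (1 - L.k2 * s ^ 2) / 4 + s ^ 2 / 2 := by ring
    have h5 : 0 ≤ s ^ 2 := sq_nonneg s
    linarith only [h5, h3]
  rw [hw, hd, div_le_div_iff₀ (by (clear * - h0 hF; positivity)) (by positivity)]
  have h6 := mul_le_mul_of_nonneg_right hsq (show 0 ≤ s ^ 2 + 2 * L.F c x by positivity)
  linarith only [h6]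

/-- `s^m q^(m-j)` if `q ≥ 1 / (s A)` -/
theorem kav_low {m j s A q : ℝ} (hs : 0 < s) (hA : 0 < A) (hj : j ≤ m)
    (hq : 1 / (s * A) ≤ q) : s ^ j * A ^ (-(m - j)) ≤ s ^ m * q ^ (m - j) := by
  have h0 : 0 < s * A := mul_pos hs hA
  have h1 : (1 / (s * A)) ^ (m - j) ≤ q ^ (m - j) :=
    Real.rpow_le_rpow (by positivity) hq (by linarith only [hj])
  have h2 : (1 / (s * A)) ^ (m - j) = s ^ (-(m - j)) * A ^ (-(m - j)) := by
    rw [one_div, Real.inv_rpow h0.le, ← Real.rpow_neg h0.le, Real.mul_rpow hs.le hA.le]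
  have h3 : s ^ m * s ^ (-(m - j)) = s ^ j := by
    rw [← Real.rpow_add hs]
    congr 1
    ring
  calc s ^ j * A ^ (-(m - j)) = s ^ m * (1 / (s * A)) ^ (m - j) := by rw [h2, ← mul_assoc, h3]
    _ ≤ _ := mul_le_mul_of_nonneg_left h1 (Real.rpow_nonneg hs.le _)

/-- the kernel is at most `d^(1-m)` -/
theorem kav_kS_le {S d : ℝ} (hS : 0 < S) (hd : 0 ≤ d) : L.kS S d ≤ d ^ (1 - L.m) := by
  have h1 : (S / (S + d)) ^ L.m ≤ 1 := by
    apply Real.rpow_le_one (by positivity)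
    · rw [div_le_one (by positivity)]
      linarith
    · linarith [L.three_le]
  calc (S / (S + d)) ^ L.m * d ^ (1 - L.m) ≤ 1 * d ^ (1 - L.m) :=
        mul_le_mul_of_nonneg_right h1 (Real.rpow_nonneg hd _)
    _ = _ := one_mul _

theorem kav_kS_nonneg {S d : ℝ} (hS : 0 < S) (hd : 0 ≤ d) : 0 ≤ L.kS S d :=
  mul_nonneg (Real.rpow_nonneg (by positivity) _) (Real.rpow_nonneg hd _)

/-- bound of the kernel away from zero -/
theorem kav_far {S d d₀ j : ℝ} (hS : 0 < S) (h0 : 0 < d₀) (hd : d₀ ≤ d) (hj : j ≤ L.m) :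
    d ^ (j - 1) * L.kS S d ≤ (S / d₀) ^ L.m * d₀ ^ (j - L.m) := by
  have hdp : 0 < d := lt_of_lt_of_le h0 hd
  have h1 : (S / (S + d)) ^ L.m ≤ (S / d₀) ^ L.m := by
    apply Real.rpow_le_rpow (by positivity) _ (by linarith only [L.three_le])
    exact div_le_div_of_nonneg_left hS.le h0 (by linarith)
  have h2 : d ^ (j - L.m) ≤ d₀ ^ (j - L.m) :=
    Real.rpow_le_rpow_of_nonpos h0 hd (by linarith)
  calc d ^ (j - 1) * L.kS S d = (S / (S + d)) ^ L.m * (d ^ (j - 1) * d ^ (1 - L.m)) := by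
        rw [kS]; ring
    _ = (S / (S + d)) ^ L.m * d ^ (j - L.m) := by
        rw [← Real.rpow_add hdp]
        congr 2
        ring
    _ ≤ _ := mul_le_mul h1 h2 (Real.rpow_nonneg hdp.le _) (Real.rpow_nonneg (by positivity) _)

theorem kav_of_lintegral {E' : Set (E n × E n)} {f : E n × E n → ℝ} (hf : Measurable f)
    (h0 : ∀ z, 0 ≤ f z) {B : ℝ} (hB : 0 ≤ B)
    (h : ∫⁻ z in E', ENNReal.ofReal (f z) ∂L.V ≤ ENNReal.ofReal B) : ∫ z in E', f z ∂L.V ≤ B := by
  rw [integral_eq_lintegral_of_nonneg_ae (Filter.Eventually.of_forall h0) hf.aestronglyMeasurable]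
  exact ENNReal.toReal_le_of_le_ofReal hB h

theorem kav_main {Cu : ℝ} (hCu : 0 < Cu)
    (hud : ∀ c ∈ L.K, ∀ s : ℝ, 0 < s → L.V.real {z | L.ds c z.1 ≤ s} ≤ Cu * s ^ L.m)
    {N Λ : ℝ} (hN : 1 ≤ N) (hΛ : 1 ≤ Λ) {j : ℝ} (hj1 : 1 ≤ j) (hj2 : j ≤ 2) :
    ∃ C > 0, ∀ c ∈ L.K, ∀ s : ℝ, 0 < s → L.Ad (Λ * s) → ∀ x ∈ L.K,
      ∫ z in {z | L.ds c z.1 ≤ N * s}, L.ds z.1 x ^ (j - 1) * L.kS (Λ * s) (L.ds z.1 x) ∂L.V
        ≤ C * (s ^ L.m * L.ws c s x ^ (L.m - j)) := by
  obtain ⟨Ct, hCt, htri⟩ := L.kav_tri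
  have hm := L.three_le
  have hmp : 0 < L.m := by linarith
  have hVf := L.V_fin
  set m := L.m with hmdef
  set A₁ : ℝ := 1 + 4 * Ct ^ 2 * N ^ 2 with hA₁
  set C₁ : ℝ := (3 * Ct ^ 2 * N) ^ (j - 1) * ((2 ^ m * Cu + 1) * (Cu ^ (1 / m) * N)) with hC₁
  set C₂ : ℝ := (2 * Λ * Ct) ^ m * (2 * Ct) ^ (m - j) * (Cu * N ^ m) with hC₂
  have hC₁p : 0 < C₁ := by positivity
  have hC₂p : 0 < C₂ := by positivity
  refine ⟨C₁ * A₁ ^ (m - j) + C₂ * 2 ^ (m - j), by positivity, fun c hc s hs hAd x hx => ?_⟩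
  have hAds : L.Ad s := by
    obtain ⟨h0, h1, h2⟩ := hAd
    have h3 : s ≤ Λ * s := le_mul_of_one_le_left hs.le hΛ
    refine ⟨hs, h3.trans h1, le_trans ?_ h2⟩
    exact mul_le_mul_of_nonneg_left (pow_le_pow_left₀ hs.le h3 2) L.k2_nonneg
  have hS : 0 < Λ * s := hAd.1
  set E' : Set (E n × E n) := {z | L.ds c z.1 ≤ N * s} with hE'
  have hE'm : MeasurableSet E' := measurableSet_le (L.kav_ds_cont' c).measurable measurable_const
  set D := L.ds c x with hD
  have hD0 : 0 ≤ D := L.kav_ds_nonneg c x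
  have hws := L.kav_ws hAds c x
  have hVE : L.V E' ≤ ENNReal.ofReal (Cu * (N * s) ^ m) := by
    rw [← ENNReal.ofReal_toReal (measure_ne_top L.V E')]
    exact ENNReal.ofReal_le_ofReal (hud c hc (N * s) (by positivity))
  have hfm : Measurable fun z : E n × E n =>
      L.ds z.1 x ^ (j - 1) * L.kS (Λ * s) (L.ds z.1 x) := by
    have h1 := (L.kav_ds_cont x).measurable
    unfold kS
    exact (h1.pow_const _).mul (((measurable_const.div (measurable_const.add h1)).pow_const _).mul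
      (h1.pow_const _))
  have hf0 : ∀ z : E n × E n, 0 ≤ L.ds z.1 x ^ (j - 1) * L.kS (Λ * s) (L.ds z.1 x) := fun z =>
    mul_nonneg (Real.rpow_nonneg (L.kav_ds_nonneg _ _) _)
      (L.kav_kS_nonneg hS (L.kav_ds_nonneg _ _))
  rcases le_or_gt D (2 * Ct * N * s) with hnear | hfar
  · -- near case
    have hq : 1 / (s * A₁) ≤ L.ws c s x := by
      refine le_trans ?_ hws
      rw [div_le_div_iff₀ (by positivity) (by (clear * - hs; positivity))]
      have h1 : D ^ 2 ≤ (2 * Ct * N * s) ^ 2 := pow_le_pow_left₀ hD0 hnear 2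
      have h2 : s * (s * A₁) = s ^ 2 + (2 * Ct * N * s) ^ 2 := by rw [hA₁]; ring
      rw [h2]
      linarith only [h1]
    have hlow := kav_low (m := m) (j := j) hs (by positivity : 0 < A₁) (by linarith only [hm, hj2]) hq
    have hI : ∫ z in E', L.ds z.1 x ^ (j - 1) * L.kS (Λ * s) (L.ds z.1 x) ∂L.V ≤ C₁ * s ^ j := by
      apply L.kav_of_lintegral hfm hf0 (by positivity)
      have hgr : ∀ ρ > 0, L.V {z : E n × E n | L.ds z.1 x < ρ} ≤ ENNReal.ofReal (Cu * ρ ^ m) := by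
        intro ρ hρ
        have h1 : {z : E n × E n | L.ds z.1 x < ρ} ⊆ {z | L.ds x z.1 ≤ ρ} := by
          intro z hz
          have hz' : L.ds z.1 x < ρ := hz
          show L.ds x z.1 ≤ ρ
          rw [L.kav_ds_comm]
          exact hz'.le
        refine (measure_mono h1).trans ?_
        rw [← ENNReal.ofReal_toReal (measure_ne_top L.V {z | L.ds x z.1 ≤ ρ})]
        exact ENNReal.ofReal_le_ofReal (hud x hx ρ hρ)
      have hG := WS.lintegral_rpow_le_of_growth (V := L.V) (m := m) (Λ := Cu) (by linarith only [hm]) hCu.le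
        (L.kav_ds_cont x).measurable (fun z => L.kav_ds_nonneg _ _) hgr
        (E := E') (measure_ne_top _ _)
      have hVE2 : L.V E' ^ (1 / m) ≤ ENNReal.ofReal (Cu ^ (1 / m) * (N * s)) := by
        refine (ENNReal.rpow_le_rpow hVE (by positivity)).trans ?_
        rw [ENNReal.ofReal_rpow_of_pos (by positivity)]
        apply ENNReal.ofReal_le_ofReal
        rw [Real.mul_rpow hCu.le (by positivity), ← Real.rpow_mul (by positivity),
          mul_one_div_cancel hmp.ne', Real.rpow_one]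
      have hZ0 : 0 < 3 * Ct ^ 2 * N * s := by positivity
      calc ∫⁻ z in E', ENNReal.ofReal (L.ds z.1 x ^ (j - 1) * L.kS (Λ * s) (L.ds z.1 x)) ∂L.V
          ≤ ∫⁻ z in E', ENNReal.ofReal ((3 * Ct ^ 2 * N * s) ^ (j - 1)) *
              ENNReal.ofReal (L.ds z.1 x ^ (1 - m)) ∂L.V := by
            apply lintegral_mono_ae
            rw [ae_restrict_iff' hE'm]
            filter_upwards [L.V_supp] with z hz hzE
            rw [← ENNReal.ofReal_mul (Real.rpow_nonneg hZ0.le _)]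
            apply ENNReal.ofReal_le_ofReal
            have hdz := L.kav_ds_nonneg z.1 x
            have h1 : L.ds z.1 x ≤ 3 * Ct ^ 2 * N * s := by
              have h2 := htri z.1 hz.1 x hx c hc
              have h3 : L.ds z.1 c ≤ N * s := by rw [L.kav_ds_comm]; exact hzE
              have h4 : L.ds z.1 x ≤ Ct * (N * s + 2 * Ct * N * s) :=
                h2.trans (mul_le_mul_of_nonneg_left (add_le_add h3 hnear) (by linarith only [hCt]))
              have h5 : N * s ≤ Ct * (N * s) := le_mul_of_one_le_left (by positivity) hCt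
              have h6 : Ct * (N * s + 2 * Ct * N * s) ≤ Ct * (Ct * (N * s) + 2 * Ct * N * s) :=
                mul_le_mul_of_nonneg_left (by linarith only [h5]) (by linarith only [hCt])
              calc L.ds z.1 x ≤ _ := h4
                _ ≤ _ := h6
                _ = _ := by ring
            exact mul_le_mul (Real.rpow_le_rpow hdz h1 (by linarith only [hj1])) (L.kav_kS_le hS hdz)
              (L.kav_kS_nonneg hS hdz) (Real.rpow_nonneg hZ0.le _)
        _ = ENNReal.ofReal ((3 * Ct ^ 2 * N * s) ^ (j - 1)) *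
              ∫⁻ z in E', ENNReal.ofReal (L.ds z.1 x ^ (1 - m)) ∂L.V := by
            rw [lintegral_const_mul' _ _ ENNReal.ofReal_ne_top]
        _ ≤ ENNReal.ofReal ((3 * Ct ^ 2 * N * s) ^ (j - 1)) *
              (ENNReal.ofReal (2 ^ m * Cu + 1) * ENNReal.ofReal (Cu ^ (1 / m) * (N * s))) :=
            mul_le_mul' le_rfl (hG.trans (mul_le_mul' le_rfl hVE2))
        _ = ENNReal.ofReal (C₁ * s ^ j) := by
            rw [← ENNReal.ofReal_mul (by (clear * - hCu; positivity)), ← ENNReal.ofReal_mul (by positivity)]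
            congr 1
            rw [Real.mul_rpow (by positivity) hs.le, hC₁]
            have h7 : s ^ j = s ^ (j - 1) * s := by
              rw [← Real.rpow_add_one hs.ne', sub_add_cancel]
            rw [h7]
            ring
    have h8 : C₁ * s ^ j = C₁ * A₁ ^ (m - j) * (s ^ j * A₁ ^ (-(m - j))) := by
      have h9 : A₁ ^ (m - j) * A₁ ^ (-(m - j)) = 1 := by
        rw [← Real.rpow_add (by positivity), add_neg_cancel, Real.rpow_zero]
      calc C₁ * s ^ j = C₁ * s ^ j * (A₁ ^ (m - j) * A₁ ^ (-(m - j))) := by rw [h9, mul_one]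
        _ = _ := by ring
    calc _ ≤ C₁ * s ^ j := hI
      _ = C₁ * A₁ ^ (m - j) * (s ^ j * A₁ ^ (-(m - j))) := h8
      _ ≤ C₁ * A₁ ^ (m - j) * (s ^ m * L.ws c s x ^ (m - j)) :=
          mul_le_mul_of_nonneg_left hlow (by positivity)
      _ ≤ _ := by
          apply mul_le_mul_of_nonneg_right
          · have : 0 ≤ C₂ * 2 ^ (m - j) := by positivity
            linarith only [this]
          · have hwp : 0 ≤ L.ws c s x := le_trans (by positivity) hq
            (clear * - hs hwp; positivity)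
  · -- far case
    have hρ : ∃ ρ : ℝ, D = s * ρ ∧ 2 * Ct * N < ρ := by
      refine ⟨D / s, by field_simp, ?_⟩
      rw [lt_div_iff₀ hs]
      exact hfar
    obtain ⟨ρ, hDρ, hρ1⟩ := hρ
    have hCtN : 1 ≤ Ct * N := one_le_mul_of_one_le_of_one_le hCt hN
    have hρ2 : 1 ≤ ρ := by linarith only [hCtN, hρ1]
    have hρ0 : 0 < ρ := by linarith only [hCtN, hρ1]
    have hq : 1 / (s * (2 * ρ ^ 2)) ≤ L.ws c s x := by
      refine le_trans ?_ hws
      rw [← hD, hDρ, div_le_div_iff₀ (by (clear * - hs hρ2; positivity)) (by (clear * - hs hρ2; positivity))]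
      have h1 : (1 : ℝ) ≤ ρ ^ 2 := one_le_pow₀ hρ2
      have h2 : s ^ 2 ≤ s ^ 2 * ρ ^ 2 := le_mul_of_one_le_right (sq_nonneg s) h1
      have h3 : s * (s * (2 * ρ ^ 2)) = s ^ 2 * ρ ^ 2 + s ^ 2 * ρ ^ 2 := by ring
      rw [h3]
      linarith only [h2]
    have hlow := kav_low (m := m) (j := j) hs (by (clear * - hρ2; positivity) : 0 < 2 * ρ ^ 2) (by linarith only [hm, hj2]) hq
    set d₀ : ℝ := s * ρ / (2 * Ct) with hd₀
    have hd₀p : 0 < d₀ := by (clear * - hs hρ2 hCt; positivity)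
    have hI : ∫ z in E', L.ds z.1 x ^ (j - 1) * L.kS (Λ * s) (L.ds z.1 x) ∂L.V ≤
        (Λ * s / d₀) ^ m * d₀ ^ (j - m) * (Cu * (N * s) ^ m) := by
      apply L.kav_of_lintegral hfm hf0 (by (clear * - hΛ hs hρ2 hCt hCu hN; positivity))
      calc ∫⁻ z in E', ENNReal.ofReal (L.ds z.1 x ^ (j - 1) * L.kS (Λ * s) (L.ds z.1 x)) ∂L.V
          ≤ ∫⁻ _z in E', ENNReal.ofReal ((Λ * s / d₀) ^ m * d₀ ^ (j - m)) ∂L.V := by
            apply lintegral_mono_ae
            rw [ae_restrict_iff' hE'm]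
            filter_upwards [L.V_supp] with z hz hzE
            apply ENNReal.ofReal_le_ofReal
            apply L.kav_far hS hd₀p _ (by linarith only [hm, hj2])
            have h2 := htri c hc x hx z.1 hz.1
            have h3 : L.ds c z.1 ≤ N * s := hzE
            have h4 : s * ρ ≤ Ct * (N * s + L.ds z.1 x) := by
              rw [← hDρ]
              exact h2.trans (mul_le_mul_of_nonneg_left (by linarith only [h3]) (by linarith only [hCt]))
            have h5 : 2 * Ct * N * s ≤ ρ * s := mul_le_mul_of_nonneg_right hρ1.le hs.le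
            rw [hd₀, div_le_iff₀ (by positivity)]
            linarith only [h5, h4]
        _ = ENNReal.ofReal ((Λ * s / d₀) ^ m * d₀ ^ (j - m)) * L.V E' := by
            rw [lintegral_const, Measure.restrict_apply_univ]
        _ ≤ ENNReal.ofReal ((Λ * s / d₀) ^ m * d₀ ^ (j - m)) *
              ENNReal.ofReal (Cu * (N * s) ^ m) := mul_le_mul' le_rfl hVE
        _ = _ := by rw [← ENNReal.ofReal_mul (by (clear * - hΛ hs hρ2 hCt; positivity))]
    have hval : (Λ * s / d₀) ^ m * d₀ ^ (j - m) * (Cu * (N * s) ^ m) =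
        C₂ * (s ^ j * ρ ^ (j - 2 * m)) := by
      have e1 : Λ * s / d₀ = 2 * Λ * Ct / ρ := by
        rw [hd₀]
        field_simp
      have e2 : (2 * Λ * Ct / ρ) ^ m = (2 * Λ * Ct) ^ m * ρ ^ (-m) := by
        rw [Real.div_rpow (by positivity) hρ0.le, Real.rpow_neg hρ0.le, div_eq_mul_inv]
      have e3 : d₀ ^ (j - m) = s ^ (j - m) * ρ ^ (j - m) * (2 * Ct) ^ (m - j) := by
        rw [hd₀, Real.div_rpow (by positivity) (by positivity), Real.mul_rpow hs.le hρ0.le,
          div_eq_mul_inv, ← Real.rpow_neg (by positivity), neg_sub]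
      have e4 : (N * s) ^ m = N ^ m * s ^ m := Real.mul_rpow (by positivity) hs.le
      have e5 : s ^ j = s ^ (j - m) * s ^ m := by
        rw [← Real.rpow_add hs, sub_add_cancel]
      have e6 : ρ ^ (j - 2 * m) = ρ ^ (-m) * ρ ^ (j - m) := by
        rw [← Real.rpow_add hρ0]
        congr 1
        ring
      rw [e1, e2, e3, e4, e5, e6, hC₂]
      ring
    have hcmp : s ^ j * ρ ^ (j - 2 * m) ≤ 2 ^ (m - j) * (s ^ j * (2 * ρ ^ 2) ^ (-(m - j))) := by
      have e1 : (2 * ρ ^ 2 : ℝ) ^ (-(m - j)) = 2 ^ (-(m - j)) * ρ ^ (2 * (j - m)) := by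
        rw [Real.mul_rpow (by norm_num) (by positivity), ← Real.rpow_natCast ρ 2,
          ← Real.rpow_mul hρ0.le]
        congr 2
        push_cast
        ring
      have e2 : (2 : ℝ) ^ (m - j) * 2 ^ (-(m - j)) = 1 := by
        rw [← Real.rpow_add (by norm_num), add_neg_cancel, Real.rpow_zero]
      have e3 : ρ ^ (j - 2 * m) ≤ ρ ^ (2 * (j - m)) :=
        Real.rpow_le_rpow_of_exponent_le hρ2 (by linarith only [hj1])
      rw [e1]
      calc s ^ j * ρ ^ (j - 2 * m) ≤ s ^ j * ρ ^ (2 * (j - m)) :=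
            mul_le_mul_of_nonneg_left e3 (Real.rpow_nonneg hs.le _)
        _ = ((2 : ℝ) ^ (m - j) * 2 ^ (-(m - j))) * (s ^ j * ρ ^ (2 * (j - m))) := by
            rw [e2, one_mul]
        _ = _ := by ring
    calc _ ≤ _ := hI
      _ = C₂ * (s ^ j * ρ ^ (j - 2 * m)) := hval
      _ ≤ C₂ * (2 ^ (m - j) * (s ^ j * (2 * ρ ^ 2) ^ (-(m - j)))) :=
          mul_le_mul_of_nonneg_left hcmp hC₂p.le
      _ ≤ C₂ * (2 ^ (m - j) * (s ^ m * L.ws c s x ^ (m - j))) := by
          apply mul_le_mul_of_nonneg_left _ hC₂p.le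
          exact mul_le_mul_of_nonneg_left hlow (by positivity)
      _ = C₂ * 2 ^ (m - j) * (s ^ m * L.ws c s x ^ (m - j)) := by ring
      _ ≤ _ := by
          apply mul_le_mul_of_nonneg_right
          · have : 0 ≤ C₁ * A₁ ^ (m - j) := by positivity
            linarith only [this]
          · have hwp : 0 ≤ L.ws c s x := le_trans (by positivity) hq
            (clear * - hs hwp; positivity)

/-- B3f average of the kernel -/
theorem kS_avg
    (hud : ∃ C > 0, (∀ c ∈ L.K, ∀ s : ℝ, 0 < s →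
      L.V.real {z | L.ds c z.1 ≤ s} ≤ C * s ^ L.m) ∧
      ∀ c ∈ L.K, ∀ s : ℝ, L.Ad s → ∫ z, L.ws c s z.1 ^ L.m ∂L.V ≤ C)
    (N Λ : ℝ) (hN : 1 ≤ N) (hΛ : 1 ≤ Λ) : ∃ C > 0, ∀ c ∈ L.K, ∀ s : ℝ, 0 < s →
    L.Ad (Λ * s) → ∀ x ∈ L.K,
    (∫ z in {z | L.ds c z.1 ≤ N * s}, L.kS (Λ * s) (L.ds z.1 x) ∂L.V
      ≤ C * s ^ L.m * L.ws c s x ^ (L.m - 1)) ∧
    ∫ z in {z | L.ds c z.1 ≤ N * s}, L.ds z.1 x * L.kS (Λ * s) (L.ds z.1 x) ∂L.V
      ≤ C * s ^ L.m * L.ws c s x ^ (L.m - 2) := by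
  obtain ⟨Cu, hCu, hud, -⟩ := hud
  obtain ⟨C₁, hC₁, h1⟩ := L.kav_main hCu hud hN hΛ (j := 1) le_rfl (by norm_num)
  obtain ⟨C₂, hC₂, h2⟩ := L.kav_main hCu hud hN hΛ (j := 2) (by norm_num) le_rfl
  refine ⟨max C₁ C₂, lt_max_of_lt_left hC₁, fun c hc s hs hAd x hx => ?_⟩
  have hAds : L.Ad s := by
    obtain ⟨h0, h1, h2⟩ := hAd
    have h3 : s ≤ Λ * s := le_mul_of_one_le_left hs.le hΛ
    refine ⟨hs, h3.trans h1, le_trans ?_ h2⟩
    exact mul_le_mul_of_nonneg_left (pow_le_pow_left₀ hs.le h3 2) L.k2_nonneg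
  have hw : 0 ≤ L.ws c s x := le_trans (by (clear * - hs; positivity)) (L.kav_ws hAds c x)
  constructor
  · have h := h1 c hc s hs hAd x hx
    simp only [sub_self, Real.rpow_zero, one_mul] at h
    refine h.trans ?_
    rw [mul_assoc]
    exact mul_le_mul_of_nonneg_right (le_max_left _ _) (by (clear * - hs hw; positivity))
  · have h := h2 c hc s hs hAd x hx
    simp only [show (2 : ℝ) - 1 = 1 by norm_num, Real.rpow_one] at h
    refine h.trans ?_
    rw [mul_assoc]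
    exact mul_le_mul_of_nonneg_right (le_max_right _ _) (by (clear * - hs hw; positivity))

end Vale.Agent.P219.End.Lim
end

section

/-!
# P219 / End : algebra of the bubble `ws`

`gk s = √(1 - k2 s² / 4)`; everything is proved for `0 < s`, `k2 s² < 4` (`Ad.spos`, `Ad.lt4`).
-/

open MeasureTheory Set Metric
open scoped ENNReal ContDiff Topology

namespace Vale.Agent.P219.End

variable {n : ℕ}

namespace Lim

variable (L : Lim n)

/-- `g_s = √(1 - k2 s² / 4)` -/
noncomputable def gk (s : ℝ) : ℝ := √(1 - L.k2 * s ^ 2 / 4)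

variable {L}

theorem Ad.spos {s : ℝ} (hs : L.Ad s) : 0 < s := hs.1

theorem Ad.lt4 {s : ℝ} (hs : L.Ad s) : L.k2 * s ^ 2 < 4 := by linarith [hs.2.2]

theorem Ad.mono {s t : ℝ} (hs : L.Ad s) (ht : 0 < t) (hts : t ≤ s) : L.Ad t := by
  refine ⟨ht, hts.trans hs.2.1, ?_⟩
  have : t ^ 2 ≤ s ^ 2 := by gcongr
  exact (mul_le_mul_of_nonneg_left this L.k2_nonneg).trans hs.2.2

variable (L)

theorem gk_pos {s : ℝ} (h4 : L.k2 * s ^ 2 < 4) : 0 < L.gk s := by
  unfold gk
  apply Real.sqrt_pos.mpr; linarith only [h4]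

theorem gk_nonneg (s : ℝ) : 0 ≤ L.gk s := Real.sqrt_nonneg _

theorem den_pos {s : ℝ} (hs : 0 < s) (c x : E n) : 0 < L.F c x + s ^ 2 / 2 := by
  have := L.F_nonneg c x
  positivity

theorem ds_nonneg (c x : E n) : 0 ≤ L.ds c x := Real.sqrt_nonneg _

theorem ds_cont (c : E n) : Continuous (L.ds c) := by
  unfold ds
  exact (continuous_const.mul (L.Fc_cont c)).sqrt

theorem ws_wb (c : E n) (s : ℝ) (x : E n) : L.ws c s x = Alg.wb L.k2 (s ^ 2 / 2) (L.F c x) := rfl

theorem cf_eq {s : ℝ} (hs : 0 < s) :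
    √(s ^ 2 / 2 * (2 - L.k2 * (s ^ 2 / 2))) = s * L.gk s := by
  have e : s ^ 2 / 2 * (2 - L.k2 * (s ^ 2 / 2)) = s ^ 2 * (1 - L.k2 * s ^ 2 / 4) := by ring
  rw [e, Real.sqrt_mul (by positivity), Real.sqrt_sq hs.le]
  rfl

theorem ws_eq' {s : ℝ} (hs : 0 < s) (c x : E n) :
    L.ws c s x = s * L.gk s / (L.F c x + s ^ 2 / 2) := by
  rw [ws_wb]
  unfold Alg.wb
  rw [L.cf_eq hs]

theorem ws_pos {s : ℝ} (hs : 0 < s) (h4 : L.k2 * s ^ 2 < 4) (c x : E n) : 0 < L.ws c s x := by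
  rw [L.ws_eq' hs]
  have h := L.den_pos hs c x
  have h1 := L.gk_pos h4
  positivity

theorem ws_nonneg {s : ℝ} (hs : 0 < s) (c x : E n) : 0 ≤ L.ws c s x := by
  rw [L.ws_eq' hs]
  have h := L.den_pos hs c x
  have h1 := L.gk_nonneg s
  positivity

theorem ws_smooth1 {s : ℝ} (hs : 0 < s) (c : E n) : ContDiff ℝ ∞ (L.ws c s) := by
  have e : L.ws c s = fun x => s * L.gk s / (L.F c x + s ^ 2 / 2) := by
    ext x; exact L.ws_eq' hs c x
  rw [e]
  exact contDiff_const.div ((L.Fc_smooth c).add contDiff_const) fun x => (L.den_pos hs c x).ne'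

theorem ws_smooth' {s : ℝ} (hs : 0 < s) (h4 : L.k2 * s ^ 2 < 4) (c : E n) (a : ℝ) :
    ContDiff ℝ ∞ fun x => L.ws c s x ^ a :=
  (L.ws_smooth1 hs c).rpow_const_of_ne fun x => (L.ws_pos hs h4 c x).ne'

/-- B1b -/
theorem ws_smooth {s : ℝ} (hs : L.Ad s) (c : E n) (a : ℝ) :
    ContDiff ℝ ∞ fun x => L.ws c s x ^ a := L.ws_smooth' hs.spos hs.lt4 c a

/-! ### gradients -/

/-! ### the scale derivative -/

/-! ### comparison of scales -/

/-! ### the quotient `g = u / w^((m-2)/2)` -/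

theorem gs_mul {s : ℝ} (hs : 0 < s) (h4 : L.k2 * s ^ 2 < 4) (c : E n) (u : E n → ℝ) (x : E n) :
    L.gs c s u x * L.ws c s x ^ ((L.m - 2) / 2) = u x := by
  unfold gs
  have h := Real.rpow_pos_of_pos (L.ws_pos hs h4 c x) ((L.m - 2) / 2)
  field_simp

theorem gs_smooth {s : ℝ} (hs : 0 < s) (h4 : L.k2 * s ^ 2 < 4) (c : E n) {u : E n → ℝ}
    (hu : ContDiff ℝ ∞ u) : ContDiff ℝ ∞ (L.gs c s u) := by
  unfold gs
  exact hu.div (L.ws_smooth' hs h4 c _) fun x =>
    (Real.rpow_pos_of_pos (L.ws_pos hs h4 c x) _).ne'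

/-- `g² w^(m-2) = u²` -/
theorem gs_sq_mul {s : ℝ} (hs : 0 < s) (h4 : L.k2 * s ^ 2 < 4) (c : E n) (u : E n → ℝ)
    (x : E n) : L.gs c s u x ^ 2 * L.ws c s x ^ (L.m - 2) = u x ^ 2 := by
  have hw := L.ws_pos hs h4 c x
  rw [← L.gs_mul hs h4 c u x, mul_pow]
  congr 1
  rw [← Real.rpow_natCast, ← Real.rpow_mul hw.le]
  congr 1
  push_cast; ring

/-- `g² w^m = u² w²` -/
theorem gs_sq_mul_m {s : ℝ} (hs : 0 < s) (h4 : L.k2 * s ^ 2 < 4) (c : E n) (u : E n → ℝ)
    (x : E n) : L.gs c s u x ^ 2 * L.ws c s x ^ L.m = u x ^ 2 * L.ws c s x ^ 2 := by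
  have hw := L.ws_pos hs h4 c x
  rw [← L.gs_sq_mul hs h4 c u x, mul_assoc]
  congr 1
  rw [← Real.rpow_natCast (L.ws c s x) 2, ← Real.rpow_add hw]
  congr 1
  push_cast; ring

end Lim

end Vale.Agent.P219.End
end

section

/-!
# P219 / End : the error half of `sup_bound` (leaf B5b), part 2: Tonelli
-/

open MeasureTheory Set Metric
open scoped ENNReal ContDiff Topology

namespace Vale.Agent.P219.End.Lim

variable {n : ℕ} (L : Lim n)

theorem sb_kS_int' (hint : L.KInt) {S : ℝ} (hS : 0 < S) {x : E n} (hx : x ∈ L.K) :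
    Integrable (fun z : E n × E n => L.kS S (L.ds z.1 x)) L.V := by
  have h := hint x hx S hS
  simp_rw [L.sb_ds_comm x] at h
  exact h

theorem sb_dskS_int (hint : L.KInt) {S : ℝ} (hS : 0 < S) {x : E n} (hx : x ∈ L.K) :
    Integrable (fun z : E n × E n => L.ds z.1 x * L.kS S (L.ds z.1 x)) L.V := by
  have hc : Continuous fun z : E n × E n => L.ds z.1 x :=
    L.sb_ds_cont.comp (continuous_fst.prodMk continuous_const)
  obtain ⟨C, hC⟩ := L.K_compact.exists_bound_of_continuousOn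
    (f := fun y => L.ds y x) (L.sb_ds_cont.comp (continuous_id.prodMk continuous_const)).continuousOn
  refine (L.sb_kS_int' hint hS hx).bdd_mul (c := C) hc.aestronglyMeasurable ?_
  filter_upwards [L.V_supp] with z hz
  exact hC _ hz.1

/-- integrability of the error in its first variable -/
theorem erk_int_left (hint : L.KInt) {S : ℝ} (hS : 0 < S) (g : E n → ℝ) {z : E n × E n}
    (hz : z.1 ∈ L.K) : Integrable (fun z₀ => L.erk S g z₀ z) L.V := by
  have h1 := (L.sb_dskS_int hint hS hz).const_mul (g z.1 ^ 2)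
  have h2 := (L.sb_kS_int' hint hS hz).const_mul √(L.G (fun x => g x ^ 2) (fun x => g x ^ 2) z)
  refine (h1.add h2).congr (Filter.Eventually.of_forall fun z₀ => ?_)
  simp only [erk, Pi.add_apply]
  ring

theorem erk_nonneg {S : ℝ} (hS : 0 ≤ S) (g : E n → ℝ) (z₀ z : E n × E n) :
    0 ≤ L.erk S g z₀ z := by
  have h1 := L.sb_kS_nonneg hS (L.sb_ds_nonneg z₀.1 z.1)
  have h2 := L.sb_ds_nonneg z₀.1 z.1
  unfold erk
  positivity

/-- Tonelli for the error -/
theorem erk_tonelli (hint : L.KInt) {S : ℝ} (hS : 0 < S) {g : E n → ℝ} (hg : ContDiff ℝ ∞ g)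
    {T : Set (E n × E n)} {Φ : E n × E n → ℝ} (hΦ : Integrable Φ L.V)
    (hb : ∀ z : E n × E n, z.1 ∈ L.K → ‖z.2‖ = 1 → ∫ z₀ in T, L.erk S g z₀ z ∂L.V ≤ Φ z) :
    Integrable (fun z₀ => ∫ z, L.erk S g z₀ z ∂L.V) (L.V.restrict T) ∧
      ∫ z₀ in T, (∫ z, L.erk S g z₀ z ∂L.V) ∂L.V ≤ ∫ z, Φ z ∂L.V := by
  have hm := L.erk_meas S hg
  have hsm : StronglyMeasurable (Function.uncurry (L.erk S g)) := hm.stronglyMeasurable
  have hnn : ∀ z : E n × E n, 0 ≤ ∫ z₀ in T, L.erk S g z₀ z ∂L.V := fun z =>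
    integral_nonneg fun z₀ => L.erk_nonneg hS.le g z₀ z
  have hI : Integrable (Function.uncurry (L.erk S g)) ((L.V.restrict T).prod L.V) := by
    refine (integrable_prod_iff' hsm.aestronglyMeasurable).2 ⟨?_, ?_⟩
    · filter_upwards [L.V_supp] with z hz
      exact (L.erk_int_left hint hS g hz.1).integrableOn
    · have e : (fun y => ∫ x, ‖Function.uncurry (L.erk S g) (x, y)‖ ∂(L.V.restrict T)) =
          fun z => ∫ z₀ in T, L.erk S g z₀ z ∂L.V := by
        funext z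
        refine integral_congr_ae (Filter.Eventually.of_forall fun z₀ => ?_)
        exact Real.norm_of_nonneg (L.erk_nonneg hS.le g z₀ z)
      rw [e]
      refine hΦ.mono' (hsm.integral_prod_left' (μ := L.V.restrict T)).aestronglyMeasurable ?_
      filter_upwards [L.V_supp] with z hz
      rw [Real.norm_of_nonneg (hnn z)]
      exact hb z hz.1 hz.2
  refine ⟨hI.integral_prod_left, ?_⟩
  rw [integral_integral_swap hI]
  refine integral_mono_ae hI.integral_prod_right hΦ ?_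
  filter_upwards [L.V_supp] with z hz
  exact hb z hz.1 hz.2

/-- **the error half** -/
theorem sup_err (hint : L.KInt) (havg : L.KAvg) (N Λ B : ℝ) (hN : 1 ≤ N) (hΛ : 1 ≤ Λ) :
    ∃ C > 0, ∀ c ∈ L.K, ∀ s : ℝ, 0 < s → L.Ad (Λ * s) → L.Ad s → ∀ u : E n → ℝ, SP u →
    ∀ δ : ℝ, 0 < δ → δ ≤ 1 → L.Def c (s ^ 2 / 2) u ≤ δ →
    (∫ z, u z.1 ^ 2 ∂L.V) ≤ δ → (∫ z, u z.1 ^ 2 * L.ws c s z.1 ^ 2 ∂L.V) ≤ B →
    Integrable (fun z₀ => ∫ z, L.erk (Λ * s) (L.gs c s u) z₀ z ∂L.V)
      (L.V.restrict {z | L.ds c z.1 ≤ N * s}) ∧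
    ∫ z₀ in {z | L.ds c z.1 ≤ N * s}, (∫ z, L.erk (Λ * s) (L.gs c s u) z₀ z ∂L.V) ∂L.V ≤
      C * √δ * s ^ L.m := by
  obtain ⟨C, hC0, hC⟩ := havg N Λ hN hΛ
  have hm := L.m_pos
  have hm2 := L.m_sub_pos
  refine ⟨C * (1 + |B| + L.m * (L.m - 2) / 4), by (clear * - hC0 hm hm2; positivity), ?_⟩
  intro c hc s hs hAdL hAd u hu δ hδ hδ1 hD hR hB
  set g := L.gs c s u with hg
  have hgs : ContDiff ℝ ∞ g := L.sb_gs_smooth hAd c hu
  have hg0 : ∀ x, 0 ≤ g x := fun x => (L.sb_gs_pos hAd c hu x).le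
  have hS : 0 < Λ * s := by positivity
  have hδs : 0 < √δ := Real.sqrt_pos.2 hδ
  have hδδ : δ ≤ √δ := by
    have e := Real.mul_self_sqrt hδ.le
    have e2 : √δ ≤ 1 := by
      rw [← Real.sqrt_one]
      exact Real.sqrt_le_sqrt hδ1
    (by_contra nlg; linarith only [mul_pos (sub_pos.2 (not_le.1 nlg)) (sub_pos.2 hδs), mul_nonneg (le_of_lt (sub_pos.2 hδ)) (sub_nonneg.2 e2), mul_eq_zero_of_left (sub_eq_zero.2 e) (√δ - (0)), mul_eq_zero_of_left (sub_eq_zero.2 e) (1 - (√δ))])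
  have hw := fun x => L.sb_ws_pos hAd c x
  have hwc : ∀ a : ℝ, Continuous fun z : E n × E n => L.ws c s z.1 ^ a := fun a =>
    (L.sb_wsp_smooth hAd c a).continuous.comp continuous_fst
  have huc : Continuous fun z : E n × E n => u z.1 ^ 2 := (hu.1.continuous.comp continuous_fst).pow 2
  have hwc2 : Continuous fun z : E n × E n => L.ws c s z.1 ^ 2 :=
    ((L.sb_ws_smooth hAd c).continuous.comp continuous_fst).pow 2
  have hGc := L.G_cont (hgs.of_le one_le_inf) (hgs.of_le one_le_inf)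
  set Φ : E n × E n → ℝ := fun z => C * s ^ L.m * (u z.1 ^ 2 +
    (√δ * (u z.1 ^ 2 * L.ws c s z.1 ^ 2) +
      (√δ)⁻¹ * (L.ws c s z.1 ^ (L.m - 2) * L.G g g z))) with hΦ
  have hΦc : Continuous Φ := by
    have := hwc (L.m - 2)
    rw [hΦ]
    fun_prop
  have hb : ∀ z : E n × E n, z.1 ∈ L.K → ‖z.2‖ = 1 →
      ∫ z₀ in {z | L.ds c z.1 ≤ N * s}, L.erk (Λ * s) g z₀ z ∂L.V ≤ Φ z := by
    intro z hz hz2
    have hG0 : 0 ≤ L.G g g z := L.G_self_nonneg g hz2
    obtain ⟨a1, a2⟩ := hC c hc s hs hAdL z.1 hz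
    have e0 : ∫ z₀ in {z | L.ds c z.1 ≤ N * s}, L.erk (Λ * s) g z₀ z ∂L.V =
        g z.1 ^ 2 * (∫ z₀ in {z | L.ds c z.1 ≤ N * s},
          L.ds z₀.1 z.1 * L.kS (Λ * s) (L.ds z₀.1 z.1) ∂L.V) +
        √(L.G (fun x => g x ^ 2) (fun x => g x ^ 2) z) *
          ∫ z₀ in {z | L.ds c z.1 ≤ N * s}, L.kS (Λ * s) (L.ds z₀.1 z.1) ∂L.V := by
      rw [← integral_const_mul, ← integral_const_mul, ← integral_add]
      · refine integral_congr_ae (Filter.Eventually.of_forall fun z₀ => ?_)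
        simp only [erk]
        ring
      · exact ((L.sb_dskS_int hint hS hz).const_mul _).integrableOn
      · exact ((L.sb_kS_int' hint hS hz).const_mul _).integrableOn
    rw [e0, L.sb_sqrt_G (hgs.of_le one_le_inf) hg0 z]
    have b1 := mul_le_mul_of_nonneg_left a2 (sq_nonneg (g z.1))
    have b2 := mul_le_mul_of_nonneg_left a1
      (show 0 ≤ 2 * g z.1 * √(L.G g g z) by have := hg0 z.1; (clear * - this; positivity))
    have c1 : g z.1 ^ 2 * (C * s ^ L.m * L.ws c s z.1 ^ (L.m - 2)) = C * s ^ L.m * u z.1 ^ 2 := by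
      rw [← L.sb_gs_sq hAd c u z.1]
      ring
    set a : ℝ := L.ws c s z.1 ^ (L.m / 2) with ha
    set b : ℝ := L.ws c s z.1 ^ ((L.m - 2) / 2) with hb'
    have ha0 : 0 < a := Real.rpow_pos_of_pos (hw z.1) _
    have hb0 : 0 < b := Real.rpow_pos_of_pos (hw z.1) _
    have hab : L.ws c s z.1 ^ (L.m - 1) = a * b := by
      rw [ha, hb', ← Real.rpow_add (hw z.1)]
      congr 1
      ring
    have ha2 : a ^ 2 = L.ws c s z.1 ^ L.m := by
      rw [ha, ← Real.rpow_natCast, ← Real.rpow_mul (hw z.1).le]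
      norm_num
    have hb2 : b ^ 2 = L.ws c s z.1 ^ (L.m - 2) := by
      rw [hb', ← Real.rpow_natCast, ← Real.rpow_mul (hw z.1).le]
      norm_num
    have c2 : 2 * g z.1 * √(L.G g g z) * L.ws c s z.1 ^ (L.m - 1) ≤
        √δ * (u z.1 ^ 2 * L.ws c s z.1 ^ 2) +
          (√δ)⁻¹ * (L.ws c s z.1 ^ (L.m - 2) * L.G g g z) := by
      rw [← L.sb_gs_sq' hAd c u z.1, hab, ← ha2, ← hb2]
      have hsq := Real.mul_self_sqrt hG0
      set q := √(L.G g g z) with hq
      rw [← hsq]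
      have key : 0 ≤ (√δ * (g z.1 * a) - b * q) ^ 2 := sq_nonneg _
      have e3 : √δ * (g z.1 ^ 2 * a ^ 2) + (√δ)⁻¹ * (b ^ 2 * (q * q)) -
          2 * g z.1 * q * (a * b) = (√δ)⁻¹ * (√δ * (g z.1 * a) - b * q) ^ 2 := by
        field_simp
        ring
      have e4 : 0 ≤ (√δ)⁻¹ * (√δ * (g z.1 * a) - b * q) ^ 2 := by (clear * - hδ; positivity)
      have e5 : L.gs c s u z.1 = g z.1 := rfl
      rw [e5]
      linarith only [e4, e3]
    have hCs : 0 ≤ C * s ^ L.m := by positivity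
    have c3 := mul_le_mul_of_nonneg_left c2 hCs
    rw [hΦ]
    calc _ ≤ g z.1 ^ 2 * (C * s ^ L.m * L.ws c s z.1 ^ (L.m - 2)) +
          2 * g z.1 * √(L.G g g z) * (C * s ^ L.m * L.ws c s z.1 ^ (L.m - 1)) := add_le_add b1 b2
      _ = C * s ^ L.m * u z.1 ^ 2 +
          C * s ^ L.m * (2 * g z.1 * √(L.G g g z) * L.ws c s z.1 ^ (L.m - 1)) := by
        rw [c1]
        ring
      _ ≤ _ := by
        simp only
        rw [mul_add (C * s ^ L.m)]
        linarith only [c3]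
  obtain ⟨h1, h2⟩ := L.erk_tonelli hint hS hgs (L.integrable_of_cont hΦc) hb
  refine ⟨h1, h2.trans ?_⟩
  have hi1 : Integrable (fun z : E n × E n => u z.1 ^ 2) L.V := L.integrable_of_cont huc
  have hi2 : Integrable (fun z : E n × E n => u z.1 ^ 2 * L.ws c s z.1 ^ 2) L.V :=
    L.integrable_of_cont (huc.mul hwc2)
  have hi3 : Integrable (fun z : E n × E n => L.ws c s z.1 ^ (L.m - 2) * L.G g g z) L.V :=
    L.integrable_of_cont ((hwc _).mul hGc)
  have e1 : ∫ z, Φ z ∂L.V = C * s ^ L.m * ((∫ z, u z.1 ^ 2 ∂L.V) +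
      (√δ * (∫ z, u z.1 ^ 2 * L.ws c s z.1 ^ 2 ∂L.V) +
        (√δ)⁻¹ * ∫ z, L.ws c s z.1 ^ (L.m - 2) * L.G g g z ∂L.V)) := by
    have e2 : ∫ z, (√δ * (u z.1 ^ 2 * L.ws c s z.1 ^ 2) +
        (√δ)⁻¹ * (L.ws c s z.1 ^ (L.m - 2) * L.G g g z)) ∂L.V =
        √δ * (∫ z, u z.1 ^ 2 * L.ws c s z.1 ^ 2 ∂L.V) +
        (√δ)⁻¹ * ∫ z, L.ws c s z.1 ^ (L.m - 2) * L.G g g z ∂L.V := by
      rw [integral_add (hi2.const_mul _) (hi3.const_mul _), integral_const_mul, integral_const_mul]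
    have hi4 : Integrable (fun z : E n × E n => √δ * (u z.1 ^ 2 * L.ws c s z.1 ^ 2) +
        (√δ)⁻¹ * (L.ws c s z.1 ^ (L.m - 2) * L.G g g z)) L.V :=
      (hi2.const_mul _).add (hi3.const_mul _)
    rw [← e2, ← integral_add hi1 hi4, ← integral_const_mul]
  rw [e1]
  have hgr := L.sb_grad hAd hc hu hD
  have f1 : √δ * (∫ z, u z.1 ^ 2 * L.ws c s z.1 ^ 2 ∂L.V) ≤ √δ * |B| :=
    mul_le_mul_of_nonneg_left (hB.trans (le_abs_self B)) hδs.le
  have f2 : (√δ)⁻¹ * ∫ z, L.ws c s z.1 ^ (L.m - 2) * L.G g g z ∂L.V ≤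
      √δ * (L.m * (L.m - 2) / 4) := by
    have e2 := mul_le_mul_of_nonneg_left hgr (inv_nonneg.2 hδs.le)
    refine e2.trans (le_of_eq ?_)
    have e := Real.mul_self_sqrt hδ.le
    nth_rewrite 2 [← e]
    field_simp
  calc _ ≤ C * s ^ L.m * (√δ + (√δ * |B| + √δ * (L.m * (L.m - 2) / 4))) := by
        have hCs : 0 ≤ C * s ^ L.m := by positivity
        refine mul_le_mul_of_nonneg_left ?_ hCs
        have := hR.trans hδδ
        linarith only [f1, f2, this]
    _ = _ := by ring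

end Vale.Agent.P219.End.Lim
end

section

open MeasureTheory
open scoped ENNReal ContDiff

namespace Vale.Agent.P219

section

variable {n : ℕ} {c : Fin n → Fin n → Fin n → ℝ}

end

section

variable {m : ℕ} {c : Fin (m + 1) → Fin (m + 1) → Fin (m + 1) → ℝ}

end

end Vale.Agent.P219
end

section

namespace Vale.Agent.P219

variable {n k : ℕ}

end Vale.Agent.P219
end
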