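import Mathlib
import Vale.Agent.P219.Bdl.B6
import Vale.Agent.P219.Bdl.B1
import Vale.Agent.P219.Bdl.B4
import Vale.Agent.P219.Bdl.B3
import Vale.Agent.P219.CH.CoComplete
import Vale.Agent.P219.Bdl.B2

set_option linter.all false

section

/-!
G3: Jacobi fields, Gauss lemma, Rauch monotonicity.
-/

open Set Filter Topology
open scoped ContDiff
open Vale.Agent.P255

noncomputable section

namespace Vale.Agent.P219.CH

theorem jac_hasDerivAt_fst {W : Type} [NormedAddCommGroup W] [NormedSpace ℝ W] {f : ℝ → W × W}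
    {f' : W × W} {t : ℝ} (h : HasDerivAt f f' t) : HasDerivAt (fun s => (f s).1) f'.1 t :=
  (ContinuousLinearMap.fst ℝ W W).hasFDerivAt.comp_hasDerivAt t h

theorem jac_hasDerivAt_snd {W : Type} [NormedAddCommGroup W] [NormedSpace ℝ W] {f : ℝ → W × W}
    {f' : W × W} {t : ℝ} (h : HasDerivAt f f' t) : HasDerivAt (fun s => (f s).2) f'.2 t :=
  (ContinuousLinearMap.snd ℝ W W).hasFDerivAt.comp_hasDerivAt t h

theorem jac_time_deriv {W : Type} [NormedAddCommGroup W] [NormedSpace ℝ W] {Ψ : ℝ × W → W}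
    (hd : Differentiable ℝ Ψ) {g : W → W}
    (heq : ∀ s z, HasDerivAt (fun r => Ψ (r, z)) (g (Ψ (s, z))) s) (q : ℝ × W) :
    fderiv ℝ Ψ q (1, 0) = g (Ψ q) := by
  obtain ⟨s, z⟩ := q
  have h1 : HasDerivAt (fun r : ℝ => ((r, z) : ℝ × W)) (1, 0) s :=
    (hasDerivAt_id s).prodMk (hasDerivAt_const s z)
  have h2 : HasFDerivAt Ψ (fderiv ℝ Ψ (s, z)) ((fun r : ℝ => ((r, z) : ℝ × W)) s) :=
    (hd (s, z)).hasFDerivAt
  have h3 : HasDerivAt (fun r => Ψ (r, z)) (fderiv ℝ Ψ (s, z) (1, 0)) s :=
    h2.comp_hasDerivAt s h1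
  exact h3.unique (heq s z)

/-- differentiating a smooth flow with respect to the initial value: the linearised equation -/
theorem jac_mixed {W : Type} [NormedAddCommGroup W] [NormedSpace ℝ W] {Ψ : ℝ × W → W}
    (hs : ContDiff ℝ ∞ Ψ) {g : W → W} (hg : Differentiable ℝ g)
    (heq : ∀ s z, HasDerivAt (fun r => Ψ (r, z)) (g (Ψ (s, z))) s) (t : ℝ) (z u : W) :
    HasDerivAt (fun r => fderiv ℝ Ψ (r, z) (0, u))
      (fderiv ℝ g (Ψ (t, z)) (fderiv ℝ Ψ (t, z) (0, u))) t := by
  have hd : Differentiable ℝ Ψ := hs.differentiable (by simp)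
  have hd2 : DifferentiableAt ℝ (fderiv ℝ Ψ) (t, z) :=
    (hs.contDiffAt.fderiv_right (m := ∞) (by simp)).differentiableAt (by simp)
  have hsym : fderiv ℝ (fderiv ℝ Ψ) (t, z) (1, 0) (0, u) =
      fderiv ℝ (fderiv ℝ Ψ) (t, z) (0, u) (1, 0) :=
    (hs.contDiffAt.isSymmSndFDerivAt (by simpa using two_le_infty)) _ _
  have h1 : HasDerivAt (fun r => fderiv ℝ Ψ (r, z) (0, u))
      (fderiv ℝ (fderiv ℝ Ψ) (t, z) (1, 0) (0, u)) t := by
    have h2 : HasDerivAt (fun r : ℝ => ((r, z) : ℝ × W)) (1, 0) t :=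
      (hasDerivAt_id t).prodMk (hasDerivAt_const t z)
    have h3 : HasFDerivAt (fderiv ℝ Ψ) (fderiv ℝ (fderiv ℝ Ψ) (t, z))
        ((fun r : ℝ => ((r, z) : ℝ × W)) t) := hd2.hasFDerivAt
    have h5 : HasDerivAt (fun r : ℝ => fderiv ℝ Ψ (r, z))
        (fderiv ℝ (fderiv ℝ Ψ) (t, z) (1, 0)) t := h3.comp_hasDerivAt t h2
    have h4 := h5.clm_apply (hasDerivAt_const t ((0, u) : ℝ × W))
    simpa using h4
  have h6 : HasFDerivAt (fun q => fderiv ℝ Ψ q (1, 0))
      ((fderiv ℝ (fderiv ℝ Ψ) (t, z)).flip (1, 0)) (t, z) := by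
    have h7 := hd2.hasFDerivAt.clm_apply (hasFDerivAt_const ((1, 0) : ℝ × W) (t, z))
    refine h7.congr_fderiv ?_
    ext q <;> simp
  have h7 : (fun q => fderiv ℝ Ψ q (1, 0)) = fun q => g (Ψ q) :=
    funext fun q => jac_time_deriv hd heq q
  rw [h7] at h6
  have h8 : HasFDerivAt (fun q => g (Ψ q)) ((fderiv ℝ g (Ψ (t, z))).comp (fderiv ℝ Ψ (t, z)))
      (t, z) := (hg (Ψ (t, z))).hasFDerivAt.comp (t, z) (hd (t, z)).hasFDerivAt
  have h9 : (fderiv ℝ (fderiv ℝ Ψ) (t, z)).flip (1, 0) (0, u) =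
      ((fderiv ℝ g (Ψ (t, z))).comp (fderiv ℝ Ψ (t, z))) (0, u) := by
    rw [h6.unique h8]
  rw [ContinuousLinearMap.flip_apply, ContinuousLinearMap.comp_apply] at h9
  rw [hsym, h9] at h1
  exact h1

variable {V : Type} [NormedAddCommGroup V] [NormedSpace ℝ V] [FiniteDimensional ℝ V]
variable {G : V → V →L[ℝ] V →L[ℝ] ℝ}

namespace GFlow

variable (F : GFlow G)

theorem jac_ex_contDiff (x : V) : ContDiff ℝ ∞ (F.ex x) :=
  F.ex_smooth.comp (contDiff_prodMk_right x)

theorem jac_ex_diff (x v : V) : DifferentiableAt ℝ (F.ex x) v :=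
  (F.jac_ex_contDiff x).contDiffAt.differentiableAt (by simp)

theorem jac_vel_zero (x v : V) : F.vel 0 x v = v := by
  unfold vel
  rw [F.zero]

/-- the geodesic -/
def jacC (x v : V) (t : ℝ) : V := F.ex x (t • v)

/-- the Jacobi field -/
def jacJ (x v w : V) (t : ℝ) : V := fderiv ℝ (F.ex x) (t • v) (t • w)

theorem jac_hasDerivAt_C (h : IsMetricOn G univ) (x v : V) (t : ℝ) :
    HasDerivAt (F.jacC x v) (F.vel t x v) t := by
  have h1 := jac_hasDerivAt_fst (F.eqn t (x, v))
  have h2 : (fun s => (F.Φ s (x, v)).1) = F.jacC x v := by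
    funext s
    exact F.fst_eq h s x v
  rw [h2] at h1
  exact h1

theorem jac_deriv_C (h : IsMetricOn G univ) (x v : V) :
    deriv (F.jacC x v) = fun t => F.vel t x v := by
  funext t
  exact (F.jac_hasDerivAt_C h x v t).deriv

theorem jac_hasDerivAt_vel (h : IsMetricOn G univ) (x v : V) (t : ℝ) :
    HasDerivAt (fun s => F.vel s x v)
      (- chris G (F.jacC x v t) (F.vel t x v) (F.vel t x v)) t := by
  have h1 := jac_hasDerivAt_snd (F.eqn t (x, v))
  have h2 : (geoField G (F.Φ t (x, v))).2 =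
      - chris G (F.jacC x v t) (F.vel t x v) (F.vel t x v) := by
    unfold geoField jacC vel
    rw [← F.fst_eq h t x v]
  rw [h2] at h1
  exact h1

/-- derivative of the flow in the initial velocity -/
def jacL (x v w : V) (t : ℝ) : V × V :=
  fderiv ℝ (fun q : ℝ × (V × V) => F.Φ q.1 q.2) (t, (x, v)) (0, (0, w))

theorem jac_L_fst (h : IsMetricOn G univ) (x v w : V) (t : ℝ) :
    (F.jacL x v w t).1 = F.jacJ x v w t := by
  have h1 : DifferentiableAt ℝ (fun q : ℝ × (V × V) => F.Φ q.1 q.2) (t, (x, v)) :=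
    F.smooth.contDiffAt.differentiableAt (by simp)
  have h2 : HasDerivAt (fun s : ℝ => ((t, (x, v + s • w)) : ℝ × (V × V))) (0, (0, w)) 0 := by
    have h3 : HasDerivAt (fun s : ℝ => v + s • w) w 0 := by
      simpa using ((hasDerivAt_id (0 : ℝ)).smul_const w).const_add v
    exact (hasDerivAt_const (0 : ℝ) t).prodMk ((hasDerivAt_const (0 : ℝ) x).prodMk h3)
  have h4 : HasDerivAt (fun s : ℝ => F.Φ t (x, v + s • w)) (F.jacL x v w t) 0 := by
    have h5 : HasFDerivAt (fun q : ℝ × (V × V) => F.Φ q.1 q.2)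
        (fderiv ℝ (fun q : ℝ × (V × V) => F.Φ q.1 q.2) (t, (x, v)))
        ((fun s : ℝ => ((t, (x, v + s • w)) : ℝ × (V × V))) 0) := by
      simpa using h1.hasFDerivAt
    exact h5.comp_hasDerivAt (0 : ℝ) h2
  have h6 : HasDerivAt (fun s : ℝ => F.ex x (t • (v + s • w))) (F.jacL x v w t).1 0 := by
    have h7 := jac_hasDerivAt_fst h4
    have h8 : (fun s : ℝ => (F.Φ t (x, v + s • w)).1) =
        fun s : ℝ => F.ex x (t • (v + s • w)) := by
      funext s
      exact F.fst_eq h t x (v + s • w)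
    rw [h8] at h7
    exact h7
  have h9 : HasDerivAt (fun s : ℝ => t • (v + s • w)) (t • w) 0 := by
    have h3 : HasDerivAt (fun s : ℝ => v + s • w) w 0 := by
      simpa using ((hasDerivAt_id (0 : ℝ)).smul_const w).const_add v
    exact h3.const_smul t
  have h10 : HasDerivAt (fun s : ℝ => F.ex x (t • (v + s • w)))
      (fderiv ℝ (F.ex x) (t • v) (t • w)) 0 := by
    have h11 : HasFDerivAt (F.ex x) (fderiv ℝ (F.ex x) (t • v))
        ((fun s : ℝ => t • (v + s • w)) 0) := by
      simpa using (F.jac_ex_diff x (t • v)).hasFDerivAt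
    exact h11.comp_hasDerivAt (0 : ℝ) h9
  exact h6.unique h10

/-- the linearised equation -/
theorem jac_hasDerivAt_L (h : IsMetricOn G univ) (x v w : V) (t : ℝ) :
    HasDerivAt (F.jacL x v w)
      (fderiv ℝ (geoField G) (F.Φ t (x, v)) (F.jacL x v w t)) t := by
  have hg : Differentiable ℝ (geoField G) := fun p =>
    (h.contDiffAt_geoField (mem_univ p.1)).differentiableAt (by simp)
  exact jac_mixed (Ψ := fun q : ℝ × (V × V) => F.Φ q.1 q.2) F.smooth hg F.eqn t (x, v) (0, w)

theorem jac_hasDerivAt_J (h : IsMetricOn G univ) (x v w : V) (t : ℝ) :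
    HasDerivAt (F.jacJ x v w) (F.jacL x v w t).2 t := by
  have h1 := jac_hasDerivAt_fst (F.jac_hasDerivAt_L h x v w t)
  have h2 : (fun s => (F.jacL x v w s).1) = F.jacJ x v w := by
    funext s
    exact F.jac_L_fst h x v w s
  rw [h2] at h1
  have e : F.Φ t (x, v) = (F.jacC x v t, F.vel t x v) := by
    unfold jacC vel
    rw [← F.fst_eq h t x v]
  rw [e, ← Prod.mk.eta (p := F.jacL x v w t), h.fderiv_geoField (mem_univ _)] at h1
  exact h1

theorem jac_deriv_J (h : IsMetricOn G univ) (x v w : V) :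
    deriv (F.jacJ x v w) = fun t => (F.jacL x v w t).2 := by
  funext t
  exact (F.jac_hasDerivAt_J h x v w t).deriv

theorem jac_hasDerivAt_dJ (h : IsMetricOn G univ) (x v w : V) (t : ℝ) :
    HasDerivAt (deriv (F.jacJ x v w))
      (- (fderiv ℝ (fun p => chris G p (F.vel t x v) (F.vel t x v)) (F.jacC x v t)
        (F.jacJ x v w t) + (2 : ℝ) • chris G (F.jacC x v t) (F.vel t x v)
          (deriv (F.jacJ x v w) t))) t := by
  have h1 := jac_hasDerivAt_snd (F.jac_hasDerivAt_L h x v w t)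
  have e : F.Φ t (x, v) = (F.jacC x v t, F.vel t x v) := by
    unfold jacC vel
    rw [← F.fst_eq h t x v]
  rw [e, ← Prod.mk.eta (p := F.jacL x v w t), h.fderiv_geoField (mem_univ _),
    F.jac_L_fst h] at h1
  rw [F.jac_deriv_J h]
  exact h1

/-- the Jacobi equation -/
theorem jac_eqn (h : IsMetricOn G univ) (x v w : V) (t : ℝ) :
    DifferentiableAt ℝ (covD G (F.jacC x v) (F.jacJ x v w)) t ∧
    covD G (F.jacC x v) (covD G (F.jacC x v) (F.jacJ x v w)) t +
      curv G (F.jacC x v t) (F.jacJ x v w t) (F.vel t x v) (F.vel t x v) = 0 := by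
  have h1 := h.jacobi_of_linearized (c := F.jacC x v) (J := F.jacJ x v w) (t := t)
    (mem_univ _) ?_ ?_ ?_
  · rw [F.jac_deriv_C h] at h1
    exact h1
  · refine Eventually.of_forall fun s => ⟨(F.jac_hasDerivAt_C h x v s).differentiableAt, ?_, ?_⟩
    · rw [F.jac_deriv_C h]
      exact (F.jac_hasDerivAt_vel h x v s).differentiableAt
    · rw [F.jac_deriv_C h]
      exact (F.jac_hasDerivAt_vel h x v s).deriv
  · exact Eventually.of_forall fun s => (F.jac_hasDerivAt_J h x v w s).differentiableAt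
  · rw [F.jac_deriv_C h]
    exact F.jac_hasDerivAt_dJ h x v w t

theorem jac_covD_vel (h : IsMetricOn G univ) (x v : V) (t : ℝ) :
    covD G (F.jacC x v) (fun s => F.vel s x v) t = 0 := by
  unfold covD
  rw [(F.jac_hasDerivAt_vel h x v t).deriv, F.jac_deriv_C h]
  simp

theorem jac_J_zero (x v w : V) : F.jacJ x v w 0 = 0 := by
  simp [jacJ]

theorem jac_C_zero (h : IsMetricOn G univ) (x v : V) : F.jacC x v 0 = x := by
  simp [jacC, F.ex_zero h]

theorem fderiv_ex_zero (h : IsMetricOn G univ) (x w : V) : fderiv ℝ (F.ex x) 0 w = w := by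
  have h1 := F.fderiv_ray h x w 0
  rw [zero_smul, F.jac_vel_zero] at h1
  exact h1

/-- the field `D_{tv} exp w` -/
def jacD (x v w : V) (t : ℝ) : V := fderiv ℝ (F.ex x) (t • v) w

theorem jac_J_eq (x v w : V) (t : ℝ) : F.jacJ x v w t = t • F.jacD x v w t := by
  simp [jacJ, jacD]

theorem jac_D_cont (x v w : V) : Continuous (F.jacD x v w) := by
  have h1 : Continuous (fderiv ℝ (F.ex x)) :=
    (F.jac_ex_contDiff x).continuous_fderiv (by simp)
  have h2 : Continuous fun t : ℝ => fderiv ℝ (F.ex x) (t • v) :=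
    h1.comp (continuous_id.smul continuous_const)
  exact h2.clm_apply continuous_const

theorem jac_D_diff (x v w : V) (t : ℝ) : DifferentiableAt ℝ (F.jacD x v w) t := by
  have h1 : ContDiff ℝ ∞ (fderiv ℝ (F.ex x)) :=
    (F.jac_ex_contDiff x).fderiv_right (m := ∞) (by simp)
  have h2 : ContDiff ℝ ∞ fun t : ℝ => fderiv ℝ (F.ex x) (t • v) :=
    h1.comp (contDiff_id.smul contDiff_const)
  exact (h2.clm_apply contDiff_const).contDiffAt.differentiableAt (by simp)

theorem jac_deriv_J_zero (x v w : V) (h : IsMetricOn G univ) : deriv (F.jacJ x v w) 0 = w := by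
  have h1 : HasDerivAt (fun t : ℝ => t • F.jacD x v w t)
      ((0 : ℝ) • deriv (F.jacD x v w) 0 + (1 : ℝ) • F.jacD x v w 0) 0 :=
    (hasDerivAt_id (0 : ℝ)).smul (F.jac_D_diff x v w 0).hasDerivAt
  have h2 : (fun t : ℝ => t • F.jacD x v w t) = F.jacJ x v w :=
    funext fun t => (F.jac_J_eq x v w t).symm
  rw [h2] at h1
  rw [h1.deriv, zero_smul, one_smul, zero_add]
  unfold jacD
  rw [zero_smul, F.fderiv_ex_zero h]

theorem jac_covD_J_zero (h : IsMetricOn G univ) (x v w : V) :
    covD G (F.jacC x v) (F.jacJ x v w) 0 = w := by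
  unfold covD
  rw [F.jac_deriv_J_zero x v w h, F.jac_J_zero]
  have := chrisB_apply G (F.jacC x v 0) (deriv (F.jacC x v) 0) 0
  rw [← this]
  simp

theorem gauss (h : IsMetricOn G univ) (x v w : V) :
    G (F.ex x v) (fderiv ℝ (F.ex x) v v) (fderiv ℝ (F.ex x) v w) = G x v w := by
  set c := F.jacC x v with hc
  set J := F.jacJ x v w with hJ
  have hcd : ∀ t, DifferentiableAt ℝ c t := fun t => (F.jac_hasDerivAt_C h x v t).differentiableAt
  have hvd : ∀ t, DifferentiableAt ℝ (fun s => F.vel s x v) t := fun t =>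
    (F.jac_hasDerivAt_vel h x v t).differentiableAt
  have hJd : ∀ t, DifferentiableAt ℝ J t := fun t =>
    (F.jac_hasDerivAt_J h x v w t).differentiableAt
  have hDJ : ∀ t, DifferentiableAt ℝ (covD G c J) t := fun t => (F.jac_eqn h x v w t).1
  -- second derivative vanishes
  have h1 : ∀ t, HasDerivAt (fun s => G (c s) (covD G c J s) (F.vel s x v)) 0 t := by
    intro t
    refine (h.hasDerivAt_inner (mem_univ _) (hcd t) (hDJ t) (hvd t)).congr_deriv ?_
    have h2 := (F.jac_eqn h x v w t).2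
    rw [F.jac_covD_vel h x v t, map_zero, add_zero, eq_neg_of_add_eq_zero_left h2, map_neg,
      neg_apply, h.curv_skew (mem_univ _), neg_zero]
  have h2 : ∀ t, G (c t) (covD G c J t) (F.vel t x v) = G x v w := by
    intro t
    have h3 : G (c t) (covD G c J t) (F.vel t x v) = G (c 0) (covD G c J 0) (F.vel 0 x v) :=
      is_const_of_deriv_eq_zero (fun s => (h1 s).differentiableAt) (fun s => (h1 s).deriv) t 0
    rw [h3, hc, hJ, F.jac_covD_J_zero h x v w, F.jac_vel_zero, F.jac_C_zero h,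
      h.symm x (mem_univ _)]
  have h3 : ∀ t, HasDerivAt (fun s => G (c s) (J s) (F.vel s x v) - s * G x v w) 0 t := by
    intro t
    have h4 := h.hasDerivAt_inner (mem_univ _) (hcd t) (hJd t) (hvd t)
    rw [F.jac_covD_vel h x v t, map_zero, add_zero, h2 t] at h4
    refine (h4.sub ((hasDerivAt_id t).mul_const (G x v w))).congr_deriv ?_
    ring
  have h4 : G (c 1) (J 1) (F.vel 1 x v) - 1 * G x v w =
      G (c 0) (J 0) (F.vel 0 x v) - 0 * G x v w :=
    is_const_of_deriv_eq_zero (fun s => (h3 s).differentiableAt) (fun s => (h3 s).deriv) 1 0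
  rw [hJ, F.jac_J_zero, map_zero, zero_apply, zero_mul, sub_zero, one_mul, sub_eq_zero,
    ← F.fderiv_ray h x v 1, h.symm _ (mem_univ _)] at h4
  simpa [hc, jacC, jacJ] using h4

/-- squared length of the Jacobi field -/
def jacF (x v w : V) (t : ℝ) : ℝ := G (F.jacC x v t) (F.jacJ x v w t) (F.jacJ x v w t)

theorem jac_hasDerivAt_F (h : IsMetricOn G univ) (x v w : V) (t : ℝ) :
    HasDerivAt (F.jacF x v w) (2 * G (F.jacC x v t) (covD G (F.jacC x v) (F.jacJ x v w) t)
      (F.jacJ x v w t)) t := by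
  have hJd := (F.jac_hasDerivAt_J h x v w t).differentiableAt
  refine (h.hasDerivAt_inner (mem_univ _) (F.jac_hasDerivAt_C h x v t).differentiableAt
    hJd hJd).congr_deriv ?_
  rw [h.symm _ (mem_univ _) (F.jacJ x v w t)]
  ring

theorem jac_second (h : IsMetricOn G univ) (hsec : ∀ x u v, G x (curv G x u v v) u ≤ 0)
    (x v w : V) (t : ℝ) : ∃ f'' : ℝ, HasDerivAt (deriv (F.jacF x v w)) f'' t ∧
      2 * G (F.jacC x v t) (covD G (F.jacC x v) (F.jacJ x v w) t)
        (covD G (F.jacC x v) (F.jacJ x v w) t) ≤ f'' := by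
  have hJd := (F.jac_hasDerivAt_J h x v w t).differentiableAt
  have e : deriv (F.jacF x v w) = fun s => 2 * G (F.jacC x v s)
      (covD G (F.jacC x v) (F.jacJ x v w) s) (F.jacJ x v w s) :=
    funext fun s => (F.jac_hasDerivAt_F h x v w s).deriv
  obtain ⟨h1, h2⟩ := F.jac_eqn h x v w t
  rw [e]
  refine ⟨_, (h.hasDerivAt_inner (mem_univ _) (F.jac_hasDerivAt_C h x v t).differentiableAt
    h1 hJd).const_mul 2, ?_⟩
  rw [eq_neg_of_add_eq_zero_left h2, map_neg, neg_apply]
  have h3 := hsec (F.jacC x v t) (F.jacJ x v w t) (F.vel t x v)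
  linarith only [h3]

theorem jac_F_eq (x v w : V) (t : ℝ) : F.jacF x v w t =
    t ^ 2 * G (F.jacC x v t) (F.jacD x v w t) (F.jacD x v w t) := by
  unfold jacF
  rw [F.jac_J_eq]
  simp only [map_smul, smul_apply, smul_eq_mul]
  ring

theorem jac_ratio_cont (h : IsMetricOn G univ) (x v w : V) :
    Continuous fun t => G (F.jacC x v t) (F.jacD x v w t) (F.jacD x v w t) := by
  have h1 : Continuous G := continuous_iff_continuousAt.2 fun u =>
    (h.contDiffAt (mem_univ u)).continuousAt
  have h2 : Continuous (F.jacC x v) := continuous_iff_continuousAt.2 fun t =>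
    (F.jac_hasDerivAt_C h x v t).continuousAt
  exact ((h1.comp h2).clm_apply (F.jac_D_cont x v w)).clm_apply (F.jac_D_cont x v w)

theorem jac_mono (h : IsMetricOn G univ) (hsec : ∀ x u v, G x (curv G x u v v) u ≤ 0)
    (x v w : V) : MonotoneOn (fun t => F.jacF x v w t / t ^ 2) (Ioi 0) := by
  set f := F.jacF x v w with hf
  have hf1 : ∀ t, HasDerivAt f (deriv f t) t := fun t =>
    (F.jac_hasDerivAt_F h x v w t).differentiableAt.hasDerivAt
  -- second derivative
  have hf2 : ∀ t, 0 < t → ∃ f'' : ℝ, HasDerivAt (deriv f) f'' t ∧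
      0 ≤ f'' - 2 * deriv f t / t + 2 * f t / t ^ 2 := by
    intro t ht
    obtain ⟨f'', h1, h2⟩ := F.jac_second h hsec x v w t
    refine ⟨f'', h1, ?_⟩
    have h3 := (F.jac_hasDerivAt_F h x v w t).deriv
    set D := covD G (F.jacC x v) (F.jacJ x v w) t with hD
    set Gc := G (F.jacC x v t) with hG
    set J := F.jacJ x v w t with hJ
    have h4 : 0 ≤ Gc (D - t⁻¹ • J) (D - t⁻¹ • J) := h.nonneg (mem_univ _) _
    have h5 : Gc J D = Gc D J := h.symm _ (mem_univ _) _ _
    simp only [map_sub, sub_apply, map_smul, smul_apply, smul_eq_mul] at h4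
    rw [h5] at h4
    have h6 : f t = Gc J J := rfl
    rw [← h6] at h4
    have h7 : deriv f t = 2 * Gc D J := h3
    rw [h7]
    have h8 : 2 * (2 * Gc D J) / t = 4 * (t⁻¹ * Gc D J) := by
      field_simp; ring
    have h9 : 2 * f t / t ^ 2 = 2 * (t⁻¹ * (t⁻¹ * f t)) := by
      field_simp
    rw [h8, h9]
    linarith only [h4, h2]
  have hlim1 : Tendsto (fun t => deriv f t - 2 * (f t / t)) (𝓝[>] 0) (𝓝 0) := by
    have h1 : Tendsto (deriv f) (𝓝[>] 0) (𝓝 0) := by
      obtain ⟨f'', h2, -⟩ := F.jac_second h hsec x v w 0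
      have h3 : deriv f 0 = 0 := by
        rw [(F.jac_hasDerivAt_F h x v w 0).deriv, F.jac_J_zero]
        simp
      have h4 : Tendsto (deriv f) (𝓝[>] 0) (𝓝 (deriv f 0)) :=
        h2.continuousAt.tendsto.mono_left nhdsWithin_le_nhds
      rwa [h3] at h4
    have h2 : Tendsto (fun t => t * G (F.jacC x v t) (F.jacD x v w t) (F.jacD x v w t))
        (𝓝[>] 0) (𝓝 0) := by
      have h5 : Continuous fun t => t * G (F.jacC x v t) (F.jacD x v w t) (F.jacD x v w t) :=
        continuous_id.mul (F.jac_ratio_cont h x v w)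
      have h6 := (h5.tendsto 0).mono_left (nhdsWithin_le_nhds (s := Ioi 0))
      simpa using h6
    have h3 := h1.sub (h2.const_mul 2)
    simp only [mul_zero, sub_zero] at h3
    refine h3.congr' ?_
    filter_upwards [self_mem_nhdsWithin] with t ht
    have ht' : t ≠ 0 := ne_of_gt ht
    rw [hf, F.jac_F_eq x v w t]
    field_simp
  -- first monotonicity
  have hmono1 : MonotoneOn (fun t => deriv f t - 2 * (f t / t)) (Ioi 0) := by
    have key : ∀ t ∈ Ioi (0 : ℝ), ∃ d, 0 ≤ d ∧
        HasDerivAt (fun t => deriv f t - 2 * (f t / t)) d t := by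
      intro t ht
      have ht' : t ≠ 0 := ne_of_gt ht
      obtain ⟨f'', h1, h2⟩ := hf2 t ht
      refine ⟨_, h2, ?_⟩
      have h3 := h1.sub (((hf1 t).div (hasDerivAt_id t) ht').const_mul 2)
      refine h3.congr_deriv ?_
      simp only [id]
      field_simp
      ring
    refine monotoneOn_of_deriv_nonneg (convex_Ioi 0) ?_ ?_ ?_
    · intro t ht
      obtain ⟨d, _, hd⟩ := key t ht
      exact hd.continuousAt.continuousWithinAt
    · intro t ht
      rw [interior_Ioi] at ht
      obtain ⟨d, _, hd⟩ := key t ht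
      exact hd.differentiableAt.differentiableWithinAt
    · intro t ht
      rw [interior_Ioi] at ht
      obtain ⟨d, hd0, hd⟩ := key t ht
      rw [hd.deriv]; exact hd0
  have hk : ∀ t, 0 < t → 0 ≤ deriv f t - 2 * (f t / t) := by
    intro t ht
    refine le_of_tendsto hlim1 ?_
    filter_upwards [Ioo_mem_nhdsGT ht] with s hs
    exact hmono1 hs.1 ht hs.2.le
  have key : ∀ t ∈ Ioi (0 : ℝ), ∃ d, 0 ≤ d ∧
      HasDerivAt (fun t => f t / t ^ 2) d t := by
    intro t ht
    have ht' : t ≠ 0 := ne_of_gt ht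
    refine ⟨(deriv f t - 2 * (f t / t)) / t ^ 2, div_nonneg (hk t ht) (by positivity), ?_⟩
    have h3 := (hf1 t).div (hasDerivAt_pow 2 t) (pow_ne_zero 2 ht')
    refine h3.congr_deriv ?_
    field_simp
    ring
  refine monotoneOn_of_deriv_nonneg (convex_Ioi 0) ?_ ?_ ?_
  · intro t ht
    obtain ⟨d, _, hd⟩ := key t ht
    exact hd.continuousAt.continuousWithinAt
  · intro t ht
    rw [interior_Ioi] at ht
    obtain ⟨d, _, hd⟩ := key t ht
    exact hd.differentiableAt.differentiableWithinAt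
  · intro t ht
    rw [interior_Ioi] at ht
    obtain ⟨d, hd0, hd⟩ := key t ht
    rw [hd.deriv]; exact hd0

theorem rauch (h : IsMetricOn G univ) (hsec : ∀ x u v, G x (curv G x u v v) u ≤ 0)
    (x v w : V) {s t : ℝ} (hs : 0 ≤ s) (hst : s ≤ t) :
    G (F.ex x (s • v)) (fderiv ℝ (F.ex x) (s • v) w) (fderiv ℝ (F.ex x) (s • v) w) ≤
      G (F.ex x (t • v)) (fderiv ℝ (F.ex x) (t • v) w) (fderiv ℝ (F.ex x) (t • v) w) := by
  set r : ℝ → ℝ := fun t => G (F.jacC x v t) (F.jacD x v w t) (F.jacD x v w t) with hr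
  have hcont : Continuous r := F.jac_ratio_cont h x v w
  have heq : ∀ t, 0 < t → F.jacF x v w t / t ^ 2 = r t := by
    intro t ht
    rw [F.jac_F_eq x v w t, mul_div_cancel_left₀ _ (pow_ne_zero 2 ht.ne')]
  have hmono : ∀ a b, 0 < a → a ≤ b → r a ≤ r b := by
    intro a b ha hab
    rw [← heq a ha, ← heq b (ha.trans_le hab)]
    exact F.jac_mono h hsec x v w (mem_Ioi.2 ha) (mem_Ioi.2 (ha.trans_le hab)) hab
  change r s ≤ r t
  rcases hs.eq_or_lt with rfl | hs'
  · rcases hst.eq_or_lt with rfl | ht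
    · exact le_rfl
    · refine le_of_tendsto ((hcont.tendsto 0).mono_left (nhdsWithin_le_nhds (s := Ioi 0))) ?_
      filter_upwards [Ioo_mem_nhdsGT ht] with a ha
      exact hmono a t ha.1 ha.2.le
  · exact hmono s t hs' hst

theorem expanding (h : IsMetricOn G univ) (hsec : ∀ x u v, G x (curv G x u v v) u ≤ 0)
    (x v w : V) : G x w w ≤ G (F.ex x v) (fderiv ℝ (F.ex x) v w) (fderiv ℝ (F.ex x) v w) := by
  have h1 := F.rauch h hsec x v w (s := 0) (t := 1) le_rfl zero_le_one
  rw [zero_smul, one_smul, F.fderiv_ex_zero h, F.ex_zero h] at h1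
  exact h1

end GFlow

end Vale.Agent.P219.CH
end
end

section

/-! # Jacobi tensors with curvature `≤ -1`: the two-ended comparison

`W` is the orthogonal complement of the velocity, `R t` the (negative of the) Jacobi operator in a
parallel frame: `A'' = R A`, `R t` symmetric and `≥ 1`. -/

open Set Filter Topology

namespace Vale.Agent.P219.CH

variable {W : Type} [NormedAddCommGroup W] [InnerProductSpace ℝ W] [FiniteDimensional ℝ W]

/-- A solution of `A'' = R A`. -/
structure JT (R A A' : ℝ → W →L[ℝ] W) : Prop where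
  d1 : ∀ t, HasDerivAt A (A' t) t
  d2 : ∀ t, HasDerivAt A' ((R t).comp (A t)) t

variable {R A A' B B' : ℝ → W →L[ℝ] W}

section Mono

/-- scalar comparison: `f'' ≥ 2 g² + 2 f`, `f'² ≤ 4 f g²` -/
lemma jtmono_eps {y y' : ℝ → W} {z : ℝ → W} (h1 : ∀ t, HasDerivAt y (y' t) t)
    (h2 : ∀ t, HasDerivAt y' (z t) t) (hz : ∀ t, ‖y t‖ ^ 2 ≤ inner ℝ (z t) (y t))
    (h0 : y 0 = 0) {ε : ℝ} (hε : 0 < ε) {s t : ℝ} (hs : 0 < s) (hst : s ≤ t) :
    Real.sinh t * (Real.sqrt (‖y s‖ ^ 2 + ε) - Real.sqrt ε) ≤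
      Real.sinh s * (Real.sqrt (‖y t‖ ^ 2 + ε) - Real.sqrt ε) := by
  set f : ℝ → ℝ := fun t => ‖y t‖ ^ 2 with hf
  have hf1 : ∀ t, HasDerivAt f (2 * inner ℝ (y t) (y' t)) t := fun t => (h1 t).norm_sq
  set p : ℝ → ℝ := fun t => inner ℝ (y t) (y' t) with hp
  have hp1 : ∀ t, HasDerivAt p (inner ℝ (y t) (z t) + inner ℝ (y' t) (y' t)) t :=
    fun t => (h1 t).inner ℝ (h2 t)
  set u : ℝ → ℝ := fun t => Real.sqrt (f t + ε) with hu
  have hfpos : ∀ t, 0 < f t + ε := fun t => by (clear * - hε; positivity)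
  have hupos : ∀ t, 0 < u t := fun t => Real.sqrt_pos.2 (hfpos t)
  have husq : ∀ t, u t ^ 2 = f t + ε := fun t => Real.sq_sqrt (hfpos t).le
  have hu1 : ∀ t, HasDerivAt u (p t / u t) t := by
    intro t
    have := ((hf1 t).add_const ε).sqrt (hfpos t).ne'
    convert this using 1
    simp only [hp, hu]
    field_simp
  have hq1 : ∀ t, HasDerivAt (fun t => p t / u t)
      (((inner ℝ (y t) (z t) + inner ℝ (y' t) (y' t)) * u t - p t * (p t / u t)) / u t ^ 2) t :=
    fun t => (hp1 t).div (hu1 t) (hupos t).ne'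
  have hse : 0 < Real.sqrt ε := Real.sqrt_pos.2 hε
  have hsesq : Real.sqrt ε ^ 2 = ε := Real.sq_sqrt hε.le
  have hue : ∀ t, Real.sqrt ε ≤ u t := fun t => Real.sqrt_le_sqrt (by
    have : 0 ≤ f t := by positivity
    linarith)
  -- the key inequality
  have key : ∀ t, u t - Real.sqrt ε ≤
      ((inner ℝ (y t) (z t) + inner ℝ (y' t) (y' t)) * u t - p t * (p t / u t)) / u t ^ 2 := by
    intro t
    have hcs : p t ^ 2 ≤ f t * inner ℝ (y' t) (y' t) := by
      have := real_inner_mul_inner_self_le (y t) (y' t)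
      have e : inner ℝ (y t) (y t) = f t := real_inner_self_eq_norm_sq _
      rw [e] at this
      simpa [hp, sq] using this
    have hz' : f t ≤ inner ℝ (y t) (z t) := by
      have := hz t
      rwa [real_inner_comm] at this
    have hg : 0 ≤ inner ℝ (y' t) (y' t) := real_inner_self_nonneg
    rw [le_div_iff₀ (by have := hupos t; (clear * - hε; positivity))]
    have hu' := hupos t
    have e1 : p t * (p t / u t) = p t ^ 2 / u t := by ring
    rw [e1]
    have e2 : p t ^ 2 / u t ≤ u t * inner ℝ (y' t) (y' t) := by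
      rw [div_le_iff₀ hu']
      have : f t ≤ u t ^ 2 := by rw [husq]; linarith only [hε]
      linarith only [mul_nonneg (sub_nonneg.2 hg) (sub_nonneg.2 this), hcs]
    have e3 : (u t - Real.sqrt ε) * u t ^ 2 ≤ f t * u t := by
      have h5 : f t = u t ^ 2 - Real.sqrt ε ^ 2 := by rw [husq, hsesq]; ring
      rw [h5]
      have h6 := hue t
      linarith only [mul_nonneg (mul_nonneg hse.le hu'.le) (sub_nonneg.2 h6)]
    (by_contra nlg; linarith only [nlg, mul_nonneg (le_of_lt (sub_pos.2 hu')) (sub_nonneg.2 e3), mul_nonneg (le_of_lt (sub_pos.2 hu')) (sub_nonneg.2 e2), mul_pos (sub_pos.2 (not_le.1 nlg)) (sub_pos.2 hu'), mul_nonneg (sq_nonneg (1 * u t : ℝ)) (sub_nonneg.2 hz')])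
  -- `N = u' sinh - u cosh + √ε cosh` is nondecreasing
  set N : ℝ → ℝ := fun t => p t / u t * Real.sinh t - u t * Real.cosh t + Real.sqrt ε * Real.cosh t
    with hN
  have hN1 : ∀ t, HasDerivAt N
      (((((inner ℝ (y t) (z t) + inner ℝ (y' t) (y' t)) * u t - p t * (p t / u t)) / u t ^ 2) -
        u t + Real.sqrt ε) * Real.sinh t) t := by
    intro t
    have a1 := ((hq1 t).mul (Real.hasDerivAt_sinh t))
    have a2 := ((hu1 t).mul (Real.hasDerivAt_cosh t))
    have a3 := ((Real.hasDerivAt_cosh t).const_mul (Real.sqrt ε))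
    exact ((a1.sub a2).add a3).congr_deriv (by ring)
  have hNmono : MonotoneOn N (Ici 0) := by
    apply monotoneOn_of_deriv_nonneg (convex_Ici 0)
    · exact fun t _ => (hN1 t).continuousAt.continuousWithinAt
    · exact fun t _ => (hN1 t).differentiableAt.differentiableWithinAt
    · intro t ht
      rw [interior_Ici] at ht
      rw [(hN1 t).deriv]
      exact mul_nonneg (by linarith [key t]) (Real.sinh_nonneg_iff.2 (le_of_lt ht))
  have hN0 : N 0 = 0 := by
    simp [hN, hu, hf, h0]
  have hNpos : ∀ t, 0 ≤ t → 0 ≤ N t := by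
    intro t ht
    rw [← hN0]
    exact hNmono (mem_Ici.2 le_rfl) (mem_Ici.2 ht) ht
  -- the quotient
  set q : ℝ → ℝ := fun t => (u t - Real.sqrt ε) / Real.sinh t with hq
  have hsinh : ∀ t, 0 < t → 0 < Real.sinh t := fun t ht => Real.sinh_pos_iff.2 ht
  have hqd : ∀ t, 0 < t → HasDerivAt q (N t / Real.sinh t ^ 2) t := by
    intro t ht
    exact (((hu1 t).sub_const (Real.sqrt ε)).div (Real.hasDerivAt_sinh t)
      (hsinh t ht).ne').congr_deriv (by simp only [hN]; ring)
  have hqmono : MonotoneOn q (Ioi 0) := by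
    apply monotoneOn_of_deriv_nonneg (convex_Ioi 0)
    · exact fun t ht => (hqd t ht).continuousAt.continuousWithinAt
    · intro t ht
      rw [interior_Ioi] at ht
      exact (hqd t ht).differentiableAt.differentiableWithinAt
    · intro t ht
      rw [interior_Ioi] at ht
      rw [(hqd t ht).deriv]
      exact div_nonneg (hNpos t (le_of_lt ht)) (sq_nonneg _)
  have hfin := hqmono (mem_Ioi.2 hs) (mem_Ioi.2 (lt_of_lt_of_le hs hst)) hst
  have hs' := hsinh s hs
  have ht' := hsinh t (lt_of_lt_of_le hs hst)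
  simp only [hq] at hfin
  rw [div_le_div_iff₀ hs' ht'] at hfin
  simp only [hu, hf] at hfin
  linarith only [hfin]

lemma jtmono_basic {y y' : ℝ → W} {z : ℝ → W} (h1 : ∀ t, HasDerivAt y (y' t) t)
    (h2 : ∀ t, HasDerivAt y' (z t) t) (hz : ∀ t, ‖y t‖ ^ 2 ≤ inner ℝ (z t) (y t))
    (h0 : y 0 = 0) {s t : ℝ} (hs : 0 ≤ s) (hst : s ≤ t) :
    Real.sinh t * ‖y s‖ ≤ Real.sinh s * ‖y t‖ := by
  rcases hs.eq_or_lt with rfl | hs
  · simp [h0]
  have lim : ∀ (a c : ℝ), 0 ≤ a → Tendsto (fun ε : ℝ => c * (Real.sqrt (a ^ 2 + ε) - Real.sqrt ε))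
      (𝓝[>] 0) (𝓝 (c * a)) := by
    intro a c ha
    have hc : Continuous (fun ε : ℝ => c * (Real.sqrt (a ^ 2 + ε) - Real.sqrt ε)) := by fun_prop
    have := (hc.tendsto 0).mono_left (nhdsWithin_le_nhds (s := Ioi 0))
    simpa [Real.sqrt_sq ha] using this
  refine le_of_tendsto_of_tendsto (lim ‖y s‖ (Real.sinh t) (norm_nonneg _))
    (lim ‖y t‖ (Real.sinh s) (norm_nonneg _)) ?_
  filter_upwards [self_mem_nhdsWithin] with ε hε
  exact jtmono_eps h1 h2 hz h0 hε hs hst

lemma jtmono_lower {y y' : ℝ → W} {z : ℝ → W} (h1 : ∀ t, HasDerivAt y (y' t) t)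
    (h2 : ∀ t, HasDerivAt y' (z t) t) (hz : ∀ t, ‖y t‖ ^ 2 ≤ inner ℝ (z t) (y t))
    (h0 : y 0 = 0) {t : ℝ} (ht : 0 ≤ t) :
    Real.sinh t * ‖y' 0‖ ≤ ‖y t‖ := by
  rcases ht.eq_or_lt with rfl | ht
  · simp
  have l1 : Tendsto (fun s : ℝ => s⁻¹ • y s) (𝓝[>] 0) (𝓝 (y' 0)) := by
    have := (h1 0).tendsto_slope_zero_right
    simpa [h0] using this
  have l2 : Tendsto (fun s : ℝ => s⁻¹ * Real.sinh s) (𝓝[>] 0) (𝓝 1) := by
    have := (Real.hasDerivAt_sinh 0).tendsto_slope_zero_right
    simpa using this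
  have l3 : Tendsto (fun s : ℝ => Real.sinh t * ‖s⁻¹ • y s‖) (𝓝[>] 0)
      (𝓝 (Real.sinh t * ‖y' 0‖)) := l1.norm.const_mul _
  have l4 : Tendsto (fun s : ℝ => s⁻¹ * Real.sinh s * ‖y t‖) (𝓝[>] 0) (𝓝 (1 * ‖y t‖)) :=
    l2.mul_const _
  rw [one_mul] at l4
  refine le_of_tendsto_of_tendsto l3 l4 ?_
  filter_upwards [Ioc_mem_nhdsGT ht] with s hs
  have hm := jtmono_basic h1 h2 hz h0 hs.1.le hs.2
  rw [norm_smul, Real.norm_of_nonneg (inv_nonneg.2 hs.1.le)]
  have hi : 0 ≤ s⁻¹ := inv_nonneg.2 hs.1.le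
  linarith only [mul_le_mul_of_nonneg_left hm hi]

end Mono

/-- PROOF: `f = ‖A t w‖²`, `f'' ≥ 2‖A' w‖² + 2 f`, so `(‖A w‖/sinh)' ≥ 0`; the limit at `0` is
`‖w‖`. -/
theorem jt_mono (hA : JT R A A') (h0 : A 0 = 0) (h1 : A' 0 = ContinuousLinearMap.id ℝ W)
    (hR : ∀ t w, ‖w‖ ^ 2 ≤ inner ℝ (R t w) w) (w : W) {s t : ℝ} (hs : 0 ≤ s) (hst : s ≤ t) :
    Real.sinh t * ‖A s w‖ ≤ Real.sinh s * ‖A t w‖ ∧ Real.sinh t * ‖w‖ ≤ ‖A t w‖ := by
  have d1 : ∀ t, HasDerivAt (fun t => A t w) (A' t w) t := fun t => by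
    simpa using (hA.d1 t).clm_apply (hasDerivAt_const t w)
  have d2 : ∀ t, HasDerivAt (fun t => A' t w) (R t (A t w)) t := fun t => by
    simpa using (hA.d2 t).clm_apply (hasDerivAt_const t w)
  have hz : ∀ t, ‖A t w‖ ^ 2 ≤ inner ℝ (R t (A t w)) (A t w) := fun t => hR t _
  have e0 : A 0 w = 0 := by simp [h0]
  refine ⟨jtmono_basic d1 d2 hz e0 hs hst, ?_⟩
  have := jtmono_lower d1 d2 hz e0 (hs.trans hst)
  simpa [h1] using this

/-- Wronskian: `A' ᵀ B - Aᵀ B'` is constant. -/
theorem jt_wronskian (hA : JT R A A') (hB : JT R B B')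
    (hs : ∀ t v w, inner ℝ (R t v) w = inner ℝ v (R t w)) (v w : W) (s t : ℝ) :
    inner ℝ (A' s v) (B s w) - inner ℝ (A s v) (B' s w) =
      inner ℝ (A' t v) (B t w) - inner ℝ (A t v) (B' t w) := by
  have dA1 : ∀ t, HasDerivAt (fun t => A t v) (A' t v) t := fun t => by
    simpa using (hA.d1 t).clm_apply (hasDerivAt_const t v)
  have dA2 : ∀ t, HasDerivAt (fun t => A' t v) (R t (A t v)) t := fun t => by
    simpa using (hA.d2 t).clm_apply (hasDerivAt_const t v)
  have dB1 : ∀ t, HasDerivAt (fun t => B t w) (B' t w) t := fun t => by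
    simpa using (hB.d1 t).clm_apply (hasDerivAt_const t w)
  have dB2 : ∀ t, HasDerivAt (fun t => B' t w) (R t (B t w)) t := fun t => by
    simpa using (hB.d2 t).clm_apply (hasDerivAt_const t w)
  have hd : ∀ t, HasDerivAt (fun t => inner ℝ (A' t v) (B t w) - inner ℝ (A t v) (B' t w)) 0 t := by
    intro t
    exact (((dA2 t).inner ℝ (dB1 t)).sub ((dA1 t).inner ℝ (dB2 t))).congr_deriv
      (by rw [hs t (A t v) (B t w)]; ring)
  exact is_const_of_deriv_eq_zero (fun t => (hd t).differentiableAt) (fun t => (hd t).deriv) s t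

/-- Index form comparison with the model field. PROOF: `Y = A A(r)⁻¹ β + B B(0)⁻¹ α`,
`∫₀^r |Y'|² + ⟨R Y,Y⟩ = ⟨Y',Y⟩|`, `≥ ∫ |Y'|² + |Y|² ≥ 2∫(Y'Z'+YZ) - ∫(|Z'|²+|Z|²)` with
`Z t = (sinh (r-t) α + sinh t β)/sinh r`. -/
theorem jt_index (hR : ∀ t w, ‖w‖ ^ 2 ≤ inner ℝ (R t w) w) {Y Y' : ℝ → W} {r : ℝ} (hr : 0 < r)
    (h1 : ∀ t, HasDerivAt Y (Y' t) t) (h2 : ∀ t, HasDerivAt Y' (R t (Y t)) t)
    (hRc : Continuous R) :
    TP.cth r * (‖Y 0‖ ^ 2 + ‖Y r‖ ^ 2) - 2 / Real.sinh r * inner ℝ (Y 0) (Y r) ≤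
      inner ℝ (Y' r) (Y r) - inner ℝ (Y' 0) (Y 0) := by
  have hsr : 0 < Real.sinh r := Real.sinh_pos_iff.2 hr
  let Z : ℝ → W := fun t => (Real.sinh r)⁻¹ • (Real.sinh (r - t) • Y 0 + Real.sinh t • Y r)
  let Z' : ℝ → W := fun t =>
    (Real.sinh r)⁻¹ • (-Real.cosh (r - t) • Y 0 + Real.cosh t • Y r)
  have hZ : ∀ t, HasDerivAt Z (Z' t) t := by
    intro t
    have e1 : HasDerivAt (fun t => Real.sinh (r - t)) (-Real.cosh (r - t)) t := by
      have := ((hasDerivAt_id t).const_sub r).sinh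
      simpa using this
    exact ((e1.smul_const (Y 0)).add ((Real.hasDerivAt_sinh t).smul_const (Y r))).const_smul _
  have hZ' : ∀ t, HasDerivAt Z' (Z t) t := by
    intro t
    have e1 : HasDerivAt (fun t => -Real.cosh (r - t)) (Real.sinh (r - t)) t := by
      have h5 : HasDerivAt (fun t => Real.cosh (r - t)) (-Real.sinh (r - t)) t := by
        have := ((hasDerivAt_id t).const_sub r).cosh
        simpa using this
      have h6 := h5.fun_neg
      rwa [neg_neg] at h6
    exact ((e1.smul_const (Y 0)).add ((Real.hasDerivAt_cosh t).smul_const (Y r))).const_smul _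
  have hZ0 : Z 0 = Y 0 := by
    simp only [Z, sub_zero, Real.sinh_zero, zero_smul, add_zero, smul_smul]
    rw [inv_mul_cancel₀ hsr.ne', one_smul]
  have hZr : Z r = Y r := by
    simp only [Z, sub_self, Real.sinh_zero, zero_smul, zero_add, smul_smul]
    rw [inv_mul_cancel₀ hsr.ne', one_smul]
  let F : ℝ → ℝ := fun t => inner ℝ (Y' t) (Y t) - 2 * inner ℝ (Z' t) (Y t) +
    inner ℝ (Z' t) (Z t)
  have hF : ∀ t, HasDerivAt F ((inner ℝ (Y' t) (Y' t) + inner ℝ (R t (Y t)) (Y t)) -
      2 * (inner ℝ (Z' t) (Y' t) + inner ℝ (Z t) (Y t)) +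
      (inner ℝ (Z' t) (Z' t) + inner ℝ (Z t) (Z t))) t := by
    intro t
    exact (((h2 t).inner ℝ (h1 t)).sub (((hZ' t).inner ℝ (h1 t)).const_mul 2)).add
      ((hZ' t).inner ℝ (hZ t))
  have hmono : Monotone F := by
    refine monotone_of_deriv_nonneg (fun t => (hF t).differentiableAt) fun t => ?_
    rw [(hF t).deriv]
    have e1 := hR t (Y t)
    have e2 : (0 : ℝ) ≤ ‖Y' t - Z' t‖ ^ 2 := sq_nonneg _
    have e3 : (0 : ℝ) ≤ ‖Y t - Z t‖ ^ 2 := sq_nonneg _
    rw [norm_sub_sq_real] at e2 e3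
    rw [real_inner_self_eq_norm_sq, real_inner_self_eq_norm_sq, real_inner_self_eq_norm_sq,
      real_inner_comm (Y' t) (Z' t), real_inner_comm (Y t) (Z t)]
    linarith
  have hle := hmono hr.le
  have hF0 : F 0 = inner ℝ (Y' 0) (Y 0) - inner ℝ (Z' 0) (Y 0) := by
    simp only [F, hZ0]
    ring
  have hFr : F r = inner ℝ (Y' r) (Y r) - inner ℝ (Z' r) (Y r) := by
    simp only [F, hZr]
    ring
  rw [hF0, hFr] at hle
  have e0 : inner ℝ (Z' 0) (Y 0) = (Real.sinh r)⁻¹ *
      (-Real.cosh r * ‖Y 0‖ ^ 2 + inner ℝ (Y 0) (Y r)) := by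
    simp only [Z', sub_zero, Real.cosh_zero, one_smul]
    rw [real_inner_smul_left, inner_add_left, real_inner_smul_left, real_inner_self_eq_norm_sq,
      real_inner_comm]
  have er : inner ℝ (Z' r) (Y r) = (Real.sinh r)⁻¹ *
      (-inner ℝ (Y 0) (Y r) + Real.cosh r * ‖Y r‖ ^ 2) := by
    simp only [Z', sub_self, Real.cosh_zero, neg_smul, one_smul]
    rw [real_inner_smul_left, inner_add_left, inner_neg_left, real_inner_smul_left,
      real_inner_self_eq_norm_sq]
  rw [e0, er] at hle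
  have hfin : TP.cth r * (‖Y 0‖ ^ 2 + ‖Y r‖ ^ 2) - 2 / Real.sinh r * inner ℝ (Y 0) (Y r) =
      (Real.sinh r)⁻¹ * (-inner ℝ (Y 0) (Y r) + Real.cosh r * ‖Y r‖ ^ 2) -
      (Real.sinh r)⁻¹ * (-Real.cosh r * ‖Y 0‖ ^ 2 + inner ℝ (Y 0) (Y r)) := by
    unfold TP.cth
    field_simp
    ring
  rw [hfin]
  linarith only [hle]

/-- The two-ended comparison. `A` is the Jacobi tensor vanishing at `0`, `B` the one vanishing at
`r` (`B' r = -1`). PROOF: jt_index with `Y = b A A(r)⁻¹ f - a B B(0)⁻¹ f`, `f` in an orthonormal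
basis, `B 0 = (A r)ᵀ`, trace_le_of_contraction for `sinh r • (A r)⁻¹`. -/
theorem jt_bonus (hW : 1 ≤ Module.finrank ℝ W)
    (hA : JT R A A') (h0 : A 0 = 0) (h1 : A' 0 = ContinuousLinearMap.id ℝ W)
    (hs : ∀ t v w, inner ℝ (R t v) w = inner ℝ v (R t w))
    (hR : ∀ t w, ‖w‖ ^ 2 ≤ inner ℝ (R t w) w) (hRc : Continuous R) {r : ℝ} (hr : 0 < r)
    (hB : JT R B B') (hB0 : B r = 0) (hB1 : B' r = -ContinuousLinearMap.id ℝ W) {a b : ℝ}
    (ha : 0 ≤ a) (hb : 0 ≤ b) :
    2 * a * b / Real.sinh r * (1 - Real.sinh r ^ Module.finrank ℝ W / |(A r).det|) ≤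
      b ^ 2 * (LinearMap.trace ℝ W ((A' r).comp (A r).inverse).toLinearMap -
          Module.finrank ℝ W * TP.cth r) +
        a ^ 2 * (-LinearMap.trace ℝ W ((B' 0).comp (B 0).inverse).toLinearMap -
          Module.finrank ℝ W * TP.cth r) := by
  have hsr : 0 < Real.sinh r := Real.sinh_pos_iff.2 hr
  -- A r is invertible
  have hexp : ∀ w, Real.sinh r * ‖w‖ ≤ ‖A r w‖ := fun w =>
    (jt_mono hA h0 h1 hR w (le_refl 0) hr.le).2
  have hinjA : Function.Injective (A r) := by
    refine (injective_iff_map_eq_zero (A r)).2 fun w hw => ?_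
    have := hexp w
    rw [hw, norm_zero] at this
    have h3 : ‖w‖ ≤ 0 := by
      by_contra hc
      push Not at hc
      have := mul_pos hsr hc
      linarith
    exact norm_le_zero_iff.1 h3
  have htr : ∀ v w, inner ℝ v (B 0 w) = inner ℝ (A r v) w := by
    intro v w
    have h := jt_wronskian hA hB hs v w 0 r
    rw [h0, h1, hB0, hB1] at h
    simp only [ContinuousLinearMap.id_apply, _root_.zero_apply, inner_zero_left,
      inner_zero_right, _root_.neg_apply, inner_neg_right, sub_zero, zero_sub,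
      neg_neg] at h
    exact h
  let eA : W ≃L[ℝ] W :=
    (LinearEquiv.ofInjectiveEndo (A r).toLinearMap hinjA).toContinuousLinearEquiv
  have heA : (eA : W →L[ℝ] W) = A r := by
    ext w
    rfl
  have hinjB : Function.Injective (B 0) := by
    refine (injective_iff_map_eq_zero (B 0)).2 fun w hw => ?_
    have h3 := htr (eA.symm w) w
    rw [hw, inner_zero_right, ← heA] at h3
    simp only [ContinuousLinearEquiv.coe_coe, ContinuousLinearEquiv.apply_symm_apply] at h3
    exact inner_self_eq_zero.1 h3.symm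
  let eB : W ≃L[ℝ] W :=
    (LinearEquiv.ofInjectiveEndo (B 0).toLinearMap hinjB).toContinuousLinearEquiv
  have heB : (eB : W →L[ℝ] W) = B 0 := by
    ext w
    rfl
  have hinvA : (A r).inverse = (eA.symm : W →L[ℝ] W) := by
    rw [← heA, ContinuousLinearMap.inverse_equiv]
  have hinvB : (B 0).inverse = (eB.symm : W →L[ℝ] W) := by
    rw [← heB, ContinuousLinearMap.inverse_equiv]
  have hAe : ∀ w, A r (eA.symm w) = w := fun w => eA.apply_symm_apply w
  have hBe : ∀ w, B 0 (eB.symm w) = w := fun w => eB.apply_symm_apply w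
  let bs := stdOrthonormalBasis ℝ W
  -- the index inequality for one vector
  have key : ∀ f : W, ‖f‖ = 1 → TP.cth r * (a ^ 2 + b ^ 2) + 2 * a * b / Real.sinh r ≤
      b ^ 2 * inner ℝ f (A' r (eA.symm f)) + a * b * inner ℝ f (eB.symm f) +
      a * b * inner ℝ f (eA.symm f) - a ^ 2 * inner ℝ f (B' 0 (eB.symm f)) := by
    intro f hf
    have hY : ∀ t, HasDerivAt (fun t => b • A t (eA.symm f) - a • B t (eB.symm f))
        (b • A' t (eA.symm f) - a • B' t (eB.symm f)) t := by
      intro t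
      have e1 : HasDerivAt (fun t => A t (eA.symm f)) (A' t (eA.symm f)) t := by
        simpa using (hA.d1 t).clm_apply (hasDerivAt_const t (eA.symm f))
      have e2 : HasDerivAt (fun t => B t (eB.symm f)) (B' t (eB.symm f)) t := by
        simpa using (hB.d1 t).clm_apply (hasDerivAt_const t (eB.symm f))
      exact (e1.const_smul b).sub (e2.const_smul a)
    have hY' : ∀ t, HasDerivAt (fun t => b • A' t (eA.symm f) - a • B' t (eB.symm f))
        (R t (b • A t (eA.symm f) - a • B t (eB.symm f))) t := by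
      intro t
      have e1 : HasDerivAt (fun t => A' t (eA.symm f)) (R t (A t (eA.symm f))) t := by
        simpa using (hA.d2 t).clm_apply (hasDerivAt_const t (eA.symm f))
      have e2 : HasDerivAt (fun t => B' t (eB.symm f)) (R t (B t (eB.symm f))) t := by
        simpa using (hB.d2 t).clm_apply (hasDerivAt_const t (eB.symm f))
      have e3 : R t (b • A t (eA.symm f) - a • B t (eB.symm f)) =
          b • R t (A t (eA.symm f)) - a • R t (B t (eB.symm f)) := by
        rw [map_sub, map_smul, map_smul]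
      rw [e3]
      exact (e1.const_smul b).sub (e2.const_smul a)
    have h := jt_index hR hr hY hY' hRc
    simp only [h0, hB0, hB1, h1, _root_.zero_apply, smul_zero, zero_sub, sub_zero,
      hAe, hBe, _root_.neg_apply, ContinuousLinearMap.id_apply, smul_neg,
      sub_neg_eq_add, norm_neg, norm_smul, hf, mul_one, Real.norm_eq_abs, sq_abs, inner_neg_left,
      inner_neg_right, inner_smul_left, inner_smul_right, inner_add_left, inner_sub_left,
      real_inner_self_eq_norm_sq, RCLike.conj_to_real, one_pow] at h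
    rw [real_inner_comm f (A' r (eA.symm f)), real_inner_comm f (eB.symm f),
      real_inner_comm f (eA.symm f), real_inner_comm f (B' 0 (eB.symm f))] at h
    have e5 : TP.cth r * (a ^ 2 + b ^ 2) + 2 * a * b / Real.sinh r =
      TP.cth r * (a ^ 2 + b ^ 2) - 2 / Real.sinh r * (b * -a) := by ring
    rw [e5]
    refine h.trans (le_of_eq ?_)
    ring
  have hsymm : ∀ f : W, inner ℝ f (eB.symm f) = inner ℝ f (eA.symm f) := by
    intro f
    have h3 := htr (eA.symm f) (eB.symm f)
    rw [hBe, hAe] at h3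
    rw [← h3, real_inner_comm]
  -- the sum over an orthonormal basis
  have t1 : LinearMap.trace ℝ W ((A' r).comp (A r).inverse).toLinearMap =
      ∑ i, inner ℝ (bs i) (A' r (eA.symm (bs i))) := by
    rw [LinearMap.trace_eq_sum_inner _ bs, hinvA]
    rfl
  have t2 : LinearMap.trace ℝ W ((B' 0).comp (B 0).inverse).toLinearMap =
      ∑ i, inner ℝ (bs i) (B' 0 (eB.symm (bs i))) := by
    rw [LinearMap.trace_eq_sum_inner _ bs, hinvB]
    rfl
  have t0 : LinearMap.trace ℝ W (eA.symm : W →L[ℝ] W).toLinearMap =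
      ∑ i, inner ℝ (bs i) (eA.symm (bs i)) := by
    rw [LinearMap.trace_eq_sum_inner _ bs]
    rfl
  have hsum : (Module.finrank ℝ W : ℝ) * (TP.cth r * (a ^ 2 + b ^ 2) + 2 * a * b / Real.sinh r) ≤
      b ^ 2 * LinearMap.trace ℝ W ((A' r).comp (A r).inverse).toLinearMap +
      2 * a * b * LinearMap.trace ℝ W (eA.symm : W →L[ℝ] W).toLinearMap -
      a ^ 2 * LinearMap.trace ℝ W ((B' 0).comp (B 0).inverse).toLinearMap := by
    rw [t0, t1, t2, Finset.mul_sum, Finset.mul_sum, Finset.mul_sum, ← Finset.sum_add_distrib,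
      ← Finset.sum_sub_distrib]
    have hc : (Module.finrank ℝ W : ℝ) *
        (TP.cth r * (a ^ 2 + b ^ 2) + 2 * a * b / Real.sinh r) =
        ∑ _i : Fin (Module.finrank ℝ W),
          (TP.cth r * (a ^ 2 + b ^ 2) + 2 * a * b / Real.sinh r) := by
      rw [Finset.sum_const, Finset.card_univ, Fintype.card_fin, nsmul_eq_mul]
    rw [hc]
    refine Finset.sum_le_sum fun i _ => ?_
    have h := key (bs i) (bs.orthonormal.1 i)
    rw [hsymm] at h
    linarith
  -- the contraction
  have hcon := trace_le_of_contraction (B := Real.sinh r • (eA.symm : W →L[ℝ] W)) (by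
    intro w
    rw [_root_.smul_apply, norm_smul, Real.norm_of_nonneg hsr.le]
    have := hexp (eA.symm w)
    rwa [hAe] at this) hW
  have hdet : (Real.sinh r • (eA.symm : W →L[ℝ] W)).det =
      Real.sinh r ^ Module.finrank ℝ W * ((A r).det)⁻¹ := by
    have e1 : (Real.sinh r • (eA.symm : W →L[ℝ] W)).det =
        LinearMap.det (Real.sinh r • (eA.symm : W →L[ℝ] W).toLinearMap) := rfl
    have e2 : LinearMap.det (eA.symm : W →L[ℝ] W).toLinearMap * (A r).det = 1 := by
      have e3 : (A r).det = LinearMap.det (A r).toLinearMap := rfl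
      rw [e3, ← LinearMap.det_comp]
      have e4 : (eA.symm : W →L[ℝ] W).toLinearMap ∘ₗ (A r).toLinearMap = LinearMap.id := by
        ext w
        exact eA.symm_apply_apply w
      rw [e4, LinearMap.det_id]
    rw [e1, LinearMap.det_smul, eq_inv_of_mul_eq_one_left e2]
  have htrs : LinearMap.trace ℝ W (Real.sinh r • (eA.symm : W →L[ℝ] W)).toLinearMap =
      Real.sinh r * LinearMap.trace ℝ W (eA.symm : W →L[ℝ] W).toLinearMap := by
    have e1 : (Real.sinh r • (eA.symm : W →L[ℝ] W)).toLinearMap =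
      Real.sinh r • (eA.symm : W →L[ℝ] W).toLinearMap := rfl
    rw [e1, map_smul, smul_eq_mul]
  rw [hdet, htrs, abs_mul, abs_inv, abs_of_pos (pow_pos hsr _)] at hcon
  have hcon2 : (1 - Real.sinh r ^ Module.finrank ℝ W / |(A r).det|) / Real.sinh r ≤
      (Module.finrank ℝ W : ℝ) / Real.sinh r -
        LinearMap.trace ℝ W (eA.symm : W →L[ℝ] W).toLinearMap := by
    rw [div_le_iff₀ hsr, sub_mul, div_mul_cancel₀ _ hsr.ne', div_eq_mul_inv]
    linarith only [hcon]
  have h2ab : 0 ≤ 2 * a * b := by (clear * - ha hb; positivity)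
  have hfin := mul_le_mul_of_nonneg_left hcon2 h2ab
  have e7 : 2 * a * b / Real.sinh r *
      (1 - Real.sinh r ^ Module.finrank ℝ W / |(A r).det|) =
      2 * a * b * ((1 - Real.sinh r ^ Module.finrank ℝ W / |(A r).det|) / Real.sinh r) := by
    ring
  rw [e7]
  refine hfin.trans ?_
  have e8 : (Module.finrank ℝ W : ℝ) *
      (TP.cth r * (a ^ 2 + b ^ 2) + 2 * a * b / Real.sinh r) =
      Module.finrank ℝ W * TP.cth r * a ^ 2 + Module.finrank ℝ W * TP.cth r * b ^ 2 +
      2 * a * b * ((Module.finrank ℝ W : ℝ) / Real.sinh r) := by ring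
  rw [e8] at hsum
  linarith only [hsum]

section Det

open Finset in
lemma jtdet_sum {ι : Type*} [Fintype ι] [DecidableEq ι] (X Y : Matrix ι ι ℝ) :
    ∑ σ : Equiv.Perm ι, ((Equiv.Perm.sign σ : ℤ) : ℝ) *
      ∑ i, (∏ j ∈ univ.erase i, X (σ j) j) * Y (σ i) i =
      (X.adjugate * Y).trace := by
  simp only [Finset.mul_sum]
  rw [Finset.sum_comm]
  rw [Matrix.trace]
  refine Finset.sum_congr rfl fun i _ => ?_
  have h1 : (X.adjugate * Y).diag i = (X.updateCol i (fun j => Y j i)).det := by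
    rw [← Matrix.cramer_apply, Matrix.cramer_eq_adjugate_mulVec]
    simp [Matrix.mul_apply, Matrix.mulVec, dotProduct, Matrix.diag]
  rw [h1, Matrix.det_apply']
  refine Finset.sum_congr rfl fun σ _ => ?_
  have : ∏ k, (X.updateCol i (fun j => Y j i)) (σ k) k =
      (∏ j ∈ univ.erase i, X (σ j) j) * Y (σ i) i := by
    rw [← Finset.prod_erase_mul univ _ (Finset.mem_univ i)]
    congr 1
    · refine Finset.prod_congr rfl fun j hj => ?_
      rw [Matrix.updateCol_ne (Finset.ne_of_mem_erase hj)]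
    · simp
  rw [this]

lemma jtdet_log {ι : Type*} [Fintype ι] [DecidableEq ι] {M : ℝ → Matrix ι ι ℝ}
    {M' : Matrix ι ι ℝ} {t : ℝ} (hM : ∀ i j, HasDerivAt (fun s => M s i j) (M' i j) t)
    (h : (M t).det ≠ 0) :
    HasDerivAt (fun x => Real.log |(M x).det|) ((M t)⁻¹ * M').trace t := by
  have h0 : HasDerivAt (fun x => (M x).det) ((M t).adjugate * M').trace t := by
    rw [← jtdet_sum]
    simp only [Matrix.det_apply']
    refine HasDerivAt.fun_sum fun σ _ => ?_
    have h := HasDerivAt.fun_finsetProd (u := (Finset.univ : Finset ι)) (x := t)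
      (f := fun i x => M x (σ i) i) (f' := fun i => M' (σ i) i) (fun i _ => hM (σ i) i)
    simp only [smul_eq_mul] at h
    exact h.const_mul _
  have h1 := h0.log h
  simp only [Real.log_abs]
  convert h1 using 1
  rw [Matrix.inv_def, Matrix.smul_mul, Matrix.trace_smul, Ring.inverse_eq_inv', smul_eq_mul]
  field_simp

end Det

/-- Jacobi's formula. -/
theorem jt_log_det {A A' : ℝ → W →L[ℝ] W} {t : ℝ} (h : HasDerivAt A (A' t) t)
    (hd : (A t).det ≠ 0) :
    HasDerivAt (fun s => Real.log |(A s).det|)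
      (LinearMap.trace ℝ W ((A' t).comp (A t).inverse).toLinearMap) t := by
  classical
  set b := Module.finBasis ℝ W with hb
  set M : ℝ → Matrix _ _ ℝ := fun s => LinearMap.toMatrix b b (A s).toLinearMap with hM
  set M' : Matrix _ _ ℝ := LinearMap.toMatrix b b (A' t).toLinearMap with hM'
  have hdet : ∀ s, (A s).det = (M s).det := by
    intro s
    rw [hM, LinearMap.det_toMatrix]
  have hent : ∀ i j, HasDerivAt (fun s => M s i j) (M' i j) t := by
    intro i j
    have h1 : HasDerivAt (fun s => A s (b j)) (A' t (b j)) t := by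
      simpa using h.clm_apply (hasDerivAt_const t (b j))
    have h2 := ((b.coord i).toContinuousLinearMap.hasFDerivAt
      (x := A t (b j))).comp_hasDerivAt t h1
    have e1 : ∀ s, M s i j = (b.coord i).toContinuousLinearMap (A s (b j)) := by
      intro s
      simp [hM, LinearMap.toMatrix_apply]
    have e2 : M' i j = (b.coord i).toContinuousLinearMap (A' t (b j)) := by
      simp [hM', LinearMap.toMatrix_apply]
    simp only [e1, e2]
    exact h2
  have hMd : (M t).det ≠ 0 := by rw [← hdet]; exact hd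
  have hmain := jtdet_log hent hMd
  simp only [← hdet] at hmain
  convert hmain using 1
  -- the traces
  have hinv : (A t).comp (A t).inverse = ContinuousLinearMap.id ℝ W := by
    set e := (A t).toContinuousLinearEquivOfDetNeZero hd with he
    have h1 : (e : W →L[ℝ] W) = A t := by
      ext x; simp [he]
    rw [← h1, ContinuousLinearMap.inverse_equiv]
    ext x; simp
  have hMi : LinearMap.toMatrix b b ((A t).inverse).toLinearMap = (M t)⁻¹ := by
    symm
    apply Matrix.inv_eq_right_inv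
    rw [hM]
    simp only
    rw [← LinearMap.toMatrix_comp b b b]
    have : (A t).toLinearMap ∘ₗ ((A t).inverse).toLinearMap = LinearMap.id := by
      ext x
      have := congrArg (fun f : W →L[ℝ] W => f x) hinv
      simpa using this
    rw [this, LinearMap.toMatrix_id]
  rw [LinearMap.trace_eq_matrix_trace ℝ b]
  have hc : ((A' t).comp (A t).inverse).toLinearMap =
      (A' t).toLinearMap ∘ₗ ((A t).inverse).toLinearMap := rfl
  rw [hc, LinearMap.toMatrix_comp b b b, hMi, Matrix.trace_mul_comm]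

end Vale.Agent.P219.CH
end

section

/-!
Cartan-Hadamard: an expanding local diffeomorphism of a finite dimensional space is bijective;
the smooth logarithm.
-/

open Set Filter Topology
open scoped ContDiff unitInterval
open Vale.Agent.P255

noncomputable section

namespace Vale.Agent.P219.CH

variable {V : Type} [NormedAddCommGroup V] [NormedSpace ℝ V] [FiniteDimensional ℝ V]
variable {G : V → V →L[ℝ] V →L[ℝ] ℝ}

/-- the injective differential as an equivalence -/
theorem hadamard_exists_equiv {W : Type} [NormedAddCommGroup W] [NormedSpace ℝ W]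
    [FiniteDimensional ℝ W] (A : W →L[ℝ] W) (hinj : ∀ z, A z = 0 → z = 0) :
    ∃ L : W ≃L[ℝ] W, (L : W →L[ℝ] W) = A := by
  have hinj' : Function.Injective (A : W →ₗ[ℝ] W) := by
    rw [← LinearMap.ker_eq_bot, LinearMap.ker_eq_bot']
    exact hinj
  refine ⟨(LinearEquiv.ofInjectiveEndo (A : W →ₗ[ℝ] W) hinj').toContinuousLinearEquiv, ?_⟩
  ext z; rfl

theorem hadamard_isLocalHomeomorph {W : Type} [NormedAddCommGroup W] [NormedSpace ℝ W]
    [FiniteDimensional ℝ W] {f : W → W} (hf : ContDiff ℝ ∞ f)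
    (hinj : ∀ v z, fderiv ℝ f v z = 0 → z = 0) : IsLocalHomeomorph f := by
  have : CompleteSpace W := FiniteDimensional.complete ℝ W
  apply IsLocalHomeomorph.mk
  intro v
  obtain ⟨L, hL⟩ := hadamard_exists_equiv (fderiv ℝ f v) (hinj v)
  have hFd : HasFDerivAt f (L : W →L[ℝ] W) v := by
    rw [hL]; exact (hf.differentiable (by simp) v).hasFDerivAt
  have hcd : ContDiffAt ℝ 1 f v := (hf.of_le (by exact_mod_cast le_top)).contDiffAt
  exact ⟨hcd.toOpenPartialHomeomorph f hFd one_ne_zero,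
    hcd.mem_toOpenPartialHomeomorph_source hFd one_ne_zero, fun z _ => rfl⟩

/-- derivative of a local lift through a map with injective derivative -/
theorem hadamard_hasDerivAt_lift {F : V → V} {c x : ℝ → V} {t : ℝ} {w : V}
    (hF : ContDiffAt ℝ 1 F (c t)) (hinj : ∀ z, fderiv ℝ F (c t) z = 0 → z = 0)
    (hc : ContinuousAt c t) (hx : ∀ᶠ s in 𝓝 t, F (c s) = x s) (hxd : HasDerivAt x w t) :
    ∃ c' : V, HasDerivAt c c' t ∧ fderiv ℝ F (c t) c' = w := by
  have : CompleteSpace V := FiniteDimensional.complete ℝ V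
  obtain ⟨L, hL⟩ := hadamard_exists_equiv (fderiv ℝ F (c t)) hinj
  have hFd : HasFDerivAt F (L : V →L[ℝ] V) (c t) := by
    rw [hL]; exact (hF.differentiableAt one_ne_zero).hasFDerivAt
  let φ := hF.toOpenPartialHomeomorph F hFd one_ne_zero
  have hφ : ∀ z, φ z = F z := fun z => rfl
  have hmem : c t ∈ φ.source := hF.mem_toOpenPartialHomeomorph_source hFd one_ne_zero
  have hev : ∀ᶠ s in 𝓝 t, c s = φ.symm (x s) := by
    have h1 : ∀ᶠ s in 𝓝 t, c s ∈ φ.source := hc (φ.open_source.mem_nhds hmem)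
    filter_upwards [h1, hx] with s h2 h3
    rw [← h3, ← hφ, φ.left_inv h2]
  have hxt : x t = F (c t) := hx.self_of_nhds.symm
  have htar : x t ∈ φ.target := by rw [hxt, ← hφ]; exact φ.map_source hmem
  have hsymm : φ.symm (x t) = c t := by rw [hxt, ← hφ, φ.left_inv hmem]
  have h4 : HasFDerivAt φ.symm (L.symm : V →L[ℝ] V) (x t) := by
    apply φ.hasFDerivAt_symm htar
    rw [hsymm]
    exact hFd
  have h5 : HasDerivAt (φ.symm ∘ x) (L.symm w) t := h4.comp_hasDerivAt t hxd
  refine ⟨L.symm w, h5.congr_of_eventuallyEq hev, ?_⟩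
  rw [← hL]
  exact L.apply_symm_apply w

theorem hadamard_form_lower (B : V →L[ℝ] V →L[ℝ] ℝ) (hp : ∀ v, v ≠ 0 → 0 < B v v) :
    ∃ c : ℝ, 0 < c ∧ ∀ v : V, c * ‖v‖ ^ 2 ≤ B v v := by
  have : ProperSpace V := FiniteDimensional.proper ℝ V
  have hcont : Continuous fun v : V => B v v := by continuity
  rcases (Metric.sphere (0 : V) 1).eq_empty_or_nonempty with h | h
  · refine ⟨1, one_pos, fun v => ?_⟩
    have hv : v = 0 := by
      by_contra hv
      have : (‖v‖⁻¹ • v) ∈ Metric.sphere (0 : V) 1 := by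
        simp [norm_smul, inv_mul_cancel₀ (norm_ne_zero_iff.2 hv)]
      rw [h] at this
      exact this
    simp [hv]
  · obtain ⟨v₀, hv₀, hmin⟩ := (isCompact_sphere (0 : V) 1).exists_isMinOn h
      hcont.continuousOn
    have hv₀0 : v₀ ≠ 0 := by
      rintro rfl
      simp at hv₀
    refine ⟨B v₀ v₀, hp v₀ hv₀0, fun v => ?_⟩
    rcases eq_or_ne v 0 with rfl | hv
    · simp
    · have hn : 0 < ‖v‖ := norm_pos_iff.2 hv
      have hmem : (‖v‖⁻¹ • v) ∈ Metric.sphere (0 : V) 1 := by
        simp [norm_smul, inv_mul_cancel₀ hn.ne']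
      have h1 : B v₀ v₀ ≤ B (‖v‖⁻¹ • v) (‖v‖⁻¹ • v) := hmin hmem
      simp only [map_smul, smul_apply, smul_eq_mul] at h1
      have h2 : ‖v‖⁻¹ * (‖v‖⁻¹ * B v v) * ‖v‖ ^ 2 = B v v := by
        field_simp
      calc B v₀ v₀ * ‖v‖ ^ 2
          ≤ ‖v‖⁻¹ * (‖v‖⁻¹ * B v v) * ‖v‖ ^ 2 :=
            mul_le_mul_of_nonneg_right h1 (by positivity)
        _ = B v v := h2

omit [FiniteDimensional ℝ V] in
/-- a path with bounded speed on the open interval is Lipschitz on the closed interval -/
theorem hadamard_lipschitz {Γ : ℝ → V} {T C : ℝ} (hc : ContinuousOn Γ (Icc 0 T))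
    (hd : ∀ t ∈ Ioo 0 T, ∃ c', HasDerivAt Γ c' t ∧ ‖c'‖ ≤ C) :
    ∀ t ∈ Icc 0 T, ‖Γ t - Γ 0‖ ≤ C * t := by
  choose! d hd1 hd2 using hd
  intro t ht
  rcases eq_or_lt_of_le ht.1 with h0 | h0
  · subst h0; simp
  have h1 : ∀ ε ∈ Ioo (0 : ℝ) t, ‖Γ t - Γ ε‖ ≤ C * (t - ε) := by
    intro ε hε
    refine norm_image_sub_le_of_norm_deriv_right_le_segment (f' := d)
      (hc.mono (Icc_subset_Icc hε.1.le ht.2)) (fun x hx => ?_) (fun x hx => ?_) t
      ⟨hε.2.le, le_rfl⟩
    · exact (hd1 x ⟨hε.1.trans_le hx.1, hx.2.trans_le ht.2⟩).hasDerivWithinAt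
    · exact hd2 x ⟨hε.1.trans_le hx.1, hx.2.trans_le ht.2⟩
  have h2 : Tendsto (fun ε => ‖Γ t - Γ ε‖) (𝓝[Ioo 0 t] 0) (𝓝 ‖Γ t - Γ 0‖) := by
    have h3 : Tendsto Γ (𝓝[Ioo 0 t] 0) (𝓝 (Γ 0)) :=
      (hc 0 ⟨le_rfl, h0.le.trans ht.2⟩).mono_left
        (nhdsWithin_mono _ (fun x hx => ⟨hx.1.le, hx.2.le.trans ht.2⟩))
    exact (tendsto_const_nhds.sub h3).norm
  have h4 : Tendsto (fun ε => C * (t - ε)) (𝓝[Ioo 0 t] 0) (𝓝 (C * (t - 0))) := by
    have : Continuous fun ε : ℝ => C * (t - ε) := by fun_prop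
    exact this.continuousAt.mono_left nhdsWithin_le_nhds
  have hne : (𝓝[Ioo 0 t] (0 : ℝ)).NeBot := by
    rw [nhdsWithin_Ioo_eq_nhdsGT h0]
    infer_instance
  have h5 := le_of_tendsto_of_tendsto h2 h4 (by
    filter_upwards [self_mem_nhdsWithin] with ε hε using h1 ε hε)
  simpa using h5

/-- lifting of segments -/
theorem hadamard_exists_lift {f : V → V} (hf : ContDiff ℝ ∞ f) (hG : Continuous G)
    (Q : V →L[ℝ] V →L[ℝ] ℝ) (hQ : ∀ v, v ≠ 0 → 0 < Q v v)
    (hexp : ∀ v w, Q w w ≤ G (f v) (fderiv ℝ f v w) (fderiv ℝ f v w))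
    (hinj : ∀ v z, fderiv ℝ f v z = 0 → z = 0) (y : V) :
    ∃ Γ, IsLiftOn f (fun t : ℝ => f 0 + t • (y - f 0)) 0 1 Γ := by
  have : ProperSpace V := FiniteDimensional.proper ℝ V
  obtain ⟨c, hc0, hc⟩ := hadamard_form_lower Q hQ
  have hγ : Continuous fun t : ℝ => f 0 + t • (y - f 0) := by fun_prop
  obtain ⟨C, hC⟩ : ∃ C, ∀ t ∈ Icc (0 : ℝ) 1,
      G (f 0 + t • (y - f 0)) (y - f 0) (y - f 0) ≤ C := by
    have h1 : Continuous fun t : ℝ => G (f 0 + t • (y - f 0)) (y - f 0) (y - f 0) := by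
      have h2 : Continuous fun t : ℝ => G (f 0 + t • (y - f 0)) := hG.comp hγ
      exact (h2.clm_apply continuous_const).clm_apply continuous_const
    obtain ⟨C, hC⟩ := (isCompact_Icc.image h1).bddAbove
    exact ⟨C, fun t ht => hC (mem_image_of_mem _ ht)⟩
  have hC0 : 0 ≤ C / c ∨ C / c < 0 := le_or_gt _ _
  refine exists_lift (hadamard_isLocalHomeomorph hf hinj) hγ.continuousOn (by simp)
    (isCompact_closedBall (0 : V) (Real.sqrt (C / c))) ?_
  intro T hT Γ hΓ t ht
  have key := hadamard_lipschitz (C := Real.sqrt (C / c)) hΓ.1 (fun s hs => ?_) t ht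
  · rw [mem_closedBall_zero_iff]
    rw [hΓ.2.2, sub_zero] at key
    refine key.trans ?_
    have h1 : t ≤ 1 := ht.2.trans hT.2
    have h2 := Real.sqrt_nonneg (C / c)
    linarith only [mul_nonneg (sub_nonneg.2 h1) (sub_nonneg.2 h2)]
  · have hcs : ContinuousAt Γ s := hΓ.1.continuousAt (Icc_mem_nhds hs.1 hs.2)
    have hev : ∀ᶠ r in 𝓝 s, f (Γ r) = f 0 + r • (y - f 0) := by
      filter_upwards [Icc_mem_nhds hs.1 hs.2] with r hr using hΓ.2.1 r hr
    have hxd : HasDerivAt (fun t : ℝ => f 0 + t • (y - f 0)) (y - f 0) s := by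
      have := ((hasDerivAt_id s).smul_const (y - f 0)).const_add (f 0)
      simpa using this
    obtain ⟨c', h1, h2⟩ := hadamard_hasDerivAt_lift
      (hf.of_le (by exact_mod_cast le_top)).contDiffAt (hinj (Γ s)) hcs hev hxd
    refine ⟨c', h1, ?_⟩
    have h3 := hexp (Γ s) c'
    rw [h2, hev.self_of_nhds] at h3
    have h4 := hC s ⟨hs.1.le, hs.2.le.trans hT.2⟩
    have h5 := hc c'
    apply Real.le_sqrt_of_sq_le
    rw [le_div_iff₀ hc0]
    linarith

/-- An expanding local diffeomorphism of a finite dimensional space is bijective. Here `Q` is a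
fixed positive quadratic form and `G` any continuous metric. -/
theorem bijective_of_expanding {f : V → V} (hf : ContDiff ℝ ∞ f) (hG : Continuous G)
    (hpos : ∀ x v, 0 ≤ G x v v) (Q : V →L[ℝ] V →L[ℝ] ℝ) (hQ : ∀ v, v ≠ 0 → 0 < Q v v)
    (hexp : ∀ v w, Q w w ≤ G (f v) (fderiv ℝ f v w) (fderiv ℝ f v w)) :
    Function.Bijective f := by
  have hinj : ∀ v z, fderiv ℝ f v z = 0 → z = 0 := by
    intro v z hz
    by_contra h
    have h1 := hexp v z
    rw [hz] at h1
    simp only [map_zero] at h1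
    exact absurd (hQ z h) (not_lt.2 h1)
  have hloc := hadamard_isLocalHomeomorph hf hinj
  have hsep : IsSeparatedMap f := T2Space.isSeparatedMap f
  choose Γ hΓ using hadamard_exists_lift hf hG Q hQ hexp hinj
  let H : C(I × V, V) := ⟨fun q => f 0 + (q.1 : ℝ) • (q.2 - f 0), by fun_prop⟩
  have hcont : Continuous fun q : I × V => Γ q.2 (q.1 : ℝ) := by
    refine hloc.continuous_lift hsep H ?_ ?_ ?_
    · ext q
      exact (hΓ q.2).2.1 q.1 q.1.2
    · have : (fun y => Γ y ((0 : I) : ℝ)) = fun _ => (0 : V) := by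
        funext y
        exact (hΓ y).2.2
      simp only [this]
      exact continuous_const
    · intro y
      exact (hΓ y).1.comp_continuous continuous_subtype_val (fun t => t.2)
  let s : V → V := fun y => Γ y 1
  have hs : Continuous s := by
    have h1 : Continuous fun y : V => ((1 : I), y) := by fun_prop
    exact hcont.comp h1
  have hfs : ∀ y, f (s y) = y := by
    intro y
    have := (hΓ y).2.1 1 ⟨zero_le_one, le_rfl⟩
    simpa using this
  have hs0 : s (f 0) = 0 := by
    have h1 : (fun t : I => Γ (f 0) (t : ℝ)) = fun _ => (0 : V) := by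
      refine hsep.eq_of_comp_eq hloc.isLocallyInjective
        ((hΓ (f 0)).1.comp_continuous continuous_subtype_val (fun t => t.2)) continuous_const
        ?_ (0 : I) (hΓ (f 0)).2.2
      ext t
      have := (hΓ (f 0)).2.1 t t.2
      simpa using this
    have := congrFun h1 (1 : I)
    simpa using this
  have hsf : ∀ v, s (f v) = v := by
    intro v
    have h1 : (fun t : ℝ => s (f (t • v))) = fun t : ℝ => t • v := by
      have hfc : Continuous f := hf.continuous
      refine hsep.eq_of_comp_eq hloc.isLocallyInjective ?_ (by fun_prop) ?_ (0 : ℝ) ?_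
      · exact hs.comp (hfc.comp (by fun_prop))
      · ext t
        exact hfs _
      · simpa using hs0
    have := congrFun h1 (1 : ℝ)
    simpa using this
  exact ⟨Function.LeftInverse.injective hsf, Function.RightInverse.surjective hfs⟩

/-- the inverse of a smooth bijection with injective differentials is smooth -/
theorem hadamard_inverse_smooth {W : Type} [NormedAddCommGroup W] [NormedSpace ℝ W]
    [FiniteDimensional ℝ W] {f g : W → W} (hf : ContDiff ℝ ∞ f)
    (hinj : ∀ v z, fderiv ℝ f v z = 0 → z = 0) (hfg : ∀ y, f (g y) = y)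
    (hgf : ∀ v, g (f v) = v) : ContDiff ℝ ∞ g := by
  have : CompleteSpace W := FiniteDimensional.complete ℝ W
  rw [contDiff_iff_contDiffAt]
  intro y
  obtain ⟨L, hL⟩ := hadamard_exists_equiv (fderiv ℝ f (g y)) (hinj (g y))
  have hFd : HasFDerivAt f (L : W →L[ℝ] W) (g y) := by
    rw [hL]; exact (hf.differentiable (by simp) _).hasFDerivAt
  have hcd : ContDiffAt ℝ ∞ f (g y) := hf.contDiffAt
  have hn : (∞ : WithTop ℕ∞) ≠ 0 := by simp
  let φ := hcd.toOpenPartialHomeomorph f hFd hn
  have hmem : y ∈ φ.target := by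
    have := hcd.image_mem_toOpenPartialHomeomorph_target hFd hn
    rwa [hfg] at this
  have h1 := hcd.to_localInverse hFd hn
  rw [hfg] at h1
  refine h1.congr_of_eventuallyEq ?_
  filter_upwards [φ.open_target.mem_nhds hmem] with z hz
  have h2 : f (hcd.localInverse hFd hn z) = z := φ.right_inv hz
  have h3 := congrArg g h2
  rw [hgf] at h3
  exact h3.symm

/-- the smooth logarithm, from the expansion property of the exponential map -/
theorem exists_log_of_expanding (F : GFlow G) (h : IsMetricOn G univ)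
    (hexpand : ∀ x v w : V, G x w w ≤
      G (F.ex x v) (fderiv ℝ (F.ex x) v w) (fderiv ℝ (F.ex x) v w)) :
    ∃ lg : V → V → V, ContDiff ℝ ∞ (fun q : V × V => lg q.1 q.2) ∧
      (∀ x y, F.ex x (lg x y) = y) ∧ ∀ x v, lg x (F.ex x v) = v := by
  have hex : ContDiff ℝ ∞ fun q : V × V => F.ex q.1 q.2 := F.ex_smooth
  have hexx : ∀ x, ContDiff ℝ ∞ (F.ex x) := fun x => hex.comp (contDiff_const.prodMk contDiff_id)
  have hG : Continuous G := (contDiffOn_univ.1 h.smooth).continuous
  have hpos : ∀ x v, v ≠ 0 → 0 < G x v v := fun x => h.pos x (mem_univ x)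
  have hbij : ∀ x, Function.Bijective (F.ex x) := fun x =>
    bijective_of_expanding (hexx x) hG
      (fun y v => by
        rcases eq_or_ne v 0 with rfl | hv
        · simp
        · exact (hpos y v hv).le)
      (G x) (hpos x) (fun v w => hexpand x v w)
  let e : ∀ x, V ≃ V := fun x => Equiv.ofBijective (F.ex x) (hbij x)
  have he1 : ∀ x y, F.ex x ((e x).symm y) = y := fun x y => (e x).apply_symm_apply y
  have he2 : ∀ x v, (e x).symm (F.ex x v) = v := fun x v => (e x).symm_apply_apply v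
  refine ⟨fun x y => (e x).symm y, ?_, he1, he2⟩
  let Ψ : V × V → V × V := fun q => (q.1, F.ex q.1 q.2)
  have hΨ : ContDiff ℝ ∞ Ψ := contDiff_fst.prodMk hex
  have hinjx : ∀ x v w, fderiv ℝ (F.ex x) v w = 0 → w = 0 := by
    intro x v w hw
    by_contra hne
    have h1 := hexpand x v w
    rw [hw] at h1
    simp only [map_zero] at h1
    exact absurd (hpos x w hne) (not_lt.2 h1)
  have hinj : ∀ q z, fderiv ℝ Ψ q z = 0 → z = 0 := by
    rintro ⟨x, v⟩ ⟨a, b⟩ hz
    have hd : DifferentiableAt ℝ (fun q : V × V => F.ex q.1 q.2) (x, v) :=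
      hex.differentiable (by simp) _
    have h1 : fderiv ℝ Ψ (x, v) (a, b) =
        (a, fderiv ℝ (fun q : V × V => F.ex q.1 q.2) (x, v) (a, b)) := by
      have : HasFDerivAt Ψ ((ContinuousLinearMap.fst ℝ V V).prod
          (fderiv ℝ (fun q : V × V => F.ex q.1 q.2) (x, v))) (x, v) :=
        hasFDerivAt_fst.prodMk hd.hasFDerivAt
      rw [this.fderiv]
      rfl
    rw [h1] at hz
    have ha : a = 0 := congrArg Prod.fst hz
    have hb : fderiv ℝ (fun q : V × V => F.ex q.1 q.2) (x, v) (a, b) = 0 := congrArg Prod.snd hz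
    subst ha
    have h2 : fderiv ℝ (F.ex x) v b =
        fderiv ℝ (fun q : V × V => F.ex q.1 q.2) (x, v) (0, b) := by
      have h3 : HasFDerivAt (fun v : V => (x, v)) (ContinuousLinearMap.inr ℝ V V) v :=
        hasFDerivAt_prodMk_right x v
      have h4 : HasFDerivAt (F.ex x) ((fderiv ℝ (fun q : V × V => F.ex q.1 q.2) (x, v)).comp
          (ContinuousLinearMap.inr ℝ V V)) v := hd.hasFDerivAt.comp v h3
      rw [h4.fderiv]
      rfl
    rw [← h2] at hb
    rw [hinjx x v b hb]
    rfl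
  have hinv : ContDiff ℝ ∞ fun q : V × V => ((q.1, (e q.1).symm q.2) : V × V) := by
    refine hadamard_inverse_smooth hΨ hinj ?_ ?_
    · rintro ⟨x, y⟩
      exact Prod.ext rfl (he1 x y)
    · rintro ⟨x, v⟩
      exact Prod.ext rfl (he2 x v)
  exact contDiff_snd.comp hinv

end Vale.Agent.P219.CH
end
end

section

/-!
Cartan-Hadamard: the smooth logarithm.
-/

open Set Filter Topology
open scoped ContDiff
open Vale.Agent.P255

noncomputable section

namespace Vale.Agent.P219.CH

variable {V : Type} [NormedAddCommGroup V] [NormedSpace ℝ V] [FiniteDimensional ℝ V]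
variable {G : V → V →L[ℝ] V →L[ℝ] ℝ}

theorem exists_log (F : GFlow G) (h : IsMetricOn G univ)
    (hsec : ∀ x u v, G x (curv G x u v v) u ≤ 0) :
    ∃ lg : V → V → V, ContDiff ℝ ∞ (fun q : V × V => lg q.1 q.2) ∧
      (∀ x y, F.ex x (lg x y) = y) ∧ ∀ x v, lg x (F.ex x v) = v :=
  exists_log_of_expanding F h (F.expanding h hsec)

end Vale.Agent.P219.CH
end
end

section

/-!
Curvature bridge: the metric of a `RiemMetric` is a metric on the chart `univ`, and the
sectional curvature condition `SecLE` gives the sign condition for `curv`.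
-/

open Set Filter Topology
open scoped ContDiff
open Vale.Agent.P255

noncomputable section

namespace Vale.Agent.P219.CH

theorem isMetricOn {n : ℕ} (M : RiemMetric n) : IsMetricOn M.g univ where
  isOpen := isOpen_univ
  smooth := M.smooth.contDiffOn
  symm u _ v w := M.symm u v w
  pos u _ v hv := M.pos u v hv

/-- The Christoffel tensor is characterised by the Koszul formula. -/
theorem chris_eq_of_koszul {n : ℕ} (M : RiemMetric n) {Γ : E n → E n →L[ℝ] E n →L[ℝ] E n}
    (hK : ∀ x u v w, 2 * M.g x (Γ x u v) w =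
      fderiv ℝ M.g x u v w + fderiv ℝ M.g x v u w - fderiv ℝ M.g x w u v) (x u v : E n) :
    chris M.g x u v = Γ x u v := by
  have h := isMetricOn M
  apply h.ext_of (mem_univ x)
  intro z
  rw [h.chris_spec (mem_univ x), ← hK x u v z]
  ring

theorem fderiv_clm2 {V : Type} [NormedAddCommGroup V] [NormedSpace ℝ V]
    {Γ : V → V →L[ℝ] V →L[ℝ] V} {x : V} (hΓ : DifferentiableAt ℝ Γ x) (u v w : V) :
    fderiv ℝ (fun p => Γ p v w) x u = fderiv ℝ Γ x u v w := by
  have h2 := (hΓ.hasFDerivAt.clm_apply (hasFDerivAt_const v x)).clm_apply (hasFDerivAt_const w x)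
  rw [h2.fderiv]
  simp

theorem sec_nonpos {n : ℕ} (M : RiemMetric n) (hs : SecLE M 0) (x u v : E n) :
    M.g x (curv M.g x u v v) u ≤ 0 := by
  obtain ⟨Γ, hΓ, hK, hc⟩ := hs
  have hd : DifferentiableAt ℝ Γ x := hΓ.differentiable (by simp) x
  have hch : ∀ y a b, chris M.g y a b = Γ y a b := chris_eq_of_koszul M hK
  have e1 : ∀ a b : E n, (fun p => chris M.g p a b) = fun p => Γ p a b := fun a b => by
    funext p; exact hch p a b
  have h := hc x u v
  rw [zero_mul] at h
  unfold curv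
  rw [e1, e1, fderiv_clm2 hd, fderiv_clm2 hd]
  simp only [hch]
  exact h

end Vale.Agent.P219.CH
end
end

section

/-!
Exponential map, velocity and logarithm in an orthonormal frame.
-/

open Set Filter Topology
open scoped ContDiff
open Vale.Agent.P255

noncomputable section

namespace Vale.Agent.P219.CH

variable {n : ℕ} {M : RiemMetric n} {e : Fin n → E n → E n} (F : GFlow M.g)

/-- the exponential map in the frame -/
def exF (e : Fin n → E n → E n) (x v : E n) : E n := F.ex x (frA e x v)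

/-- the velocity at time `t` in the frame -/
def velF (e : Fin n → E n → E n) (t : ℝ) (x v : E n) : E n :=
  frB M e (exF F e x (t • v)) (F.vel t x (frA e x v))

theorem exF_smooth (he : TriangularFrame M e) :
    ContDiff ℝ ∞ fun q : E n × E n => exF F e q.1 q.2 := by
  unfold exF
  exact F.ex_smooth.comp (contDiff_fst.prodMk
    (((frA_smooth he).comp contDiff_fst).clm_apply contDiff_snd))

theorem velF_smooth (he : TriangularFrame M e) :
    ContDiff ℝ ∞ fun q : ℝ × E n × E n => velF F e q.1 q.2.1 q.2.2 := by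
  have h1 : ContDiff ℝ ∞ fun q : ℝ × E n × E n => exF F e q.2.1 (q.1 • q.2.2) :=
    (exF_smooth F he).comp ((contDiff_fst.comp contDiff_snd).prodMk
      (contDiff_fst.smul (contDiff_snd.comp contDiff_snd)))
  have h2 : ContDiff ℝ ∞ fun q : ℝ × E n × E n => frA e q.2.1 q.2.2 :=
    ((frA_smooth he).comp (contDiff_fst.comp contDiff_snd)).clm_apply
      (contDiff_snd.comp contDiff_snd)
  have h3 : ContDiff ℝ ∞ fun q : ℝ × E n × E n => F.vel q.1 q.2.1 (frA e q.2.1 q.2.2) :=
    F.vel_smooth.comp (contDiff_fst.prodMk ((contDiff_fst.comp contDiff_snd).prodMk h2))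
  exact ((frB_smooth he).comp h1).clm_apply h3

theorem frA_velF (he : TriangularFrame M e) (t : ℝ) (x v : E n) :
    frA e (exF F e x (t • v)) (velF F e t x v) = F.vel t x (frA e x v) :=
  frA_frB he _ _

theorem norm_velF (he : TriangularFrame M e) (t : ℝ) (x v : E n) : ‖velF F e t x v‖ = ‖v‖ := by
  have h : IsMetricOn M.g univ := isMetricOn M
  have h1 : ‖velF F e t x v‖ ^ 2 = ‖v‖ ^ 2 := by
    rw [velF, norm_frB_sq he, exF, map_smul, F.energy h, g_frA_self he]
  exact (pow_left_inj₀ (norm_nonneg _) (norm_nonneg _) two_ne_zero).1 h1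

theorem exF_add (he : TriangularFrame M e) (s t : ℝ) (x v : E n) :
    exF F e (exF F e x (s • v)) (t • velF F e s x v) = exF F e x ((s + t) • v) := by
  have h : IsMetricOn M.g univ := isMetricOn M
  have h1 : exF F e (exF F e x (s • v)) (t • velF F e s x v) =
      F.ex (exF F e x (s • v)) (t • frA e (exF F e x (s • v)) (velF F e s x v)) := by
    simp only [exF, map_smul]
  rw [h1, frA_velF F he]
  simp only [exF, map_smul]
  rw [F.ex_add h]

theorem velF_add (he : TriangularFrame M e) (s t : ℝ) (x v : E n) :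
    velF F e (s + t) x v = velF F e t (exF F e x (s • v)) (velF F e s x v) := by
  have h : IsMetricOn M.g univ := isMetricOn M
  have h1 : velF F e t (exF F e x (s • v)) (velF F e s x v) =
      frB M e (exF F e (exF F e x (s • v)) (t • velF F e s x v))
        (F.vel t (exF F e x (s • v)) (frA e (exF F e x (s • v)) (velF F e s x v))) := rfl
  rw [h1, frA_velF F he, exF_add F he]
  have h2 : velF F e (s + t) x v =
      frB M e (exF F e x ((s + t) • v)) (F.vel (s + t) x (frA e x v)) := rfl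
  rw [h2, F.vel_add h]
  congr 2
  simp only [exF, map_smul]

theorem exF_zero (x : E n) : exF F e x 0 = x := by
  have h : IsMetricOn M.g univ := isMetricOn M
  rw [exF, map_zero, F.ex_zero h]

theorem velF_zero (he : TriangularFrame M e) (x v : E n) : velF F e 0 x v = v := by
  have h1 : F.vel 0 x (frA e x v) = frA e x v := F.jac_vel_zero x _
  rw [velF, h1, zero_smul, exF_zero F, frB_frA he]

theorem hasDerivAt_exF (he : TriangularFrame M e) (t : ℝ) (x v : E n) :
    HasDerivAt (fun s : ℝ => exF F e x (s • v))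
      (frA e (exF F e x (t • v)) (velF F e t x v)) t := by
  have h : IsMetricOn M.g univ := isMetricOn M
  rw [frA_velF F he]
  have h1 : HasDerivAt (fun s : ℝ => F.ex x (s • frA e x v)) (F.vel t x (frA e x v)) t := by
    rw [← F.fderiv_ray h]
    have h2 : HasDerivAt (fun s : ℝ => s • frA e x v) (frA e x v) t := by
      simpa using (hasDerivAt_id t).smul_const (frA e x v)
    exact (F.jac_ex_diff x _).hasFDerivAt.comp_hasDerivAt t h2
  simpa only [exF, map_smul] using h1

/-- the differential of the exponential map, in the frames -/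
def dexF (M : RiemMetric n) (F : GFlow M.g) (e : Fin n → E n → E n) (x v : E n) :
    E n →L[ℝ] E n :=
  (frB M e (exF F e x v)).comp (fderiv ℝ (exF F e x) v)

theorem fderiv_exF (x v w : E n) :
    fderiv ℝ (exF F e x) v w = fderiv ℝ (F.ex x) (frA e x v) (frA e x w) := by
  have h1 : HasFDerivAt (exF F e x) ((fderiv ℝ (F.ex x) (frA e x v)).comp (frA e x)) v :=
    (F.jac_ex_diff x _).hasFDerivAt.comp v (frA e x).hasFDerivAt
  rw [h1.fderiv]
  rfl

theorem inner_dexF (he : TriangularFrame M e) (x v w z : E n) :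
    inner ℝ (dexF M F e x v w) (dexF M F e x v z) =
      M.g (exF F e x v) (fderiv ℝ (exF F e x) v w) (fderiv ℝ (exF F e x) v z) := by
  simp only [dexF, ContinuousLinearMap.comp_apply]
  rw [inner_frB he]

theorem gaussF (he : TriangularFrame M e) (x v z : E n) :
    inner ℝ (dexF M F e x v v) (dexF M F e x v z) = inner ℝ v z := by
  have h : IsMetricOn M.g univ := isMetricOn M
  rw [inner_dexF F he, fderiv_exF, fderiv_exF, exF, F.gauss h, g_frA he]

theorem norm_dexF_mono (he : TriangularFrame M e) (hs : SecLE M 0) (x v z : E n) {s t : ℝ}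
    (h0 : 0 ≤ s) (hst : s ≤ t) :
    ‖dexF M F e x (s • v) z‖ ≤ ‖dexF M F e x (t • v) z‖ := by
  have h : IsMetricOn M.g univ := isMetricOn M
  have h1 := F.rauch h (sec_nonpos M hs) x (frA e x v) (frA e x z) h0 hst
  have h2 : ∀ r : ℝ, ‖dexF M F e x (r • v) z‖ ^ 2 =
      M.g (F.ex x (r • frA e x v)) (fderiv ℝ (F.ex x) (r • frA e x v) (frA e x z))
        (fderiv ℝ (F.ex x) (r • frA e x v) (frA e x z)) := by
    intro r
    rw [← real_inner_self_eq_norm_sq, inner_dexF F he, fderiv_exF, exF, map_smul]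
  rw [← h2, ← h2] at h1
  exact (pow_le_pow_iff_left₀ (norm_nonneg _) (norm_nonneg _) two_ne_zero).1 h1

theorem dexF_zero (he : TriangularFrame M e) (x z : E n) : dexF M F e x 0 z = z := by
  have h : IsMetricOn M.g univ := isMetricOn M
  simp only [dexF, ContinuousLinearMap.comp_apply]
  rw [fderiv_exF, map_zero, F.fderiv_ex_zero h, exF_zero F, frB_frA he]

theorem exists_logF (he : TriangularFrame M e) (hs : SecLE M 0) :
    ∃ lg : E n → E n → E n, ContDiff ℝ ∞ (fun q : E n × E n => lg q.1 q.2) ∧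
      (∀ x y, exF F e x (lg x y) = y) ∧ ∀ x v, lg x (exF F e x v) = v := by
  have h : IsMetricOn M.g univ := isMetricOn M
  obtain ⟨lg, h1, h2, h3⟩ := exists_log F h (sec_nonpos M hs)
  refine ⟨fun x y => frB M e x (lg x y), ?_, ?_, ?_⟩
  · exact ((frB_smooth he).comp contDiff_fst).clm_apply h1
  · intro x y
    rw [exF, frA_frB he, h2]
  · intro x v
    simp only [exF, h3, frB_frA he]

end Vale.Agent.P219.CH
end
end

section

/-! # Auxiliary lemmas for `Conn.lean` -/

open Set Filter Topology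
open scoped ContDiff
open Vale.Agent.P255

noncomputable section

namespace Vale.Agent.P219.CH

section Gen

variable {V : Type} [NormedAddCommGroup V] [NormedSpace ℝ V]
variable {G : V → V →L[ℝ] V →L[ℝ] ℝ}

theorem cn_covD_neg (c Y : ℝ → V) (t : ℝ) : covD G c (fun s => -Y s) t = -covD G c Y t := by
  unfold covD
  rw [deriv.fun_neg, chris_neg_right]
  abel

theorem cn_covD_rev (c Y : ℝ → V) (r t : ℝ) :
    covD G (fun s => c (r - s)) (fun s => Y (r - s)) t = -covD G c Y (r - t) := by
  unfold covD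
  rw [deriv_comp_const_sub, deriv_comp_const_sub, chris_neg_left]
  abel

theorem cn_covD_rev2 (c Y : ℝ → V) (r t : ℝ) :
    covD G (fun s => c (r - s)) (covD G (fun s => c (r - s)) (fun s => Y (r - s))) t =
      covD G c (covD G c Y) (r - t) := by
  have h1 : covD G (fun s => c (r - s)) (fun s => Y (r - s)) =
      fun s => (fun s' => -covD G c Y s') (r - s) := by
    funext s
    exact cn_covD_rev c Y r s
  rw [h1, cn_covD_rev c (fun s' => -covD G c Y s') r t, cn_covD_neg, neg_neg]

/-- Cauchy-Schwarz -/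
theorem cn_cs (h : IsMetricOn G univ) (x u v : V) : G x u v ^ 2 ≤ G x u u * G x v v := by
  by_cases hv : v = 0
  · subst hv
    simp
  · have hp := h.pos x (mem_univ _) v hv
    have h1 := h.nonneg (mem_univ x) (G x v v • u - G x u v • v)
    have hs := h.symm x (mem_univ _) v u
    simp only [map_sub, sub_apply, map_smul, smul_apply, smul_eq_mul, hs] at h1
    have h2 : 0 ≤ G x v v * (G x u u * G x v v - G x u v ^ 2) := by linarith only [h1]
    have h3 := nonneg_of_mul_nonneg_right h2 hp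
    linarith

variable [FiniteDimensional ℝ V]

/-- the curvature operator `a ↦ R(a, v) v` as a continuous linear map -/
def cn_op (G : V → V →L[ℝ] V →L[ℝ] ℝ) (x v : V) : V →L[ℝ] V :=
  ((fderiv ℝ (chrisB G) x).flip v).flip v - (fderiv ℝ (chrisB G) x v).flip v
    + (chrisB G x).flip (chrisB G x v v) - (chrisB G x v).comp ((chrisB G x).flip v)

theorem cn_op_apply (h : IsMetricOn G univ) (x v a : V) :
    cn_op G x v a = curv G x a v v := by
  rw [h.curv_eq (mem_univ _)]
  rfl

theorem cn_curv_neg (h : IsMetricOn G univ) (x a v : V) :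
    curv G x a (-v) (-v) = curv G x a v v := by
  rw [h.curv_eq (mem_univ _), h.curv_eq (mem_univ _)]
  simp only [map_neg, neg_apply, neg_neg]

theorem cn_op_continuous (h : IsMetricOn G univ) {c v : ℝ → V} (hc : Continuous c)
    (hv : Continuous v) (a : V) : Continuous fun t => cn_op G (c t) (v t) a := by
  have hB : Continuous (chrisB G) :=
    continuous_iff_continuousAt.2 fun x => (h.contDiffAt_chrisB (mem_univ _)).continuousAt
  have hD : Continuous (fderiv ℝ (chrisB G)) :=
    continuous_iff_continuousAt.2 fun x =>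
      ((h.contDiffAt_chrisB (mem_univ _)).fderiv_right (m := ∞) (by simp)).continuousAt
  have hBc : Continuous fun t => chrisB G (c t) := hB.comp hc
  have hDc : Continuous fun t => fderiv ℝ (chrisB G) (c t) := hD.comp hc
  have e : (fun t => cn_op G (c t) (v t) a) = fun t =>
      fderiv ℝ (chrisB G) (c t) a (v t) (v t) - fderiv ℝ (chrisB G) (c t) (v t) a (v t)
      + chrisB G (c t) a (chrisB G (c t) (v t) (v t))
      - chrisB G (c t) (v t) (chrisB G (c t) a (v t)) := by
    funext t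
    rfl
  rw [e]
  have h1 : Continuous fun t => fderiv ℝ (chrisB G) (c t) a (v t) (v t) :=
    ((hDc.clm_apply continuous_const).clm_apply hv).clm_apply hv
  have h2 : Continuous fun t => fderiv ℝ (chrisB G) (c t) (v t) a (v t) :=
    ((hDc.clm_apply hv).clm_apply continuous_const).clm_apply hv
  have h3 : Continuous fun t => chrisB G (c t) a (chrisB G (c t) (v t) (v t)) :=
    (hBc.clm_apply continuous_const).clm_apply ((hBc.clm_apply hv).clm_apply hv)
  have h4 : Continuous fun t => chrisB G (c t) (v t) (chrisB G (c t) a (v t)) :=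
    (hBc.clm_apply hv).clm_apply ((hBc.clm_apply continuous_const).clm_apply hv)
  exact ((h1.sub h2).add h3).sub h4

end Gen

variable {n : ℕ} {M : RiemMetric n} {e : Fin n → E n → E n} (F : GFlow M.g)

/-- the parallel orthonormal frame along a geodesic -/
theorem cn_frame (he : TriangularFrame M e) (x u : E n) :
    ∃ Q : ℝ → E n ≃ₗᵢ[ℝ] E n,
      ContDiff ℝ ∞ (fun t => ((Q t : E n ≃L[ℝ] E n) : E n →L[ℝ] E n)) ∧
      (∀ w, Q 0 w = w) ∧ (∀ t, Q t u = velF F e t x u) ∧
      ∀ (y : ℝ → E n) (y' : E n) (t : ℝ), HasDerivAt y y' t →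
        covD M.g (F.jacC x (frA e x u)) (fun s => frA e (F.jacC x (frA e x u) s) (Q s (y s))) t =
          frA e (F.jacC x (frA e x u) t) (Q t y') := by
  have h : IsMetricOn M.g univ := isMetricOn M
  set v₀ := frA e x u with hv₀
  set c := F.jacC x v₀ with hc
  have hcs : ContDiff ℝ ∞ c :=
    (F.jac_ex_contDiff x).comp (contDiff_id.smul contDiff_const)
  have hcd : ∀ t, HasDerivAt c (F.vel t x v₀) t := fun t => F.jac_hasDerivAt_C h x v₀ t
  have hc0 : c 0 = x := F.jac_C_zero h x v₀
  obtain ⟨P, hP, hP0, hPcov, hPiso⟩ := exists_parallel h hcs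
  have hPd : ∀ t w, HasDerivAt (fun s => P s w) (deriv (fun s => P s w) t) t := fun t w =>
    ((hP.clm_apply contDiff_const).differentiable (by simp) t).hasDerivAt
  have hPd' : ∀ t w, deriv (fun s => P s w) t = -chris M.g (c t) (deriv c t) (P t w) := by
    intro t w
    have h1 := hPcov t w
    unfold covD at h1
    exact eq_neg_of_add_eq_zero_left h1
  -- the isometries
  have hQn : ∀ t w, ‖frB M e (c t) (P t (frA e x w))‖ = ‖w‖ := by
    intro t w
    have h1 : ‖frB M e (c t) (P t (frA e x w))‖ ^ 2 = ‖w‖ ^ 2 := by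
      rw [norm_frB_sq he, hPiso, hc0, g_frA_self he]
    exact (pow_left_inj₀ (norm_nonneg _) (norm_nonneg _) two_ne_zero).1 h1
  let Qi : ℝ → E n →ₗᵢ[ℝ] E n := fun t =>
    { toLinearMap := ((frB M e (c t)).comp ((P t).comp (frA e x)) : E n →L[ℝ] E n)
      norm_map' := fun w => hQn t w }
  let Q : ℝ → E n ≃ₗᵢ[ℝ] E n := fun t => (Qi t).toLinearIsometryEquiv rfl
  have hQ : ∀ t w, Q t w = frB M e (c t) (P t (frA e x w)) := fun t w => rfl
  have hQΦ : ∀ t w, frA e (c t) (Q t w) = P t (frA e x w) := by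
    intro t w
    rw [hQ, frA_frB he]
  refine ⟨Q, ?_, ?_, ?_, ?_⟩
  · have e1 : (fun t => ((Q t : E n ≃L[ℝ] E n) : E n →L[ℝ] E n)) =
        fun t => (frB M e (c t)).comp ((P t).comp (frA e x)) := by
      funext t
      ext1 w
      exact hQ t w
    rw [e1]
    exact ((frB_smooth he).comp hcs).clm_comp (hP.clm_comp contDiff_const)
  · intro w
    rw [hQ, hP0, hc0]
    exact frB_frA he x w
  · intro t
    -- the velocity is parallel
    have hvel : P t v₀ = F.vel t x v₀ := by
      have hvd : ∀ s, HasDerivAt (fun s => F.vel s x v₀)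
          (-chris M.g (c s) (F.vel s x v₀) (F.vel s x v₀)) s := fun s =>
        F.jac_hasDerivAt_vel h x v₀ s
      have hZd : ∀ s, HasDerivAt (fun s => P s v₀ - F.vel s x v₀)
          (-chris M.g (c s) (deriv c s) (P s v₀ - F.vel s x v₀)) s := by
        intro s
        refine ((hPd s v₀).sub (hvd s)).congr_deriv ?_
        rw [hPd', (hcd s).deriv]
        simp only [← chrisB_apply, map_sub]
        abel
      have hcov : ∀ s, covD M.g c (fun s => P s v₀ - F.vel s x v₀) s = 0 := by
        intro s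
        unfold covD
        rw [(hZd s).deriv]
        simp
      have hconst : ∀ s, HasDerivAt (fun s => M.g (c s) (P s v₀ - F.vel s x v₀)
          (P s v₀ - F.vel s x v₀)) 0 s := by
        intro s
        refine (h.hasDerivAt_inner (mem_univ _) (hcd s).differentiableAt
          (hZd s).differentiableAt (hZd s).differentiableAt).congr_deriv ?_
        rw [hcov]
        simp
      have h2 := is_const_of_deriv_eq_zero (fun s => (hconst s).differentiableAt)
        (fun s => (hconst s).deriv) t 0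
      simp only [hP0, F.jac_vel_zero] at h2
      have h3 : M.g (c t) (P t v₀ - F.vel t x v₀) (P t v₀ - F.vel t x v₀) = 0 := by
        rw [h2]; simp
      exact sub_eq_zero.1 (h.eq_zero (mem_univ _) h3)
    rw [hQ, ← hv₀, hvel, velF]
    congr 2
    simp only [exF, map_smul]
    rfl
  · intro y y' t hy
    have e1 : (fun s => frA e (c s) (Q s (y s))) = fun s => P s (frA e x (y s)) := by
      funext s
      exact hQΦ s (y s)
    rw [e1, hQΦ]
    have hPd2 : HasDerivAt P (deriv P t) t := (hP.differentiable (by simp) t).hasDerivAt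
    have h1 : HasDerivAt (fun s => frA e x (y s)) (frA e x y') t :=
      (frA e x).hasFDerivAt.comp_hasDerivAt t hy
    have h2 := hPd2.clm_apply h1
    have h3 : deriv P t (frA e x (y t)) = -chris M.g (c t) (deriv c t) (P t (frA e x (y t))) := by
      rw [← hPd']
      have h4 := hPd2.clm_apply (hasDerivAt_const t (frA e x (y t)))
      rw [h4.deriv]
      simp
    unfold covD
    rw [h2.deriv, h3]
    abel

/-- the Jacobi operator in the parallel frame, and Jacobi fields -/
theorem cn_core (he : TriangularFrame M e)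
    (hsec : ∀ x u v, M.g x (curv M.g x u v v) u ≤ -(M.g x u u * M.g x v v - M.g x u v ^ 2))
    (x u : E n) (hu : ‖u‖ = 1) :
    ∃ (Q : ℝ → E n ≃ₗᵢ[ℝ] E n) (R : ℝ → E n →L[ℝ] E n),
      ContDiff ℝ ∞ (fun t => ((Q t : E n ≃L[ℝ] E n) : E n →L[ℝ] E n)) ∧
      (∀ w, Q 0 w = w) ∧ (∀ t, Q t u = velF F e t x u) ∧
      Continuous R ∧ (∀ t a b, inner ℝ (R t a) b = inner ℝ a (R t b)) ∧
      (∀ t a, inner ℝ (R t a) u = 0) ∧
      (∀ t w, inner ℝ w u = 0 → ‖w‖ ^ 2 ≤ inner ℝ (R t w) w) ∧
      ∀ J : ℝ → E n →L[ℝ] E n, ContDiff ℝ ∞ J →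
        (∀ t w, covD M.g (F.jacC x (frA e x u)) (covD M.g (F.jacC x (frA e x u))
          (fun s => J s w)) t + curv M.g (F.jacC x (frA e x u) t) (J t w)
            (F.vel t x (frA e x u)) (F.vel t x (frA e x u)) = 0) →
        ∃ T T' : ℝ → E n →L[ℝ] E n, (∀ t, HasDerivAt T (T' t) t) ∧
          (∀ t, HasDerivAt T' ((R t).comp (T t)) t) ∧
          (∀ t w, frA e (F.jacC x (frA e x u) t) (Q t (T t w)) = J t w) ∧
          ∀ t w, frA e (F.jacC x (frA e x u) t) (Q t (T' t w)) =
            covD M.g (F.jacC x (frA e x u)) (fun s => J s w) t := by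
  have h : IsMetricOn M.g univ := isMetricOn M
  obtain ⟨Q, hQs, hQ0, hQu, hQc⟩ := cn_frame F he x u
  set v₀ := frA e x u with hv₀
  set c := F.jacC x v₀ with hc
  have hcs : ContDiff ℝ ∞ c :=
    (F.jac_ex_contDiff x).comp (contDiff_id.smul contDiff_const)
  have hcv : ∀ t, exF F e x (t • u) = c t := by
    intro t
    rw [exF, map_smul]
    rfl
  have hvel : ∀ t, F.vel t x v₀ = frA e (c t) (Q t u) := by
    intro t
    rw [hQu, ← hcv, frA_velF F he]
  have hvc : Continuous fun t => F.vel t x v₀ := by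
    have h1 : ContDiff ℝ ∞ fun t : ℝ => ((t, x, v₀) : ℝ × E n × E n) :=
      contDiff_id.prodMk contDiff_const
    exact (F.vel_smooth.comp h1).continuous
  -- the operator
  let Ψ : ℝ → E n →L[ℝ] E n := fun t =>
    (ContinuousLinearMap.adjoint ((Q t : E n ≃L[ℝ] E n) : E n →L[ℝ] E n)).comp (frB M e (c t))
  have hΨs : ContDiff ℝ ∞ Ψ := by
    refine ContDiff.clm_comp ?_ ((frB_smooth he).comp hcs)
    exact (ContinuousLinearMap.adjoint (𝕜 := ℝ) (E := E n) (F := E n)).toContinuousLinearEquiv.contDiff.comp hQs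
  have hadj : ∀ t a b, inner ℝ (ContinuousLinearMap.adjoint
      ((Q t : E n ≃L[ℝ] E n) : E n →L[ℝ] E n) a) b = inner ℝ a (Q t b) := by
    intro t a b
    rw [ContinuousLinearMap.adjoint_inner_left]
    rfl
  have hΨ : ∀ t a b, inner ℝ (Ψ t a) b = M.g (c t) a (frA e (c t) (Q t b)) := by
    intro t a b
    change inner ℝ (ContinuousLinearMap.adjoint
      ((Q t : E n ≃L[ℝ] E n) : E n →L[ℝ] E n) (frB M e (c t) a)) b = _
    rw [hadj, ← g_frA he (c t), frA_frB he]
  have hΨΦ : ∀ t a, Ψ t (frA e (c t) (Q t a)) = a := by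
    intro t a
    refine ext_inner_right ℝ fun b => ?_
    rw [hΨ, g_frA he, LinearIsometryEquiv.inner_map_map]
  have hΦΨ : ∀ t a, frA e (c t) (Q t (Ψ t a)) = a := by
    intro t a
    refine h.ext (mem_univ (c t)) fun z => ?_
    have hz : z = frA e (c t) (Q t (Ψ t z)) := by
      have h1 : frA e (c t) (Q t ((Q t).symm (frB M e (c t) z))) = z := by
        rw [LinearIsometryEquiv.apply_symm_apply, frA_frB he]
      rw [← h1, hΨΦ]
    rw [hz, g_frA he, LinearIsometryEquiv.inner_map_map, hΨ, ← hz]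
  let R : ℝ → E n →L[ℝ] E n := fun t =>
    -((Ψ t).comp ((cn_op M.g (c t) (F.vel t x v₀)).comp
      ((frA e (c t)).comp ((Q t : E n ≃L[ℝ] E n) : E n →L[ℝ] E n))))
  have hR : ∀ t a, R t a = -Ψ t (curv M.g (c t) (frA e (c t) (Q t a)) (F.vel t x v₀)
      (F.vel t x v₀)) := by
    intro t a
    rw [← cn_op_apply h]
    rfl
  have hRin : ∀ t a b, inner ℝ (R t a) b = -M.g (c t) (curv M.g (c t) (frA e (c t) (Q t a))
      (F.vel t x v₀) (F.vel t x v₀)) (frA e (c t) (Q t b)) := by
    intro t a b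
    rw [hR, inner_neg_left, hΨ]
  refine ⟨Q, R, hQs, hQ0, hQu, ?_, ?_, ?_, ?_, ?_⟩
  · have hop : Continuous fun t => cn_op M.g (c t) (F.vel t x v₀) :=
      continuous_clm_apply.2 fun a => cn_op_continuous h hcs.continuous hvc a
    have hfr : Continuous fun t => frA e (c t) := (frA_smooth he).continuous.comp hcs.continuous
    exact (hΨs.continuous.clm_comp (hop.clm_comp (hfr.clm_comp hQs.continuous))).neg
  · intro t a b
    rw [hRin, real_inner_comm, hRin, curv_jacobi_symm h]
  · intro t a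
    rw [hRin, ← hvel, h.curv_skew (mem_univ _), neg_zero]
  · intro t w hw
    rw [hRin]
    have h1 := hsec (c t) (frA e (c t) (Q t w)) (F.vel t x v₀)
    rw [hvel t, g_frA_self he, g_frA_self he, g_frA he, LinearIsometryEquiv.inner_map_map,
      LinearIsometryEquiv.norm_map, LinearIsometryEquiv.norm_map, hu, hw] at h1
    rw [hvel t]
    linarith
  · intro J hJ hJac
    have hTs : ContDiff ℝ ∞ fun t => (Ψ t).comp (J t) := hΨs.clm_comp hJ
    set T : ℝ → E n →L[ℝ] E n := fun t => (Ψ t).comp (J t) with hT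
    have hTd : ∀ t, HasDerivAt T (deriv T t) t := fun t =>
      (hTs.differentiable (by simp) t).hasDerivAt
    have hTs' : ContDiff ℝ ∞ (deriv T) := by
      have h1 : ContDiff ℝ (∞ + 1) T := by simpa using hTs
      exact (contDiff_succ_iff_deriv.1 h1).2.2
    have hTd' : ∀ t, HasDerivAt (deriv T) (deriv (deriv T) t) t := fun t =>
      (hTs'.differentiable (by simp) t).hasDerivAt
    have hTJ : ∀ t w, frA e (c t) (Q t (T t w)) = J t w := fun t w => hΦΨ t (J t w)
    have hcov1 : ∀ t w, covD M.g c (fun s => J s w) t = frA e (c t) (Q t (deriv T t w)) := by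
      intro t w
      have h1 := hQc (fun s => T s w) (deriv T t w) t (by
        have := (hTd t).clm_apply (hasDerivAt_const t w)
        simpa using this)
      have h2 : (fun s => frA e (c s) (Q s (T s w))) = fun s => J s w := by
        funext s
        exact hTJ s w
      rwa [h2] at h1
    have hcov2 : ∀ t w, covD M.g c (covD M.g c (fun s => J s w)) t =
        frA e (c t) (Q t (deriv (deriv T) t w)) := by
      intro t w
      have h1 := hQc (fun s => deriv T s w) (deriv (deriv T) t w) t (by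
        have := (hTd' t).clm_apply (hasDerivAt_const t w)
        simpa using this)
      have h2 : (fun s => frA e (c s) (Q s (deriv T s w))) = covD M.g c (fun s => J s w) := by
        funext s
        exact (hcov1 s w).symm
      rwa [h2] at h1
    refine ⟨T, deriv T, hTd, fun t => ?_, hTJ, fun t w => (hcov1 t w).symm⟩
    refine (hTd' t).congr_deriv ?_
    ext1 w
    have h1 := hJac t w
    rw [hcov2] at h1
    have h2 := congrArg (Ψ t) (eq_neg_of_add_eq_zero_left h1)
    rw [hΨΦ, map_neg] at h2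
    have h3 := hR t (T t w)
    rw [hTJ] at h3
    exact h2.trans h3.symm

end Vale.Agent.P219.CH
end
end

section

/-! # Jacobi tensors of a metric with `Sec ≤ -1`, in a parallel frame -/

open Set Filter Topology
open scoped ContDiff
open Vale.Agent.P255

noncomputable section

namespace Vale.Agent.P219.CH

variable {n : ℕ} {M : RiemMetric n} {e : Fin n → E n → E n} (F : GFlow M.g)

theorem secLE_zero (hs : SecLE M (-1)) : SecLE M 0 := by
  obtain ⟨Γ, h1, h2, h3⟩ := hs
  refine ⟨Γ, h1, h2, fun x u v => ?_⟩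
  have h4 := h3 x u v
  have h5 := cn_cs (isMetricOn M) x u v
  rw [zero_mul]
  linarith

theorem sec_neg (hs : SecLE M (-1)) (x u v : E n) :
    M.g x (curv M.g x u v v) u ≤ -(M.g x u u * M.g x v v - M.g x u v ^ 2) := by
  obtain ⟨Γ, hΓ, hK, hc⟩ := hs
  have hd : DifferentiableAt ℝ Γ x := hΓ.differentiable (by simp) x
  have hch : ∀ y a b, chris M.g y a b = Γ y a b := chris_eq_of_koszul M hK
  have e1 : ∀ a b : E n, (fun p => chris M.g p a b) = fun p => Γ p a b := fun a b => by
    funext p; exact hch p a b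
  have h := hc x u v
  rw [neg_one_mul] at h
  unfold curv
  rw [e1, e1, fderiv_clm2 hd, fderiv_clm2 hd]
  simp only [hch]
  exact h

theorem cn_mem {R T T' : ℝ → E n →L[ℝ] E n} {u : E n} (hT : ∀ t, HasDerivAt T (T' t) t)
    (hT' : ∀ t, HasDerivAt T' ((R t).comp (T t)) t) (hR : ∀ t a, inner ℝ (R t a) u = 0)
    {t₀ : ℝ} {w : E n} (h0 : inner ℝ (T t₀ w) u = 0) (h1 : inner ℝ (T' t₀ w) u = 0) (t : ℝ) :
    inner ℝ (T t w) u = 0 ∧ inner ℝ (T' t w) u = 0 := by
  have e1 : ∀ s, HasDerivAt (fun s => inner ℝ (T' s w) u) 0 s := by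
    intro s
    have h2 := ((hT' s).clm_apply (hasDerivAt_const s w)).inner ℝ (hasDerivAt_const s u)
    refine h2.congr_deriv ?_
    simp [hR]
  have e2 : ∀ s, inner ℝ (T' s w) u = 0 := by
    intro s
    have h3 := is_const_of_deriv_eq_zero (fun s => (e1 s).differentiableAt)
      (fun s => (e1 s).deriv) s t₀
    rw [h3, h1]
  have e3 : ∀ s, HasDerivAt (fun s => inner ℝ (T s w) u) 0 s := by
    intro s
    have h2 := ((hT s).clm_apply (hasDerivAt_const s w)).inner ℝ (hasDerivAt_const s u)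
    refine h2.congr_deriv ?_
    simp [e2]
  have h3 := is_const_of_deriv_eq_zero (fun s => (e3 s).differentiableAt)
    (fun s => (e3 s).deriv) t t₀
  exact ⟨by rw [h3, h0], e2 t⟩

/-- compression to the orthogonal complement -/
def cn_cut (u : E n) (T : E n →L[ℝ] E n) : (ℝ ∙ u)ᗮ →L[ℝ] (ℝ ∙ u)ᗮ :=
  ((ℝ ∙ u)ᗮ.orthogonalProjectionOnto).comp (T.comp (ℝ ∙ u)ᗮ.subtypeL)

theorem cn_mem_perp {u w : E n} : w ∈ (ℝ ∙ u)ᗮ ↔ inner ℝ w u = 0 := by
  rw [Submodule.mem_orthogonal_singleton_iff_inner_left]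

theorem cn_cut_coe {u : E n} {T : E n →L[ℝ] E n} {w : (ℝ ∙ u)ᗮ}
    (h : inner ℝ (T w) u = 0) : ((cn_cut u T w : (ℝ ∙ u)ᗮ) : E n) = T w := by
  have h1 : T w ∈ (ℝ ∙ u)ᗮ := cn_mem_perp.2 h
  have h2 := Submodule.orthogonalProjectionOnto_mem_subspace_eq_self
    (K := (ℝ ∙ u)ᗮ) ⟨T w, h1⟩
  exact congrArg Subtype.val h2

theorem cn_cut_hasDerivAt {u : E n} {T : ℝ → E n →L[ℝ] E n} {T' : E n →L[ℝ] E n} {t : ℝ}
    (h : HasDerivAt T T' t) : HasDerivAt (fun s => cn_cut u (T s)) (cn_cut u T') t := by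
  have h1 := (hasDerivAt_const t ((ℝ ∙ u)ᗮ.orthogonalProjectionOnto)).clm_comp
    (h.clm_comp (hasDerivAt_const t (ℝ ∙ u)ᗮ.subtypeL))
  refine h1.congr_deriv ?_
  ext w
  simp [cn_cut]

theorem cn_jt {R T T' : ℝ → E n →L[ℝ] E n} {u : E n} (hT : ∀ t, HasDerivAt T (T' t) t)
    (hT' : ∀ t, HasDerivAt T' ((R t).comp (T t)) t)
    (hm : ∀ t (w : (ℝ ∙ u)ᗮ), inner ℝ (T t w) u = 0) :
    JT (fun t => cn_cut u (R t)) (fun t => cn_cut u (T t)) (fun t => cn_cut u (T' t)) := by
  refine ⟨fun t => cn_cut_hasDerivAt (hT t), fun t => ?_⟩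
  refine (cn_cut_hasDerivAt (hT' t)).congr_deriv ?_
  ext1 w
  change (ℝ ∙ u)ᗮ.orthogonalProjectionOnto (R t (T t w)) =
    (ℝ ∙ u)ᗮ.orthogonalProjectionOnto (R t (cn_cut u (T t) w))
  rw [cn_cut_coe (hm t w)]

/-- Along the geodesic `c t = exF x (t u)`, `|u| = 1`: `Q t` = parallel transport composed with the
frames, `R` = Jacobi operator on `u^⊥` in the parallel frame, `A` the Jacobi tensor vanishing at
`0`, `B` the Jacobi tensor vanishing at `r`. PROOF: `P` from exists_parallel (c smooth), `Q t =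
frB (c t) ∘ P t ∘ frA x` is an isometry, `Q t u = velF t x u`; every field `Y = P y` along `c` has
`covD Y = P y'`; jac_eqn for the Jacobi fields `jacJ x (frA x u) w` and, reversed in time, for
those of the geodesic from `y` (exF_add, velF_add: `exF y (s (-V)) = exF x ((r-s) u)`). -/
theorem exists_JT (he : TriangularFrame M e) (hs : SecLE M (-1)) (x u : E n) (hu : ‖u‖ = 1)
    (r : ℝ) :
    ∃ (R A A' B B' : ℝ → (ℝ ∙ u)ᗮ →L[ℝ] (ℝ ∙ u)ᗮ) (Q : ℝ → E n ≃ₗᵢ[ℝ] E n),
      JT R A A' ∧ JT R B B' ∧ Continuous R ∧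
      (∀ t v w, inner ℝ (R t v) w = inner ℝ v (R t w)) ∧
      (∀ t w, ‖w‖ ^ 2 ≤ inner ℝ (R t w) w) ∧
      A 0 = 0 ∧ A' 0 = ContinuousLinearMap.id ℝ _ ∧ B r = 0 ∧ B' r = -ContinuousLinearMap.id ℝ _ ∧
      (∀ t, Q t u = velF F e t x u) ∧
      (∀ t (w : (ℝ ∙ u)ᗮ), Q t (A t w) = t • dexF M F e x (t • u) w) ∧
      ∀ t (w : (ℝ ∙ u)ᗮ), Q t (B t w) = (r - t) • dexF M F e (exF F e x (r • u))
        ((r - t) • (-velF F e r x u)) (Q r w) := by
  have h : IsMetricOn M.g univ := isMetricOn M
  obtain ⟨Q, R, hQs, hQ0, hQu, hRc, hRs, hRu, hRp, hJ⟩ := cn_core F he (sec_neg hs) x u hu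
  set v₀ := frA e x u with hv₀
  set c := F.jacC x v₀ with hc
  have hcv : ∀ t, exF F e x (t • u) = c t := by
    intro t
    rw [exF, map_smul]
    rfl
  have hc0 : c 0 = x := F.jac_C_zero h x v₀
  have hex : ∀ y, ContDiff ℝ ∞ (fderiv ℝ (F.ex y)) := fun y =>
    (F.jac_ex_contDiff y).fderiv_right (m := ∞) (by simp)
  -- the Jacobi tensor vanishing at `0`
  obtain ⟨T, T', hT, hT', hTJ, hTJ'⟩ := hJ
    (fun t => t • (fderiv ℝ (F.ex x) (t • v₀)).comp (frA e x)) (by
      have h1 : ContDiff ℝ ∞ fun t : ℝ => fderiv ℝ (F.ex x) (t • v₀) :=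
        (hex x).comp (contDiff_id.smul contDiff_const)
      exact contDiff_id.smul (h1.clm_comp contDiff_const)) (by
      intro t w
      have h1 := (F.jac_eqn h x v₀ (frA e x w) t).2
      have h2 : (fun s : ℝ => (s • (fderiv ℝ (F.ex x) (s • v₀)).comp (frA e x)) w) =
          F.jacJ x v₀ (frA e x w) := by
        funext s
        simp [GFlow.jacJ]
      have h3 := congrFun h2 t
      rw [h2, h3]
      exact h1)
  have hTJ2 : ∀ t w, frA e (c t) (Q t (T t w)) = F.jacJ x v₀ (frA e x w) t := by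
    intro t w
    rw [hTJ]
    simp [GFlow.jacJ]
  have hTJ2' : ∀ t w, frA e (c t) (Q t (T' t w)) = covD M.g c (F.jacJ x v₀ (frA e x w)) t := by
    intro t w
    rw [hTJ']
    congr 1
    funext s
    simp [GFlow.jacJ]
  have hinj : ∀ t a b, frA e (c t) (Q t a) = frA e (c t) (Q t b) → a = b := by
    intro t a b hab
    have h1 := congrArg (frB M e (c t)) hab
    rw [frB_frA he, frB_frA he] at h1
    exact (Q t).injective h1
  have hT0 : ∀ w, T 0 w = 0 := by
    intro w
    refine hinj 0 _ _ ?_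
    rw [hTJ2, F.jac_J_zero]
    simp
  have hT0' : ∀ w, T' 0 w = w := by
    intro w
    refine hinj 0 _ _ ?_
    rw [hTJ2', F.jac_covD_J_zero h, hQ0, hc0]
  -- the Jacobi tensor vanishing at `r`
  set y := c r with hy
  set V := -velF F e r x u with hV
  set vb := frA e y V with hvb
  have hcb : F.jacC y vb = fun s => c (r - s) := by
    funext s
    have h1 : F.jacC y vb s = exF F e y (s • V) := by
      rw [exF, map_smul]
      rfl
    rw [h1, hy, ← hcv r, hV, smul_neg, ← neg_smul, exF_add F he, ← sub_eq_add_neg, hcv]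
  have hvel : ∀ s, F.vel s y vb = -F.vel (r - s) x v₀ := by
    intro s
    have h1 : deriv (F.jacC y vb) s = F.vel s y vb := congrFun (F.jac_deriv_C h y vb) s
    have h2 : deriv c (r - s) = F.vel (r - s) x v₀ := congrFun (F.jac_deriv_C h x v₀) (r - s)
    rw [← h1, hcb, deriv_comp_const_sub, h2]
  obtain ⟨S, S', hS, hS', hSJ, hSJ'⟩ := hJ
    (fun t => (r - t) • (fderiv ℝ (F.ex y) ((r - t) • vb)).comp
      ((frA e y).comp ((Q r : E n ≃L[ℝ] E n) : E n →L[ℝ] E n))) (by
      have h0 : ContDiff ℝ ∞ fun t : ℝ => r - t := contDiff_const.sub contDiff_id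
      have h1 : ContDiff ℝ ∞ fun t : ℝ => fderiv ℝ (F.ex y) ((r - t) • vb) :=
        (hex y).comp (h0.smul contDiff_const)
      exact h0.smul (h1.clm_comp contDiff_const)) (by
      intro t w
      have h1 := (F.jac_eqn h y vb (frA e y (Q r w)) (r - t)).2
      have h2 : (fun s : ℝ => ((r - s) • (fderiv ℝ (F.ex y) ((r - s) • vb)).comp
          ((frA e y).comp ((Q r : E n ≃L[ℝ] E n) : E n →L[ℝ] E n))) w) =
          fun s => F.jacJ y vb (frA e y (Q r w)) (r - s) := by
        funext s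
        simp [GFlow.jacJ]
      have h3 := congrFun h2 t
      have h4 : c = fun s => F.jacC y vb (r - s) := by
        funext s
        rw [hcb]
        simp
      rw [h2, h3]
      have h5 : covD M.g c (covD M.g c fun s => F.jacJ y vb (frA e y (Q r w)) (r - s)) t =
          covD M.g (F.jacC y vb) (covD M.g (F.jacC y vb) (F.jacJ y vb (frA e y (Q r w))))
            (r - t) := by
        conv_lhs => rw [h4]
        exact cn_covD_rev2 _ _ _ _
      rw [h5, ← cn_curv_neg h]
      have h6 : -F.vel t x v₀ = F.vel (r - t) y vb := by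
        rw [hvel, sub_sub_cancel]
      have h7 : c t = F.jacC y vb (r - t) := by
        conv_lhs => rw [h4]
      rw [h6, h7]
      exact h1)
  have hSJ2 : ∀ t w, frA e (c t) (Q t (S t w)) = F.jacJ y vb (frA e y (Q r w)) (r - t) := by
    intro t w
    rw [hSJ]
    simp [GFlow.jacJ]
  have hSJ2' : ∀ t w, frA e (c t) (Q t (S' t w)) =
      -covD M.g (F.jacC y vb) (F.jacJ y vb (frA e y (Q r w))) (r - t) := by
    intro t w
    rw [hSJ', ← cn_covD_rev]
    congr 1
    · funext s
      rw [hcb]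
      simp
    · funext s
      simp [GFlow.jacJ]
  have hS0 : ∀ w, S r w = 0 := by
    intro w
    refine hinj r _ _ ?_
    rw [hSJ2, sub_self, F.jac_J_zero]
    simp
  have hS0' : ∀ w, S' r w = -w := by
    intro w
    refine hinj r _ _ ?_
    rw [hSJ2', sub_self, F.jac_covD_J_zero h]
    simp [hy]
  -- invariance of the complement
  have hTm : ∀ t (w : (ℝ ∙ u)ᗮ), inner ℝ (T t w) u = 0 := by
    intro t w
    refine (cn_mem hT hT' hRu (t₀ := 0) ?_ ?_ t).1
    · rw [hT0, inner_zero_left]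
    · rw [hT0']
      exact cn_mem_perp.1 w.2
  have hSm : ∀ t (w : (ℝ ∙ u)ᗮ), inner ℝ (S t w) u = 0 := by
    intro t w
    refine (cn_mem hS hS' hRu (t₀ := r) ?_ ?_ t).1
    · rw [hS0, inner_zero_left]
    · rw [hS0', inner_neg_left, cn_mem_perp.1 w.2, neg_zero]
  have hRcoe : ∀ t (w : (ℝ ∙ u)ᗮ), ((cn_cut u (R t) w : (ℝ ∙ u)ᗮ) : E n) = R t w := fun t w =>
    cn_cut_coe (hRu t w)
  refine ⟨fun t => cn_cut u (R t), fun t => cn_cut u (T t), fun t => cn_cut u (T' t),
    fun t => cn_cut u (S t), fun t => cn_cut u (S' t), Q, cn_jt hT hT' hTm, cn_jt hS hS' hSm,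
    ?_, ?_, ?_, ?_, ?_, ?_, ?_, hQu, ?_, ?_⟩
  · exact continuous_const.clm_comp (hRc.clm_comp continuous_const)
  · intro t v w
    rw [Submodule.coe_inner, Submodule.coe_inner, hRcoe, hRcoe]
    exact hRs t v w
  · intro t w
    rw [Submodule.coe_inner, hRcoe]
    exact hRp t w (cn_mem_perp.1 w.2)
  · ext1 w
    refine Subtype.ext ?_
    rw [cn_cut_coe (hTm 0 w), hT0]
    rfl
  · ext1 w
    refine Subtype.ext ?_
    have h1 : inner ℝ (T' 0 w) u = 0 := by
      rw [hT0']
      exact cn_mem_perp.1 w.2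
    rw [cn_cut_coe h1, hT0']
    rfl
  · ext1 w
    refine Subtype.ext ?_
    rw [cn_cut_coe (hSm r w), hS0]
    rfl
  · ext1 w
    refine Subtype.ext ?_
    have h1 : inner ℝ (S' r w) u = 0 := by
      rw [hS0', inner_neg_left, cn_mem_perp.1 w.2, neg_zero]
    rw [cn_cut_coe h1, hS0']
    rfl
  · intro t w
    rw [cn_cut_coe (hTm t w)]
    have h1 := congrArg (frB M e (c t)) (hTJ2 t w)
    rw [frB_frA he] at h1
    rw [h1, dexF, ContinuousLinearMap.comp_apply, fderiv_exF, hcv, map_smul]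
    simp [GFlow.jacJ, hv₀]
  · intro t w
    rw [cn_cut_coe (hSm t w)]
    have h1 := congrArg (frB M e (c t)) (hSJ2 t w)
    rw [frB_frA he] at h1
    have h2 : exF F e y ((r - t) • V) = c t := by
      have h3 : exF F e y ((r - t) • V) = F.jacC y vb (r - t) := by
        rw [exF, map_smul]
        rfl
      rw [h3, hcb]
      simp
    rw [h1, hcv r, ← hy, dexF, ContinuousLinearMap.comp_apply, fderiv_exF, h2, map_smul]
    simp [GFlow.jacJ, hvb]

end Vale.Agent.P219.CH
end
end

section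

open MeasureTheory Matrix
open scoped ENNReal ContDiff

namespace Vale.Agent.P219.Co

variable {n : ℕ}

theorem vec_sum (v : E n) : v = ∑ i, v i • (basisVec i : E n) := by
  ext j
  simp [basisVec, Finset.sum_apply, Pi.single_apply]

theorem fderiv_eq_sum {f : E n → ℝ} {x : E n} (hf : DifferentiableAt ℝ f x) (v : E n) :
    fderiv ℝ f x v = ∑ i, v i * pd i f x := by
  conv_lhs => rw [vec_sum v]
  rw [map_sum]
  refine Finset.sum_congr rfl fun i _ => ?_
  rw [map_smul, pd_eq hf, smul_eq_mul]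

theorem inv_eq {M : RiemMetric n} {e : Fin n → E n → Fin n → ℝ} (he : TriangularFrame M e)
    (x : E n) (k l : Fin n) : (M.g x)⁻¹ k l = ∑ a, e a x k * e a x l := by
  set A : Matrix (Fin n) (Fin n) ℝ := Matrix.of fun a i => e a x i with hA
  have h1 : A * (M.g x * A.transpose) = 1 := by
    ext a b
    rw [Matrix.mul_apply, Matrix.one_apply, ← he.orthonormal x a b]
    rfl
  have h2 : M.g x * (A.transpose * A) = 1 := by
    rw [← Matrix.mul_assoc]
    exact mul_eq_one_comm.1 h1
  rw [Matrix.inv_eq_right_inv h2, Matrix.mul_apply]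
  rfl

theorem g_symm (M : RiemMetric n) (x : E n) (i j : Fin n) : M.g x i j = M.g x j i := by
  have := (M.pos x).isHermitian.apply j i
  simpa using this

theorem smooth_pd {f : E n → ℝ} (hf : Smooth f) (i : Fin n) : Smooth fun x => pd i f x := by
  have h1 : (fun x => pd i f x) = fun x => fderiv ℝ f x (basisVec i) := by
    funext x
    exact pd_eq (hf.differentiable (by simp) x) i
  rw [h1]
  exact ((hf.fderiv_right (m := ∞) (by simp)).clm_apply contDiff_const)

theorem christoffel_smooth {M : RiemMetric n} {e : Fin n → E n → Fin n → ℝ}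
    (he : TriangularFrame M e) (k i j : Fin n) : Smooth fun x => christoffel M k i j x := by
  unfold christoffel
  refine contDiff_const.mul (ContDiff.sum fun l _ => ContDiff.mul ?_ ?_)
  · have : (fun x => (M.g x)⁻¹ k l) = fun x => ∑ a, e a x k * e a x l := by
      funext x
      exact inv_eq he x k l
    rw [this]
    exact ContDiff.sum fun a _ => (he.smooth a k).mul (he.smooth a l)
  · exact ((smooth_pd (M.smooth j l) i).add (smooth_pd (M.smooth i l) j)).sub
      (smooth_pd (M.smooth i j) l)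

/-- the elementary bilinear map -/
noncomputable def gb (i j k : Fin n) : E n →L[ℝ] E n →L[ℝ] E n :=
  (EuclideanSpace.proj i : E n →L[ℝ] ℝ).smulRight
    ((EuclideanSpace.proj j : E n →L[ℝ] ℝ).smulRight (basisVec k))

theorem gb_apply (i j k : Fin n) (u v : E n) (l : Fin n) :
    gb i j k u v l = if l = k then u i * v j else 0 := by
  simp [gb, basisVec]

/-- The Christoffel tensor. -/
noncomputable def oldGam (M : RiemMetric n) (x : E n) : E n →L[ℝ] E n →L[ℝ] E n :=
  ∑ i, ∑ j, ∑ k, christoffel M k i j x • gb i j k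

theorem gam_sum_apply (A : Fin n → Fin n → Fin n → ℝ) (u v : E n) (l : Fin n) :
    (∑ i, ∑ j, ∑ k, A k i j • gb i j k) u v l = ∑ i, ∑ j, u i * v j * A l i j := by
  simp only [_root_.sum_apply, _root_.smul_apply, PiLp.smul_apply, WithLp.ofLp_sum,
    Finset.sum_apply, smul_eq_mul, gb_apply]
  refine Finset.sum_congr rfl fun i _ => Finset.sum_congr rfl fun j _ => ?_
  rw [Finset.sum_eq_single l]
  · simp; ring
  · intro b _ hb
    rw [if_neg (Ne.symm hb), mul_zero]
  · simp

theorem oldGam_apply (M : RiemMetric n) (x u v : E n) (l : Fin n) :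
    oldGam M x u v l = ∑ i, ∑ j, u i * v j * christoffel M l i j x :=
  gam_sum_apply (fun k i j => christoffel M k i j x) u v l

theorem oldGam_smooth {M : RiemMetric n} {e : Fin n → E n → Fin n → ℝ}
    (he : TriangularFrame M e) : ContDiff ℝ ∞ (oldGam M) := by
  refine ContDiff.sum fun i _ => ContDiff.sum fun j _ => ContDiff.sum fun k _ => ?_
  exact smooth_smul _ (gb i j k) (christoffel_smooth he k i j)

section generic

variable {V W : Type*} [NormedAddCommGroup V] [NormedSpace ℝ V] [NormedAddCommGroup W]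
  [NormedSpace ℝ W]

theorem fderiv_sum2 {ι κ : Type*} [Fintype ι] [Fintype κ] (f : ι → κ → V → ℝ) (B : ι → κ → W)
    {x : V} (hf : ∀ i j, DifferentiableAt ℝ (f i j) x) (w : V) :
    fderiv ℝ (fun y => ∑ i, ∑ j, f i j y • B i j) x w =
      ∑ i, ∑ j, fderiv ℝ (f i j) x w • B i j := by
  have h1 : HasFDerivAt (fun y => ∑ i, ∑ j, f i j y • B i j)
      (∑ i, ∑ j, (fderiv ℝ (f i j) x).smulRight (B i j)) x :=
    HasFDerivAt.fun_sum fun i _ => HasFDerivAt.fun_sum fun j _ =>
      (hf i j).hasFDerivAt.smul_const (B i j)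
  rw [h1.fderiv]
  simp

theorem fderiv_sum3 {ι κ μ : Type*} [Fintype ι] [Fintype κ] [Fintype μ]
    (f : ι → κ → μ → V → ℝ) (B : ι → κ → μ → W)
    {x : V} (hf : ∀ i j k, DifferentiableAt ℝ (f i j k) x) (w : V) :
    fderiv ℝ (fun y => ∑ i, ∑ j, ∑ k, f i j k y • B i j k) x w =
      ∑ i, ∑ j, ∑ k, fderiv ℝ (f i j k) x w • B i j k := by
  have h1 : HasFDerivAt (fun y => ∑ i, ∑ j, ∑ k, f i j k y • B i j k)
      (∑ i, ∑ j, ∑ k, (fderiv ℝ (f i j k) x).smulRight (B i j k)) x :=
    HasFDerivAt.fun_sum fun i _ => HasFDerivAt.fun_sum fun j _ => HasFDerivAt.fun_sum fun k _ =>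
      (hf i j k).hasFDerivAt.smul_const (B i j k)
  rw [h1.fderiv]
  simp

end generic

theorem oldGam_fderiv {M : RiemMetric n} {e : Fin n → E n → Fin n → ℝ}
    (he : TriangularFrame M e) (x w u v : E n) (l : Fin n) :
    fderiv ℝ (oldGam M) x w u v l =
      ∑ i, ∑ j, u i * v j * ∑ p, w p * pd p (christoffel M l i j) x := by
  have hd : ∀ i j k, DifferentiableAt ℝ (fun y => christoffel M k i j y) x := fun i j k =>
    (christoffel_smooth he k i j).differentiable (by simp) x
  have h1 := fderiv_sum3 (fun i j k y => christoffel M k i j y) gb hd w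
  have h2 : fderiv ℝ (oldGam M) x w = _ := h1
  rw [h2, gam_sum_apply (fun k i j => fderiv ℝ (fun y => christoffel M k i j y) x w)]
  refine Finset.sum_congr rfl fun i _ => Finset.sum_congr rfl fun j _ => ?_
  rw [fderiv_eq_sum (hd i j l)]

theorem g_fderiv (M : RiemMetric n) (x w u v : E n) :
    fderiv ℝ (old M).g x w u v =
      ∑ i, ∑ j, u i * v j * ∑ p, w p * pd p (fun y => M.g y i j) x := by
  have hd : ∀ i j, DifferentiableAt ℝ (fun y => M.g y i j) x := fun i j =>
    (M.smooth i j).differentiable (by simp) x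
  have h1 := fderiv_sum2 (fun i j y => M.g y i j) bil hd w
  have h2 : fderiv ℝ (old M).g x w = _ := h1
  rw [h2]
  simp only [_root_.sum_apply, _root_.smul_apply, bil_apply, smul_eq_mul]
  refine Finset.sum_congr rfl fun i _ => Finset.sum_congr rfl fun j _ => ?_
  rw [fderiv_eq_sum (hd i j), mul_comm]

theorem lower_christoffel (M : RiemMetric n) (x : E n) (m i j : Fin n) :
    ∑ k, M.g x k m * christoffel M k i j x =
      2⁻¹ * (pd i (fun y => M.g y j m) x + pd j (fun y => M.g y i m) x -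
        pd m (fun y => M.g y i j) x) := by
  have h1 : M.g x * (M.g x)⁻¹ = 1 :=
    Matrix.mul_nonsing_inv _ (M.pos x).det_pos.ne'.isUnit
  have h2 : ∀ l, ∑ k, M.g x k m * (M.g x)⁻¹ k l = if m = l then 1 else 0 := by
    intro l
    rw [← Matrix.one_apply, ← h1, Matrix.mul_apply]
    refine Finset.sum_congr rfl fun k _ => ?_
    rw [g_symm M x k m]
  unfold christoffel
  calc ∑ k, M.g x k m * (2⁻¹ * ∑ l, (M.g x)⁻¹ k l * (pd i (fun y => M.g y j l) x +
        pd j (fun y => M.g y i l) x - pd l (fun y => M.g y i j) x))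
      = ∑ l, ∑ k, 2⁻¹ * (M.g x k m * (M.g x)⁻¹ k l) * (pd i (fun y => M.g y j l) x +
        pd j (fun y => M.g y i l) x - pd l (fun y => M.g y i j) x) := by
        rw [Finset.sum_comm]
        refine Finset.sum_congr rfl fun k _ => ?_
        rw [Finset.mul_sum, Finset.mul_sum]
        refine Finset.sum_congr rfl fun l _ => ?_
        ring
    _ = ∑ l, 2⁻¹ * (if m = l then 1 else 0) * (pd i (fun y => M.g y j l) x +
        pd j (fun y => M.g y i l) x - pd l (fun y => M.g y i j) x) := by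
        refine Finset.sum_congr rfl fun l _ => ?_
        rw [← Finset.sum_mul, ← Finset.mul_sum, h2]
    _ = _ := by
        rw [Finset.sum_eq_single m]
        · simp
        · intro b _ hb
          rw [if_neg (Ne.symm hb)]
          ring
        · simp

theorem koszul_old (M : RiemMetric n) (x u v w : E n) :
    2 * (old M).g x (oldGam M x u v) w =
      fderiv ℝ (old M).g x u v w + fderiv ℝ (old M).g x v u w - fderiv ℝ (old M).g x w u v := by
  rw [g_fderiv, g_fderiv, g_fderiv, old_apply]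
  have h0 : (oldGam M x u v : E n) ⬝ᵥ M.g x *ᵥ w =
      ∑ m, ∑ i, ∑ j, w m * u i * v j * ∑ k, M.g x k m * christoffel M k i j x := by
    simp only [dotProduct, mulVec, oldGam_apply]
    calc ∑ k, (∑ i, ∑ j, u i * v j * christoffel M k i j x) * ∑ m, M.g x k m * w m
        = ∑ k, ∑ m, ∑ i, ∑ j, w m * u i * v j * (M.g x k m * christoffel M k i j x) := by
          refine Finset.sum_congr rfl fun k _ => ?_
          rw [Finset.mul_sum]
          refine Finset.sum_congr rfl fun m _ => ?_
          rw [Finset.sum_mul]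
          refine Finset.sum_congr rfl fun i _ => ?_
          rw [Finset.sum_mul]
          refine Finset.sum_congr rfl fun j _ => ?_
          ring
      _ = _ := by
          rw [Finset.sum_comm]
          refine Finset.sum_congr rfl fun m _ => ?_
          rw [Finset.sum_comm]
          refine Finset.sum_congr rfl fun i _ => ?_
          rw [Finset.sum_comm]
          refine Finset.sum_congr rfl fun j _ => ?_
          rw [Finset.mul_sum]
  rw [h0]
  have t1 : ∑ i, ∑ j, v i * w j * ∑ p, u p * pd p (fun y => M.g y i j) x =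
      ∑ m, ∑ i, ∑ j, w m * u i * v j * pd i (fun y => M.g y j m) x := by
    rw [Finset.sum_comm]
    refine Finset.sum_congr rfl fun m _ => ?_
    simp only [Finset.mul_sum]
    rw [Finset.sum_comm]
    refine Finset.sum_congr rfl fun i _ => Finset.sum_congr rfl fun j _ => ?_
    ring
  have t2 : ∑ i, ∑ j, u i * w j * ∑ p, v p * pd p (fun y => M.g y i j) x =
      ∑ m, ∑ i, ∑ j, w m * u i * v j * pd j (fun y => M.g y i m) x := by
    rw [Finset.sum_comm]
    refine Finset.sum_congr rfl fun m _ => ?_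
    simp only [Finset.mul_sum]
    refine Finset.sum_congr rfl fun i _ => Finset.sum_congr rfl fun j _ => ?_
    ring
  have t3 : ∑ i, ∑ j, u i * v j * ∑ p, w p * pd p (fun y => M.g y i j) x =
      ∑ m, ∑ i, ∑ j, w m * u i * v j * pd m (fun y => M.g y i j) x := by
    simp only [Finset.mul_sum]
    rw [Finset.sum_comm (s := Finset.univ) (t := Finset.univ)
      (f := fun m i => ∑ j, w m * u i * v j * pd m (fun y => M.g y i j) x)]
    refine Finset.sum_congr rfl fun i _ => ?_
    rw [Finset.sum_comm]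
    refine Finset.sum_congr rfl fun m _ => Finset.sum_congr rfl fun j _ => ?_
    ring
  rw [t1, t2, t3, Finset.mul_sum, ← Finset.sum_add_distrib, ← Finset.sum_sub_distrib]
  refine Finset.sum_congr rfl fun m _ => ?_
  rw [Finset.mul_sum, ← Finset.sum_add_distrib, ← Finset.sum_sub_distrib]
  refine Finset.sum_congr rfl fun i _ => ?_
  rw [Finset.mul_sum, ← Finset.sum_add_distrib, ← Finset.sum_sub_distrib]
  refine Finset.sum_congr rfl fun j _ => ?_
  rw [lower_christoffel]
  ring

/-- components of the curvature operator -/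
noncomputable def curvK (M : RiemMetric n) (x : E n) (l i j k : Fin n) : ℝ :=
  pd i (christoffel M l j k) x - pd j (christoffel M l i k) x +
    ∑ p, (christoffel M l i p x * christoffel M p j k x -
      christoffel M l j p x * christoffel M p i k x)

theorem curv_comp {M : RiemMetric n} {e : Fin n → E n → Fin n → ℝ}
    (he : TriangularFrame M e) (x u v : E n) (l : Fin n) :
    (fderiv ℝ (oldGam M) x u v v - fderiv ℝ (oldGam M) x v u v + oldGam M x u (oldGam M x v v)
      - oldGam M x v (oldGam M x u v) : E n) l =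
      ∑ i, ∑ j, ∑ k, u i * v j * v k * curvK M x l i j k := by
  simp only [PiLp.sub_apply, PiLp.add_apply, oldGam_fderiv he]
  rw [oldGam_apply M x u (oldGam M x v v), oldGam_apply M x v (oldGam M x u v)]
  simp only [oldGam_apply]
  have t1 : ∑ j, ∑ k, v j * v k * ∑ i, u i * pd i (christoffel M l j k) x =
      ∑ i, ∑ j, ∑ k, u i * v j * v k * pd i (christoffel M l j k) x := by
    simp only [Finset.mul_sum]
    rw [Finset.sum_comm (s := Finset.univ) (t := Finset.univ)
      (f := fun i j => ∑ k, u i * v j * v k * pd i (christoffel M l j k) x)]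
    refine Finset.sum_congr rfl fun j _ => ?_
    rw [Finset.sum_comm]
    refine Finset.sum_congr rfl fun i _ => Finset.sum_congr rfl fun k _ => ?_
    ring
  have t2 : ∑ i, ∑ k, u i * v k * ∑ j, v j * pd j (christoffel M l i k) x =
      ∑ i, ∑ j, ∑ k, u i * v j * v k * pd j (christoffel M l i k) x := by
    simp only [Finset.mul_sum]
    refine Finset.sum_congr rfl fun i _ => ?_
    rw [Finset.sum_comm]
    refine Finset.sum_congr rfl fun j _ => Finset.sum_congr rfl fun k _ => ?_
    ring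
  have t3 : ∑ i, ∑ p, u i * (∑ j, ∑ k, v j * v k * christoffel M p j k x) *
      christoffel M l i p x = ∑ i, ∑ j, ∑ k, u i * v j * v k *
        ∑ p, christoffel M l i p x * christoffel M p j k x := by
    refine Finset.sum_congr rfl fun i _ => ?_
    simp only [Finset.mul_sum, Finset.sum_mul]
    rw [Finset.sum_comm]
    refine Finset.sum_congr rfl fun j _ => ?_
    rw [Finset.sum_comm]
    refine Finset.sum_congr rfl fun k _ => Finset.sum_congr rfl fun p _ => ?_
    ring
  have t4 : ∑ j, ∑ p, v j * (∑ i, ∑ k, u i * v k * christoffel M p i k x) *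
      christoffel M l j p x = ∑ i, ∑ j, ∑ k, u i * v j * v k *
        ∑ p, christoffel M l j p x * christoffel M p i k x := by
    rw [Finset.sum_comm (s := Finset.univ) (t := Finset.univ)
      (f := fun i j => ∑ k, u i * v j * v k *
        ∑ p, christoffel M l j p x * christoffel M p i k x)]
    refine Finset.sum_congr rfl fun j _ => ?_
    simp only [Finset.mul_sum, Finset.sum_mul]
    rw [Finset.sum_comm]
    refine Finset.sum_congr rfl fun i _ => ?_
    rw [Finset.sum_comm]
    refine Finset.sum_congr rfl fun k _ => Finset.sum_congr rfl fun p _ => ?_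
    ring
  rw [t1, t2, t3, t4, ← Finset.sum_sub_distrib, ← Finset.sum_add_distrib,
    ← Finset.sum_sub_distrib]
  refine Finset.sum_congr rfl fun i _ => ?_
  rw [← Finset.sum_sub_distrib, ← Finset.sum_add_distrib, ← Finset.sum_sub_distrib]
  refine Finset.sum_congr rfl fun j _ => ?_
  rw [← Finset.sum_sub_distrib, ← Finset.sum_add_distrib, ← Finset.sum_sub_distrib]
  refine Finset.sum_congr rfl fun k _ => ?_
  unfold curvK
  rw [Finset.sum_sub_distrib]
  ring

theorem reorder (a : Fin n → Fin n → Fin n → ℝ) (K : Fin n → Fin n → Fin n → Fin n → ℝ)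
    (G : Fin n → Fin n → ℝ) (u : Fin n → ℝ) :
    ∑ l, (∑ i, ∑ j, ∑ k, a i j k * K l i j k) * ∑ m, G l m * u m =
      ∑ i, ∑ j, ∑ k, ∑ m, a i j k * u m * ∑ l, G l m * K l i j k := by
  simp_rw [Finset.sum_mul, Finset.mul_sum]
  rw [Finset.sum_comm]
  refine Finset.sum_congr rfl fun i _ => ?_
  rw [Finset.sum_comm]
  refine Finset.sum_congr rfl fun j _ => ?_
  rw [Finset.sum_comm]
  refine Finset.sum_congr rfl fun k _ => ?_
  rw [Finset.sum_comm]
  refine Finset.sum_congr rfl fun m _ => Finset.sum_congr rfl fun l _ => ?_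
  ring

theorem secLE_old {M : RiemMetric n} {e : Fin n → E n → Fin n → ℝ}
    (he : TriangularFrame M e) {κ : ℝ} (h : SecLE M κ) : Vale.Agent.P219.SecLE (old M) κ := by
  refine ⟨oldGam M, oldGam_smooth he, koszul_old M, fun x u v => ?_⟩
  rw [old_apply, old_apply, old_apply, old_apply]
  refine le_trans (le_of_eq ?_) (h x u v)
  simp only [dotProduct, mulVec]
  have h1 : ∀ l, (fderiv ℝ (oldGam M) x u v v - fderiv ℝ (oldGam M) x v u v +
      oldGam M x u (oldGam M x v v) - oldGam M x v (oldGam M x u v) : E n) l =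
      ∑ i, ∑ j, ∑ k, u i * v j * v k * curvK M x l i j k := fun l => curv_comp he x u v l
  simp only [h1]
  exact reorder (fun i j k => u i * v j * v k) (curvK M x) (M.g x) u

end Vale.Agent.P219.Co
end

section

/-!
Bridge from the coordinate definitions: geodesic completeness, curvature, frames.
-/

open Set Filter Topology Matrix
open scoped ContDiff
open Vale.Agent.P255

noncomputable section

namespace Vale.Agent.P219.Co

variable {n : ℕ}

theorem chris_old (M : RiemMetric n) (x u v : E n) :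
    chris (old M).g x u v = oldGam M x u v :=
  CH.chris_eq_of_koszul (old M) (koszul_old M) x u v

theorem hasDerivAt_eucl {f : ℝ → E n} {f' : E n} {t : ℝ}
    (h : ∀ k, HasDerivAt (fun s => f s k) (f' k) t) : HasDerivAt f f' t := by
  have h1 : HasDerivAt (fun s => (WithLp.ofLp (f s) : Fin n → ℝ)) (WithLp.ofLp f') t :=
    hasDerivAt_pi.2 h
  have h2 := ((PiLp.continuousLinearEquiv 2 ℝ (fun _ : Fin n => ℝ)).symm.toContinuousLinearMap
    |>.hasFDerivAt (x := WithLp.ofLp (f t))).comp_hasDerivAt t h1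
  exact h2

/-- Geodesic completeness in coordinates gives completeness of the geodesic vector field. -/
theorem geoComplete_old {M : RiemMetric n} (hM : GeodesicallyComplete M) :
    CH.GeoComplete (old M).g := by
  intro z
  obtain ⟨c, p, hc0, hp0, hcp⟩ := hM z.1 z.2
  refine ⟨fun t => (c t, p t), ?_, fun t => ?_⟩
  · exact Prod.ext hc0 hp0
  · have h1 : HasDerivAt c (p t) t := hasDerivAt_eucl fun k => (hcp t k).1
    have h2 : HasDerivAt p (- chris (old M).g (c t) (p t) (p t)) t := by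
      refine hasDerivAt_eucl fun k => ?_
      refine (hcp t k).2.congr_deriv ?_
      rw [chris_old, PiLp.neg_apply, oldGam_apply]
      congr 1
      refine Finset.sum_congr rfl fun i _ => Finset.sum_congr rfl fun j _ => ?_
      ring
    exact h1.prodMk h2

/-- Triangular frames of the invariant metric give triangular frames in coordinates. -/
theorem frame_of_old {M : RiemMetric n} {e : Fin n → E n → E n}
    (he : Vale.Agent.P219.TriangularFrame (old M) e) :
    TriangularFrame M (fun a x i => e a x i) where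
  smooth a i := (contDiff_euclidean.1 (he.smooth a)) i
  orthonormal x a b := by
    have h := he.orthonormal x a b
    rw [old_apply] at h
    exact h
  triangular a x i hi := he.triangular a x i hi
  positive a x := he.positive a x

/-- `Sec ≤ κ` in coordinates gives `Sec ≤ κ` for the invariant metric (frames exist, CH/Frame.lean). -/
theorem secLE_old_of_frame {M : RiemMetric n}
    (hfr : ∃ e, Vale.Agent.P219.TriangularFrame (old M) e) {κ : ℝ} (h : SecLE M κ) :
    Vale.Agent.P219.SecLE (old M) κ := by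
  obtain ⟨e, he⟩ := hfr
  exact secLE_old (frame_of_old he) h

end Vale.Agent.P219.Co
end
end

section

/-! # P219: existence of the contraction, general weights -/

open MeasureTheory Set Metric
open scoped ENNReal ContDiff

namespace Vale.Agent.P219.End

open Vale.Agent.P219.TP Vale.Agent.P219.TPH

variable {n : ℕ} (G : Geo n)

/-- Cut-off of a smooth rate. -/
theorem st_cutoff {u : _root_.Vale.Agent.P219.TP.E n → ℝ} (hu : ContDiff ℝ ∞ u) (hu0 : ∀ x, 0 ≤ u x) (L : ℝ) (p : _root_.Vale.Agent.P219.TP.E n) :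
    ∃ M : ℝ, 0 ≤ M ∧ ∃ θ : _root_.Vale.Agent.P219.TP.E n → ℝ, ContDiff ℝ ∞ θ ∧ (∀ v, 0 ≤ θ v) ∧
        (∀ v, ‖v‖ < L → θ v = u (G.ex p v)) ∧
        ∀ v v', ‖θ v • v - θ v' • v'‖ ≤ M * ‖v - v'‖ := by
  have hex : ContDiff ℝ ∞ (G.ex p) := G.ex_smooth.comp (contDiff_const.prodMk contDiff_id)
  have hth : ContDiff ℝ ∞ fun v => u (G.ex p v) := hu.comp hex
  let χ : ContDiffBump (0 : _root_.Vale.Agent.P219.TP.E n) := ⟨|L| + 1, |L| + 2, by positivity, by linarith⟩
  have hχ : ContDiff ℝ ∞ (χ : _root_.Vale.Agent.P219.TP.E n → ℝ) := χ.contDiff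
  set g : _root_.Vale.Agent.P219.TP.E n → _root_.Vale.Agent.P219.TP.E n := fun z => (χ z * u (G.ex p z)) • z with hg
  have hgs : ContDiff ℝ ∞ g := (hχ.mul hth).smul contDiff_id
  obtain ⟨C, hC⟩ := (isCompact_closedBall (0 : _root_.Vale.Agent.P219.TP.E n) (|L| + 2)).exists_bound_of_continuousOn
    (hgs.continuous_fderiv (by simp)).continuousOn
  refine ⟨max C 0, le_max_right _ _, fun v => χ v * u (G.ex p v), hχ.mul hth, fun v => ?_,
    fun v hv => ?_, ?_⟩
  · exact mul_nonneg χ.nonneg (hu0 _)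
  · change χ v * u (G.ex p v) = u (G.ex p v)
    rw [χ.one_of_mem_closedBall, one_mul]
    rw [mem_closedBall, dist_zero_right]
    change ‖v‖ ≤ |L| + 1
    have := le_abs_self L
    linarith
  · have hb : ∀ v : _root_.Vale.Agent.P219.TP.E n, ‖fderiv ℝ g v‖ ≤ max C 0 := by
      intro v
      by_cases hv : ‖v‖ ≤ |L| + 2
      · exact (hC v (by simpa using hv)).trans (le_max_left _ _)
      · rw [not_le] at hv
        have h0' : g =ᶠ[nhds v] fun _ => 0 := by
          have : {v : _root_.Vale.Agent.P219.TP.E n | |L| + 2 < ‖v‖} ∈ nhds v :=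
            (isOpen_lt continuous_const continuous_norm).mem_nhds hv
          filter_upwards [this] with v' hv'
          simp only [hg]
          rw [χ.zero_of_le_dist, zero_mul, zero_smul]
          rw [dist_zero_right]
          exact le_of_lt hv'
        rw [h0'.fderiv_eq, fderiv_fun_const]
        simp
    intro v v'
    exact Convex.norm_image_sub_le_of_norm_fderiv_le (s := (univ : Set (_root_.Vale.Agent.P219.TP.E n)))
      (f := g) (x := v') (y := v) (fun v _ => hgs.differentiable (by simp) v)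
      (fun v _ => hb v) convex_univ (mem_univ _) (mem_univ _)

/-- For small `t` there is a diffeomorphism which is the contraction of rate `u` near the ball and
preserves the class. -/
theorem st_exists_psi (o : _root_.Vale.Agent.P219.TP.E n) (ρ : ℝ) {p : _root_.Vale.Agent.P219.TP.E n} (hp : ‖G.lg o p‖ ≤ ρ) {u : _root_.Vale.Agent.P219.TP.E n → ℝ}
    (hu : ContDiff ℝ ∞ u) (hu0 : ∀ x, 0 ≤ u x) :
    ∃ t₀ : ℝ, 0 < t₀ ∧ ∀ t : ℝ, 0 ≤ t → t ≤ t₀ → ∃ (θ : _root_.Vale.Agent.P219.TP.E n → ℝ) (Ψ : _root_.Vale.Agent.P219.TP.E n ≃ₜ _root_.Vale.Agent.P219.TP.E n),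
      (∀ v, ‖v‖ < 2 * ρ + 1 → θ v = u (G.ex p v)) ∧ (∀ x, Ψ x = G.rad θ p t x) ∧
      ContDiff ℝ ∞ Ψ ∧ ContDiff ℝ ∞ Ψ.symm ∧ ∀ h, G.Cls o ρ h → G.Cls o ρ (h ∘ Ψ.symm) := by
  obtain ⟨M, hM, θ, hθs, hθ0, hθe, hθL⟩ := st_cutoff G hu hu0 (2 * ρ + 1) p
  obtain ⟨M', hM'⟩ := (isCompact_closedBall (0 : _root_.Vale.Agent.P219.TP.E n) (2 * ρ)).exists_bound_of_continuousOn
    hθs.continuous.continuousOn
  refine ⟨1 / (2 * (M + |M'| + 1)), by positivity, fun t ht0 ht => ?_⟩
  have ht4 : t * (2 * (M + |M'| + 1)) ≤ 1 := by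
    rwa [le_div_iff₀ (by positivity)] at ht
  have hM'0 : 0 ≤ |M'| := abs_nonneg _
  have htM : |t| * M < 1 := by
    rw [abs_of_nonneg ht0]
    linarith only [mul_nonneg ht0 hM'0, ht4, ht0]
  obtain ⟨Ψ, hΨ, hΨs, hΨs'⟩ := exists_diffeo_geo G hθs hM hθL htM p
  have hΨ' : ∀ x, Ψ x = G.rad θ p t x := hΨ
  refine ⟨θ, Ψ, hθe, hΨ', hΨs, hΨs', fun h hh => cls_contract G hp (t := t) (θ := θ) ?_ hΨ' hΨs' hh⟩
  intro x hx
  have h1 : ‖G.lg p x‖ ≤ 2 * ρ := perc_norm_lg_le G hp hx
  have h3 := hM' (G.lg p x) (by simpa using h1)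
  have h5 := hθ0 (G.lg p x)
  have h4 : θ (G.lg p x) ≤ |M'| := (le_abs_self _).trans (h3.trans (le_abs_self _))
  constructor
  · linarith only [mul_le_mul_of_nonneg_left h4 ht0, mul_nonneg ht0 hM, ht4, ht0]
  · linarith only [mul_nonneg ht0 h5]

end Vale.Agent.P219.End
end

section

/-!
# P219 / End : smooth truncation (T0)
-/

open MeasureTheory Set Metric
open scoped ENNReal ContDiff Topology

namespace Vale.Agent.P219.End

/-- T0 smooth truncation -/
theorem exists_trunc (a τ : ℝ) (hτ : 0 < τ) : ∃ θ : ℝ → ℝ, ContDiff ℝ ∞ θ ∧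
    (∀ t, 0 ≤ deriv θ t ∧ deriv θ t ≤ 1) ∧ (∀ t, t ≤ a → θ t = 0) ∧
    (∀ t, max 0 (t - a - τ) ≤ θ t ∧ θ t ≤ max 0 (t - a)) := by
  set f : ℝ → ℝ := fun x => Real.smoothTransition ((x - a) / τ) with hf
  have hfs : ContDiff ℝ ∞ f :=
    Real.smoothTransition.contDiff.comp ((contDiff_id.sub contDiff_const).div_const τ)
  have hfc : Continuous f := hfs.continuous
  have hi : ∀ p q : ℝ, IntervalIntegrable f volume p q := fun p q => hfc.intervalIntegrable p q
  have h0 : ∀ x, 0 ≤ f x := fun x => Real.smoothTransition.nonneg _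
  have h1 : ∀ x, f x ≤ 1 := fun x => Real.smoothTransition.le_one _
  have hz : ∀ x, x ≤ a → f x = 0 := fun x hx =>
    Real.smoothTransition.zero_of_nonpos (div_nonpos_of_nonpos_of_nonneg (by linarith) hτ.le)
  have ho : ∀ x, a + τ ≤ x → f x = 1 := fun x hx =>
    Real.smoothTransition.one_of_one_le (by rw [le_div_iff₀ hτ]; linarith)
  have hd : ∀ t, HasDerivAt (fun t => ∫ x in a..t, f x) (f t) t := fun t =>
    intervalIntegral.integral_hasDerivAt_right (hi _ _)
      (hfc.stronglyMeasurableAtFilter _ _) hfc.continuousAt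
  have hd' : deriv (fun t => ∫ x in a..t, f x) = f := funext fun t => (hd t).deriv
  have hle : ∀ t, t ≤ a → (∫ x in a..t, f x) = 0 := by
    intro t ht
    rw [intervalIntegral.integral_symm]
    have : (∫ x in t..a, f x) = ∫ x in t..a, (0 : ℝ) := by
      apply intervalIntegral.integral_congr
      intro x hx
      rw [uIcc_of_le ht] at hx
      exact hz x hx.2
    rw [this]
    simp
  refine ⟨fun t => ∫ x in a..t, f x, ?_, fun t => ?_, hle, fun t => ?_⟩
  · rw [contDiff_infty_iff_deriv]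
    exact ⟨fun t => (hd t).differentiableAt, by rw [hd']; exact hfs⟩
  · rw [hd']
    exact ⟨h0 t, h1 t⟩
  · change max 0 (t - a - τ) ≤ (∫ x in a..t, f x) ∧ (∫ x in a..t, f x) ≤ max 0 (t - a)
    rcases le_total t a with h | h
    · rw [hle t h, max_eq_left (by linarith), max_eq_left (by linarith)]
      exact ⟨le_rfl, le_rfl⟩
    · constructor
      · apply max_le
        · exact intervalIntegral.integral_nonneg h fun x _ => h0 x
        · rcases le_total t (a + τ) with h2 | h2
          · have := intervalIntegral.integral_nonneg (μ := volume) h fun x _ => h0 x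
            linarith
          · have e := intervalIntegral.integral_add_adjacent_intervals (hi a (a + τ)) (hi (a + τ) t)
            have e2 : 0 ≤ ∫ x in a..(a + τ), f x :=
              intervalIntegral.integral_nonneg (by linarith) fun x _ => h0 x
            have e3 : (∫ x in (a + τ)..t, f x) = ∫ x in (a + τ)..t, (1 : ℝ) := by
              apply intervalIntegral.integral_congr
              intro x hx
              rw [uIcc_of_le h2] at hx
              exact ho x hx.1
            rw [e3] at e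
            simp only [intervalIntegral.integral_const, smul_eq_mul, mul_one] at e
            linarith
      · rw [max_eq_right (by linarith)]
        have e := intervalIntegral.integral_mono_on h (hi a t)
          (continuous_const.intervalIntegrable (μ := volume) a t) fun x _ => h1 x
        simp only [intervalIntegral.integral_const, smul_eq_mul, mul_one] at e
        exact e

end Vale.Agent.P219.End
end
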