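import Mathlib
import Vale.Agent.P219.Bdl.B4
import Vale.Agent.P219.Bdl.B5
import Vale.Agent.P219.Bdl.B6
import Vale.Agent.P219.Bdl.B10
import Vale.Agent.P219.Bdl.B11
import Vale.Agent.P219.Bdl.B3
import Vale.Agent.P219.Bdl.B2
import Vale.Agent.P219.Bdl.B1
import Vale.Agent.P219.Bdl.B7

set_option linter.all false

section

/-! # Area element of a radial contraction, exact Jacobian (task H3) -/

open MeasureTheory Set Metric
open scoped ENNReal ContDiff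

namespace Vale.Agent.P219.TPH

open Vale.Agent.P219.TP

variable {n : ℕ}

theorem arh_norm_perp {e y : _root_.Vale.Agent.P219.TP.E n} (he : ‖e‖ = 1) :
    ‖y - inner ℝ e y • e‖ ^ 2 = ‖y‖ ^ 2 - inner ℝ e y ^ 2 := by
  rw [norm_sub_sq_real, real_inner_smul_right, norm_smul, he, real_inner_comm e y, mul_one,
    Real.norm_eq_abs, sq_abs]
  ring

/-! ### The comparison map -/

theorem arh_perp (v z : _root_.Vale.Agent.P219.TP.E n) (hv : v ≠ 0) :
    inner ℝ v (z - (inner ℝ v z / ‖v‖ ^ 2) • v) = 0 := by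
  have hr : ‖v‖ ≠ 0 := norm_ne_zero_iff.2 hv
  rw [inner_sub_right, real_inner_smul_right, real_inner_self_eq_norm_sq]
  field_simp
  ring

theorem arh_L {v : _root_.Vale.Agent.P219.TP.E n} (hv : v ≠ 0) {c : ℝ} (hc : 0 < c) (z : _root_.Vale.Agent.P219.TP.E n) :
    linAlgC (‖v‖⁻¹ • v) 0 1 c z =
      (inner ℝ v z / ‖v‖ ^ 2) • v + c • (z - (inner ℝ v z / ‖v‖ ^ 2) • v) := by
  have hr : ‖v‖ ≠ 0 := norm_ne_zero_iff.2 hv
  rw [linAlgC_apply _ _ _ hc, inner_zero_left, sub_zero, one_mul, real_inner_smul_left, smul_smul]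
  have h1 : ‖v‖⁻¹ * inner ℝ v z * ‖v‖⁻¹ = inner ℝ v z / ‖v‖ ^ 2 := by
    field_simp
  rw [h1]

/-- the comparison map `Q` -/
noncomputable def arhQ (G : Geo n) (p v : _root_.Vale.Agent.P219.TP.E n) (β c : ℝ) (Ti : _root_.Vale.Agent.P219.TP.E n →L[ℝ] _root_.Vale.Agent.P219.TP.E n) : _root_.Vale.Agent.P219.TP.E n →L[ℝ] _root_.Vale.Agent.P219.TP.E n :=
  (G.T p (β • v)).comp ((linAlgC (‖v‖⁻¹ • v) 0 1 c).comp Ti)

theorem arhQ_apply (G : Geo n) {p v : _root_.Vale.Agent.P219.TP.E n} (hv : v ≠ 0) {β c : ℝ} (hc : 0 < c)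
    (Ti : _root_.Vale.Agent.P219.TP.E n →L[ℝ] _root_.Vale.Agent.P219.TP.E n) (ξ : _root_.Vale.Agent.P219.TP.E n) :
    arhQ G p v β c Ti ξ = (inner ℝ v (Ti ξ) / ‖v‖ ^ 2) • G.T p (β • v) v +
      c • G.T p (β • v) (Ti ξ - (inner ℝ v (Ti ξ) / ‖v‖ ^ 2) • v) := by
  have h1 : arhQ G p v β c Ti ξ = G.T p (β • v) (linAlgC (‖v‖⁻¹ • v) 0 1 c (Ti ξ)) := rfl
  rw [h1, arh_L hv hc, map_add, map_smul, map_smul]

theorem arh_T_smul_norm (G : Geo n) {p v : _root_.Vale.Agent.P219.TP.E n} {β : ℝ} (hβ : β ≠ 0) :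
    ‖G.T p (β • v) v‖ = ‖v‖ := by
  have h1 : ‖G.T p (β • v) v‖ ^ 2 = ‖v‖ ^ 2 := by
    rw [← real_inner_self_eq_norm_sq, G.gauss_smul hβ, real_inner_self_eq_norm_sq]
  exact (pow_left_inj₀ (norm_nonneg _) (norm_nonneg _) two_ne_zero).1 h1

/-! ### The vectors -/

theorem arh_radF (θ : _root_.Vale.Agent.P219.TP.E n → ℝ) (t a : ℝ) (v z : _root_.Vale.Agent.P219.TP.E n) :
    radF θ t v (z + a • v) = (1 - t * θ v) • z +
      (a * (1 - t * θ v) - t * (fderiv ℝ θ v z + a * fderiv ℝ θ v v)) • v := by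
  rw [radF_apply, map_add, map_smul, smul_eq_mul, smul_add, smul_smul, sub_smul (a * _),
    mul_comm (1 - t * θ v) a, add_sub_assoc]

/-- the formula for `B` -/
theorem arh_B (G : Geo n) {θ : _root_.Vale.Agent.P219.TP.E n → ℝ} {p v : _root_.Vale.Agent.P219.TP.E n} {t bh : ℝ} (hv : v ≠ 0)
    (hβ : 0 < 1 - t * θ v) (hbh : 0 < bh) {Ti : _root_.Vale.Agent.P219.TP.E n →L[ℝ] _root_.Vale.Agent.P219.TP.E n}
    (hTi1 : ∀ z, Ti (G.T p v z) = z) (hTi2 : ∀ ξ, G.T p v (Ti ξ) = ξ) {ζ : _root_.Vale.Agent.P219.TP.E n}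
    (hζ : ∀ ξ, inner ℝ ζ ξ =
      t * ‖v‖ * fderiv ℝ θ v (Ti ξ - (inner ℝ v (Ti ξ) / ‖v‖ ^ 2) • v)) (ξ : _root_.Vale.Agent.P219.TP.E n) :
    G.radB θ p t v Ti ξ =
      ((1 - t * (θ v + fderiv ℝ θ v v)) * inner ℝ (‖v‖⁻¹ • G.T p v v) ξ - inner ℝ ζ ξ) •
        (‖v‖⁻¹ • G.T p ((1 - t * θ v) • v) v) +
      bh • arhQ G p v (1 - t * θ v) ((1 - t * θ v) / bh) Ti
        (ξ - inner ℝ (‖v‖⁻¹ • G.T p v v) ξ • (‖v‖⁻¹ • G.T p v v)) := by
  have hr : ‖v‖ ≠ 0 := norm_ne_zero_iff.2 hv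
  have hc : 0 < (1 - t * θ v) / bh := by positivity
  have heξ : inner ℝ (‖v‖⁻¹ • G.T p v v) ξ = inner ℝ v (Ti ξ) / ‖v‖ := by
    rw [real_inner_smul_left, ← G.gauss p v (Ti ξ), hTi2]
    field_simp
  set z : _root_.Vale.Agent.P219.TP.E n := Ti ξ with hz
  have hp := arh_perp v z hv
  have h1 : Ti (ξ - inner ℝ (‖v‖⁻¹ • G.T p v v) ξ • (‖v‖⁻¹ • G.T p v v)) =
      z - (inner ℝ v z / ‖v‖ ^ 2) • v := by
    rw [map_sub, map_smul, map_smul, hTi1, heξ, smul_smul, ← hz]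
    congr 2
    field_simp
  rw [arhQ_apply G hv hc, h1, hp, zero_div, zero_smul, zero_smul, zero_add, sub_zero, heξ, hζ,
    ← hz]
  set z' : _root_.Vale.Agent.P219.TP.E n := z - (inner ℝ v z / ‖v‖ ^ 2) • v with hz'
  have hz2 : z = z' + (inner ℝ v z / ‖v‖ ^ 2) • v := by rw [hz']; abel
  have h2 : G.radB θ p t v Ti ξ = G.T p ((1 - t * θ v) • v) (radF θ t v z) := rfl
  have h3 : radF θ t v z = (1 - t * θ v) • z' + ((inner ℝ v z / ‖v‖ ^ 2) * (1 - t * θ v) -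
      t * (fderiv ℝ θ v z' + (inner ℝ v z / ‖v‖ ^ 2) * fderiv ℝ θ v v)) • v := by
    rw [← arh_radF, ← hz2]
  rw [h2, h3, map_add, map_smul, map_smul, smul_smul, smul_smul, add_comm]
  congr 2
  · field_simp
    ring
  · field_simp

/-! ### The angle -/

end Vale.Agent.P219.TPH
end

section

/-! # Scalar expansion (task H4) -/

open Set

namespace Vale.Agent.P219.TPH

end Vale.Agent.P219.TPH
end

section

/-! # Total variation of a contracted function, exact kernel (task H7) -/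

open MeasureTheory Set Metric
open scoped ENNReal ContDiff

namespace Vale.Agent.P219.TPH

open Vale.Agent.P219.TP

variable {n : ℕ} (G : Geo n) {k : ℝ}

end Vale.Agent.P219.TPH
end

section

/-! # First variation of the total variation, general contraction field

`u` is a smooth nonnegative function, `Ψ x = ex p ((1 - t u(x)) • lg p x)`. In curvature `≤ -k²` the
total variation satisfies the first variation inequality with the Hessian of `r²/2` bounded below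
by the one of the model, uniformly for all test functions supported in a geodesic ball. -/

open MeasureTheory Set Metric
open scoped ENNReal ContDiff

namespace Vale.Agent.P219.End

open Vale.Agent.P219.TP Vale.Agent.P219.TPH

variable {n : ℕ}

/-- `q(r) = r ct_k(r)`. -/
noncomputable def qct (k r : ℝ) : ℝ := r * _root_.Vale.Agent.P219.TPH.cs k r / _root_.Vale.Agent.P219.TPH.sn k r

/-- First variation density of area of the contraction field `-u ∇(r²/2)` (lower bound of the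
divergence on the level), `a = ∇(r²/2) = - lg x p`, `N = Dh`. -/
noncomputable def kapU (G : Geo n) (k : ℝ) (u : _root_.Vale.Agent.P219.TP.E n → ℝ) (p x N : _root_.Vale.Agent.P219.TP.E n) : ℝ :=
  u x * (((n : ℝ) - 2) * qct k ‖G.lg p x‖ + 1) * ‖N‖ + inner ℝ (G.D u x) (-G.lg x p) * ‖N‖ -
    inner ℝ (-G.lg x p) N * inner ℝ (G.D u x) N / ‖N‖ +
    u x * (qct k ‖G.lg p x‖ - 1) * (inner ℝ (-G.lg x p) N / ‖G.lg p x‖) ^ 2 / ‖N‖

/-! ### Linear algebra -/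

theorem fv_linear (hn : 2 ≤ n) {B : _root_.Vale.Agent.P219.TP.E n →L[ℝ] _root_.Vale.Agent.P219.TP.E n} {e ζ N y : _root_.Vale.Agent.P219.TP.E n} {α β : ℝ}
    (he : ‖e‖ = 1) (hζ : inner ℝ e ζ = 0) (hα : 0 < α) (hβ : 0 < β)
    (hBξ : ∀ ξ, ‖B ξ‖ ^ 2 ≤ (α * inner ℝ e ξ - inner ℝ ζ ξ) ^ 2 +
      β ^ 2 * (‖ξ‖ ^ 2 - inner ℝ e ξ ^ 2))
    (hy : ∀ ξ, inner ℝ y (B ξ) = inner ℝ N ξ) :
    |B.det| * ‖y‖ ≤ β ^ (n - 2) *
      ‖(β * inner ℝ e N) • e + α • (N - inner ℝ e N • e) + inner ℝ e N • ζ‖ := by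
  by_cases hB : B.det = 0
  · rw [hB, abs_zero, zero_mul]
    positivity
  set C := linAlgC e ζ α β with hC
  have hCd : C.det = α * β ^ (n - 1) := linAlgC_det hn he hζ hβ
  have hee : inner ℝ e e = (1 : ℝ) := by rw [real_inner_self_eq_norm_sq, he, one_pow]
  have hζe : inner ℝ ζ e = (0 : ℝ) := by rw [real_inner_comm]; exact hζ
  have hCn : ∀ ξ, ‖C ξ‖ ^ 2 = (α * inner ℝ e ξ - inner ℝ ζ ξ) ^ 2 +
      β ^ 2 * (‖ξ‖ ^ 2 - inner ℝ e ξ ^ 2) := by
    intro ξ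
    rw [hC, linAlgC_apply e ζ α hβ]
    have hee' : inner ℝ ξ e = inner ℝ e ξ := real_inner_comm _ _
    rw [← real_inner_self_eq_norm_sq, ← real_inner_self_eq_norm_sq ξ]
    simp only [inner_add_left, inner_add_right, inner_sub_left, inner_sub_right,
      real_inner_smul_left, real_inner_smul_right, hee, hee']
    ring
  set Ne := inner ℝ e N with hNe
  set Np : _root_.Vale.Agent.P219.TP.E n := N - Ne • e with hNp
  have heNp : inner ℝ e Np = (0 : ℝ) := by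
    rw [hNp, inner_sub_right, real_inner_smul_right, hee, mul_one, sub_self]
  have hNpe : inner ℝ Np e = (0 : ℝ) := by rw [real_inner_comm]; exact heNp
  set z : _root_.Vale.Agent.P219.TP.E n := (Ne / α) • e + β⁻¹ • (Np + (Ne / α) • ζ) with hz
  have hzC : ∀ ξ, inner ℝ z (C ξ) = inner ℝ N ξ := by
    intro ξ
    rw [hC, linAlgC_apply e ζ α hβ, hz]
    have h1 : inner ℝ N ξ = Ne * inner ℝ e ξ + inner ℝ Np ξ := by
      rw [hNp, inner_sub_left, real_inner_smul_left]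
      ring
    rw [h1]
    simp only [inner_add_left, inner_add_right, inner_sub_right,
      real_inner_smul_left, real_inner_smul_right, hee, hζe, hNpe]
    field_simp
    ring
  have h1 := det_mul_norm_le hB (C := C) (by rw [hCd]; positivity) (fun ξ => by
    have h2 := hBξ ξ
    rw [← hCn] at h2
    exact (pow_le_pow_iff_left₀ (norm_nonneg _) (norm_nonneg _) (by norm_num)).1 h2) hy hzC
  refine h1.trans (le_of_eq ?_)
  have hzz : (α * β) • z = (β * Ne) • e + α • Np + Ne • ζ := by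
    rw [hz]
    have e1 : α * β * (Ne / α) = β * Ne := by field_simp
    have e2 : α * β * β⁻¹ = α := by field_simp
    have e3 : α * (Ne / α) = Ne := by field_simp
    rw [smul_add, smul_smul, smul_smul, e1, e2, smul_add, smul_smul, e3, add_assoc]
  have hnz : α * β * ‖z‖ = ‖(β * Ne) • e + α • Np + Ne • ζ‖ := by
    rw [← hzz, norm_smul, Real.norm_eq_abs, abs_of_pos (by positivity)]
  rw [hCd, abs_of_pos (by positivity), ← hnz]
  obtain ⟨m, rfl⟩ : ∃ m, n = m + 2 := ⟨n - 2, by omega⟩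
  have e1 : m + 2 - 1 = m + 1 := by omega
  have e2 : m + 2 - 2 = m := by omega
  rw [e1, e2, pow_succ]
  ring

/-- the covector `ζ` -/
theorem fv_zeta {G : Geo n} {p v : _root_.Vale.Agent.P219.TP.E n} (hv : v ≠ 0) {D : _root_.Vale.Agent.P219.TP.E n →L[ℝ] ℝ} {t : ℝ}
    {Ti : _root_.Vale.Agent.P219.TP.E n →L[ℝ] _root_.Vale.Agent.P219.TP.E n} (hTi1 : ∀ z, Ti (G.T p v z) = z) :
    ∃ ζ : _root_.Vale.Agent.P219.TP.E n, (∀ ξ, inner ℝ ζ ξ = t * ‖v‖ * D (Ti ξ - (inner ℝ v (Ti ξ) / ‖v‖ ^ 2) • v)) ∧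
      inner ℝ (‖v‖⁻¹ • G.T p v v) ζ = 0 := by
  have hr : 0 < ‖v‖ := norm_pos_iff.2 hv
  set l : _root_.Vale.Agent.P219.TP.E n →L[ℝ] ℝ := (t * ‖v‖) • D.comp
    (Ti - ((‖v‖ ^ 2)⁻¹ • (innerSL ℝ v).comp Ti).smulRight v) with hl
  have hlapp : ∀ ξ, l ξ = t * ‖v‖ *
      D (Ti ξ - (inner ℝ v (Ti ξ) / ‖v‖ ^ 2) • v) := fun ξ => by
    rw [hl]
    simp only [smul_apply, ContinuousLinearMap.comp_apply, sub_apply,
      ContinuousLinearMap.smulRight_apply, innerSL_apply_apply, smul_eq_mul]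
    rw [div_eq_inv_mul]
  have hζξ : ∀ ξ, inner ℝ ((InnerProductSpace.toDual ℝ (_root_.Vale.Agent.P219.TP.E n)).symm l) ξ = l ξ := fun ξ => by
    rw [InnerProductSpace.toDual_symm_apply]
  refine ⟨(InnerProductSpace.toDual ℝ (_root_.Vale.Agent.P219.TP.E n)).symm l, fun ξ => ?_, ?_⟩
  · rw [hζξ, hlapp]
  · rw [real_inner_comm, hζξ, hlapp, map_smul, hTi1, real_inner_smul_right,
      real_inner_self_eq_norm_sq]
    have h2 : ‖v‖⁻¹ • v - (‖v‖⁻¹ * ‖v‖ ^ 2 / ‖v‖ ^ 2) • v = 0 := by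
      rw [mul_div_assoc, div_self (pow_ne_zero 2 hr.ne'), mul_one, sub_self]
    rw [h2, map_zero, mul_zero]

theorem fvQ_norm {G : Geo n} {k : ℝ} (hk : 0 ≤ k) (hG : MonoSn G k) {p v : _root_.Vale.Agent.P219.TP.E n} (hv : v ≠ 0)
    {β bh : ℝ} (hβ : 0 < β) (hβ1 : β ≤ 1) (hbh : bh = _root_.Vale.Agent.P219.TPH.sn k (β * ‖v‖) / _root_.Vale.Agent.P219.TPH.sn k ‖v‖)
    {Ti : _root_.Vale.Agent.P219.TP.E n →L[ℝ] _root_.Vale.Agent.P219.TP.E n} (hTi : ∀ ξ, G.T p v (Ti ξ) = ξ) (ξ : _root_.Vale.Agent.P219.TP.E n) :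
    ‖arhQ G p v β (β / bh) Ti ξ‖ ≤ ‖ξ‖ := by
  have hr : 0 < ‖v‖ := norm_pos_iff.2 hv
  have hsr := _root_.Vale.Agent.P219.TPH.sn_pos hk hr
  have hsb := _root_.Vale.Agent.P219.TPH.sn_pos hk (mul_pos hβ hr)
  have hbh0 : 0 < bh := by rw [hbh]; positivity
  have hc : 0 < β / bh := by positivity
  have hp := arh_perp v (Ti ξ) hv
  have h1 : ‖ξ‖ ^ 2 = (inner ℝ v (Ti ξ) / ‖v‖) ^ 2 +
      ‖G.T p v (Ti ξ - (inner ℝ v (Ti ξ) / ‖v‖ ^ 2) • v)‖ ^ 2 := by
    have := G.pyth (p := p) (z := Ti ξ) hv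
    rwa [hTi] at this
  have h2 : β / bh * ‖G.T p (β • v) (Ti ξ - (inner ℝ v (Ti ξ) / ‖v‖ ^ 2) • v)‖ ≤
      ‖G.T p v (Ti ξ - (inner ℝ v (Ti ξ) / ‖v‖ ^ 2) • v)‖ := by
    have h3 := hG p v _ β hp hβ hβ1
    have h4 : β / bh = β * _root_.Vale.Agent.P219.TPH.sn k ‖v‖ / _root_.Vale.Agent.P219.TPH.sn k (β * ‖v‖) := by
      rw [hbh]
      field_simp
    rw [h4, div_mul_eq_mul_div, div_le_iff₀ hsb]
    linarith only [h3]
  have h5 : ‖arhQ G p v β (β / bh) Ti ξ‖ ^ 2 = (inner ℝ v (Ti ξ) / ‖v‖) ^ 2 +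
      (β / bh * ‖G.T p (β • v) (Ti ξ - (inner ℝ v (Ti ξ) / ‖v‖ ^ 2) • v)‖) ^ 2 := by
    rw [arhQ_apply G hv hc, norm_add_sq_real, real_inner_smul_left,
      real_inner_smul_right, G.gauss_smul hβ.ne', hp, norm_smul, norm_smul,
      arh_T_smul_norm G hβ.ne', Real.norm_eq_abs, Real.norm_eq_abs, abs_of_pos hc, mul_pow, sq_abs]
    field_simp
    ring
  have h6 := pow_le_pow_left₀ (by positivity) h2 2
  exact le_of_sq_le_sq (by rw [h5, h1]; linarith only [h6]) (norm_nonneg _)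

/-- The frame matrix of the contraction. -/
theorem fv_frame (hn : 2 ≤ n) {G : Geo n} {k : ℝ} (hk : 0 ≤ k) (hG : MonoSn G k) {θ : _root_.Vale.Agent.P219.TP.E n → ℝ}
    {p v : _root_.Vale.Agent.P219.TP.E n} {t : ℝ} (hv : v ≠ 0) (ht : 0 ≤ t) (hθ0 : 0 ≤ θ v) (hβ : 0 < 1 - t * θ v)
    (hα : 0 < 1 - t * (θ v + fderiv ℝ θ v v))
    {Ti : _root_.Vale.Agent.P219.TP.E n →L[ℝ] _root_.Vale.Agent.P219.TP.E n} (hTi1 : ∀ z, Ti (G.T p v z) = z) (hTi2 : ∀ ξ, G.T p v (Ti ξ) = ξ)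
    {N y : _root_.Vale.Agent.P219.TP.E n} (hy : ∀ ξ, inner ℝ y (G.radB θ p t v Ti ξ) = inner ℝ N ξ) {bh : ℝ}
    (hbh : bh = _root_.Vale.Agent.P219.TPH.sn k ((1 - t * θ v) * ‖v‖) / _root_.Vale.Agent.P219.TPH.sn k ‖v‖) {g : _root_.Vale.Agent.P219.TP.E n}
    (hg : ∀ ξ, inner ℝ g ξ = fderiv ℝ θ v (Ti ξ)) :
    |(G.radB θ p t v Ti).det| * ‖y‖ ≤ bh ^ (n - 2) *
      ‖(N - t • ((θ v + inner ℝ g (G.T p v v)) • N - inner ℝ (G.T p v v) N • g)) +
        ((bh - 1 + t * θ v) * (inner ℝ (G.T p v v) N / ‖v‖ ^ 2)) • G.T p v v‖ := by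
  have hr : 0 < ‖v‖ := norm_pos_iff.2 hv
  have hr0 : ‖v‖ ≠ 0 := hr.ne'
  have hβ1 : 1 - t * θ v ≤ 1 := by
    have := mul_nonneg ht hθ0
    linarith
  have hbh0 : 0 < bh := by
    rw [hbh]
    exact div_pos (_root_.Vale.Agent.P219.TPH.sn_pos hk (mul_pos hβ hr)) (_root_.Vale.Agent.P219.TPH.sn_pos hk hr)
  have hc : 0 < (1 - t * θ v) / bh := div_pos hβ hbh0
  obtain ⟨ζ, hζ1, hζ2⟩ := fv_zeta (D := fderiv ℝ θ v) (t := t) hv hTi1
  have hee : ‖‖v‖⁻¹ • G.T p v v‖ = 1 := by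
    have h1 := arh_T_smul_norm G (p := p) (v := v) one_ne_zero
    rw [one_smul] at h1
    rw [norm_smul, norm_inv, norm_norm, h1, inv_mul_cancel₀ hr.ne']
  have hee' : ‖‖v‖⁻¹ • G.T p ((1 - t * θ v) • v) v‖ = 1 := by
    rw [norm_smul, norm_inv, norm_norm, arh_T_smul_norm G hβ.ne', inv_mul_cancel₀ hr.ne']
  have heξ : ∀ ξ, inner ℝ (‖v‖⁻¹ • G.T p v v) ξ = inner ℝ v (Ti ξ) / ‖v‖ := fun ξ => by
    rw [real_inner_smul_left, ← G.gauss p v (Ti ξ), hTi2]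
    field_simp
  have hQp : ∀ ξ, inner ℝ (‖v‖⁻¹ • G.T p v v) ξ = 0 →
      inner ℝ (‖v‖⁻¹ • G.T p ((1 - t * θ v) • v) v)
        (arhQ G p v (1 - t * θ v) ((1 - t * θ v) / bh) Ti ξ) = 0 := fun ξ hξ => by
    rw [heξ, div_eq_zero_iff, or_iff_left hr.ne'] at hξ
    rw [arhQ_apply G hv hc, hξ, zero_div, zero_smul, zero_add, zero_smul, sub_zero,
      real_inner_smul_left, real_inner_smul_right, G.gauss_smul hβ.ne', hξ, mul_zero, mul_zero]
  have hBformula := arh_B G hv hβ hbh0 hTi1 hTi2 hζ1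
  set e : _root_.Vale.Agent.P219.TP.E n := ‖v‖⁻¹ • G.T p v v with he
  set e' : _root_.Vale.Agent.P219.TP.E n := ‖v‖⁻¹ • G.T p ((1 - t * θ v) • v) v with he'
  clear_value e e'
  have hBξ : ∀ ξ, ‖G.radB θ p t v Ti ξ‖ ^ 2 ≤
      ((1 - t * (θ v + fderiv ℝ θ v v)) * inner ℝ e ξ - inner ℝ ζ ξ) ^ 2 +
      bh ^ 2 * (‖ξ‖ ^ 2 - inner ℝ e ξ ^ 2) := by
    intro ξ
    rw [hBformula]
    have h1 := fvQ_norm hk hG hv hβ hβ1 hbh hTi2 (ξ - inner ℝ e ξ • e)
    have h2 := hQp (ξ - inner ℝ e ξ • e) (by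
      rw [inner_sub_right, real_inner_smul_right, real_inner_self_eq_norm_sq, hee]
      ring)
    rw [norm_add_sq_real, real_inner_smul_left, real_inner_smul_right, h2, norm_smul, norm_smul,
      hee', Real.norm_eq_abs, Real.norm_eq_abs, mul_pow, mul_pow, sq_abs, sq_abs,
      ← arh_norm_perp hee]
    have h3 := pow_le_pow_left₀ (norm_nonneg _) h1 2
    have h4 : (0 : ℝ) ≤ bh ^ 2 := sq_nonneg _
    (by_contra nlg; linarith only [nlg, mul_nonneg (sub_nonneg.2 h3) (sub_nonneg.2 h4), mul_nonneg (le_of_lt (sub_pos.2 (not_le.1 nlg))) (sub_nonneg.2 hβ1), mul_pos (sub_pos.2 (not_le.1 nlg)) (sub_pos.2 hβ)])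
  have hmain := fv_linear hn hee hζ2 hα hbh0 hBξ hy
  refine hmain.trans (le_of_eq ?_)
  congr 1
  -- the vector identity
  have hDv : fderiv ℝ θ v v = inner ℝ g (G.T p v v) := by
    rw [hg, hTi1]
  have hζg : ζ = (t * ‖v‖) • g - (t * inner ℝ g (G.T p v v)) • e := by
    refine ext_inner_right ℝ fun ξ => ?_
    rw [hζ1, inner_sub_left, real_inner_smul_left, real_inner_smul_left, hg, ← hDv, map_sub,
      map_smul, smul_eq_mul, heξ]
    field_simp
  have heN : inner ℝ e N = inner ℝ (G.T p v v) N / ‖v‖ := by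
    rw [he, real_inner_smul_left]
    field_simp
  rw [hζg, hDv]
  have hTe : G.T p v v = ‖v‖ • e := by
    rw [he, smul_smul, mul_inv_cancel₀ hr0, one_smul]
  congr 1
  set s : ℝ := inner ℝ g (G.T p v v) with hs
  set w : ℝ := inner ℝ (G.T p v v) N with hw
  rw [heN, hTe]
  simp only [smul_sub, smul_add, smul_smul, sub_smul, add_smul]
  have e1 : w / ‖v‖ * (t * ‖v‖) = t * w := by field_simp
  have e2 : (bh - 1 + t * θ v) * (w / ‖v‖ ^ 2) * ‖v‖ = (bh - 1 + t * θ v) * (w / ‖v‖) := by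
    field_simp
  rw [e1, e2]
  module

/-! ### The scalar expansion -/

theorem fv_norm_le {N W : _root_.Vale.Agent.P219.TP.E n} (hN : N ≠ 0) : ‖W‖ ≤ (‖N‖ ^ 2 + ‖W‖ ^ 2) / (2 * ‖N‖) := by
  have h : 0 < ‖N‖ := norm_pos_iff.2 hN
  rw [le_div_iff₀ (by positivity)]
  linarith only [sq_nonneg (‖N‖ - ‖W‖)]

/-- Expansion of the vector factor. -/
theorem fv_vec {K t θ q bh : ℝ} {a g N : _root_.Vale.Agent.P219.TP.E n} (hK : 0 ≤ K) (ht : 0 ≤ t) (ht1 : t ≤ 1)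
    (hθ0 : 0 ≤ θ) (hθ : θ ≤ K) (ha0 : a ≠ 0) (ha : ‖a‖ ≤ K) (hg : ‖g‖ ≤ K) (hq1 : 1 ≤ q)
    (hq : q ≤ K) (hb1 : 1 - t * (θ * q) ≤ bh) (hb2 : bh ≤ 1 - t * (θ * q) + K * t ^ 2)
    (hN : N ≠ 0) :
    ‖(N - t • ((θ + inner ℝ g a) • N - inner ℝ a N • g)) +
        ((bh - 1 + t * θ) * (inner ℝ a N / ‖a‖ ^ 2)) • a‖ ≤
      ‖N‖ * (1 + t * -((θ + inner ℝ g a) - inner ℝ a N * inner ℝ g N / ‖N‖ ^ 2 +
        θ * (q - 1) * (inner ℝ a N / ‖a‖) ^ 2 / ‖N‖ ^ 2) +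
        ((2 * K + 3 * K ^ 2) ^ 2 / 2 + K) * t ^ 2) := by
  have hNp : 0 < ‖N‖ := norm_pos_iff.2 hN
  have hap : 0 < ‖a‖ := norm_pos_iff.2 ha0
  set w : ℝ := inner ℝ a N with hw
  set s : ℝ := inner ℝ g a with hs
  set c : ℝ := bh - 1 + t * θ with hc
  set U : _root_.Vale.Agent.P219.TP.E n := (θ + s) • N - w • g with hU
  set X : _root_.Vale.Agent.P219.TP.E n := (c * (w / ‖a‖ ^ 2)) • a with hX
  have hwb : |w| ≤ ‖a‖ * ‖N‖ := abs_real_inner_le_norm a N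
  have hsb : |s| ≤ K ^ 2 := by
    refine (abs_real_inner_le_norm g a).trans ?_
    rw [sq]
    exact mul_le_mul hg ha (norm_nonneg _) hK
  have hwa : |w / ‖a‖| ≤ ‖N‖ := by
    rw [abs_div, abs_norm, div_le_iff₀ hap, mul_comm]
    exact hwb
  have hwa2 : (w / ‖a‖) ^ 2 ≤ ‖N‖ ^ 2 := by
    rw [← sq_abs]
    exact pow_le_pow_left₀ (abs_nonneg _) hwa 2
  have hc1 : -(t * (θ * (q - 1))) ≤ c := by rw [hc]; linarith
  have hc2 : c ≤ -(t * (θ * (q - 1))) + K * t ^ 2 := by rw [hc]; linarith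
  have hθq0 : 0 ≤ θ * (q - 1) := mul_nonneg hθ0 (by linarith)
  have hθq : θ * (q - 1) ≤ K ^ 2 := by
    rw [sq]
    exact mul_le_mul hθ (by linarith) (by linarith) hK
  have ht2 : t ^ 2 ≤ t := by linarith only [mul_nonneg (sub_nonneg.2 ht) (sub_nonneg.2 ht1)]
  have hcb : |c| ≤ t * (K ^ 2 + K) := by
    rw [abs_le]
    have i1 : t * (θ * (q - 1)) ≤ t * K ^ 2 := mul_le_mul_of_nonneg_left hθq ht
    have i2 : K * t ^ 2 ≤ K * t := mul_le_mul_of_nonneg_left ht2 hK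
    have i3 : 0 ≤ t * (θ * (q - 1)) := mul_nonneg ht hθq0
    have i4 : 0 ≤ K * t := mul_nonneg hK ht
    constructor
    · linarith only [i4, i1, hc1]
    · linarith only [mul_nonneg ht (sq_nonneg K), i3, i2, hc2]
  have hXn : ‖X‖ ≤ t * (K ^ 2 + K) * ‖N‖ := by
    have e1 : ‖X‖ = |c| * |w / ‖a‖| := by
      rw [hX, norm_smul, Real.norm_eq_abs, abs_mul, mul_assoc]
      congr 1
      rw [abs_div, abs_div, abs_norm, abs_pow, abs_norm]
      field_simp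
    rw [e1]
    exact mul_le_mul hcb hwa (abs_nonneg _) (by positivity)
  have hUn : ‖U‖ ≤ (K + 2 * K ^ 2) * ‖N‖ := by
    have h1 : ‖U‖ ≤ ‖(θ + s) • N‖ + ‖w • g‖ := norm_sub_le _ _
    rw [norm_smul, norm_smul, Real.norm_eq_abs, Real.norm_eq_abs] at h1
    have h2 : |θ + s| ≤ K + K ^ 2 := by
      refine (abs_add_le _ _).trans ?_
      rw [abs_of_nonneg hθ0]
      linarith
    have h3 : |w| * ‖g‖ ≤ K ^ 2 * ‖N‖ := by
      calc |w| * ‖g‖ ≤ (‖a‖ * ‖N‖) * K := mul_le_mul hwb hg (norm_nonneg _) (by positivity)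
        _ ≤ (K * ‖N‖) * K := by gcongr
        _ = K ^ 2 * ‖N‖ := by ring
    have h4 : |θ + s| * ‖N‖ ≤ (K + K ^ 2) * ‖N‖ := mul_le_mul_of_nonneg_right h2 hNp.le
    linarith
  set Z : _root_.Vale.Agent.P219.TP.E n := -(t • U) + X with hZ
  have hZn : ‖Z‖ ≤ t * (2 * K + 3 * K ^ 2) * ‖N‖ := by
    have h1 : ‖Z‖ ≤ ‖-(t • U)‖ + ‖X‖ := norm_add_le _ _
    rw [norm_neg, norm_smul, Real.norm_eq_abs, abs_of_nonneg ht] at h1
    have h2 : t * ‖U‖ ≤ t * ((K + 2 * K ^ 2) * ‖N‖) := mul_le_mul_of_nonneg_left hUn ht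
    linarith only [h2, h1, hXn]
  have hW : N - t • U + X = N + Z := by rw [hZ]; abel
  rw [hW]
  have h1 := fv_norm_le (W := N + Z) hN
  have h2 : ‖N + Z‖ ^ 2 = ‖N‖ ^ 2 + 2 * inner ℝ N Z + ‖Z‖ ^ 2 := norm_add_sq_real N Z
  have hNZ : inner ℝ N Z = -(t * ((θ + s) * ‖N‖ ^ 2 - w * inner ℝ g N)) + c * (w / ‖a‖) ^ 2 := by
    rw [hZ, hU, hX, inner_add_right, inner_neg_right, real_inner_smul_right, inner_sub_right,
      real_inner_smul_right, real_inner_smul_right, real_inner_smul_right,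
      real_inner_self_eq_norm_sq, real_inner_comm g N, real_inner_comm a N, ← hw]
    field_simp
  have h3 : ‖Z‖ ^ 2 ≤ (t * (2 * K + 3 * K ^ 2) * ‖N‖) ^ 2 := pow_le_pow_left₀ (norm_nonneg _) hZn 2
  have h4 : c * (w / ‖a‖) ^ 2 ≤ -(t * (θ * (q - 1))) * (w / ‖a‖) ^ 2 + K * t ^ 2 * ‖N‖ ^ 2 := by
    have i1 : c * (w / ‖a‖) ^ 2 ≤ (-(t * (θ * (q - 1))) + K * t ^ 2) * (w / ‖a‖) ^ 2 :=
      mul_le_mul_of_nonneg_right hc2 (sq_nonneg _)
    have i2 : K * t ^ 2 * (w / ‖a‖) ^ 2 ≤ K * t ^ 2 * ‖N‖ ^ 2 :=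
      mul_le_mul_of_nonneg_left hwa2 (by (clear * - hK; positivity))
    linarith only [i2, i1]
  have h5 : ‖N‖ ^ 2 + ‖N + Z‖ ^ 2 ≤ 2 * ‖N‖ * (‖N‖ * (1 + t * -((θ + s) -
      w * inner ℝ g N / ‖N‖ ^ 2 + θ * (q - 1) * (w / ‖a‖) ^ 2 / ‖N‖ ^ 2) +
        ((2 * K + 3 * K ^ 2) ^ 2 / 2 + K) * t ^ 2)) := by
    have e1 : 2 * ‖N‖ * (‖N‖ * (1 + t * -((θ + s) -
      w * inner ℝ g N / ‖N‖ ^ 2 + θ * (q - 1) * (w / ‖a‖) ^ 2 / ‖N‖ ^ 2) +
        ((2 * K + 3 * K ^ 2) ^ 2 / 2 + K) * t ^ 2)) =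
        2 * ‖N‖ ^ 2 - 2 * t * ((θ + s) * ‖N‖ ^ 2 - w * inner ℝ g N) -
          2 * (t * (θ * (q - 1)) * (w / ‖a‖) ^ 2) +
          (t * (2 * K + 3 * K ^ 2) * ‖N‖) ^ 2 + 2 * (K * t ^ 2 * ‖N‖ ^ 2) := by
      field_simp
      ring
    rw [e1, h2, hNZ]
    linarith only [h4, h3]
  refine h1.trans ?_
  rw [div_le_iff₀ (by positivity)]
  linarith only [h5]

/-- The expansion of the area factor. -/
theorem fv_scalar (j : ℕ) {K : ℝ} (hK : 0 ≤ K) : ∃ C : ℝ, 0 ≤ C ∧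
    ∀ (t θ q bh : ℝ) (a g N : _root_.Vale.Agent.P219.TP.E n), 0 ≤ t → t ≤ 1 → 0 ≤ θ → θ ≤ K → a ≠ 0 → ‖a‖ ≤ K → ‖g‖ ≤ K →
      1 ≤ q → q ≤ K → 0 ≤ bh → 1 - t * (θ * q) ≤ bh → bh ≤ 1 - t * (θ * q) + K * t ^ 2 →
      bh ^ j * ‖(N - t • ((θ + inner ℝ g a) • N - inner ℝ a N • g)) +
          ((bh - 1 + t * θ) * (inner ℝ a N / ‖a‖ ^ 2)) • a‖ ≤
        ‖N‖ - t * (θ * ((j : ℝ) * q + 1) * ‖N‖ + inner ℝ g a * ‖N‖ -
          inner ℝ a N * inner ℝ g N / ‖N‖ + θ * (q - 1) * (inner ℝ a N / ‖a‖) ^ 2 / ‖N‖) +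
          C * t ^ 2 * ‖N‖ := by
  obtain ⟨D, hD, hpow⟩ := detExp_pow j (K ^ 2) K (by positivity) hK
  set D2 : ℝ := (2 * K + 3 * K ^ 2) ^ 2 / 2 + K with hD2
  have hD20 : 0 ≤ D2 := by positivity
  refine ⟨(j * K ^ 2) * (K + 3 * K ^ 2) + D + D2 + (j * K ^ 2) * D2 + (K + 3 * K ^ 2) * D + D * D2,
    by (clear * - hK hD; positivity), ?_⟩
  intro t θ q bh a g N ht ht1 hθ0 hθ ha0 ha hg hq1 hq hb0 hb1 hb2
  by_cases hN : N = 0
  · rw [hN]
    simp
  have hNp : 0 < ‖N‖ := norm_pos_iff.2 hN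
  have hap : 0 < ‖a‖ := norm_pos_iff.2 ha0
  have h1 := fv_vec hK ht ht1 hθ0 hθ ha0 ha hg hq1 hq hb1 hb2 hN
  rw [← hD2] at h1
  set W : _root_.Vale.Agent.P219.TP.E n := (N - t • ((θ + inner ℝ g a) • N - inner ℝ a N • g)) +
          ((bh - 1 + t * θ) * (inner ℝ a N / ‖a‖ ^ 2)) • a with hW
  set w : ℝ := inner ℝ a N with hw
  set s : ℝ := inner ℝ g a with hs
  set B : ℝ := (θ + s) - w * inner ℝ g N / ‖N‖ ^ 2 + θ * (q - 1) * (w / ‖a‖) ^ 2 / ‖N‖ ^ 2 with hB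
  have hθq : θ * q ≤ K ^ 2 := by
    rw [sq]
    exact mul_le_mul hθ hq (by linarith only [hq1]) hK
  have hθq0 : 0 ≤ θ * q := mul_nonneg hθ0 (by linarith)
  have h2 := hpow bh t (-(θ * q)) ht ht1 hb0 (by rw [abs_neg, abs_of_nonneg hθq0]; exact hθq)
    (by linarith)
  have hwb : |w| ≤ ‖a‖ * ‖N‖ := abs_real_inner_le_norm a N
  have hsb : |s| ≤ K ^ 2 := by
    refine (abs_real_inner_le_norm g a).trans ?_
    rw [sq]
    exact mul_le_mul hg ha (norm_nonneg _) hK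
  have hB1 : |w * inner ℝ g N / ‖N‖ ^ 2| ≤ K ^ 2 := by
    rw [abs_div, abs_mul, abs_pow, abs_norm, div_le_iff₀ (by positivity)]
    have i1 : |inner ℝ g N| ≤ ‖g‖ * ‖N‖ := abs_real_inner_le_norm g N
    calc |w| * |inner ℝ g N| ≤ (‖a‖ * ‖N‖) * (‖g‖ * ‖N‖) :=
          mul_le_mul hwb i1 (abs_nonneg _) (by positivity)
      _ ≤ (K * ‖N‖) * (K * ‖N‖) := by gcongr
      _ = K ^ 2 * ‖N‖ ^ 2 := by ring
  have hwa2 : (w / ‖a‖) ^ 2 ≤ ‖N‖ ^ 2 := by
    have hwa : |w / ‖a‖| ≤ ‖N‖ := by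
      rw [abs_div, abs_norm, div_le_iff₀ hap, mul_comm]
      exact hwb
    rw [← sq_abs]
    exact pow_le_pow_left₀ (abs_nonneg _) hwa 2
  have hB2 : |θ * (q - 1) * (w / ‖a‖) ^ 2 / ‖N‖ ^ 2| ≤ K ^ 2 := by
    have i0 : 0 ≤ θ * (q - 1) := mul_nonneg hθ0 (by linarith only [hq1])
    rw [abs_of_nonneg (by (clear * - hθ0 hq1 hN; positivity)), div_le_iff₀ (by positivity)]
    have i1 : θ * (q - 1) ≤ K ^ 2 := by
      rw [sq]
      exact mul_le_mul hθ (by linarith only [hq]) (by linarith only [hq1]) hK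
    exact mul_le_mul i1 hwa2 (sq_nonneg _) (by positivity)
  have hBb : |-B| ≤ K + 3 * K ^ 2 := by
    rw [abs_neg, hB]
    have i1 := abs_add_le ((θ + s) - w * inner ℝ g N / ‖N‖ ^ 2)
      (θ * (q - 1) * (w / ‖a‖) ^ 2 / ‖N‖ ^ 2)
    have i2 := abs_sub (θ + s) (w * inner ℝ g N / ‖N‖ ^ 2)
    have i3 := abs_add_le θ s
    rw [abs_of_nonneg hθ0] at i3
    linarith only [i3, i2, i1, hB2, hB1, hsb, hθ]
  have h3 : ‖W‖ / ‖N‖ ≤ 1 + t * -B + D2 * t ^ 2 := by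
    rw [div_le_iff₀ hNp, mul_comm _ ‖N‖]
    exact h1
  have h4 := detExp_mul ht ht1 (pow_nonneg hb0 j) (div_nonneg (norm_nonneg W) hNp.le) hD hD20
    (A := j * K ^ 2) (B := K + 3 * K ^ 2) (by
      rw [abs_mul, abs_neg, abs_of_nonneg hθq0, abs_of_nonneg (Nat.cast_nonneg j)]
      exact mul_le_mul_of_nonneg_left hθq (Nat.cast_nonneg j)) hBb h2 h3
  have h5 : bh ^ j * ‖W‖ = (bh ^ j * (‖W‖ / ‖N‖)) * ‖N‖ := by field_simp
  rw [h5]
  refine (mul_le_mul_of_nonneg_right h4 hNp.le).trans (le_of_eq ?_)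
  rw [hB]
  field_simp
  ring

end Vale.Agent.P219.End
end

section

/-! # First variation of the total variation, general contraction field: uniform statement -/

open MeasureTheory Set Metric
open scoped ENNReal ContDiff

namespace Vale.Agent.P219.End

open Vale.Agent.P219.TP Vale.Agent.P219.TPH

variable {n : ℕ} (G : Geo n) {k : ℝ}

theorem fv_norm_a (p x : _root_.Vale.Agent.P219.TP.E n) : ‖-G.lg x p‖ = ‖G.lg p x‖ := by
  rw [norm_neg, G.norm_lg_comm]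

theorem fv_T_self (p x : _root_.Vale.Agent.P219.TP.E n) : G.T p (G.lg p x) (G.lg p x) = -G.lg x p := by
  rw [G.T_self, G.lg_back']

/-- The gradient of `u`, computed with the rate `θ = u ∘ ex p`. -/
theorem fv_grad {p x : _root_.Vale.Agent.P219.TP.E n} {u θ : _root_.Vale.Agent.P219.TP.E n → ℝ} (hu : ContDiff ℝ ∞ u)
    (hev : θ =ᶠ[nhds (G.lg p x)] fun v => u (G.ex p v)) {Ti : _root_.Vale.Agent.P219.TP.E n →L[ℝ] _root_.Vale.Agent.P219.TP.E n}
    (hTi2 : ∀ ξ, G.T p (G.lg p x) (Ti ξ) = ξ) :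
    DifferentiableAt ℝ θ (G.lg p x) ∧
      ∀ ξ, inner ℝ (G.D u x) ξ = fderiv ℝ θ (G.lg p x) (Ti ξ) := by
  have hx : G.ex p (G.lg p x) = x := G.ex_lg p x
  have hud : DifferentiableAt ℝ u (G.ex p (G.lg p x)) := hu.differentiable (by simp) _
  have hed : DifferentiableAt ℝ (G.ex p) (G.lg p x) := G.differentiable_ex p _
  have h1 : HasFDerivAt (fun v => u (G.ex p v))
      ((fderiv ℝ u (G.ex p (G.lg p x))).comp (fderiv ℝ (G.ex p) (G.lg p x))) (G.lg p x) :=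
    hud.hasFDerivAt.comp _ hed.hasFDerivAt
  have h2 := h1.congr_of_eventuallyEq hev
  refine ⟨h2.differentiableAt, fun ξ => ?_⟩
  rw [h2.fderiv, G.inner_D, ContinuousLinearMap.comp_apply, ← G.T_spec, hTi2, hx]

theorem fv_bh_low {r s : ℝ} (hk : 0 ≤ k) (hr : 0 < r) (hs0 : 0 ≤ s) (hs1 : s ≤ 1) :
    1 - s * qct k r ≤ _root_.Vale.Agent.P219.TPH.sn k ((1 - s) * r) / _root_.Vale.Agent.P219.TPH.sn k r := by
  have hp := _root_.Vale.Agent.P219.TPH.sn_pos hk hr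
  have h1 := h1_up hk (mul_nonneg (sub_nonneg.2 hs1) hr.le)
    (show (1 - s) * r ≤ r by linarith only [mul_nonneg (le_of_lt (sub_pos.2 hr)) (sub_nonneg.2 hs0)])
  rw [le_div_iff₀ hp]
  have e : (1 - s * qct k r) * _root_.Vale.Agent.P219.TPH.sn k r = _root_.Vale.Agent.P219.TPH.sn k r - _root_.Vale.Agent.P219.TPH.cs k r * (s * r) := by
    rw [qct]
    field_simp
  have e2 : r - (1 - s) * r = s * r := by ring
  rw [e]
  rw [e2] at h1
  linarith

theorem fv_pointwise (hn : 2 ≤ n) (hk : 0 ≤ k) (hG : MonoSn G k) (o : _root_.Vale.Agent.P219.TP.E n) {ρ : ℝ} {p : _root_.Vale.Agent.P219.TP.E n}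
    (hp : ‖G.lg o p‖ ≤ ρ) {u : _root_.Vale.Agent.P219.TP.E n → ℝ} (hu : ContDiff ℝ ∞ u) (hu0 : ∀ x, 0 ≤ u x) :
    ∃ C t₀ : ℝ, 0 ≤ C ∧ 0 < t₀ ∧ ∀ (x : _root_.Vale.Agent.P219.TP.E n) (t : ℝ), 0 ≤ t → t ≤ t₀ → ‖G.lg o x‖ ≤ ρ → x ≠ p →
      ∀ θ : _root_.Vale.Agent.P219.TP.E n → ℝ, (∀ v, ‖v‖ < 2 * ρ + 1 → θ v = u (G.ex p v)) → ∀ N y : _root_.Vale.Agent.P219.TP.E n,
      (∀ ξ η, G.A (G.rad θ p t x) η = fderiv ℝ (G.rad θ p t) x (G.A x ξ) →
        inner ℝ y η = inner ℝ N ξ) →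
      G.w (G.rad θ p t x) * |(fderiv ℝ (G.rad θ p t) x).det| * ‖y‖ ≤
        G.w x * (‖N‖ - t * kapU G k u p x N + C * t ^ 2 * ‖N‖) := by
  -- the constants
  have hBc := G.isCompact_gball o ρ
  obtain ⟨K₁, hK₁⟩ := hBc.exists_bound_of_continuousOn hu.continuous.continuousOn
  have hDc : Continuous (G.D u) := perc_D_cont G (hu.of_le (by exact_mod_cast le_top))
  obtain ⟨K₂, hK₂⟩ := hBc.exists_bound_of_continuousOn hDc.continuousOn
  obtain ⟨C₁, hC₁, hexp⟩ := bh_expand hk (2 * ρ)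
  have hρ : 0 ≤ ρ := (norm_nonneg _).trans hp
  have hK₁0 : 0 ≤ K₁ := (norm_nonneg _).trans (hK₁ p hp)
  have hK₂0 : 0 ≤ K₂ := (norm_nonneg _).trans (hK₂ p hp)
  have hcs0 : 0 ≤ _root_.Vale.Agent.P219.TPH.cs k (2 * ρ) := zero_le_one.trans (one_le_cs _ _)
  set K : ℝ := K₁ + K₂ + 2 * ρ + _root_.Vale.Agent.P219.TPH.cs k (2 * ρ) + C₁ * K₁ ^ 2 with hKdef
  have hC₁' : 0 ≤ C₁ * K₁ ^ 2 := by positivity
  have hK0 : 0 ≤ K := by rw [hKdef]; (clear * - hK₁0 hK₂0 hρ hcs0 hC₁; positivity)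
  obtain ⟨C, hC, hscal⟩ := fv_scalar (n := n) (n - 2) hK0
  refine ⟨C, 1 / (2 * (K₁ + K₁ + K₂ * (2 * ρ) + 1)), hC, by (clear * - hK₁0 hK₂0 hρ; positivity), ?_⟩
  intro x t ht ht1 hx hxp θ hθ N y hy
  set v := G.lg p x with hv
  have hv2 : ‖v‖ ≤ 2 * ρ := perc_norm_lg_le G hp hx
  have hvne : v ≠ 0 := by
    intro h0
    exact hxp ((G.lg_eq_zero).mp h0).symm
  have hvpos : 0 < ‖v‖ := norm_pos_iff.mpr hvne
  have hvlt : ‖v‖ < 2 * ρ + 1 := by linarith
  have hev : θ =ᶠ[nhds v] fun v => u (G.ex p v) := by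
    have h1 : {w : _root_.Vale.Agent.P219.TP.E n | ‖w‖ < 2 * ρ + 1} ∈ nhds v :=
      (isOpen_lt continuous_norm continuous_const).mem_nhds hvlt
    filter_upwards [h1] with w hw
    exact hθ w hw
  have hθv : θ v = u x := by
    rw [hθ v hvlt, hv, G.ex_lg]
  obtain ⟨Ti, hTi1, hTi2⟩ := G.exists_T_inv p v
  obtain ⟨hdiff, hg⟩ := fv_grad G hu hev hTi2
  have hux : u x ≤ K₁ := (le_abs_self _).trans (hK₁ x hx)
  have hDx : ‖G.D u x‖ ≤ K₂ := hK₂ x hx
  have hT : G.T p v v = -G.lg x p := fv_T_self G p x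
  have hTn : ‖G.T p v v‖ = ‖v‖ := by rw [hT, fv_norm_a]
  have hDv : fderiv ℝ θ v v = inner ℝ (G.D u x) (G.T p v v) := by
    rw [hg, hTi1]
  have hDvb : |fderiv ℝ θ v v| ≤ K₂ * (2 * ρ) := by
    rw [hDv]
    refine (abs_real_inner_le_norm _ _).trans ?_
    rw [hTn]
    exact mul_le_mul hDx hv2 (norm_nonneg _) hK₂0
  have hden : 0 < 2 * (K₁ + K₁ + K₂ * (2 * ρ) + 1) := by (clear * - hK₁0 hK₂0 hρ; positivity)
  have ht2 : t * (2 * (K₁ + K₁ + K₂ * (2 * ρ) + 1)) ≤ 1 := by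
    rwa [le_div_iff₀ hden] at ht1
  have hKρ : 0 ≤ t * (K₂ * (2 * ρ)) := by (clear * - ht hK₂0 hρ; positivity)
  have htK₁ : 0 ≤ t * K₁ := by (clear * - ht hK₁0; positivity)
  have ht1' : t ≤ 1 := by linarith only [htK₁, hKρ, ht2]
  have htθ : t * θ v ≤ 1 / 2 := by
    rw [hθv]
    have := mul_le_mul_of_nonneg_left hux ht
    linarith only [this, hKρ, ht2, ht]
  have hθ0 : 0 ≤ θ v := by rw [hθv]; exact hu0 x
  have hβ : 0 < 1 - t * θ v := by linarith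
  have hα : 0 < 1 - t * (θ v + fderiv ℝ θ v v) := by
    have h1 : t * fderiv ℝ θ v v ≤ t * (K₂ * (2 * ρ)) :=
      mul_le_mul_of_nonneg_left ((le_abs_self _).trans hDvb) ht
    have h2 : t * θ v ≤ t * K₁ := by
      rw [hθv]
      exact mul_le_mul_of_nonneg_left hux ht
    linarith only [h2, h1, htK₁, ht2, ht]
  have hAB : ∀ ξ, G.A (G.rad θ p t x) (G.radB θ p t v Ti ξ) =
      fderiv ℝ (G.rad θ p t) x (G.A x ξ) := fun ξ => G.fderiv_rad hdiff hTi2 ξ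
  set bh : ℝ := _root_.Vale.Agent.P219.TPH.sn k ((1 - t * θ v) * ‖v‖) / _root_.Vale.Agent.P219.TPH.sn k ‖v‖ with hbh
  have h1 := fv_frame hn hk hG hvne ht hθ0 hβ hα hTi1 hTi2 (fun ξ => hy ξ _ (hAB ξ)) hbh hg
  have hbh0 : 0 ≤ bh := by
    rw [hbh]
    exact (div_pos (_root_.Vale.Agent.P219.TPH.sn_pos hk (mul_pos hβ hvpos)) (_root_.Vale.Agent.P219.TPH.sn_pos hk hvpos)).le
  obtain ⟨hc1, hc2⟩ := ctr_bounds hk hvpos
  have hq1 : 1 ≤ qct k ‖v‖ := hc1
  have hqK : qct k ‖v‖ ≤ K := by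
    have : qct k ‖v‖ ≤ _root_.Vale.Agent.P219.TPH.cs k (2 * ρ) := hc2.trans (cs_mono hk hvpos.le hv2)
    rw [hKdef]
    linarith only [this, hθ0, hux, hθv, hvpos, hv2, hC₁', hK₂0]
  have htθ0 : 0 ≤ t * θ v := mul_nonneg ht hθ0
  have hlow : 1 - t * (θ v * qct k ‖v‖) ≤ bh := by
    have := fv_bh_low (k := k) (r := ‖v‖) (s := t * θ v) hk hvpos htθ0 (by linarith only [hβ])
    rw [← mul_assoc]
    exact this
  have hup : bh ≤ 1 - t * (θ v * qct k ‖v‖) + K * t ^ 2 := by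
    have h2 := hexp ‖v‖ (t * θ v) hvpos hv2 htθ0 htθ
    have h3 : C₁ * (t * θ v) ^ 2 ≤ K * t ^ 2 := by
      have h4 : θ v ^ 2 ≤ K₁ ^ 2 := pow_le_pow_left₀ hθ0 (by rw [hθv]; exact hux) 2
      have h5 : C₁ * θ v ^ 2 ≤ K := by
        have := mul_le_mul_of_nonneg_left h4 hC₁
        rw [hKdef]
        linarith only [this, hθ0, hux, hθv, hvpos, hv2, hcs0, hK₂0]
      calc C₁ * (t * θ v) ^ 2 = (C₁ * θ v ^ 2) * t ^ 2 := by ring
        _ ≤ K * t ^ 2 := mul_le_mul_of_nonneg_right h5 (sq_nonneg t)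
    have h6 : t * (θ v * qct k ‖v‖) = t * θ v * (‖v‖ * _root_.Vale.Agent.P219.TPH.cs k ‖v‖ / _root_.Vale.Agent.P219.TPH.sn k ‖v‖) := by
      rw [qct]
      ring
    rw [h6]
    linarith only [h3, h2]
  have hane : G.T p v v ≠ 0 := by
    rw [← norm_pos_iff, hTn]
    exact hvpos
  have h2 := hscal t (θ v) (qct k ‖v‖) bh (G.T p v v) (G.D u x) N ht ht1' hθ0
    (by rw [hθv, hKdef]; linarith only [hux, hvpos, hv2, hC₁', hcs0, hK₂0]) hane (by rw [hTn, hKdef]; linarith only [hθ0, hux, hθv, hv2, hC₁', hcs0, hK₂0])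
    (by rw [hKdef]; linarith only [hθ0, hDx, hux, hθv, hvpos, hv2, hC₁', hcs0]) hq1 hqK hbh0 hlow hup
  rw [hTn] at h2
  have h3 := h1.trans h2
  rw [G.w_det_rad hAB, mul_assoc]
  refine mul_le_mul_of_nonneg_left (h3.trans (le_of_eq ?_)) (G.w_pos x).le
  rw [kapU, ← hv, hθv, hT]
  have hcast : ((n - 2 : ℕ) : ℝ) = (n : ℝ) - 2 := by
    rw [Nat.cast_sub hn]
    norm_num
  rw [hcast]

/-! ### Integration -/

theorem fv_qct_abs (hk : 0 ≤ k) {r L : ℝ} (hr : 0 ≤ r) (hL : r ≤ L) : |qct k r| ≤ _root_.Vale.Agent.P219.TPH.cs k L := by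
  rcases hr.eq_or_lt with h | h
  · rw [← h, qct, zero_mul, zero_div, abs_zero]
    exact zero_le_one.trans (one_le_cs _ _)
  · obtain ⟨hc1, hc2⟩ := ctr_bounds hk h
    have h1 : 0 ≤ qct k r := zero_le_one.trans hc1
    rw [abs_of_nonneg h1]
    exact hc2.trans (cs_mono hk h.le hL)

theorem fv_kapU_abs (hn : 2 ≤ n) {u : _root_.Vale.Agent.P219.TP.E n → ℝ} {p x N : _root_.Vale.Agent.P219.TP.E n} {K : ℝ} (hK : 0 ≤ K)
    (h1 : |u x| ≤ K) (h2 : ‖G.D u x‖ ≤ K) (h3 : ‖G.lg p x‖ ≤ K)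
    (h4 : |qct k ‖G.lg p x‖| ≤ K) :
    |kapU G k u p x N| ≤ (K * (n * K + 1) + K ^ 2 + K ^ 2 + K * (K + 1)) * ‖N‖ := by
  by_cases hN : N = 0
  · rw [hN, kapU]
    simp
  have hNp : 0 < ‖N‖ := norm_pos_iff.2 hN
  have ha : ‖-G.lg x p‖ ≤ K := by rw [fv_norm_a]; exact h3
  set a : _root_.Vale.Agent.P219.TP.E n := -G.lg x p with hadef
  have hw : |inner ℝ a N| ≤ ‖G.lg p x‖ * ‖N‖ := by
    rw [← fv_norm_a G p x]
    exact abs_real_inner_le_norm a N
  have hn2 : |(n : ℝ) - 2| ≤ n := by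
    have : (2 : ℝ) ≤ n := by exact_mod_cast hn
    rw [abs_of_nonneg (by linarith)]
    linarith
  have t1 : |u x * (((n : ℝ) - 2) * qct k ‖G.lg p x‖ + 1) * ‖N‖| ≤ K * (n * K + 1) * ‖N‖ := by
    rw [abs_mul, abs_mul, abs_norm]
    have i1 : |((n : ℝ) - 2) * qct k ‖G.lg p x‖ + 1| ≤ n * K + 1 := by
      refine (abs_add_le _ _).trans ?_
      rw [abs_mul, abs_one]
      have := mul_le_mul hn2 h4 (abs_nonneg _) (Nat.cast_nonneg n)
      linarith
    gcongr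
  have t2 : |inner ℝ (G.D u x) a * ‖N‖| ≤ K ^ 2 * ‖N‖ := by
    rw [abs_mul, abs_norm, sq]
    have i1 : |inner ℝ (G.D u x) a| ≤ K * K :=
      (abs_real_inner_le_norm _ _).trans (mul_le_mul h2 ha (norm_nonneg _) hK)
    gcongr
  have t3 : |inner ℝ a N * inner ℝ (G.D u x) N / ‖N‖| ≤ K ^ 2 * ‖N‖ := by
    rw [abs_div, abs_mul, abs_norm, div_le_iff₀ hNp]
    have i1 : |inner ℝ a N| ≤ K * ‖N‖ := hw.trans (mul_le_mul_of_nonneg_right h3 hNp.le)
    have i2 : |inner ℝ (G.D u x) N| ≤ K * ‖N‖ :=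
      (abs_real_inner_le_norm _ _).trans (mul_le_mul_of_nonneg_right h2 hNp.le)
    calc |inner ℝ a N| * |inner ℝ (G.D u x) N| ≤ (K * ‖N‖) * (K * ‖N‖) :=
          mul_le_mul i1 i2 (abs_nonneg _) (by positivity)
      _ = K ^ 2 * ‖N‖ * ‖N‖ := by ring
  have t4 : |u x * (qct k ‖G.lg p x‖ - 1) * (inner ℝ a N / ‖G.lg p x‖) ^ 2 / ‖N‖| ≤
      K * (K + 1) * ‖N‖ := by
    have i1 : |inner ℝ a N / ‖G.lg p x‖| ≤ ‖N‖ := by
      rcases (norm_nonneg (G.lg p x)).eq_or_lt with h | h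
      · rw [← h, div_zero, abs_zero]
        exact hNp.le
      · rw [abs_div, abs_norm, div_le_iff₀ h, mul_comm]
        exact hw
    have i2 : (inner ℝ a N / ‖G.lg p x‖) ^ 2 ≤ ‖N‖ ^ 2 := by
      rw [← sq_abs]
      exact pow_le_pow_left₀ (abs_nonneg _) i1 2
    have i3 : |qct k ‖G.lg p x‖ - 1| ≤ K + 1 := by
      refine (abs_sub _ _).trans ?_
      rw [abs_one]
      linarith
    rw [abs_div, abs_mul, abs_mul, abs_norm, abs_of_nonneg (sq_nonneg (inner ℝ a N / ‖G.lg p x‖)),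
      div_le_iff₀ hNp]
    calc |u x| * |qct k ‖G.lg p x‖ - 1| * (inner ℝ a N / ‖G.lg p x‖) ^ 2 ≤
        (K * (K + 1)) * ‖N‖ ^ 2 := by
          refine mul_le_mul (mul_le_mul h1 i3 (abs_nonneg _) hK) i2 (sq_nonneg _) (by positivity)
      _ = K * (K + 1) * ‖N‖ * ‖N‖ := by ring
  rw [kapU, ← hadef]
  refine (abs_add_le _ _).trans ?_
  have j1 := abs_sub (u x * (((n : ℝ) - 2) * qct k ‖G.lg p x‖ + 1) * ‖N‖ +
    inner ℝ (G.D u x) a * ‖N‖) (inner ℝ a N * inner ℝ (G.D u x) N / ‖N‖)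
  have j2 := abs_add_le (u x * (((n : ℝ) - 2) * qct k ‖G.lg p x‖ + 1) * ‖N‖)
    (inner ℝ (G.D u x) a * ‖N‖)
  linarith

theorem fv_kapU_measurable {u : _root_.Vale.Agent.P219.TP.E n → ℝ} (hu : ContDiff ℝ ∞ u) (p : _root_.Vale.Agent.P219.TP.E n) {h : _root_.Vale.Agent.P219.TP.E n → ℝ}
    (hh : ContDiff ℝ 1 h) : Measurable fun x => kapU G k u p x (G.D h x) := by
  have hD := (perc_D_cont G hh).measurable
  have hDu := (perc_D_cont G (hu.of_le (by exact_mod_cast le_top) : ContDiff ℝ 1 u)).measurable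
  have hlg1 : Measurable fun x => ‖G.lg p x‖ :=
    (G.lg_smooth.continuous.comp (continuous_const.prodMk continuous_id)).norm.measurable
  have hlg2 : Measurable fun x => -G.lg x p :=
    (G.lg_smooth.continuous.comp (continuous_id.prodMk continuous_const)).neg.measurable
  have hu1 := hu.continuous.measurable
  have hq : Measurable fun x => qct k ‖G.lg p x‖ := by
    unfold qct
    exact (hlg1.mul ((contDiff_cs k).continuous.measurable.comp hlg1)).div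
      ((contDiff_sn k).continuous.measurable.comp hlg1)
  unfold kapU
  exact ((((hu1.mul ((hq.const_mul _).add_const 1)).mul hD.norm).add
    ((hDu.inner hlg2).mul hD.norm)).sub (((hlg2.inner hD).mul (hDu.inner hD)).div hD.norm)).add
    (((hu1.mul (hq.sub_const 1)).mul (((hlg2.inner hD).div hlg1).pow_const 2)).div hD.norm)

theorem fv_kapU_zero (u : _root_.Vale.Agent.P219.TP.E n → ℝ) (p x : _root_.Vale.Agent.P219.TP.E n) : kapU G k u p x 0 = 0 := by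
  rw [kapU]
  simp

theorem fv_kapU_integrable (hn : 2 ≤ n) (hk : 0 ≤ k) {u : _root_.Vale.Agent.P219.TP.E n → ℝ} (hu : ContDiff ℝ ∞ u)
    {o p : _root_.Vale.Agent.P219.TP.E n} {ρ : ℝ} (hp : ‖G.lg o p‖ ≤ ρ) {h : _root_.Vale.Agent.P219.TP.E n → ℝ} (hh : G.Cls o ρ h) :
    Integrable (fun x => kapU G k u p x (G.D h x)) G.vol := by
  have hBc := G.isCompact_gball o ρ
  obtain ⟨K₁, hK₁⟩ := hBc.exists_bound_of_continuousOn hu.continuous.continuousOn
  have hDc : Continuous (G.D u) := perc_D_cont G (hu.of_le (by exact_mod_cast le_top))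
  obtain ⟨K₂, hK₂⟩ := hBc.exists_bound_of_continuousOn hDc.continuousOn
  have hρ : 0 ≤ ρ := (norm_nonneg _).trans hp
  have hK₁0 : 0 ≤ K₁ := (norm_nonneg _).trans (hK₁ p hp)
  have hK₂0 : 0 ≤ K₂ := (norm_nonneg _).trans (hK₂ p hp)
  have hcs0 : 0 ≤ _root_.Vale.Agent.P219.TPH.cs k (2 * ρ) := zero_le_one.trans (one_le_cs _ _)
  set K : ℝ := K₁ + K₂ + 2 * ρ + _root_.Vale.Agent.P219.TPH.cs k (2 * ρ) with hKdef
  have hK0 : 0 ≤ K := by rw [hKdef]; positivity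
  refine ((perc_D_integrable G hh).const_mul
    (K * (n * K + 1) + K ^ 2 + K ^ 2 + K * (K + 1))).mono'
    (fv_kapU_measurable G hu p hh.smooth).aestronglyMeasurable
    (Filter.Eventually.of_forall fun x => ?_)
  by_cases hB : ‖G.lg o x‖ ≤ ρ
  · have hv2 : ‖G.lg p x‖ ≤ 2 * ρ := perc_norm_lg_le G hp hB
    refine fv_kapU_abs G hn hK0 ?_ ?_ ?_ ?_
    · have := hK₁ x hB
      rw [Real.norm_eq_abs] at this
      linarith
    · have := hK₂ x hB
      linarith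
    · linarith
    · have := fv_qct_abs hk (norm_nonneg (G.lg p x)) hv2
      linarith
  · rw [perc_D_of_eventually G (perc_D_zero G hh (not_le.mp hB)), fv_kapU_zero]
    simp

/-- FIRST VARIATION OF THE TOTAL VARIATION under the contraction
`Ψ x = ex p ((1 - t u(x)) • lg p x)`, uniformly in `h`. -/
theorem fv_per (hn : 2 ≤ n) (hk : 0 ≤ k) (hG : MonoSn G k) (o : _root_.Vale.Agent.P219.TP.E n) {ρ : ℝ} {p : _root_.Vale.Agent.P219.TP.E n}
    (hp : ‖G.lg o p‖ ≤ ρ) {u : _root_.Vale.Agent.P219.TP.E n → ℝ} (hu : ContDiff ℝ ∞ u) (hu0 : ∀ x, 0 ≤ u x) :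
    ∃ C t₀ : ℝ, 0 ≤ C ∧ 0 < t₀ ∧ ∀ (t : ℝ) (h : _root_.Vale.Agent.P219.TP.E n → ℝ), 0 ≤ t → t ≤ t₀ → G.Cls o ρ h →
      ∀ θ : _root_.Vale.Agent.P219.TP.E n → ℝ, (∀ v, ‖v‖ < 2 * ρ + 1 → θ v = u (G.ex p v)) → ∀ Ψ : _root_.Vale.Agent.P219.TP.E n ≃ₜ _root_.Vale.Agent.P219.TP.E n,
      (∀ x, Ψ x = G.rad θ p t x) → ContDiff ℝ ∞ Ψ → ContDiff ℝ ∞ Ψ.symm →
      G.per (h ∘ Ψ.symm) ≤
        G.per h - t * (∫ x, kapU G k u p x (G.D h x) ∂G.vol) + C * t ^ 2 * G.per h := by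
  obtain ⟨C, t₀, hC0, ht₀, hmain⟩ := fv_pointwise G hn hk hG o hp hu hu0
  refine ⟨C, t₀, hC0, ht₀, ?_⟩
  intro t h ht0 ht1 hh θ hθ Ψ hΨ hΨ1 hΨ2
  have hfun : (Ψ : _root_.Vale.Agent.P219.TP.E n → _root_.Vale.Agent.P219.TP.E n) = G.rad θ p t := funext hΨ
  set κ : _root_.Vale.Agent.P219.TP.E n → ℝ := fun x => kapU G k u p x (G.D h x) with hκ
  have hkint : Integrable κ G.vol := fv_kapU_integrable G hn hk hu hp hh
  have hDint := perc_D_integrable G hh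
  have hgint : Integrable (fun x => ‖G.D h x‖ - t * κ x + C * t ^ 2 * ‖G.D h x‖) G.vol :=
    (hDint.sub (hkint.const_mul t)).add (hDint.const_mul _)
  have hae : ∀ᵐ x ∂G.vol, x ≠ p := by
    have hac : G.vol ≪ volume := withDensity_absolutelyContinuous _ _
    refine hac.ae_le ?_
    have : Nonempty (Fin n) := ⟨⟨0, by omega⟩⟩
    exact compl_mem_ae_iff.mpr (measure_singleton p)
  have hcmp : ∀ᵐ x ∂G.vol, ‖G.D (h ∘ Ψ.symm) (Ψ x)‖ *
      (G.w (Ψ x) * |(fderiv ℝ Ψ x).det| / G.w x) ≤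
        ‖G.D h x‖ - t * κ x + C * t ^ 2 * ‖G.D h x‖ := by
    filter_upwards [hae] with x hx
    have hw := G.w_pos x
    by_cases hB : ‖G.lg o x‖ ≤ ρ
    · have h1 := hmain x t ht0 ht1 hB hx θ hθ (G.D h x)
        (G.D (h ∘ Ψ.symm) (Ψ x)) (fun ξ η hη => by
          refine D_comp_symm G hΨ1 hΨ2 hh.smooth x ξ η ?_
          rw [hfun]
          exact hη)
      rw [← hfun] at h1
      have h2 : ‖G.D (h ∘ Ψ.symm) (Ψ x)‖ * (G.w (Ψ x) * |(fderiv ℝ Ψ x).det| / G.w x) =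
          (G.w (Ψ x) * |(fderiv ℝ Ψ x).det| * ‖G.D (h ∘ Ψ.symm) (Ψ x)‖) / G.w x := by ring
      rw [h2, div_le_iff₀ hw, mul_comm _ (G.w x)]
      exact h1
    · have h1 := perc_D_zero G hh (not_le.mp hB)
      have h2 : (h ∘ Ψ.symm) =ᶠ[nhds (Ψ x)] fun _ => 0 := by
        have h3 : Filter.Tendsto Ψ.symm (nhds (Ψ x)) (nhds x) := by
          have h4 := Ψ.symm.continuous.tendsto (Ψ x)
          rwa [Ψ.symm_apply_apply] at h4
        exact h3.eventually h1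
      have h5 := perc_D_of_eventually G h1
      have h6 := perc_D_of_eventually G h2
      rw [hκ]
      simp only [h5, h6, norm_zero, zero_mul, mul_zero, sub_zero, add_zero, fv_kapU_zero, le_refl]
  have e1 : G.per (h ∘ Ψ.symm) = ∫ x, ‖G.D (h ∘ Ψ.symm) (Ψ x)‖ *
      (G.w (Ψ x) * |(fderiv ℝ Ψ x).det| / G.w x) ∂G.vol :=
    integral_vol_comp G hΨ1 (fun y => ‖G.D (h ∘ Ψ.symm) y‖)
  have e2 : ∫ x, (‖G.D h x‖ - t * κ x + C * t ^ 2 * ‖G.D h x‖) ∂G.vol =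
      G.per h - t * (∫ x, κ x ∂G.vol) + C * t ^ 2 * G.per h := by
    have i1 : Integrable (fun x => ‖G.D h x‖ - t * κ x) G.vol := hDint.sub (hkint.const_mul t)
    rw [integral_add i1 (hDint.const_mul _),
      integral_sub hDint (hkint.const_mul t), integral_const_mul, integral_const_mul]
    rfl
  rw [e1, ← e2]
  refine integral_mono_of_nonneg (Filter.Eventually.of_forall fun x => ?_) hgint hcmp
  have hw := G.w_pos x
  have hw2 := G.w_pos (Ψ x)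
  (clear * - hw2 hw; positivity)

end Vale.Agent.P219.End
end

section

/-! # The first variation density of the field `-ψ ∇F_p` -/

open MeasureTheory Set Metric
open scoped ENNReal ContDiff

namespace Vale.Agent.P219.End

open Vale.Agent.P219.TP Vale.Agent.P219.TPH

variable {n : ℕ} (G : Geo n) {k : ℝ}

/-- The perimeter density on the unit normal bundle. -/
noncomputable def aF (G : Geo n) (k : ℝ) (ψ : E n → ℝ) (p : E n) (z : E n × E n) : ℝ :=
  ((n : ℝ) - 1) * (1 + k ^ 2 * FG G k p z.1) * ψ z.1 + Gam G.A ψ (FG G k p) z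

/-- The volume density on the unit normal bundle. -/
noncomputable def bF (G : Geo n) (k : ℝ) (ψ : E n → ℝ) (p : E n) (z : E n × E n) : ℝ :=
  ψ z.1 * inner ℝ (D G.A (FG G k p) z.1) z.2

end Vale.Agent.P219.End
end

section

/-! # P219, all dimensions: construction of the limit object -/

open MeasureTheory Set Metric Filter Topology
open scoped ENNReal NNReal ContDiff

namespace Vale.Agent.P219.SA

open Vale.Agent.P219.TP Vale.Agent.P219.TPH
open Vale.Agent.P219.End (FG ff sg KS Lim Gam bub thf q0 SnLe aF bF)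

variable {n : ℕ} (G : Geo n)

/-- The stationarity integrand. -/
noncomputable def dF (k H : ℝ) (c : _root_.Vale.Agent.P219.TP.E n) (ψ : _root_.Vale.Agent.P219.TP.E n → ℝ) (z : _root_.Vale.Agent.P219.TP.E n × _root_.Vale.Agent.P219.TP.E n) : ℝ :=
  H * ψ z.1 * inner ℝ (End.D G.A (FG G k c) z.1) z.2 -
    ((n : ℝ) - 1) * (1 + k ^ 2 * FG G k c z.1) * ψ z.1 - Gam G.A ψ (FG G k c) z

theorem D_FG_continuous (k : ℝ) (c : _root_.Vale.Agent.P219.TP.E n) : Continuous (End.D G.A (FG G k c)) :=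
  End.D_continuous G.A_smooth.continuous
    ((End.FG_smooth_right G k c).of_le (by exact_mod_cast le_top))

theorem integrable_of_supp {o : _root_.Vale.Agent.P219.TP.E n} {ρ : ℝ} {V : Measure (_root_.Vale.Agent.P219.TP.E n × _root_.Vale.Agent.P219.TP.E n)} [IsFiniteMeasure V]
    (hV : V (KS G o ρ)ᶜ = 0) {f : _root_.Vale.Agent.P219.TP.E n × _root_.Vale.Agent.P219.TP.E n → ℝ} (hf : Continuous f) : Integrable f V := by
  obtain ⟨C, hC⟩ := (End.isCompact_KS G o ρ).exists_bound_of_continuousOn hf.continuousOn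
  refine Integrable.of_bound hf.aestronglyMeasurable C ?_
  have h1 : ∀ᵐ z ∂V, z ∈ KS G o ρ := by
    rw [ae_iff]
    exact hV
  filter_upwards [h1] with z hz
  exact hC z hz

end Vale.Agent.P219.SA
end

section

/-! # P219: the potential `F_c = (cosh (k r) - 1) / k²` of a Cartan-Hadamard geometry -/

open MeasureTheory Set Metric
open scoped ENNReal ContDiff

namespace Vale.Agent.P219.End

open Vale.Agent.P219.TP Vale.Agent.P219.TPH

variable {n : ℕ} (G : Geo n) (k : ℝ)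

/-- `Φ(s) = (cosh (k √s) - 1) / k²`. -/
noncomputable def stPhi (s : ℝ) : ℝ := s / 2 * shs (k ^ 2 * s / 4) ^ 2

/-- `F_c(x) = (cosh (k r) - 1) / k²`, `r = |lg c x|`. -/
noncomputable def Fk (c x : _root_.Vale.Agent.P219.TP.E n) : ℝ := stPhi k (‖G.lg c x‖ ^ 2)

theorem contDiff_stPhi : ContDiff ℝ ∞ (stPhi k) :=
  (contDiff_id.div_const _).mul ((contDiff_shs.comp
    ((contDiff_const.mul contDiff_id).div_const _)).pow 2)

theorem cs_eq_stPhi (r : ℝ) : _root_.Vale.Agent.P219.TPH.cs k r = 1 + k ^ 2 * stPhi k (r ^ 2) := by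
  rw [cs_eq_shs, stPhi]

theorem stPhi_zero (s : ℝ) : stPhi 0 s = s / 2 := by
  simp [stPhi, shs_zero]

theorem hasDerivAt_stPhi {s : ℝ} (hs : 0 ≤ s) :
    HasDerivAt (stPhi k) (shs (k ^ 2 * s) / 2) s := by
  by_cases hk : k = 0
  · have h1 : stPhi k = fun s => s / 2 := by
      funext u
      rw [hk, stPhi_zero]
    rw [h1, hk]
    have := (hasDerivAt_id s).div_const 2
    simpa [shs_zero] using this
  rcases eq_or_lt_of_le hs with h0 | h0
  · subst h0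
    have h1 : HasDerivAt (fun u : ℝ => u / 2) (1 / 2) 0 := (hasDerivAt_id (0 : ℝ)).div_const 2
    have h2 : ContDiff ℝ ∞ fun u : ℝ => shs (k ^ 2 * u / 4) ^ 2 := (contDiff_shs.comp
      ((contDiff_const.mul contDiff_id).div_const _)).pow 2
    have h3 := (h2.differentiable (by simp) (0 : ℝ)).hasDerivAt
    have h4 := h1.mul h3
    refine h4.congr_deriv ?_
    simp [shs_zero]
  · have h1 : (stPhi k) =ᶠ[nhds s] fun u => (_root_.Vale.Agent.P219.TPH.cs k (√u) - 1) / k ^ 2 := by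
      filter_upwards [lt_mem_nhds h0] with u hu
      rw [cs_eq_stPhi, Real.sq_sqrt hu.le]
      field_simp
      ring
    have h2 : HasDerivAt (fun u : ℝ => √u) (1 / (2 * √s)) s := Real.hasDerivAt_sqrt h0.ne'
    have h3 : HasDerivAt (fun u : ℝ => _root_.Vale.Agent.P219.TPH.cs k (√u)) (k ^ 2 * _root_.Vale.Agent.P219.TPH.sn k (√s) * (1 / (2 * √s))) s :=
      (hasDerivAt_cs k (√s)).comp s h2
    have h4 := (h3.sub_const 1).div_const (k ^ 2)
    refine (h4.congr_of_eventuallyEq h1).congr_deriv ?_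
    have hs' : √s ≠ 0 := (Real.sqrt_pos.2 h0).ne'
    rw [sn_eq_shs, Real.sq_sqrt h0.le]
    field_simp

theorem Fk_smooth : ContDiff ℝ ∞ fun z : _root_.Vale.Agent.P219.TP.E n × _root_.Vale.Agent.P219.TP.E n => Fk G k z.1 z.2 := by
  have h : ContDiff ℝ ∞ fun z : _root_.Vale.Agent.P219.TP.E n × _root_.Vale.Agent.P219.TP.E n => ‖G.lg z.1 z.2‖ ^ 2 := G.lg_smooth.norm_sq ℝ
  have h2 := (contDiff_stPhi k).comp h
  exact h2

theorem Fk_smooth' (c : _root_.Vale.Agent.P219.TP.E n) : ContDiff ℝ ∞ (Fk G k c) := by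
  have h1 : ContDiff ℝ ∞ (fun x : _root_.Vale.Agent.P219.TP.E n => ((c, x) : _root_.Vale.Agent.P219.TP.E n × _root_.Vale.Agent.P219.TP.E n)) :=
    contDiff_const.prodMk contDiff_id
  have h2 : ContDiff ℝ ∞ (fun x : _root_.Vale.Agent.P219.TP.E n => Fk G k (c, x).1 (c, x).2) := (Fk_smooth G k).comp h1
  exact h2

/-- `1 + k² F = cosh (k r)`. -/
theorem one_add_Fk (c x : _root_.Vale.Agent.P219.TP.E n) : 1 + k ^ 2 * Fk G k c x = _root_.Vale.Agent.P219.TPH.cs k ‖G.lg c x‖ := by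
  rw [cs_eq_stPhi, Fk]

/-- Gradient of the squared distance. -/
theorem st_D_normsq (c x : _root_.Vale.Agent.P219.TP.E n) :
    G.D (fun y => ‖G.lg c y‖ ^ 2) x = -(2 : ℝ) • G.lg x c := by
  obtain ⟨Ti, hTi1, hTi2⟩ := G.exists_T_inv c (G.lg c x)
  refine ext_inner_right ℝ fun ξ => ?_
  have hθ : HasFDerivAt (fun v : _root_.Vale.Agent.P219.TP.E n => ‖v‖ ^ 2) ((2 : ℝ) • innerSL ℝ (G.lg c x)) (G.lg c x) := by
    have h0 := (hasStrictFDerivAt_norm_sq (G.lg c x)).hasFDerivAt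
    rw [two_smul ℕ] at h0
    rw [two_smul ℝ]
    exact h0
  have h1 := st_D_comp G (θ := fun v : _root_.Vale.Agent.P219.TP.E n => ‖v‖ ^ 2) (p := c) (x := x) hθ.differentiableAt
    hTi2 ξ
  have h2 : G.D (fun y => ‖G.lg c y‖ ^ 2) x = G.D (stX G (fun v : _root_.Vale.Agent.P219.TP.E n => ‖v‖ ^ 2) c) x := rfl
  have hTvv0 : G.T c (G.lg c x) (G.lg c x) = -G.lg x c := by
    rw [G.T_self, G.lg_back']
  rw [h2, h1, hθ.fderiv]
  have h3 : inner ℝ (G.lg c x) (Ti ξ) = inner ℝ (-G.lg x c) ξ := by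
    rw [← hTvv0, ← G.gauss c (G.lg c x) (Ti ξ), hTi2]
  have h4 : ((2 : ℝ) • innerSL ℝ (G.lg c x)) (Ti ξ) = 2 * inner ℝ (G.lg c x) (Ti ξ) := by
    simp
  rw [h4, h3, real_inner_smul_left, inner_neg_left]
  ring

/-- Chain rule for the frame gradient. -/
theorem st_D_comp_real {f : ℝ → ℝ} {f' : ℝ} {u : _root_.Vale.Agent.P219.TP.E n → ℝ} {x : _root_.Vale.Agent.P219.TP.E n} (hf : HasDerivAt f f' (u x))
    (hu : DifferentiableAt ℝ u x) : G.D (fun y => f (u y)) x = f' • G.D u x := by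
  refine ext_inner_right ℝ fun ξ => ?_
  rw [real_inner_smul_left, G.inner_D, G.inner_D]
  have h1 : HasFDerivAt (fun y => f (u y)) (f' • fderiv ℝ u x) x :=
    hf.comp_hasFDerivAt x hu.hasFDerivAt
  rw [h1.fderiv]
  rfl

/-- Product rule for the frame gradient. -/
theorem st_D_mul {u v : _root_.Vale.Agent.P219.TP.E n → ℝ} {x : _root_.Vale.Agent.P219.TP.E n} (hu : DifferentiableAt ℝ u x)
    (hv : DifferentiableAt ℝ v x) :
    G.D (fun y => u y * v y) x = u x • G.D v x + v x • G.D u x := by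
  refine ext_inner_right ℝ fun ξ => ?_
  rw [inner_add_left, real_inner_smul_left, real_inner_smul_left, G.inner_D, G.inner_D, G.inner_D]
  have h1 := (hu.hasFDerivAt.mul hv.hasFDerivAt).fderiv
  have h2 : fderiv ℝ (fun y => u y * v y) x = u x • fderiv ℝ v x + v x • fderiv ℝ u x := h1
  rw [h2]
  simp

/-- The gradient of `F_c`. -/
theorem D_Fk (c x : _root_.Vale.Agent.P219.TP.E n) :
    G.D (Fk G k c) x = -(shs (k ^ 2 * ‖G.lg c x‖ ^ 2)) • G.lg x c := by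
  have h1 : DifferentiableAt ℝ (fun y => ‖G.lg c y‖ ^ 2) x :=
    (((ContDiff.norm_sq ℝ (G.lg_smooth.comp (contDiff_const.prodMk contDiff_id)) :
      ContDiff ℝ ∞ fun y => ‖G.lg c y‖ ^ 2)).differentiable (by simp)) x
  have h2 := st_D_comp_real G (f := stPhi k) (u := fun y => ‖G.lg c y‖ ^ 2) (x := x)
    (hasDerivAt_stPhi k (by positivity)) h1
  have h3 : G.D (Fk G k c) x = G.D (fun y => stPhi k (‖G.lg c y‖ ^ 2)) x := rfl
  rw [h3, h2, st_D_normsq, smul_smul]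
  congr 1
  ring

end Vale.Agent.P219.End
end

section

/-! # Comparison of the two versions of the potential (`chi` and `shs`) -/

open MeasureTheory Set Metric
open scoped ENNReal ContDiff

namespace Vale.Agent.P219.End

open Vale.Agent.P219.TP Vale.Agent.P219.TPH

variable {n : ℕ} (G : Geo n) (k : ℝ)

theorem shs_eq_chi (r : ℝ) : shs (k ^ 2 * r ^ 2) = chi k (r ^ 2) := by
  by_cases hr : r = 0
  · rw [hr, zero_pow two_ne_zero, mul_zero, shs_zero, chi_zero]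
  · have h1 := sn_eq_shs k r
    rw [sn_eq_chi] at h1
    exact (mul_left_cancel₀ hr h1).symm

theorem Fk_eq_FG (c x : E n) : Fk G k c x = FG G k c x := by
  unfold Fk FG stPhi ff
  have h1 := shs_eq_chi k (‖G.lg c x‖ / 2)
  have e1 : k ^ 2 * ‖G.lg c x‖ ^ 2 / 4 = k ^ 2 * (‖G.lg c x‖ / 2) ^ 2 := by ring
  have e2 : ‖G.lg c x‖ ^ 2 / 4 = (‖G.lg c x‖ / 2) ^ 2 := by ring
  rw [e1, h1, e2]

theorem Fk_eq_FG' (c : E n) : Fk G k c = FG G k c := funext (Fk_eq_FG G k c)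

end Vale.Agent.P219.End
end

section

/-! # P219, all dimensions: the density field

From the flat Gaussian density at one scale, at centres close to a point `p` of the support, to the
bubble density at `p`: Gaussian monotonicity (one-sided stationarity, with `F = r² / 2`), passage
`c → p`, comparison of `(cosh (k r) - 1) / k²` with `r² / 2` at small distances, and the mixture
formula. -/

open MeasureTheory Set Metric Filter Topology
open scoped ENNReal NNReal ContDiff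

namespace Vale.Agent.P219.SA

open Vale.Agent.P219.TP Vale.Agent.P219.TPH
open Vale.Agent.P219.End (FG ff chi sg KS Lim Gam bub thf q0 SnLe aF bF)

variable {n : ℕ} (G : Geo n)

/-- `∫ e^{-t r_c²} dV` -/
noncomputable def gL (V : Measure (_root_.Vale.Agent.P219.TP.E n × _root_.Vale.Agent.P219.TP.E n)) (c : _root_.Vale.Agent.P219.TP.E n) (t : ℝ) : ℝ :=
  ∫ z, Real.exp (-t * ‖G.lg c z.1‖ ^ 2) ∂V

/-- `(t/π)^{m/2} ∫ e^{-t r_c²} dV` -/
noncomputable def gI (V : Measure (_root_.Vale.Agent.P219.TP.E n × _root_.Vale.Agent.P219.TP.E n)) (c : _root_.Vale.Agent.P219.TP.E n) (t : ℝ) : ℝ :=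
  (t / Real.pi) ^ (((n : ℝ) - 1) / 2) * gL G V c t

theorem FG_zero_eq (c x : _root_.Vale.Agent.P219.TP.E n) : FG G 0 c x = ‖G.lg c x‖ ^ 2 / 2 := by
  unfold FG
  rw [End.ff_sq]
  simp only [_root_.Vale.Agent.P219.TPH.sn, if_true]
  ring

theorem lgq_continuous (c : _root_.Vale.Agent.P219.TP.E n) : Continuous fun x => ‖G.lg c x‖ ^ 2 :=
  ((G.lg_smooth_right c).continuous.norm).pow 2

theorem lgq_continuous_left (x : _root_.Vale.Agent.P219.TP.E n) : Continuous fun c => ‖G.lg c x‖ ^ 2 :=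
  ((G.lg_smooth.continuous.comp (continuous_id.prodMk continuous_const)).norm).pow 2

theorem gexp_continuous (c : _root_.Vale.Agent.P219.TP.E n) (t : ℝ) :
    Continuous fun z : _root_.Vale.Agent.P219.TP.E n × _root_.Vale.Agent.P219.TP.E n => Real.exp (-t * ‖G.lg c z.1‖ ^ 2) :=
  Real.continuous_exp.comp (((lgq_continuous G c).comp continuous_fst).const_mul (-t))

theorem exp_lgq_le {t : ℝ} (ht : 0 ≤ t) (c : _root_.Vale.Agent.P219.TP.E n) (z : _root_.Vale.Agent.P219.TP.E n × _root_.Vale.Agent.P219.TP.E n) :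
    ‖Real.exp (-t * ‖G.lg c z.1‖ ^ 2)‖ ≤ 1 := by
  rw [Real.norm_of_nonneg (Real.exp_pos _).le]
  apply Real.exp_le_one_iff.2
  have := mul_nonneg ht (sq_nonneg ‖G.lg c z.1‖)
  linarith

theorem gL_nonneg (V : Measure (_root_.Vale.Agent.P219.TP.E n × _root_.Vale.Agent.P219.TP.E n)) (c : _root_.Vale.Agent.P219.TP.E n) (t : ℝ) : 0 ≤ gL G V c t :=
  integral_nonneg fun _ => (Real.exp_pos _).le

theorem gexp_integrable (V : Measure (_root_.Vale.Agent.P219.TP.E n × _root_.Vale.Agent.P219.TP.E n)) [IsFiniteMeasure V] (c : _root_.Vale.Agent.P219.TP.E n) {t : ℝ}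
    (ht : 0 ≤ t) : Integrable (fun z : _root_.Vale.Agent.P219.TP.E n × _root_.Vale.Agent.P219.TP.E n => Real.exp (-t * ‖G.lg c z.1‖ ^ 2)) V :=
  Integrable.of_bound (gexp_continuous G c t).aestronglyMeasurable 1
    (Eventually.of_forall fun z => exp_lgq_le G ht c z)

/-- derivative in `t` -/
theorem hasDerivAt_gL (V : Measure (_root_.Vale.Agent.P219.TP.E n × _root_.Vale.Agent.P219.TP.E n)) [IsFiniteMeasure V] (c : _root_.Vale.Agent.P219.TP.E n) {t : ℝ}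
    (ht : 0 < t) :
    HasDerivAt (gL G V c)
      (-∫ z, ‖G.lg c z.1‖ ^ 2 * Real.exp (-t * ‖G.lg c z.1‖ ^ 2) ∂V) t := by
  have hmain := hasDerivAt_integral_of_dominated_loc_of_deriv_le (μ := V)
    (F := fun t (z : _root_.Vale.Agent.P219.TP.E n × _root_.Vale.Agent.P219.TP.E n) => Real.exp (-t * ‖G.lg c z.1‖ ^ 2))
    (F' := fun t (z : _root_.Vale.Agent.P219.TP.E n × _root_.Vale.Agent.P219.TP.E n) => -(‖G.lg c z.1‖ ^ 2 * Real.exp (-t * ‖G.lg c z.1‖ ^ 2)))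
    (x₀ := t) (s := Metric.ball t (t / 2)) (bound := fun _ => 2 / t)
    (Metric.ball_mem_nhds t (half_pos ht))
    (Eventually.of_forall fun x => (gexp_continuous G c x).aestronglyMeasurable)
    (gexp_integrable G V c ht.le)
    (((((lgq_continuous G c).comp continuous_fst).mul
      (gexp_continuous G c t)).neg).aestronglyMeasurable)
    (by
      refine Eventually.of_forall fun z x hx => ?_
      have hx' : t / 2 ≤ x := by
        have h1 : |x - t| < t / 2 := by simpa [Real.dist_eq] using hx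
        have h2 := (abs_lt.1 h1).1
        linarith
      obtain ⟨q, hq⟩ : ∃ q, q = ‖G.lg c z.1‖ ^ 2 := ⟨_, rfl⟩
      have hq0 : 0 ≤ q := hq ▸ sq_nonneg _
      rw [norm_neg, ← hq, Real.norm_of_nonneg (mul_nonneg hq0 (Real.exp_pos _).le)]
      have h3 : x * q ≤ Real.exp (x * q) := by
        have := Real.add_one_le_exp (x * q)
        linarith
      have hx0 : 0 < x := by linarith
      have h4 : q * Real.exp (-x * q) ≤ 1 / x := by
        rw [neg_mul, Real.exp_neg, ← div_eq_mul_inv, div_le_div_iff₀ (Real.exp_pos _) hx0]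
        linarith
      refine h4.trans ?_
      rw [div_le_div_iff₀ hx0 ht]
      linarith)
    (integrable_const _)
    (by
      refine Eventually.of_forall fun z x _ => ?_
      have h1 : HasDerivAt (fun x : ℝ => -x * ‖G.lg c z.1‖ ^ 2) (-(‖G.lg c z.1‖ ^ 2)) x := by
        have h0 := ((hasDerivAt_id x).fun_neg).mul_const (‖G.lg c z.1‖ ^ 2)
        simpa using h0
      refine h1.exp.congr_deriv ?_
      ring)
  have h2 := hmain.2
  rw [integral_neg] at h2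
  exact h2

/-- the Gaussian test function -/
theorem gpsi_smooth (c : _root_.Vale.Agent.P219.TP.E n) (t : ℝ) :
    ContDiff ℝ ∞ fun x => Real.exp (-t * ‖G.lg c x‖ ^ 2) :=
  Real.contDiff_exp.comp (contDiff_const.mul ((G.lg_smooth_right c).norm_sq ℝ))

/-- the gradient of the Gaussian -/
theorem D_gpsi (c : _root_.Vale.Agent.P219.TP.E n) (t : ℝ) (x : _root_.Vale.Agent.P219.TP.E n) :
    End.D G.A (fun x => Real.exp (-t * ‖G.lg c x‖ ^ 2)) x =
      (-2 * t * Real.exp (-t * ‖G.lg c x‖ ^ 2)) • End.D G.A (FG G 0 c) x := by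
  have e : (fun x => Real.exp (-t * ‖G.lg c x‖ ^ 2)) =
      fun x => (fun s : ℝ => Real.exp (-2 * t * s)) (FG G 0 c x) := by
    funext y
    simp only [FG_zero_eq]
    congr 1
    ring
  have h1 : HasDerivAt (fun s : ℝ => Real.exp (-2 * t * s))
      (-2 * t * Real.exp (-t * ‖G.lg c x‖ ^ 2)) (FG G 0 c x) := by
    have h2 : HasDerivAt (fun s : ℝ => -2 * t * s) (-2 * t) (FG G 0 c x) := by
      simpa using (hasDerivAt_id (FG G 0 c x)).const_mul (-2 * t)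
    refine h2.exp.congr_deriv ?_
    rw [FG_zero_eq, mul_comm]
    congr 2
    ring
  rw [e]
  exact End.D_comp h1 (((End.FG_smooth_right G 0 c).differentiable (by simp)) x)

/-- the stationarity integrand of the Gaussian -/
theorem dF_gpsi (H : ℝ) (c : _root_.Vale.Agent.P219.TP.E n) (t : ℝ) (z : _root_.Vale.Agent.P219.TP.E n × _root_.Vale.Agent.P219.TP.E n) :
    dF G 0 H c (fun x => Real.exp (-t * ‖G.lg c x‖ ^ 2)) z =
      Real.exp (-t * ‖G.lg c z.1‖ ^ 2) * (H * inner ℝ (End.D G.A (FG G 0 c) z.1) z.2 -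
        ((n : ℝ) - 1) + 2 * t * (‖G.lg c z.1‖ ^ 2 -
          inner ℝ (End.D G.A (FG G 0 c) z.1) z.2 ^ 2)) := by
  have h1 : ‖End.D G.A (FG G 0 c) z.1‖ ^ 2 = ‖G.lg c z.1‖ ^ 2 := by
    rw [End.norm_D_FG, FG_zero_eq]
    ring
  unfold dF Gam
  rw [D_gpsi, real_inner_smul_left, real_inner_smul_left, real_inner_self_eq_norm_sq, h1]
  ring

variable {G}

/-- Gaussian differential inequality -/
theorem gauss_ineq {o : _root_.Vale.Agent.P219.TP.E n} {ρ H : ℝ} {V : Measure (_root_.Vale.Agent.P219.TP.E n × _root_.Vale.Agent.P219.TP.E n)} [IsFiniteMeasure V]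
    (hV : V (KS G o ρ)ᶜ = 0) {c : _root_.Vale.Agent.P219.TP.E n}
    (hst : ∀ ψ : _root_.Vale.Agent.P219.TP.E n → ℝ, ContDiff ℝ ∞ ψ → (∀ x, 0 ≤ ψ x) → 0 ≤ ∫ z, dF G 0 H c ψ z ∂V)
    {t : ℝ} (ht : 0 < t) :
    ((n : ℝ) - 1) * gL G V c t -
      2 * t * ∫ z, ‖G.lg c z.1‖ ^ 2 * Real.exp (-t * ‖G.lg c z.1‖ ^ 2) ∂V ≤
      H ^ 2 / (8 * t) * gL G V c t := by
  have h0 := hst _ (gpsi_smooth G c t) fun x => (Real.exp_pos _).le
  simp only [dF_gpsi] at h0
  have hq : Continuous fun z : _root_.Vale.Agent.P219.TP.E n × _root_.Vale.Agent.P219.TP.E n => ‖G.lg c z.1‖ ^ 2 :=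
    (lgq_continuous G c).comp continuous_fst
  have he := gexp_continuous G c t
  have hb : Continuous fun z : _root_.Vale.Agent.P219.TP.E n × _root_.Vale.Agent.P219.TP.E n => inner ℝ (End.D G.A (FG G 0 c) z.1) z.2 :=
    ((D_FG_continuous G 0 c).comp continuous_fst).inner continuous_snd
  have i1 : Integrable (fun z : _root_.Vale.Agent.P219.TP.E n × _root_.Vale.Agent.P219.TP.E n => Real.exp (-t * ‖G.lg c z.1‖ ^ 2) *
      (H * inner ℝ (End.D G.A (FG G 0 c) z.1) z.2 -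
        ((n : ℝ) - 1) + 2 * t * (‖G.lg c z.1‖ ^ 2 -
          inner ℝ (End.D G.A (FG G 0 c) z.1) z.2 ^ 2))) V := by
    refine integrable_of_supp G hV ?_
    continuity
  have i2 : Integrable (fun z : _root_.Vale.Agent.P219.TP.E n × _root_.Vale.Agent.P219.TP.E n => Real.exp (-t * ‖G.lg c z.1‖ ^ 2) *
      (H ^ 2 / (8 * t) - ((n : ℝ) - 1)) + 2 * t * (‖G.lg c z.1‖ ^ 2 *
        Real.exp (-t * ‖G.lg c z.1‖ ^ 2))) V := by
    refine integrable_of_supp G hV ?_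
    fun_prop
  have h1 := integral_mono i1 i2 fun z => by
    obtain ⟨b, hb'⟩ : ∃ b : ℝ, b = inner ℝ (End.D G.A (FG G 0 c) z.1) z.2 := ⟨_, rfl⟩
    obtain ⟨p, hp⟩ : ∃ p : ℝ, p = Real.exp (-t * ‖G.lg c z.1‖ ^ 2) := ⟨_, rfl⟩
    have hp0 : 0 < p := hp ▸ Real.exp_pos _
    simp only [← hb', ← hp]
    have h2 : H * b - 2 * t * b ^ 2 ≤ H ^ 2 / (8 * t) := by
      rw [le_div_iff₀ (by positivity)]
      linarith only [sq_nonneg (H - 4 * t * b)]
    have h3 := mul_le_mul_of_nonneg_left h2 hp0.le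
    linarith
  have i3 : Integrable (fun z : _root_.Vale.Agent.P219.TP.E n × _root_.Vale.Agent.P219.TP.E n => Real.exp (-t * ‖G.lg c z.1‖ ^ 2) *
      (H ^ 2 / (8 * t) - ((n : ℝ) - 1))) V := integrable_of_supp G hV (by fun_prop)
  have i4 : Integrable (fun z : _root_.Vale.Agent.P219.TP.E n × _root_.Vale.Agent.P219.TP.E n => 2 * t * (‖G.lg c z.1‖ ^ 2 *
        Real.exp (-t * ‖G.lg c z.1‖ ^ 2))) V := integrable_of_supp G hV (by fun_prop)
  rw [integral_add i3 i4, integral_mul_const, integral_const_mul] at h1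
  have h4 := h0.trans h1
  have e : ∫ z, Real.exp (-t * ‖G.lg c z.1‖ ^ 2) ∂V = gL G V c t := rfl
  rw [e] at h4
  linarith only [h4]

/-- **Gaussian monotonicity**: `I(t) exp (H² / (16 t))` is nonincreasing. -/
theorem gauss_mono {o : _root_.Vale.Agent.P219.TP.E n} {ρ H : ℝ} {V : Measure (_root_.Vale.Agent.P219.TP.E n × _root_.Vale.Agent.P219.TP.E n)} [IsFiniteMeasure V]
    (hV : V (KS G o ρ)ᶜ = 0) {c : _root_.Vale.Agent.P219.TP.E n}
    (hst : ∀ ψ : _root_.Vale.Agent.P219.TP.E n → ℝ, ContDiff ℝ ∞ ψ → (∀ x, 0 ≤ ψ x) → 0 ≤ ∫ z, dF G 0 H c ψ z ∂V) :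
    AntitoneOn (fun t => gI G V c t * Real.exp (H ^ 2 / (16 * t))) (Ioi 0) := by
  have hpi := Real.pi_pos
  have hder : ∀ t : ℝ, 0 < t → HasDerivAt (fun t => gI G V c t * Real.exp (H ^ 2 / (16 * t)))
      ((t / Real.pi) ^ (((n : ℝ) - 1) / 2) * Real.exp (H ^ 2 / (16 * t)) / (2 * t) *
        (((n : ℝ) - 1) * gL G V c t -
          2 * t * (∫ z, ‖G.lg c z.1‖ ^ 2 * Real.exp (-t * ‖G.lg c z.1‖ ^ 2) ∂V) -
          H ^ 2 / (8 * t) * gL G V c t)) t := by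
    intro t ht
    have htp : 0 < t / Real.pi := by positivity
    have e1 : HasDerivAt (fun s : ℝ => (s / Real.pi) ^ (((n : ℝ) - 1) / 2))
        ((((n : ℝ) - 1) / 2) * (t / Real.pi) ^ (((n : ℝ) - 1) / 2 - 1) * (1 / Real.pi)) t := by
      have h0 : HasDerivAt (fun s : ℝ => s / Real.pi) (1 / Real.pi) t :=
        (hasDerivAt_id t).div_const Real.pi
      refine (h0.rpow_const (p := ((n : ℝ) - 1) / 2) (Or.inl htp.ne')).congr_deriv ?_
      ring
    have e4 : (((n : ℝ) - 1) / 2) * (t / Real.pi) ^ (((n : ℝ) - 1) / 2 - 1) * (1 / Real.pi) =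
        (((n : ℝ) - 1) / (2 * t)) * (t / Real.pi) ^ (((n : ℝ) - 1) / 2) := by
      rw [Real.rpow_sub_one htp.ne']
      field_simp
    rw [e4] at e1
    have e2 := hasDerivAt_gL G V c ht
    have e3 : HasDerivAt (fun t : ℝ => Real.exp (H ^ 2 / (16 * t)))
        (Real.exp (H ^ 2 / (16 * t)) * (-(H ^ 2) / (16 * t ^ 2))) t := by
      have h1 : HasDerivAt (fun t : ℝ => H ^ 2 / (16 * t)) (-(H ^ 2) / (16 * t ^ 2)) t := by
        have h2 := (hasDerivAt_const t (H ^ 2)).fun_div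
          ((hasDerivAt_id t).const_mul (16 : ℝ)) (by simp; exact ht.ne')
        refine h2.congr_deriv ?_
        simp only [id, zero_mul, mul_one, zero_sub]
        field_simp
      exact h1.exp
    have e5 := (e1.fun_mul e2).fun_mul e3
    refine e5.congr_deriv ?_
    field_simp
    ring
  refine antitoneOn_of_deriv_nonpos (convex_Ioi 0)
    (fun t ht => (hder t ht).continuousAt.continuousWithinAt)
    (fun t ht => ?_) (fun t ht => ?_)
  · rw [interior_Ioi] at ht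
    exact (hder t ht).differentiableAt.differentiableWithinAt
  · rw [interior_Ioi] at ht
    have ht0 : (0 : ℝ) < t := ht
    rw [(hder t ht).deriv]
    have h1 := gauss_ineq hV hst ht0
    refine mul_nonpos_of_nonneg_of_nonpos ?_ (by linarith)
    positivity

theorem gI_continuous (V : Measure (_root_.Vale.Agent.P219.TP.E n × _root_.Vale.Agent.P219.TP.E n)) [IsFiniteMeasure V] {t : ℝ} (ht : 0 ≤ t) :
    Continuous fun c => gI G V c t := by
  refine Continuous.mul continuous_const ?_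
  exact continuous_of_dominated (bound := fun _ => (1 : ℝ))
    (fun c => (gexp_continuous G c t).aestronglyMeasurable)
    (fun c => Eventually.of_forall fun z => exp_lgq_le G ht c z) (integrable_const _)
    (Eventually.of_forall fun z =>
      Real.continuous_exp.comp ((lgq_continuous_left G z.1).const_mul (-t)))

/-- lower bound of the Gaussian integrals at a point of the support -/
theorem gauss_lower {o : _root_.Vale.Agent.P219.TP.E n} {ρ H : ℝ} {V : Measure (_root_.Vale.Agent.P219.TP.E n × _root_.Vale.Agent.P219.TP.E n)} [IsFiniteMeasure V]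
    (hV : V (KS G o ρ)ᶜ = 0)
    (hst : ∀ c, ‖G.lg o c‖ ≤ ρ → ∀ ψ : _root_.Vale.Agent.P219.TP.E n → ℝ, ContDiff ℝ ∞ ψ → (∀ x, 0 ≤ ψ x) →
      0 ≤ ∫ z, dF G 0 H c ψ z ∂V) {p : _root_.Vale.Agent.P219.TP.E n}
    (hd : ∀ e > 0, ∀ T : ℝ, ∃ c, ‖G.lg o c‖ ≤ ρ ∧ ‖G.lg p c‖ < e ∧ ∃ t ≥ T, 0 < t ∧
      1 - e ≤ (t / Real.pi) ^ (((n : ℝ) - 1) / 2) *
        ∫ z, Real.exp (-t * ‖G.lg c z.1‖ ^ 2) ∂V) {t : ℝ} (ht : 0 < t) :
    Real.exp (-(H ^ 2 / (16 * t))) ≤ gI G V p t := by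
  refine le_of_forall_pos_le_add fun δ hδ => ?_
  have hc1 : Continuous fun v => gI G V (G.ex p v) t :=
    (gI_continuous V ht.le).comp (G.ex_smooth.continuous.comp
      (continuous_const.prodMk continuous_id))
  have hc2 : gI G V (G.ex p 0) t = gI G V p t := by rw [G.ex_zero]
  obtain ⟨e₁, he₁, h1⟩ := Metric.continuous_iff.1 hc1 0 (δ / 2) (half_pos hδ)
  obtain ⟨e, he⟩ : ∃ e, e = min e₁ (δ / 2) := ⟨_, rfl⟩
  have he0 : 0 < e := by rw [he]; exact lt_min he₁ (half_pos hδ)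
  obtain ⟨c, hc, hpc, s, hs, hs0, h2⟩ := hd e he0 t
  have h3 : gI G V c t < gI G V p t + δ / 2 := by
    have h4 := h1 (G.lg p c) (by
      rw [dist_zero_right]
      exact hpc.trans_le (he ▸ min_le_left _ _))
    rw [G.ex_lg, hc2, Real.dist_eq] at h4
    have := (abs_lt.1 h4).2
    linarith only [this]
  have h5 := gauss_mono hV (hst c hc) ht hs0 hs
  simp only at h5
  have h6 : 1 - e ≤ gI G V c s := h2
  have h7 : (1 : ℝ) ≤ Real.exp (H ^ 2 / (16 * s)) := Real.one_le_exp (by positivity)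
  have h8 : 0 ≤ gI G V c s := mul_nonneg (by positivity) (gL_nonneg G V c s)
  have h9 : 1 - e ≤ gI G V c t * Real.exp (H ^ 2 / (16 * t)) := by
    linarith only [mul_nonneg (sub_nonneg.2 h7) (sub_nonneg.2 h8), mul_nonneg (mul_self_nonneg (1 : ℝ)) (sub_nonneg.2 h6), mul_nonneg (mul_self_nonneg (1 : ℝ)) (sub_nonneg.2 h5)]
  have h10 : Real.exp (-(H ^ 2 / (16 * t))) ≤ 1 := Real.exp_le_one_iff.2 (by
    have : 0 ≤ H ^ 2 / (16 * t) := by positivity
    linarith only [this])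
  have h11 : 0 < Real.exp (-(H ^ 2 / (16 * t))) := Real.exp_pos _
  have h12 : Real.exp (-(H ^ 2 / (16 * t))) * Real.exp (H ^ 2 / (16 * t)) = 1 := by
    rw [← Real.exp_add]
    simp
  have h13 := mul_le_mul_of_nonneg_left h9 h11.le
  have h14 : Real.exp (-(H ^ 2 / (16 * t))) * (gI G V c t * Real.exp (H ^ 2 / (16 * t))) =
      gI G V c t := by
    calc _ = gI G V c t * (Real.exp (-(H ^ 2 / (16 * t))) * Real.exp (H ^ 2 / (16 * t))) := by
          ring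
      _ = _ := by rw [h12, mul_one]
  rw [h14] at h13
  have h15 : e ≤ δ / 2 := he ▸ min_le_right _ _
  (by_contra nlg; linarith only [nlg, mul_nonneg (le_of_lt (sub_pos.2 h11)) (sub_nonneg.2 h15), mul_nonneg (le_of_lt (sub_pos.2 h11)) (sub_nonneg.2 h13), mul_nonneg (sub_nonneg.2 h10) (sub_nonneg.2 h15), mul_nonneg (sub_nonneg.2 h10) (sub_nonneg.2 h13), mul_pos (sub_pos.2 h3) (sub_pos.2 h11), mul_nonneg (le_of_lt (sub_pos.2 h3)) (sub_nonneg.2 h10), mul_nonneg (le_of_lt (sub_pos.2 he0)) (sub_nonneg.2 h10), mul_pos (sub_pos.2 (not_le.1 nlg)) (sub_pos.2 h11), mul_nonneg (le_of_lt (sub_pos.2 (not_le.1 nlg))) (sub_nonneg.2 h10)])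

/-- comparison of the kernels -/
theorem exp_FG_lower {k a s₀ : ℝ} (ha : 0 ≤ a)
    (h : ∀ s, 0 ≤ s → s ≤ s₀ → ff k s ≤ a * (s / 2)) {t : ℝ} (ht : 0 ≤ t) (c x : _root_.Vale.Agent.P219.TP.E n) :
    Real.exp (-(t * a / 2) * ‖G.lg c x‖ ^ 2) - Real.exp (-(t * a / 2) * s₀) ≤
      Real.exp (-(t * FG G k c x)) := by
  rcases le_or_gt (‖G.lg c x‖ ^ 2) s₀ with h1 | h1
  · have h2 := h _ (sq_nonneg _) h1
    have h3 : Real.exp (-(t * a / 2) * ‖G.lg c x‖ ^ 2) ≤ Real.exp (-(t * FG G k c x)) := by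
      apply Real.exp_le_exp.2
      have h4 : t * FG G k c x ≤ t * (a * (‖G.lg c x‖ ^ 2 / 2)) :=
        mul_le_mul_of_nonneg_left h2 ht
      linarith
    have := Real.exp_pos (-(t * a / 2) * s₀)
    linarith only [this, h3]
  · have h3 : Real.exp (-(t * a / 2) * ‖G.lg c x‖ ^ 2) ≤ Real.exp (-(t * a / 2) * s₀) := by
      apply Real.exp_le_exp.2
      have h4 : t * a / 2 * s₀ ≤ t * a / 2 * ‖G.lg c x‖ ^ 2 :=
        mul_le_mul_of_nonneg_left h1.le (by positivity)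
      linarith only [h4]
    have := Real.exp_pos (-(t * FG G k c x))
    linarith

/-- `ff k s ≤ a s / 2` for small `s`, `a > 1` -/
theorem ff_le (k : ℝ) {a : ℝ} (ha : 1 < a) :
    ∃ s₀ > 0, ∀ s, 0 ≤ s → s ≤ s₀ → ff k s ≤ a * (s / 2) := by
  have h1 : ContinuousAt (fun s : ℝ => chi k (s / 4) ^ 2) 0 := by
    refine ContinuousAt.pow ?_ 2
    exact ((End.chi_smooth k).continuous.comp (continuous_id.div_const 4)).continuousAt
  have h2 : (fun s : ℝ => chi k (s / 4) ^ 2) 0 < a := by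
    simp only [zero_div, End.chi_zero, one_pow]
    exact ha
  obtain ⟨s₁, hs₁, h3⟩ := Metric.eventually_nhds_iff.1 (h1.eventually_lt_const h2)
  refine ⟨s₁ / 2, half_pos hs₁, fun s hs hs' => ?_⟩
  have h4 := h3 (y := s) (by
    rw [Real.dist_eq, sub_zero, abs_of_nonneg hs]
    linarith)
  unfold ff
  have h5 : s / 2 * chi k (s / 4) ^ 2 ≤ s / 2 * a := mul_le_mul_of_nonneg_left h4.le (by linarith)
  linarith only [h5]

variable (G)

/-- **The density field.** -/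
theorem dens_field_of (hn : 2 ≤ n) {k : ℝ} (hk : 0 ≤ k) {o : _root_.Vale.Agent.P219.TP.E n} {ρ H : ℝ}
    (_hρ : 0 < ρ) (_hH : 0 ≤ H) {V : Measure (_root_.Vale.Agent.P219.TP.E n × _root_.Vale.Agent.P219.TP.E n)} [IsFiniteMeasure V] (hV : V (KS G o ρ)ᶜ = 0)
    (hst : ∀ c, ‖G.lg o c‖ ≤ ρ → ∀ ψ : _root_.Vale.Agent.P219.TP.E n → ℝ, ContDiff ℝ ∞ ψ → (∀ x, 0 ≤ ψ x) →
      0 ≤ ∫ z, dF G 0 H c ψ z ∂V)
    (hd : ∀ x, (∀ e > 0, 0 < V {z | ‖G.lg x z.1‖ < e}) → ∀ e > 0, ∀ T : ℝ,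
      ∃ c, ‖G.lg o c‖ ≤ ρ ∧ ‖G.lg x c‖ < e ∧ ∃ t ≥ T, 0 < t ∧
        1 - e ≤ (t / Real.pi) ^ (((n : ℝ) - 1) / 2) *
          ∫ z, Real.exp (-t * ‖G.lg c z.1‖ ^ 2) ∂V) :
    ∀ p, (∀ e > 0, 0 < V {z | FG G k p z.1 < e}) → ∀ e > 0, ∃ ε₀ > 0, ∀ ε, 0 < ε → ε < ε₀ →
      sg ((n : ℝ) - 1) - e ≤ ∫ z, bub (k ^ 2) (FG G k p) ε z.1 ^ ((n : ℝ) - 1) ∂V := by
  intro p hp
  have hn' : (2 : ℝ) ≤ n := by exact_mod_cast hn
  have hm : (0 : ℝ) < (n : ℝ) - 1 := by linarith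
  obtain ⟨m, hmd⟩ : ∃ m : ℝ, m = (n : ℝ) - 1 := ⟨_, rfl⟩
  -- the support
  have hp' : ∀ e > 0, 0 < V {z | ‖G.lg p z.1‖ < e} := by
    intro e he
    refine (hp (e ^ 2 / 2) (by positivity)).trans_le (measure_mono fun z hz => ?_)
    have h1 : FG G k p z.1 < e ^ 2 / 2 := hz
    have h2 : ‖G.lg p z.1‖ ^ 2 / 2 ≤ FG G k p z.1 := by
      unfold FG ff
      have h3 : 1 ≤ chi k ((‖G.lg p z.1‖ / 2) ^ 2) := End.one_le_chi hk
      have e1 : (‖G.lg p z.1‖ / 2) ^ 2 = ‖G.lg p z.1‖ ^ 2 / 4 := by ring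
      rw [e1] at h3
      have h4 : 1 ≤ chi k (‖G.lg p z.1‖ ^ 2 / 4) ^ 2 := one_le_pow₀ h3
      have h5 : 0 ≤ ‖G.lg p z.1‖ ^ 2 / 2 := by positivity
      linarith only [mul_nonneg (sub_nonneg.2 h4) (sub_nonneg.2 h5)]
    exact lt_of_pow_lt_pow_left₀ 2 he.le (by linarith)
  have hlow : ∀ t : ℝ, 0 < t → Real.exp (-(H ^ 2 / (16 * t))) ≤ gI G V p t :=
    fun t ht => gauss_lower hV hst (hd p hp') ht
  have hfin : ∀ e > 0, ∃ t₀ > 0, ∀ t ≥ t₀,
      1 - e ≤ (t / (2 * Real.pi)) ^ (m / 2) * ∫ z, Real.exp (-(t * FG G k p z.1)) ∂V := by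
    intro e he
    -- choice of `a`
    obtain ⟨a, ha1, ha⟩ : ∃ a : ℝ, 1 < a ∧ 1 - e < a ^ (-(m / 2)) := by
      have h1 : ContinuousAt (fun a : ℝ => a ^ (-(m / 2))) 1 :=
        Real.continuousAt_rpow_const _ _ (Or.inl one_ne_zero)
      have h2 : 1 - e < (fun a : ℝ => a ^ (-(m / 2))) 1 := by
        simp only [Real.one_rpow]
        linarith
      obtain ⟨δ, hδ, h3⟩ := Metric.eventually_nhds_iff.1 (h1.eventually_const_lt h2)
      refine ⟨1 + δ / 2, by linarith, h3 ?_⟩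
      rw [Real.dist_eq]
      have : (1 : ℝ) + δ / 2 - 1 = δ / 2 := by ring
      rw [this, abs_of_pos (by linarith)]
      linarith
    have ha0 : 0 < a := by linarith
    obtain ⟨s₀, hs₀, hff⟩ := ff_le k ha1
    -- limit
    have t1 : Tendsto (fun t : ℝ => a ^ (-(m / 2)) * Real.exp (-(H ^ 2 / (16 * (t * a / 2)))) -
        (t / (2 * Real.pi)) ^ (m / 2) * Real.exp (-(t * a / 2) * s₀) * V.real univ) atTop
        (𝓝 (a ^ (-(m / 2)) * 1 - 0)) := by
      refine Tendsto.sub (Tendsto.const_mul _ ?_) ?_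
      · have h1 : Tendsto (fun t : ℝ => -(H ^ 2 / (16 * (t * a / 2)))) atTop (𝓝 (-0)) := by
          refine Tendsto.neg ?_
          refine Tendsto.div_atTop tendsto_const_nhds ?_
          refine Tendsto.const_mul_atTop (by norm_num) ?_
          exact (tendsto_id.atTop_mul_const ha0).atTop_div_const (by norm_num)
        have h2 := (Real.continuous_exp.tendsto (-0 : ℝ)).comp h1
        rw [neg_zero, Real.exp_zero] at h2
        exact h2
      · have h1 : Tendsto (fun t : ℝ => t ^ (m / 2) * Real.exp (-(a * s₀ / 2) * t)) atTop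
            (𝓝 0) := tendsto_rpow_mul_exp_neg_mul_atTop_nhds_zero (m / 2) (a * s₀ / 2)
              (by positivity)
        have h2 := h1.const_mul ((2 * Real.pi) ^ (m / 2))⁻¹
        have h3 := h2.mul_const (V.real univ)
        rw [mul_zero, zero_mul] at h3
        refine h3.congr' ?_
        filter_upwards [eventually_ge_atTop (0 : ℝ)] with t ht
        rw [Real.div_rpow ht (by positivity)]
        have e1 : -(a * s₀ / 2) * t = -(t * a / 2) * s₀ := by ring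
        rw [e1]
        ring
    rw [mul_one, sub_zero] at t1
    obtain ⟨t₀, ht₀⟩ := eventually_atTop.1 (t1.eventually_const_lt ha)
    refine ⟨max t₀ 1, lt_of_lt_of_le one_pos (le_max_right _ _), fun t ht => ?_⟩
    have htp : 0 < t := lt_of_lt_of_le one_pos ((le_max_right _ _).trans ht)
    have h1 := ht₀ t ((le_max_left _ _).trans ht)
    refine h1.le.trans ?_
    have hta : 0 < t * a / 2 := by positivity
    have h2 := hlow _ hta
    have hFm : Continuous fun z : _root_.Vale.Agent.P219.TP.E n × _root_.Vale.Agent.P219.TP.E n => Real.exp (-(t * FG G k p z.1)) :=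
      Real.continuous_exp.comp
        ((((End.FG_smooth_right G k p).continuous.comp continuous_fst).const_mul t).neg)
    have h3 : gL G V p (t * a / 2) - Real.exp (-(t * a / 2) * s₀) * V.real univ ≤
        ∫ z, Real.exp (-(t * FG G k p z.1)) ∂V := by
      have i1 := gexp_integrable G V p hta.le
      have i2 : Integrable (fun _ : _root_.Vale.Agent.P219.TP.E n × _root_.Vale.Agent.P219.TP.E n => Real.exp (-(t * a / 2) * s₀)) V :=
        integrable_const _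
      have h4 := integral_mono (i1.sub i2) (integrable_of_supp G hV hFm) fun z =>
        exp_FG_lower (G := G) ha0.le hff htp.le p z.1
      simp only [Pi.sub_apply] at h4
      rw [integral_sub i1 i2, integral_const, smul_eq_mul] at h4
      unfold gL
      linarith only [h4]
    have h5 : 0 ≤ (t / (2 * Real.pi)) ^ (m / 2) := by positivity
    have h6 := mul_le_mul_of_nonneg_left h3 h5
    refine le_trans ?_ h6
    have e1 : (t / (2 * Real.pi)) ^ (m / 2) * gL G V p (t * a / 2) =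
        a ^ (-(m / 2)) * gI G V p (t * a / 2) := by
      unfold gI
      rw [← hmd]
      have e2 : t * a / 2 / Real.pi = a * (t / (2 * Real.pi)) := by
        field_simp
      rw [e2, Real.mul_rpow ha0.le (by positivity), Real.rpow_neg ha0.le]
      have : a ^ (m / 2) ≠ 0 := (Real.rpow_pos_of_pos ha0 _).ne'
      field_simp
    rw [mul_sub, e1]
    have h7 := mul_le_mul_of_nonneg_left h2 (Real.rpow_nonneg ha0.le (-(m / 2)))
    linarith only [h7]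
  have hm' : 0 < m := by rw [hmd]; exact hm
  have hres := End.dens_field V (F := FG G k)
    (fun q => (End.FG_smooth_right G k q).continuous.measurable)
    (fun q x => End.FG_nonneg G k q x) (k ^ 2) hm' p hfin
  rw [hmd] at hres
  exact hres


end Vale.Agent.P219.SA
end

section

/-!
# P219 / End : the (non sharp) Sobolev inequality on the limit object

From the upper density bound and the potential estimate.
-/

open MeasureTheory Set Metric Filter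
open scoped ENNReal ContDiff Topology

namespace Vale.Agent.P219.End

variable {n : ℕ}

namespace Lim

variable (L : Lim n)

/-- growth of the balls `{√F < ρ}`, from the upper density bound -/
theorem growth_of_upper {C : ℝ} (hUD : ∀ c ∈ L.K, ∀ a > 0,
    L.V.real {z | L.F c z.1 ≤ a} ≤ C * a ^ (L.m / 2)) {c : E n} (hc : c ∈ L.K) (ρ : ℝ)
    (hρ : ρ > 0) :
    L.V {p | √(L.F p.1 c) < ρ} ≤ ENNReal.ofReal (max C 0 * ρ ^ L.m) := by
  have h1 : {p : E n × E n | √(L.F p.1 c) < ρ} ⊆ {z | L.F c z.1 ≤ ρ ^ 2} := by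
    intro p hp
    have hp' : √(L.F p.1 c) < ρ := hp
    have h2 : L.F p.1 c ≤ ρ ^ 2 := by
      rw [← Real.sqrt_le_left hρ.le]
      exact hp'.le
    show L.F c p.1 ≤ ρ ^ 2
    rw [L.F_comm]
    exact h2
  refine (measure_mono h1).trans ?_
  rw [← ofReal_measureReal]
  refine ENNReal.ofReal_le_ofReal ((hUD c hc (ρ ^ 2) (by positivity)).trans ?_)
  have e : (ρ ^ 2) ^ (L.m / 2) = ρ ^ L.m := by
    rw [← Real.rpow_natCast ρ 2, ← Real.rpow_mul hρ.le]
    congr 1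
    push_cast
    ring
  rw [e]
  exact mul_le_mul_of_nonneg_right (le_max_left _ _) (Real.rpow_nonneg hρ.le _)

/-- gradient of a function of `u` -/
theorem G_comp {ψ : ℝ → ℝ} (hψ : Differentiable ℝ ψ) {u : E n → ℝ} (hu : Differentiable ℝ u)
    (η : ℝ) (z : E n × E n) :
    L.G (fun x => ψ (u x + η)) (fun x => ψ (u x + η)) z =
      deriv ψ (u z.1 + η) ^ 2 * L.G u u z := by
  have h1 : HasDerivAt (fun t => ψ (t + η)) (deriv ψ (u z.1 + η)) (u z.1) :=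
    HasDerivAt.comp_add_const (u z.1) η (hψ (u z.1 + η)).hasDerivAt
  have h3 := D_comp (A := L.A) (u := u) (x := z.1) h1 (hu z.1)
  show gv _ _ _ = _ * gv _ _ _
  rw [h3, gv_smul_left, gv_smul_right]
  ring

/-- The weak type inequality from the potential estimate. -/
theorem weak_of_pot {C C₁ C₂ : ℝ} (hUD : ∀ c ∈ L.K, ∀ a > 0,
    L.V.real {z | L.F c z.1 ≤ a} ≤ C * a ^ (L.m / 2)) (hC₁ : 0 ≤ C₁) (hC₂ : 0 ≤ C₂)
    (hpot : ∀ᵐ p ∂L.V, ∀ Φ : E n → ℝ, ContDiff ℝ ∞ Φ → (∀ x, 0 ≤ Φ x) →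
      ENNReal.ofReal (Φ p.1) ≤
        ∫⁻ z, ENNReal.ofReal (C₁ * √(L.F p.1 z.1) ^ (1 - L.m)) *
          ENNReal.ofReal (√(L.G Φ Φ z) + Φ z.1) ∂L.V +
        ENNReal.ofReal (C₂ * ∫ z, Φ z.1 ∂L.V)) :
    ∃ C₄ : ℝ, 0 ≤ C₄ ∧ ∀ Φ : E n → ℝ, ContDiff ℝ ∞ Φ → (∀ x, 0 ≤ Φ x) → ∀ t : ℝ, 0 < t →
      t * (L.V.real {z | t ≤ Φ z.1}) ^ ((L.m - 1) / L.m) ≤
        C₄ * ∫ z, (√(L.G Φ Φ z) + Φ z.1) ∂L.V := by
  classical
  have hm : 1 < L.m := by linarith [L.three_le]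
  set C₃ : ℝ := C₁ * (2 ^ L.m * max C 0 + 1) with hC₃
  have hC₃0 : 0 ≤ C₃ := by positivity
  set K : E n × E n → E n × E n → ℝ≥0∞ := fun p z =>
    if z.1 ∈ L.K then ENNReal.ofReal (C₁ * √(L.F p.1 z.1) ^ (1 - L.m)) else 0 with hK
  have hKset : MeasurableSet {q : (E n × E n) × (E n × E n) | q.2.1 ∈ L.K} :=
    L.K_compact.measurableSet.preimage (measurable_fst.comp measurable_snd)
  have hFm : Measurable fun q : (E n × E n) × (E n × E n) => L.F q.1.1 q.2.1 :=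
    (L.F_smooth.continuous.comp (by fun_prop : Continuous fun q : (E n × E n) × (E n × E n) =>
      (q.1.1, q.2.1))).measurable
  have hKm : Measurable (Function.uncurry K) := by
    have h1 : Function.uncurry K = fun q : (E n × E n) × (E n × E n) => if q.2.1 ∈ L.K then
        ENNReal.ofReal (C₁ * √(L.F q.1.1 q.2.1) ^ (1 - L.m)) else 0 := by
      funext q
      rfl
    rw [h1]
    refine Measurable.ite hKset ?_ measurable_const
    exact ((hFm.sqrt.pow_const _).const_mul _).ennreal_ofReal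
  have hKint : ∀ z, ∀ E', MeasurableSet E' →
      ∫⁻ p in E', K p z ∂L.V ≤ ENNReal.ofReal C₃ * L.V E' ^ (1 / L.m) := by
    intro z E' _
    by_cases hz : z.1 ∈ L.K
    · have h1 : ∀ p, K p z = ENNReal.ofReal C₁ *
          ENNReal.ofReal (√(L.F p.1 z.1) ^ (1 - L.m)) := by
        intro p
        rw [hK]
        simp only [hz, if_true]
        rw [ENNReal.ofReal_mul hC₁]
      simp only [h1]
      have hr : Measurable fun p : E n × E n => √(L.F p.1 z.1) :=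
        ((L.F_smooth.continuous.comp (by fun_prop : Continuous fun p : E n × E n =>
          (p.1, z.1))).measurable).sqrt
      rw [lintegral_const_mul _ (hr.pow_const _).ennreal_ofReal]
      have h2 := WS.lintegral_rpow_le_of_growth (V := L.V) (m := L.m) (Λ := max C 0) hm
        (le_max_right _ _) hr (fun _ => Real.sqrt_nonneg _)
        (fun ρ hρ => L.growth_of_upper hUD hz ρ hρ) (E := E') (measure_ne_top _ _)
      refine (mul_le_mul_right h2 _).trans (le_of_eq ?_)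
      rw [← mul_assoc, ← ENNReal.ofReal_mul hC₁]
    · have h1 : ∀ p, K p z = 0 := by
        intro p
        rw [hK]
        simp only [hz, if_false]
      simp only [h1, lintegral_zero]
      exact bot_le
  refine ⟨2 * (C₃ + C₂ * L.V.real univ ^ ((L.m - 1) / L.m)), by positivity,
    fun Φ hΦ hΦ0 t ht => ?_⟩
  have hΦc : Continuous fun z : E n × E n => Φ z.1 := hΦ.continuous.comp continuous_fst
  have hG : Continuous fun z : E n × E n => √(L.G Φ Φ z) + Φ z.1 :=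
    ((L.G_cont (hΦ.of_le (by exact_mod_cast le_top)) (hΦ.of_le (by exact_mod_cast le_top))).sqrt).add
      hΦc
  have hg0 : ∀ z : E n × E n, 0 ≤ √(L.G Φ Φ z) + Φ z.1 := fun z =>
    add_nonneg (Real.sqrt_nonneg _) (hΦ0 _)
  have h1 := WS.weak_of_potential (V := L.V) (m := L.m) (C₂ := C₂) (C₃ := C₃) hm hC₂ hC₃0
    (Φ := fun z => Φ z.1) (g := fun z => √(L.G Φ Φ z) + Φ z.1) hΦc.measurable (fun z => hΦ0 _)
    (L.integrable_of_cont hΦc) hG.measurable hg0 (L.integrable_of_cont hG) hKm hKint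
    (by
      filter_upwards [hpot] with p hp
      refine (hp Φ hΦ hΦ0).trans (add_le_add_left (le_of_eq ?_) _)
      refine lintegral_congr_ae ?_
      filter_upwards [L.V_supp] with z hz
      rw [hK]
      simp only [hz.1, if_true]) ht
  refine h1.trans ?_
  have h2 : ∫ z, ((√(L.G Φ Φ z) + Φ z.1) + Φ z.1) ∂L.V ≤
      2 * ∫ z, (√(L.G Φ Φ z) + Φ z.1) ∂L.V := by
    rw [← integral_const_mul]
    refine integral_mono (L.integrable_of_cont (hG.add hΦc))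
      ((L.integrable_of_cont hG).const_mul 2) fun z => ?_
    have := Real.sqrt_nonneg (L.G Φ Φ z)
    simp only
    linarith
  calc (C₃ + C₂ * L.V.real univ ^ ((L.m - 1) / L.m)) *
        ∫ z, ((√(L.G Φ Φ z) + Φ z.1) + Φ z.1) ∂L.V
      ≤ (C₃ + C₂ * L.V.real univ ^ ((L.m - 1) / L.m)) *
        (2 * ∫ z, (√(L.G Φ Φ z) + Φ z.1) ∂L.V) :=
        mul_le_mul_of_nonneg_left h2 (by (clear * - hC₁ hC₂; positivity))
    _ = 2 * (C₃ + C₂ * L.V.real univ ^ ((L.m - 1) / L.m)) *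
        ∫ z, (√(L.G Φ Φ z) + Φ z.1) ∂L.V := by ring

/-- The Sobolev inequality from the potential estimate in kernel form. -/
theorem sobolev_of_pot {C C₁ C₂ : ℝ} (hUD : ∀ c ∈ L.K, ∀ a > 0,
    L.V.real {z | L.F c z.1 ≤ a} ≤ C * a ^ (L.m / 2)) (hC₁ : 0 ≤ C₁) (hC₂ : 0 ≤ C₂)
    (hpot : ∀ᵐ p ∂L.V, ∀ Φ : E n → ℝ, ContDiff ℝ ∞ Φ → (∀ x, 0 ≤ Φ x) →
      ENNReal.ofReal (Φ p.1) ≤
        ∫⁻ z, ENNReal.ofReal (C₁ * √(L.F p.1 z.1) ^ (1 - L.m)) *
          ENNReal.ofReal (√(L.G Φ Φ z) + Φ z.1) ∂L.V +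
        ENNReal.ofReal (C₂ * ∫ z, Φ z.1 ∂L.V)) :
    ∃ C > 0, ∀ u : E n → ℝ, ContDiff ℝ ∞ u → (∀ x, 0 ≤ u x) →
      (∫ z, u z.1 ^ L.ps ∂L.V) ^ (2 / L.ps) ≤
        C * (∫ z, L.G u u z ∂L.V + ∫ z, u z.1 ^ 2 ∂L.V) := by
  classical
  have hm3 := L.three_le
  have hm0 := L.m_pos
  have hm2 := L.m_sub_pos
  obtain ⟨C₄, hC₄, hweak⟩ := L.weak_of_pot hUD hC₁ hC₂ hpot
  obtain ⟨D, hD0, hD⟩ := WS.exists_deriv_bound
  set A₁ : ℝ := 32 * C₄ ^ 2 * (D * (2 * (L.m - 1) / (L.m - 2))) ^ 2 with hA₁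
  set A₂ : ℝ := 32 * C₄ ^ 2 * 4 with hA₂
  have hA₁0 : 0 ≤ A₁ := by positivity
  have hA₂0 : 0 ≤ A₂ := by positivity
  refine ⟨A₁ + A₂ + 1, by (clear * -; positivity), fun u hu hu0 => ?_⟩
  have hu1 : ContDiff ℝ 1 u := hu.of_le (by exact_mod_cast le_top)
  have huc : Continuous fun z : E n × E n => u z.1 := hu.continuous.comp continuous_fst
  have hGc : Continuous fun z : E n × E n => L.G u u z := L.G_cont hu1 hu1
  obtain ⟨B₀, hB₀⟩ := L.K_compact.exists_bound_of_continuousOn hu.continuous.continuousOn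
  have hexp : 2 / L.ps = (L.m - 2) / L.m := by
    unfold ps
    field_simp
  have hps0 : 0 < L.ps := by
    unfold ps
    positivity
  have hG0 : ∀ᵐ z ∂L.V, 0 ≤ L.G u u z := by
    filter_upwards [L.V_supp] with z hz
    exact L.G_self_nonneg u hz.2
  -- the inequality for `u + η`
  have key : ∀ η : ℝ, 0 < η → (∫ z, u z.1 ^ L.ps ∂L.V) ^ (2 / L.ps) ≤
      A₁ * (∫ z, L.G u u z ∂L.V) + A₂ * ∫ z, (u z.1 + η) ^ 2 ∂L.V := by
    intro η hη
    set U : E n × E n → ℝ := fun z => if z.1 ∈ L.K then u z.1 + η else 1 with hU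
    have hUae : ∀ᵐ z ∂L.V, U z = u z.1 + η := by
      filter_upwards [L.V_supp] with z hz
      rw [hU]
      simp only [hz.1, if_true]
    have hUm : Measurable U := by
      rw [hU]
      refine Measurable.ite ?_ ((huc.add continuous_const).measurable) measurable_const
      exact L.K_compact.measurableSet.preimage measurable_fst
    have hUpos : ∀ z, 0 < U z := by
      intro z
      rw [hU]
      simp only
      split_ifs
      · linarith [hu0 z.1]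
      · exact one_pos
    have hUB : ∀ z, U z ≤ max (B₀ + η) 1 := by
      intro z
      rw [hU]
      simp only
      split_ifs with hz
      · refine le_trans ?_ (le_max_left _ _)
        have := (le_abs_self _).trans (hB₀ z.1 hz)
        linarith
      · exact le_max_right _ _
    have hg2 : MemLp (fun z : E n × E n => √(L.G u u z)) 2 L.V := by
      rw [memLp_two_iff_integrable_sq hGc.sqrt.aestronglyMeasurable]
      exact L.integrable_of_cont (hGc.sqrt.pow 2)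
    have hWT : WS.WT L.V ((L.m - 1) / L.m) C₄ U (fun z => √(L.G u u z)) := by
      intro ψ hψ t ht
      have hΦs : ContDiff ℝ ∞ fun x => ψ (u x + η) := hψ.smooth.comp (hu.add contDiff_const)
      have h1 := hweak (fun x => ψ (u x + η)) hΦs (fun x => hψ.nonneg _) t ht
      have e1 : L.V.real {z | t ≤ ψ (U z)} = L.V.real {z | t ≤ ψ (u z.1 + η)} := by
        refine measureReal_congr ?_
        filter_upwards [hUae] with z hz
        refine propext ?_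
        show t ≤ ψ (U z) ↔ t ≤ ψ (u z.1 + η)
        rw [hz]
      have hψd : Differentiable ℝ ψ := hψ.smooth.differentiable (by simp)
      have e2 : ∫ z, (|deriv ψ (U z)| * √(L.G u u z) + ψ (U z)) ∂L.V =
          ∫ z, (√(L.G (fun x => ψ (u x + η)) (fun x => ψ (u x + η)) z) + ψ (u z.1 + η)) ∂L.V := by
        refine integral_congr_ae ?_
        filter_upwards [hUae] with z hz
        rw [hz, L.G_comp hψd (hu1.differentiable (by norm_num)) η z,
          Real.sqrt_mul (sq_nonneg _), Real.sqrt_sq_eq_abs]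
      rw [e1, e2]
      exact h1
    have h2 := WS.sobolev_two (V := L.V) (m := L.m) (by linarith only [hm2]) hC₄ hUm hUpos hUB
      (fun z => Real.sqrt_nonneg _) hg2 hWT hD
    have e3 : ∫ z, √(L.G u u z) ^ 2 ∂L.V = ∫ z, L.G u u z ∂L.V := by
      refine integral_congr_ae ?_
      filter_upwards [hG0] with z hz
      exact Real.sq_sqrt hz
    have e4 : ∫ z, U z ^ 2 ∂L.V = ∫ z, (u z.1 + η) ^ 2 ∂L.V := by
      refine integral_congr_ae ?_
      filter_upwards [hUae] with z hz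
      rw [hz]
    have e5 : ∫ z, U z ^ (2 * L.m / (L.m - 2)) ∂L.V = ∫ z, (u z.1 + η) ^ L.ps ∂L.V := by
      refine integral_congr_ae ?_
      filter_upwards [hUae] with z hz
      rw [hz]
      rfl
    rw [e3, e4, e5, ← hexp] at h2
    have h3 : ∫ z, u z.1 ^ L.ps ∂L.V ≤ ∫ z, (u z.1 + η) ^ L.ps ∂L.V := by
      refine integral_mono
        (L.integrable_of_cont (huc.rpow_const fun z => Or.inr hps0.le))
        (L.integrable_of_cont ((huc.add continuous_const).rpow_const fun z => Or.inr hps0.le))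
        fun z => ?_
      exact Real.rpow_le_rpow (hu0 _) (by linarith only [hη]) hps0.le
    have h4 : 0 ≤ ∫ z, u z.1 ^ L.ps ∂L.V :=
      integral_nonneg fun z => Real.rpow_nonneg (hu0 _) _
    calc (∫ z, u z.1 ^ L.ps ∂L.V) ^ (2 / L.ps)
        ≤ (∫ z, (u z.1 + η) ^ L.ps ∂L.V) ^ (2 / L.ps) :=
          Real.rpow_le_rpow h4 h3 (by positivity)
      _ ≤ _ := h2
      _ = A₁ * (∫ z, L.G u u z ∂L.V) + A₂ * ∫ z, (u z.1 + η) ^ 2 ∂L.V := by
          rw [hA₁, hA₂]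
          ring
  -- let `η` tend to zero
  have hlim : Tendsto (fun η : ℝ => A₁ * (∫ z, L.G u u z ∂L.V) +
      A₂ * (∫ z, u z.1 ^ 2 ∂L.V + 2 * η * ∫ z, u z.1 ∂L.V + η ^ 2 * L.V.real univ)) (𝓝[>] 0)
      (𝓝 (A₁ * (∫ z, L.G u u z ∂L.V) + A₂ * ∫ z, u z.1 ^ 2 ∂L.V)) := by
    have h1 : Continuous fun η : ℝ => A₁ * (∫ z, L.G u u z ∂L.V) +
      A₂ * (∫ z, u z.1 ^ 2 ∂L.V + 2 * η * ∫ z, u z.1 ∂L.V + η ^ 2 * L.V.real univ) := by
      fun_prop
    have h2 := (h1.tendsto 0).mono_left (nhdsWithin_le_nhds (s := Ioi 0))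
    simpa using h2
  have hfin : (∫ z, u z.1 ^ L.ps ∂L.V) ^ (2 / L.ps) ≤
      A₁ * (∫ z, L.G u u z ∂L.V) + A₂ * ∫ z, u z.1 ^ 2 ∂L.V := by
    refine ge_of_tendsto hlim ?_
    filter_upwards [self_mem_nhdsWithin] with η hη
    refine (key η hη).trans (le_of_eq ?_)
    congr 2
    have i1 : Integrable (fun z : E n × E n => u z.1 ^ 2) L.V := L.integrable_of_cont (huc.pow 2)
    have i2 : Integrable (fun z : E n × E n => 2 * η * u z.1) L.V :=
      (L.integrable_of_cont huc).const_mul (2 * η)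
    have i12 : Integrable (fun z : E n × E n => u z.1 ^ 2 + 2 * η * u z.1) L.V := i1.add i2
    calc ∫ z, (u z.1 + η) ^ 2 ∂L.V
        = ∫ z, (u z.1 ^ 2 + 2 * η * u z.1 + η ^ 2) ∂L.V := by
          refine integral_congr_ae (Eventually.of_forall fun z => ?_)
          simp only
          ring
      _ = _ := by
          rw [integral_add i12 (integrable_const _), integral_add i1 i2,
            integral_const_mul, integral_const, smul_eq_mul]
          ring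
  have h5 : 0 ≤ ∫ z, L.G u u z ∂L.V := integral_nonneg_of_ae hG0
  have h6 : 0 ≤ ∫ z, u z.1 ^ 2 ∂L.V := integral_nonneg fun z => sq_nonneg _
  have h7 : 0 ≤ A₂ * ∫ z, L.G u u z ∂L.V := by (clear * - h5; positivity)
  have h8 : 0 ≤ A₁ * ∫ z, u z.1 ^ 2 ∂L.V := by (clear * -; positivity)
  linarith

/-- `ofReal (∫ f) ≤ ∫⁻ ofReal f` -/
theorem ofReal_integral_le {f : E n × E n → ℝ} (hf : Integrable f L.V) :
    ENNReal.ofReal (∫ z, f z ∂L.V) ≤ ∫⁻ z, ENNReal.ofReal (f z) ∂L.V := by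
  calc ENNReal.ofReal (∫ z, f z ∂L.V) ≤ ENNReal.ofReal (∫ z, max (f z) 0 ∂L.V) := by
        refine ENNReal.ofReal_le_ofReal (integral_mono hf hf.pos_part fun z => le_max_left _ _)
    _ = ∫⁻ z, ENNReal.ofReal (max (f z) 0) ∂L.V :=
        ofReal_integral_eq_lintegral_ofReal hf.pos_part
          (Eventually.of_forall fun z => le_max_right _ _)
    _ = ∫⁻ z, ENNReal.ofReal (f z) ∂L.V := by
        refine lintegral_congr fun z => ?_
        rcases le_total (f z) 0 with h | h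
        · rw [max_eq_right h, ENNReal.ofReal_of_nonpos h, ENNReal.ofReal_zero]
        · rw [max_eq_left h]

theorem wsob_kS_nonneg {S : ℝ} (hS : 0 < S) (c x : E n) : 0 ≤ L.kS S (L.ds c x) := by
  have hd0 : 0 ≤ L.ds c x := Real.sqrt_nonneg _
  unfold kS
  positivity

theorem wsob_kS_le {S : ℝ} (hS : 0 < S) (c x : E n) :
    L.kS S (L.ds c x) ≤ √(L.F c x) ^ (1 - L.m) := by
  have hm0 := L.m_pos
  have hm3 := L.three_le
  have hd0 : 0 ≤ L.ds c x := Real.sqrt_nonneg _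
  unfold kS
  have h4 : (S / (S + L.ds c x)) ^ L.m ≤ 1 := by
    refine Real.rpow_le_one (by positivity) ?_ hm0.le
    rw [div_le_one (by positivity)]
    linarith
  have h5 : L.ds c x ^ (1 - L.m) ≤ √(L.F c x) ^ (1 - L.m) := by
    unfold ds
    rw [Real.sqrt_mul two_pos.le, Real.mul_rpow (Real.sqrt_nonneg _) (Real.sqrt_nonneg _)]
    have h6 : √(2 : ℝ) ^ (1 - L.m) ≤ 1 := by
      refine Real.rpow_le_one_of_one_le_of_nonpos ?_ (by linarith)
      rw [Real.one_le_sqrt]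
      norm_num
    exact mul_le_of_le_one_left (Real.rpow_nonneg (Real.sqrt_nonneg _) _) h6
  calc (S / (S + L.ds c x)) ^ L.m * L.ds c x ^ (1 - L.m)
      ≤ 1 * L.ds c x ^ (1 - L.m) :=
        mul_le_mul_of_nonneg_right h4 (Real.rpow_nonneg hd0 _)
    _ ≤ _ := by rw [one_mul]; exact h5

/-- integrability of the kernel -/
theorem wsob_kS_integrable {c : E n} (hc : c ∈ L.K) {S : ℝ} (hS : 0 < S) :
    Integrable (fun z => L.kS S (L.ds c z.1)) L.V := by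
  have hm : 1 < L.m := by linarith [L.three_le]
  have hr : Measurable fun p : E n × E n => √(L.F p.1 c) :=
    ((L.F_smooth.continuous.comp (by fun_prop : Continuous fun p : E n × E n =>
      (p.1, c))).measurable).sqrt
  have h2 := WS.lintegral_rpow_le_of_growth (V := L.V) (m := L.m) (Λ := max L.Cu 0) hm
    (le_max_right _ _) hr (fun _ => Real.sqrt_nonneg _)
    (fun ρ hρ => L.growth_of_upper (fun c hc a ha => L.upper hc ha) hc ρ hρ) (E := univ)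
    (measure_ne_top _ _)
  rw [Measure.restrict_univ] at h2
  have h3 : Integrable (fun p : E n × E n => √(L.F p.1 c) ^ (1 - L.m)) L.V := by
    rw [← lintegral_ofReal_ne_top_iff_integrable (hr.pow_const _).aestronglyMeasurable
      (Eventually.of_forall fun p => Real.rpow_nonneg (Real.sqrt_nonneg _) _)]
    refine ne_top_of_le_ne_top ?_ h2
    refine ENNReal.mul_ne_top ENNReal.ofReal_ne_top ?_
    exact ENNReal.rpow_ne_top_of_nonneg (by positivity) (measure_ne_top _ _)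
  refine h3.mono' ?_ (Eventually.of_forall fun z => ?_)
  · have hd : Measurable fun z : E n × E n => L.ds c z.1 :=
      (((L.Fc_cont c).comp continuous_fst).measurable.const_mul 2).sqrt
    unfold kS
    exact (((measurable_const.div (measurable_const.add hd)).pow_const _).mul
      (hd.pow_const _)).aestronglyMeasurable
  · rw [Real.norm_of_nonneg (L.wsob_kS_nonneg hS c z.1), L.F_comm z.1 c]
    exact L.wsob_kS_le hS c z.1

/-- The potential estimate in kernel form, from the potential estimate with the truncated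
kernel. -/
theorem kernel_of_pot
    (hpot : ∃ C > 0, ∀ᵐ z₀ ∂L.V, ∀ Φ : E n → ℝ, ContDiff ℝ ∞ Φ → (∀ x, 0 ≤ Φ x) →
    ∀ S, L.Ad S → sg L.m * Φ z₀.1 ≤ L.Js Φ z₀.1 S +
      C * ∫ z, (Φ z.1 * L.ds z₀.1 z.1 + √(L.G Φ Φ z)) * L.kS S (L.ds z₀.1 z.1) ∂L.V) :
    ∃ C₁ C₂ : ℝ, 0 ≤ C₁ ∧ 0 ≤ C₂ ∧ ∀ᵐ p ∂L.V, ∀ Φ : E n → ℝ, ContDiff ℝ ∞ Φ → (∀ x, 0 ≤ Φ x) →
      ENNReal.ofReal (Φ p.1) ≤
        ∫⁻ z, ENNReal.ofReal (C₁ * √(L.F p.1 z.1) ^ (1 - L.m)) *
          ENNReal.ofReal (√(L.G Φ Φ z) + Φ z.1) ∂L.V +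
        ENNReal.ofReal (C₂ * ∫ z, Φ z.1 ∂L.V) := by
  obtain ⟨C, hC, h⟩ := hpot
  have hm0 := L.m_pos
  have hm3 := L.three_le
  have hk := L.k2_nonneg
  have hsg : 0 < sg L.m := potL_sg_pos hm0
  obtain ⟨M, hM0, hM⟩ : ∃ M : ℝ, 0 ≤ M ∧ ∀ c ∈ L.K, ∀ x ∈ L.K, L.F c x ≤ M := by
    have h1 : Continuous fun z : E n × E n => L.F z.1 z.2 := L.F_smooth.continuous
    obtain ⟨B, hB⟩ :=
      (L.K_compact.prod L.K_compact).exists_bound_of_continuousOn h1.continuousOn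
    refine ⟨|B|, abs_nonneg B, fun c hc x hx => ?_⟩
    exact (le_abs_self _).trans ((hB (c, x) ⟨hc, hx⟩).trans (le_abs_self B))
  set S : ℝ := 1 / (1 + L.k2) with hS
  have hS0 : 0 < S := by positivity
  have hS1 : S ≤ 1 := by
    rw [hS, div_le_one (by positivity)]
    linarith
  have hSk : L.k2 * S ≤ 1 := by
    rw [hS, mul_one_div, div_le_one (by positivity)]
    linarith
  have hAd : L.Ad S := by
    refine ⟨hS0, hS1, ?_⟩
    calc L.k2 * S ^ 2 = (L.k2 * S) * S := by ring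
      _ ≤ 1 * 1 := mul_le_mul hSk hS1 hS0.le zero_le_one
      _ = 1 := one_mul 1
  have hek : L.k2 * (S ^ 2 / 2) < 2 := by
    have := hAd.2.2
    linarith only [this]
  refine ⟨C * (√(2 * M) + 1) / sg L.m, √(2 / (S ^ 2 / 2)) ^ L.m / sg L.m, by positivity,
    by positivity, ?_⟩
  filter_upwards [h, L.V_supp] with p hp hpK Φ hΦ hΦ0
  have h1 := hp Φ hΦ hΦ0 S hAd
  have hΦ1 : ContDiff ℝ 1 Φ := hΦ.of_le (by exact_mod_cast le_top)
  have hΦc : Continuous fun z : E n × E n => Φ z.1 := hΦ.continuous.comp continuous_fst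
  -- the first term
  have h2 : L.Js Φ p.1 S ≤ √(2 / (S ^ 2 / 2)) ^ L.m * ∫ z, Φ z.1 ∂L.V := by
    have hw : ∀ x, L.ws p.1 S x ^ L.m ≤ √(2 / (S ^ 2 / 2)) ^ L.m := fun x =>
      Real.rpow_le_rpow (L.potL_ws_nonneg p.1 x) (L.w_le p.1 x (by positivity)) hm0.le
    unfold Js
    rw [← integral_const_mul]
    refine integral_mono (L.integrable_of_cont ?_) ((L.integrable_of_cont hΦc).const_mul _)
      fun z => ?_
    · refine hΦc.mul (((L.potL_ws_cont hS0 p.1).comp continuous_fst).rpow_const fun z => Or.inr hm0.le)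
    · simp only
      rw [mul_comm]
      exact mul_le_mul_of_nonneg_right (hw z.1) (hΦ0 _)
  -- the second term
  have h3 : ENNReal.ofReal (C * ∫ z, (Φ z.1 * L.ds p.1 z.1 + √(L.G Φ Φ z)) *
      L.kS S (L.ds p.1 z.1) ∂L.V) ≤ ENNReal.ofReal (sg L.m) *
      ∫⁻ z, ENNReal.ofReal (C * (√(2 * M) + 1) / sg L.m * √(L.F p.1 z.1) ^ (1 - L.m)) *
          ENNReal.ofReal (√(L.G Φ Φ z) + Φ z.1) ∂L.V := by
    rw [← lintegral_const_mul' _ _ ENNReal.ofReal_ne_top, ← integral_const_mul]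
    by_cases hi : Integrable (fun z => C * ((Φ z.1 * L.ds p.1 z.1 + √(L.G Φ Φ z)) *
      L.kS S (L.ds p.1 z.1))) L.V
    swap
    · rw [integral_undef hi, ENNReal.ofReal_zero]
      exact bot_le
    refine (L.ofReal_integral_le hi).trans ?_
    refine lintegral_mono_ae ?_
    filter_upwards [L.V_supp] with z hz
    have e0 : ∀ a b : ℝ, 0 ≤ a → ENNReal.ofReal (sg L.m) * (ENNReal.ofReal a * ENNReal.ofReal b) =
        ENNReal.ofReal (sg L.m * a * b) := fun a b ha => by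
      rw [ENNReal.ofReal_mul (mul_nonneg hsg.le ha), ENNReal.ofReal_mul hsg.le, mul_assoc]
    rw [e0 _ _ (by (clear * - hC hsg; positivity))]
    refine ENNReal.ofReal_le_ofReal ?_
    have e1 : sg L.m * (C * (√(2 * M) + 1) / sg L.m * √(L.F p.1 z.1) ^ (1 - L.m)) =
        C * ((√(2 * M) + 1) * √(L.F p.1 z.1) ^ (1 - L.m)) := by
      field_simp
    rw [e1, mul_assoc]
    refine mul_le_mul_of_nonneg_left ?_ hC.le
    have hd0 : 0 ≤ L.ds p.1 z.1 := Real.sqrt_nonneg _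
    have hd1 : L.ds p.1 z.1 ≤ √(2 * M) :=
      Real.sqrt_le_sqrt (mul_le_mul_of_nonneg_left (hM _ hpK.1 _ hz.1) two_pos.le)
    have hk1 := L.wsob_kS_le hS0 p.1 z.1
    have hk0 := L.wsob_kS_nonneg hS0 p.1 z.1
    have h7 : Φ z.1 * L.ds p.1 z.1 + √(L.G Φ Φ z) ≤
        (√(2 * M) + 1) * (√(L.G Φ Φ z) + Φ z.1) := by
      have h8 := mul_le_mul_of_nonneg_left hd1 (hΦ0 z.1)
      have h9 : 0 ≤ √(2 * M) * √(L.G Φ Φ z) := by (clear * -; positivity)
      have h10 := hΦ0 z.1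
      linarith only [h10, h9, h8]
    calc (Φ z.1 * L.ds p.1 z.1 + √(L.G Φ Φ z)) * L.kS S (L.ds p.1 z.1)
        ≤ ((√(2 * M) + 1) * (√(L.G Φ Φ z) + Φ z.1)) * √(L.F p.1 z.1) ^ (1 - L.m) := by
          refine mul_le_mul h7 hk1 hk0 ?_
          have := hΦ0 z.1
          (clear * - this; positivity)
      _ = _ := by ring
  -- conclusion
  have h4 : 0 ≤ ∫ z, Φ z.1 ∂L.V := integral_nonneg fun z => hΦ0 _
  have hsg' : ENNReal.ofReal (sg L.m) ≠ 0 := by
    rw [Ne, ENNReal.ofReal_eq_zero, not_le]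
    exact hsg
  have h5 : ENNReal.ofReal (sg L.m) * ENNReal.ofReal (Φ p.1) ≤ ENNReal.ofReal (sg L.m) *
      (∫⁻ z, ENNReal.ofReal (C * (√(2 * M) + 1) / sg L.m * √(L.F p.1 z.1) ^ (1 - L.m)) *
          ENNReal.ofReal (√(L.G Φ Φ z) + Φ z.1) ∂L.V +
        ENNReal.ofReal (√(2 / (S ^ 2 / 2)) ^ L.m / sg L.m * ∫ z, Φ z.1 ∂L.V)) := by
    rw [← ENNReal.ofReal_mul hsg.le]
    refine (ENNReal.ofReal_le_ofReal h1).trans ?_
    refine ENNReal.ofReal_add_le.trans ?_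
    rw [mul_add, add_comm]
    refine add_le_add h3 ?_
    rw [← ENNReal.ofReal_mul hsg.le]
    refine ENNReal.ofReal_le_ofReal (h2.trans (le_of_eq ?_))
    field_simp
  exact (ENNReal.mul_le_mul_iff_right hsg' ENNReal.ofReal_ne_top).1 h5

/-- The Sobolev inequality from the potential estimate with the truncated kernel. -/
theorem sobolev_of_pot_kS
    (hpot : ∃ C > 0, ∀ᵐ z₀ ∂L.V, ∀ Φ : E n → ℝ, ContDiff ℝ ∞ Φ → (∀ x, 0 ≤ Φ x) →
    ∀ S, L.Ad S → sg L.m * Φ z₀.1 ≤ L.Js Φ z₀.1 S +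
      C * ∫ z, (Φ z.1 * L.ds z₀.1 z.1 + √(L.G Φ Φ z)) * L.kS S (L.ds z₀.1 z.1) ∂L.V) :
    ∃ C > 0, ∀ u : E n → ℝ, ContDiff ℝ ∞ u → (∀ x, 0 ≤ u x) →
      (∫ z, u z.1 ^ L.ps ∂L.V) ^ (2 / L.ps) ≤
        C * (∫ z, L.G u u z ∂L.V + ∫ z, u z.1 ^ 2 ∂L.V) := by
  obtain ⟨C₁, C₂, h1, h2, h3⟩ := L.kernel_of_pot hpot
  exact L.sobolev_of_pot (fun c hc a ha => L.upper hc ha) h1 h2 h3

/-- **The (non sharp) Sobolev inequality on the limit object.** -/
theorem sobolev : ∃ C > 0, ∀ u : E n → ℝ, ContDiff ℝ ∞ u → (∀ x, 0 ≤ u x) →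
    (∫ z, u z.1 ^ L.ps ∂L.V) ^ (2 / L.ps) ≤
      C * (∫ z, L.G u u z ∂L.V + ∫ z, u z.1 ^ 2 ∂L.V) :=
  L.sobolev_of_pot_kS (L.pot_of L.upper_density L.dens_bub L.wsob_kS_integrable)

/-- B4 of the skeleton -/
theorem wsob : ∃ C > 0, ∀ v : E n → ℝ, ContDiff ℝ ∞ v → (∀ x, 0 ≤ v x) →
    (∫ z, v z.1 ^ L.ps ∂L.V) ^ (2 / L.ps) ≤
      C * ((∫ z, L.G v v z ∂L.V) + ∫ z, v z.1 ^ 2 ∂L.V) :=
  L.sobolev

end Lim

end Vale.Agent.P219.End
end

section

namespace Vale.Agent.P219.Co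

end Vale.Agent.P219.Co
end
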