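import Mathlib
import Vale.Agent.P219.Bdl.B2
import Vale.Agent.P219.Bdl.B5
import Vale.Agent.P219.Bdl.B6
import Vale.Agent.P219.Bdl.B4

set_option linter.all false

section

/-! # The two-point inequality (task A4c) -/

open MeasureTheory Set Metric
open scoped ENNReal ContDiff

namespace Vale.Agent.P219.TP

variable {n : ℕ} (G : Geo n)

end Vale.Agent.P219.TP
end

section

/-! # The sharp Sobolev inequality (final assembly) -/

open MeasureTheory Set Metric
open scoped ENNReal ContDiff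

namespace Vale.Agent.P219.TP

variable {n : ℕ} (G : Geo n)

theorem norm_D_zero_of_notMem {h : E n → ℝ} {x : E n} (hx : x ∉ tsupport h) : G.D h x = 0 := by
  unfold Geo.D
  have : fderiv ℝ h x = 0 := by
    by_contra hne
    exact hx (support_fderiv_subset ℝ hne)
  rw [this]; simp

theorem sob_continuous_D {h : E n → ℝ} (hh : ContDiff ℝ 1 h) : Continuous fun x => G.D h x := by
  unfold Geo.D
  have h1 : Continuous fun x => (fderiv ℝ h x).comp (G.A x) :=
    (hh.continuous_fderiv (by simp)).clm_comp G.A_smooth.continuous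
  exact (InnerProductSpace.toDual ℝ (E n)).symm.continuous.comp h1

theorem hasCompactSupport_D {h : E n → ℝ} (hc : HasCompactSupport h) :
    HasCompactSupport fun x => ‖G.D h x‖ := by
  refine hc.mono' fun x hx => ?_
  by_contra hne
  exact hx (by simp [norm_D_zero_of_notMem G hne])

theorem integrable_D {h : E n → ℝ} (hh : ContDiff ℝ 1 h) (hc : HasCompactSupport h) :
    Integrable (fun x => ‖G.D h x‖) G.vol :=
  (sob_continuous_D G hh).norm.integrable_of_hasCompactSupport (hasCompactSupport_D G hc)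

theorem continuous_lg2 (p : E n) : Continuous fun q => G.lg p q :=
  G.lg_smooth.continuous.comp (by fun_prop : Continuous fun q : E n => (p, q))

theorem exists_lg_bound {K : Set (E n)} (hK : IsCompact K) (p : E n) :
    ∃ L, ∀ q ∈ K, ‖G.lg p q‖ ≤ L := by
  obtain ⟨C, hC⟩ := hK.exists_bound_of_continuousOn (continuous_lg2 G p).continuousOn
  exact ⟨C, hC⟩

end Vale.Agent.P219.TP
end

section

/-! # From `GeoH` to `Curv _ 1` (task H0) -/

open MeasureTheory Set Metric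
open scoped ENNReal ContDiff

namespace Vale.Agent.P219.TPH

open Vale.Agent.P219.TP

variable {n : ℕ}

lemma bridge_sn (r : ℝ) : sn 1 r = Real.sinh r := by
  unfold sn
  rw [if_neg one_ne_zero, one_mul, div_one]

lemma bridge_cs (r : ℝ) : cs 1 r = Real.cosh r := by
  unfold cs
  rw [one_mul]

lemma bridge_rtau (G : Geo n) (x : _root_.Vale.Agent.P219.TP.E n) {v : _root_.Vale.Agent.P219.TP.E n} (hv : v ≠ 0) :
    rtau G 1 x v = ‖v‖ * G.tau x v := by
  have hn : ‖v‖ ≠ 0 := norm_ne_zero_iff.2 hv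
  have h1 : (fun w => Real.log |(G.T x w).det|) = fun w => Real.log (G.T x w).det := by
    funext w
    exact Real.log_abs _
  unfold rtau Geo.tau cth
  rw [h1, map_smul, bridge_sn, bridge_cs, smul_eq_mul]
  field_simp
  ring

lemma bridge_lg (G : Geo n) (x v : _root_.Vale.Agent.P219.TP.E n) : G.lg (G.ex x v) x = -(G.V 1 x v) := by
  have h1 := G.ex_flow 1 (-1) x v
  rw [one_smul, neg_smul, one_smul, add_neg_cancel, zero_smul, G.ex_zero] at h1
  have h2 := G.lg_ex (G.ex x v) (-(G.V 1 x v))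
  rw [h1] at h2
  exact h2

/-- PROOF: `sn 1 = sinh`, `cs 1 = cosh`, `rtau G 1 x v = ‖v‖ * G.tau x v` for `v ≠ 0`
(`Real.log_abs`); multiply `bonus` by `‖v‖ > 0`; the second point has `‖lg (ex x v) x‖ = ‖v‖`. -/
theorem curv_of_geoH (G : GeoH n) : Curv G.toGeo 1 := by
  refine ⟨?_, ?_⟩
  · intro x v z s hz h0 h1
    rw [bridge_sn, bridge_sn]
    exact G.monoH x v z s hz h0.le h1
  · intro x v a b hv ha hb
    have hn : 0 < ‖v‖ := norm_pos_iff.2 hv
    have h2 : ‖G.lg (G.ex x v) x‖ = ‖v‖ := by rw [bridge_lg, norm_neg, G.norm_V]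
    have h3 : G.lg (G.ex x v) x ≠ 0 := by
      rw [← norm_pos_iff, h2]
      exact hn
    rw [bridge_rtau G.toGeo x hv, bridge_rtau G.toGeo _ h3, h2, bridge_sn]
    have h4 := mul_le_mul_of_nonneg_left (G.bonus x v a b hv ha hb) hn.le
    calc 2 * a * b * (‖v‖ / Real.sinh ‖v‖) *
          (1 - (Real.sinh ‖v‖ / ‖v‖) ^ (n - 1) / |(G.T x v).det|)
        = ‖v‖ * (2 * a * b / Real.sinh ‖v‖ *
          (1 - (Real.sinh ‖v‖ / ‖v‖) ^ (n - 1) / |(G.T x v).det|)) := by ring
      _ ≤ _ := h4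
      _ = _ := by ring

end Vale.Agent.P219.TPH
end

section

/-! # Certificates with the strictness needed for the equality case -/

open MeasureTheory Set Metric
open scoped ENNReal ContDiff

namespace Vale.Agent.P219.TP

end Vale.Agent.P219.TP
end

section

/-! # The two-point inequality for a kernel on pairs of points -/

open MeasureTheory Set Metric
open scoped ENNReal ContDiff

namespace Vale.Agent.P219.TP

variable {n : ℕ} (G : Geo n)

end Vale.Agent.P219.TP
end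

section

/-! # The two-point functional at an almost minimizer -/

open MeasureTheory Set Metric
open scoped ENNReal ContDiff

namespace Vale.Agent.P219.TP

variable {n : ℕ} (G : Geo n)

end Vale.Agent.P219.TP
end

section

/-! # Auxiliary results for the equality case for a pair of boundary points -/

open MeasureTheory Set Metric Filter Topology
open scoped ENNReal ContDiff

namespace Vale.Agent.P219.TP

variable {n : ℕ} (G : Geo n)

/-- Cosine of the angle at `x` between `N x` and the direction of `y`. -/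
noncomputable def rgpA (N : E n → E n) (x y : E n) : ℝ :=
  inner ℝ (G.lg x y) (N x) / ‖G.lg x y‖

end Vale.Agent.P219.TP
end

section

/-! # Sets whose boundary consists of model chords: curvature `≤ -1` -/

open MeasureTheory Set Metric Filter Topology
open scoped ENNReal ContDiff

namespace Vale.Agent.P219.TPH

open Vale.Agent.P219.TP

variable {n : ℕ}

/-- In normal coordinates at a point of its boundary: the hyperbolic ball of radius `R` with inner
normal `N` at `0`. -/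
def regH (N : _root_.Vale.Agent.P219.TP.E n) (R : ℝ) : Set (_root_.Vale.Agent.P219.TP.E n) :=
  {v | Real.sinh (‖v‖ / 2) * Real.cosh R * ‖v‖ < inner ℝ v N * (Real.cosh (‖v‖ / 2) * Real.sinh R)}

/-- The hyperbolic metric in normal coordinates, at `v ≠ 0`. -/
noncomputable def mq (v z : _root_.Vale.Agent.P219.TP.E n) : ℝ :=
  inner ℝ v z ^ 2 / ‖v‖ ^ 2 +
    (Real.sinh ‖v‖ / ‖v‖) ^ 2 * (‖z‖ ^ 2 - inner ℝ v z ^ 2 / ‖v‖ ^ 2)

/-- A linear map which does not decrease norms and has determinant `±1` is an isometry. -/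
theorem geoBallH_isometry (T : _root_.Vale.Agent.P219.TP.E n →L[ℝ] _root_.Vale.Agent.P219.TP.E n) (hT : ∀ z, ‖z‖ ≤ ‖T z‖) (h : |T.det| = 1) (z : _root_.Vale.Agent.P219.TP.E n) :
    ‖T z‖ = ‖z‖ := by
  by_contra hne
  have hlt : ‖z‖ < ‖T z‖ := lt_of_le_of_ne (hT z) (Ne.symm hne)
  -- rescale so that `‖c z‖ < 1 < ‖T (c z)‖`
  obtain ⟨c, hc0, hc1, hc2⟩ : ∃ c : ℝ, 0 < c ∧ c * ‖z‖ < 1 ∧ 1 < c * ‖T z‖ := by
    set a := ‖z‖
    set b := ‖T z‖
    have ha : 0 ≤ a := norm_nonneg _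
    have hab : 0 < a + b := by linarith
    refine ⟨2 / (a + b), by (clear * - hab; positivity), ?_, ?_⟩
    · rw [div_mul_eq_mul_div, div_lt_one hab]; linarith
    · rw [div_mul_eq_mul_div, one_lt_div hab]; linarith
  have hdet : T.det ≠ 0 := by
    intro h0
    rw [h0, abs_zero] at h
    exact zero_ne_one h
  have hpre : (volume : Measure (_root_.Vale.Agent.P219.TP.E n)) (T ⁻¹' closedBall (0 : _root_.Vale.Agent.P219.TP.E n) 1) =
      (volume : Measure (_root_.Vale.Agent.P219.TP.E n)) (closedBall (0 : _root_.Vale.Agent.P219.TP.E n) 1) := by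
    rw [Measure.addHaar_preimage_continuousLinearMap _ hdet, abs_inv, h]
    simp
  have hsub : T ⁻¹' closedBall (0 : _root_.Vale.Agent.P219.TP.E n) 1 ⊆ closedBall (0 : _root_.Vale.Agent.P219.TP.E n) 1 := by
    intro y hy
    rw [mem_preimage, mem_closedBall_zero_iff] at hy
    rw [mem_closedBall_zero_iff]
    exact (hT y).trans hy
  set U : Set (_root_.Vale.Agent.P219.TP.E n) := ball (0 : _root_.Vale.Agent.P219.TP.E n) 1 \ (T ⁻¹' closedBall (0 : _root_.Vale.Agent.P219.TP.E n) 1) with hU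
  have hcl : IsClosed (T ⁻¹' closedBall (0 : _root_.Vale.Agent.P219.TP.E n) 1) :=
    isClosed_closedBall.preimage T.continuous
  have hUo : IsOpen U := isOpen_ball.sdiff hcl
  have hUne : U.Nonempty := by
    refine ⟨c • z, ?_, ?_⟩
    · rw [mem_ball_zero_iff, norm_smul, Real.norm_of_nonneg hc0.le]
      exact hc1
    · rw [mem_preimage, mem_closedBall_zero_iff, map_smul, norm_smul, Real.norm_of_nonneg hc0.le]
      exact not_le.2 hc2
  have hUpos : 0 < (volume : Measure (_root_.Vale.Agent.P219.TP.E n)) U := hUo.measure_pos _ hUne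
  have hdisj : Disjoint (T ⁻¹' closedBall (0 : _root_.Vale.Agent.P219.TP.E n) 1) U := disjoint_sdiff_right
  have hun : T ⁻¹' closedBall (0 : _root_.Vale.Agent.P219.TP.E n) 1 ∪ U ⊆ closedBall (0 : _root_.Vale.Agent.P219.TP.E n) 1 := by
    refine union_subset hsub (fun y hy => ball_subset_closedBall hy.1)
  have hle := measure_mono (μ := (volume : Measure (_root_.Vale.Agent.P219.TP.E n))) hun
  rw [measure_union hdisj hUo.measurableSet, hpre] at hle
  have hfin : (volume : Measure (_root_.Vale.Agent.P219.TP.E n)) (closedBall (0 : _root_.Vale.Agent.P219.TP.E n) 1) ≠ ⊤ := measure_closedBall_lt_top.ne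
  have := ENNReal.add_lt_add_left (a := (volume : Measure (_root_.Vale.Agent.P219.TP.E n)) (closedBall (0 : _root_.Vale.Agent.P219.TP.E n) 1)) hfin hUpos
  rw [add_zero] at this
  exact absurd hle (not_le.2 this)

/-- Orthogonal decomposition along `v`. -/
theorem geoBallH_decomp {v : _root_.Vale.Agent.P219.TP.E n} (hv : v ≠ 0) (z : _root_.Vale.Agent.P219.TP.E n) :
    ∃ (c : ℝ) (y : _root_.Vale.Agent.P219.TP.E n), inner ℝ v y = 0 ∧ z = c • v + y := by
  have hv0 : ‖v‖ ≠ 0 := norm_ne_zero_iff.2 hv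
  refine ⟨inner ℝ v z / ‖v‖ ^ 2, z - (inner ℝ v z / ‖v‖ ^ 2) • v, ?_, by abel⟩
  rw [inner_sub_right, real_inner_smul_right, real_inner_self_eq_norm_sq]
  field_simp
  ring

theorem geoBallH_mq {v : _root_.Vale.Agent.P219.TP.E n} (hv : v ≠ 0) (c : ℝ) {y : _root_.Vale.Agent.P219.TP.E n} (hy : inner ℝ v y = 0) :
    mq v (c • v + y) = c ^ 2 * ‖v‖ ^ 2 + (Real.sinh ‖v‖ / ‖v‖) ^ 2 * ‖y‖ ^ 2 := by
  have hv0 : ‖v‖ ≠ 0 := norm_ne_zero_iff.2 hv
  have h1 : inner ℝ v (c • v + y) = c * ‖v‖ ^ 2 := by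
    rw [inner_add_right, real_inner_smul_right, hy, real_inner_self_eq_norm_sq, add_zero]
  have h2 : ‖c • v + y‖ ^ 2 = c ^ 2 * ‖v‖ ^ 2 + ‖y‖ ^ 2 := curvh_norm_add c rfl hy
  have h3 : (c * ‖v‖ ^ 2) ^ 2 / ‖v‖ ^ 2 = c ^ 2 * ‖v‖ ^ 2 := by
    field_simp
  rw [mq, h1, h2, h3]
  ring

variable (G : Geo n)

theorem geoBallH_T (x : _root_.Vale.Agent.P219.TP.E n) {v : _root_.Vale.Agent.P219.TP.E n} (c : ℝ) {y : _root_.Vale.Agent.P219.TP.E n} (hy : inner ℝ v y = 0) :
    ‖G.T x v (c • v + y)‖ ^ 2 = c ^ 2 * ‖v‖ ^ 2 + ‖G.T x v y‖ ^ 2 := by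
  have e1 := curvh_norm_T_smul (G := G) x v one_pos
  have e2 := curvh_inner_T_smul (G := G) x hy one_pos
  rw [one_smul] at e1 e2
  rw [map_add, map_smul]
  exact curvh_norm_add c e1 e2

theorem geoBallH_of_perp (x : _root_.Vale.Agent.P219.TP.E n) {v : _root_.Vale.Agent.P219.TP.E n} (hv : v ≠ 0)
    (h : ∀ y, inner ℝ v y = 0 → ‖G.T x v y‖ = Real.sinh ‖v‖ / ‖v‖ * ‖y‖) (z : _root_.Vale.Agent.P219.TP.E n) :
    ‖G.T x v z‖ ^ 2 = mq v z := by
  obtain ⟨c, y, hy, rfl⟩ := geoBallH_decomp hv z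
  rw [geoBallH_mq hv c hy, geoBallH_T G x c hy, h y hy, mul_pow]

/-- Equality in the Jacobian comparison. PROOF: `mono_sn` (s → 0) gives `‖T z‖ ≥ (sinh r/r) ‖z‖` for
`z ⊥ v`, `gauss` splits off the radial direction; equality of the determinants forces equality
for all `z` (compare `isometry_of_det` in TPR/RigGeo.lean: apply it to
`T ∘ (id on ℝ v, (r / sinh r) on v^⊥)`, or use the Gram matrix). -/
theorem model_of_det (hn : 2 ≤ n) (hG : Curv G 1) (x : _root_.Vale.Agent.P219.TP.E n) {v : _root_.Vale.Agent.P219.TP.E n} (hv : v ≠ 0)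
    (h : |(G.T x v).det| * ‖v‖ ^ (n - 1) = Real.sinh ‖v‖ ^ (n - 1)) (z : _root_.Vale.Agent.P219.TP.E n) :
    ‖G.T x v z‖ ^ 2 = mq v z := by
  have hv0 : 0 < ‖v‖ := norm_pos_iff.2 hv
  have hsn : 0 < Real.sinh ‖v‖ := Real.sinh_pos_iff.2 hv0
  set β : ℝ := ‖v‖ / Real.sinh ‖v‖ with hβ
  have hβ0 : 0 < β := div_pos hv0 hsn
  have he : ‖‖v‖⁻¹ • v‖ = 1 := by
    rw [norm_smul, norm_inv, norm_norm, inv_mul_cancel₀ hv0.ne']
  have hlow : ∀ y, inner ℝ v y = 0 → ‖y‖ ≤ β * ‖G.T x v y‖ := by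
    intro y hy
    have h1 := norm_T_sn (x := x) zero_le_one hG hv hy
    rw [bridge_sn] at h1
    rw [hβ, div_mul_eq_mul_div, le_div_iff₀ hsn]
    linarith only [h1]
  set M : _root_.Vale.Agent.P219.TP.E n →L[ℝ] _root_.Vale.Agent.P219.TP.E n := (G.T x v).comp (curvhL (‖v‖⁻¹ • v) β) with hM
  have hMdet : |M.det| = 1 := by
    have h3 : M.det = (G.T x v).det * β ^ (n - 1) := by
      rw [← curvhL_det (by omega) he hβ0, hM]
      unfold ContinuousLinearMap.det
      rw [ContinuousLinearMap.toLinearMap_comp, LinearMap.det_comp]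
    rw [h3, abs_mul, abs_of_pos (pow_pos hβ0 _), hβ, div_pow, mul_div_assoc', h,
      div_self (pow_pos hsn _).ne']
  have hMge : ∀ ξ, ‖ξ‖ ≤ ‖M ξ‖ := by
    intro ξ
    obtain ⟨c, y, hy, hξ, hL⟩ := curvh_decomp hv β hβ0 ξ
    rw [hM, ContinuousLinearMap.comp_apply, hL]
    have hy' : inner ℝ v (β • y) = 0 := by rw [real_inner_smul_right, hy, mul_zero]
    have h3 := geoBallH_T G x c hy'
    have h4 : ‖ξ‖ ^ 2 = c ^ 2 * ‖v‖ ^ 2 + ‖y‖ ^ 2 := by
      rw [hξ]
      exact curvh_norm_add c rfl hy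
    have h5 : ‖y‖ ≤ ‖G.T x v (β • y)‖ := by
      rw [map_smul, norm_smul, Real.norm_eq_abs, abs_of_pos hβ0]
      exact hlow y hy
    have h6 := pow_le_pow_left₀ (norm_nonneg _) h5 2
    exact le_of_sq_le_sq (by rw [h3, h4]; linarith only [h6]) (norm_nonneg _)
  have hMi := geoBallH_isometry M hMge hMdet
  refine geoBallH_of_perp G x hv (fun y hy => ?_) z
  have h7 : curvhL (‖v‖⁻¹ • v) β y = β • y := by
    rw [curvhL, linAlgC_apply _ _ _ hβ0, real_inner_smul_left, hy]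
    simp
  have h8 := hMi y
  rw [hM, ContinuousLinearMap.comp_apply, h7, map_smul, norm_smul, Real.norm_eq_abs,
    abs_of_pos hβ0] at h8
  rw [← h8, hβ]
  field_simp

/-- PROOF: `mono_sn` for `z ⊥ v`: `s sinh r ‖T x (s v) z‖ ≤ sinh (s r) ‖T x v z‖ = sinh (s r)
(sinh r/r) ‖z‖`, and `‖T x (s v) z‖ ≥ sinh(s r)/(s r) ‖z‖`; `gauss` for the rest. -/
theorem model_segment (hn : 2 ≤ n) (hG : Curv G 1) (x : _root_.Vale.Agent.P219.TP.E n) {v : _root_.Vale.Agent.P219.TP.E n} (hv : v ≠ 0)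
    (h : ∀ z, ‖G.T x v z‖ ^ 2 = mq v z) {s : ℝ} (hs : 0 < s) (hs1 : s ≤ 1) (z : _root_.Vale.Agent.P219.TP.E n) :
    ‖G.T x (s • v) z‖ ^ 2 = mq (s • v) z := by
  have _ := hn
  have hv0 : 0 < ‖v‖ := norm_pos_iff.2 hv
  have hsn : 0 < Real.sinh ‖v‖ := Real.sinh_pos_iff.2 hv0
  have hsv : s • v ≠ 0 := smul_ne_zero hs.ne' hv
  have hnsv : ‖s • v‖ = s * ‖v‖ := by rw [norm_smul, Real.norm_eq_abs, abs_of_pos hs]
  have hsn2 : 0 < Real.sinh (s * ‖v‖) := Real.sinh_pos_iff.2 (mul_pos hs hv0)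
  refine geoBallH_of_perp G x hsv (fun y hy => ?_) z
  have hy1 : inner ℝ v y = 0 := by
    rw [real_inner_smul_left] at hy
    exact (mul_eq_zero.1 hy).resolve_left hs.ne'
  have h1 : ‖G.T x v y‖ = Real.sinh ‖v‖ / ‖v‖ * ‖y‖ := by
    have h2 := h y
    have h3 := geoBallH_mq hv 0 hy1
    rw [zero_smul, zero_add] at h3
    rw [h3] at h2
    have h4 : ‖G.T x v y‖ ^ 2 = (Real.sinh ‖v‖ / ‖v‖ * ‖y‖) ^ 2 := by rw [h2]; ring
    exact (pow_left_inj₀ (norm_nonneg _)
      (mul_nonneg (div_nonneg hsn.le hv0.le) (norm_nonneg _)) two_ne_zero).1 h4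
  have h5 := hG.mono_sn x v y s hy1 hs hs1
  have h6 := norm_T_sn (x := x) zero_le_one hG hsv hy
  rw [bridge_sn, bridge_sn, h1] at h5
  rw [bridge_sn, hnsv] at h6
  rw [hnsv]
  apply le_antisymm
  · rw [div_mul_eq_mul_div, le_div_iff₀ (mul_pos hs hv0)]
    have h7 : (s * Real.sinh ‖v‖ * ‖G.T x (s • v) y‖) * (‖v‖ / Real.sinh ‖v‖) ≤
        (Real.sinh (s * ‖v‖) * (Real.sinh ‖v‖ / ‖v‖ * ‖y‖)) * (‖v‖ / Real.sinh ‖v‖) :=
      mul_le_mul_of_nonneg_right h5 (div_nonneg hv0.le hsn.le)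
    calc ‖G.T x (s • v) y‖ * (s * ‖v‖)
        = (s * Real.sinh ‖v‖ * ‖G.T x (s • v) y‖) * (‖v‖ / Real.sinh ‖v‖) := by field_simp
      _ ≤ _ := h7
      _ = Real.sinh (s * ‖v‖) * ‖y‖ := by field_simp
  · rw [div_mul_eq_mul_div, div_le_iff₀ (mul_pos hs hv0)]
    linarith only [h6]

end Vale.Agent.P219.TPH
end

section

/-! # Tools for certificates -/

open MeasureTheory Set Metric
open scoped ENNReal ContDiff

namespace Vale.Agent.P219.TP

end Vale.Agent.P219.TP
end

section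

/-! # `n = 2`: the Jacobian along rays, from `MonoSn` -/

open MeasureTheory Set Metric
open scoped ENNReal ContDiff

namespace Vale.Agent.P219.N2

open Vale.Agent.P219.TP Vale.Agent.P219.TPH

variable {n : ℕ} {G : Geo n} {k : ℝ}

/-- PROOF: `mono_sn` and `s → 0` (`T x 0 z = z`, `T_smooth`, `sn k (s r)/s → r`). -/
theorem norm_T_snM (hk : 0 ≤ k) (hG : MonoSn G k) {x v z : _root_.Vale.Agent.P219.TP.E n} (hv : v ≠ 0)
    (hz : inner ℝ v z = 0) : _root_.Vale.Agent.P219.TPH.sn k ‖v‖ * ‖z‖ ≤ ‖v‖ * ‖G.T x v z‖ := by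
  have _ := hk
  have _ := hv
  have h1 : Filter.Tendsto (fun s : ℝ => _root_.Vale.Agent.P219.TPH.sn k ‖v‖ * ‖G.T x (s • v) z‖) (nhdsWithin 0 (Ioi 0))
      (nhds (_root_.Vale.Agent.P219.TPH.sn k ‖v‖ * ‖z‖)) := by
    have hc : Continuous fun s : ℝ => _root_.Vale.Agent.P219.TPH.sn k ‖v‖ * ‖G.T x (s • v) z‖ := by
      have hT : Continuous fun s : ℝ => G.T x (s • v) :=
        G.T_smooth.continuous.comp (continuous_const.prodMk (continuous_id.smul continuous_const))
      exact continuous_const.mul (hT.clm_apply continuous_const).norm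
    have h2 := hc.tendsto 0
    simp only [zero_smul, G.T_zero] at h2
    exact h2.mono_left nhdsWithin_le_nhds
  have h2 : Filter.Tendsto (fun s : ℝ => (_root_.Vale.Agent.P219.TPH.sn k (s * ‖v‖) / s) * ‖G.T x v z‖)
      (nhdsWithin 0 (Ioi 0)) (nhds (‖v‖ * ‖G.T x v z‖)) := by
    refine Filter.Tendsto.mul_const _ ?_
    have h30 : HasDerivAt (fun s : ℝ => s * ‖v‖) (1 * ‖v‖) 0 := (hasDerivAt_id' 0).mul_const ‖v‖
    have h3 : HasDerivAt (fun s : ℝ => _root_.Vale.Agent.P219.TPH.sn k (s * ‖v‖)) (_root_.Vale.Agent.P219.TPH.cs k (0 * ‖v‖) * (1 * ‖v‖)) 0 :=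
      HasDerivAt.comp (h₂ := _root_.Vale.Agent.P219.TPH.sn k) (h := fun s : ℝ => s * ‖v‖) 0 (_root_.Vale.Agent.P219.TPH.hasDerivAt_sn k (0 * ‖v‖)) h30
    rw [zero_mul, _root_.Vale.Agent.P219.TPH.cs_zero, one_mul, one_mul, hasDerivAt_iff_tendsto_slope] at h3
    have h4 := h3.mono_left (nhdsWithin_mono (0 : ℝ) (fun s (hs : s ∈ Ioi (0 : ℝ)) =>
      (ne_of_gt hs : s ∈ ({0}ᶜ : Set ℝ))))
    refine h4.congr' ?_
    filter_upwards [self_mem_nhdsWithin] with s _
    rw [slope_def_field, zero_mul, _root_.Vale.Agent.P219.TPH.sn_zero, sub_zero, sub_zero]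
  refine le_of_tendsto_of_tendsto h1 h2 ?_
  have h5 : Ioc (0 : ℝ) 1 ∈ nhdsWithin (0 : ℝ) (Ioi 0) := Ioc_mem_nhdsGT zero_lt_one
  filter_upwards [h5] with s hs
  have h6 := hG x v z s hz hs.1 hs.2
  rw [div_mul_eq_mul_div, le_div_iff₀ hs.1]
  linarith

/-- Monotonicity of the Jacobian, Bishop type. PROOF: `S = T x (s v)`, `T = T x v`; the linear map
`Q` with `Q (T v) = S v` and `Q (T z) = (s sn r / sn (s r)) S z` for `z ⟂ v` does not increase norms
(Gauss lemma: `T z ⟂ T v`, `S z ⟂ S v`), so `|det Q| ≤ 1`, and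
`det Q = (s sn r / sn (s r))^(n-1) det S / det T`. -/
theorem jac_ratioM (hn : 1 ≤ n) (hk : 0 ≤ k) (hG : MonoSn G k) {x v : _root_.Vale.Agent.P219.TP.E n} (hv : v ≠ 0) {s : ℝ}
    (h0 : 0 < s) (h1 : s ≤ 1) :
    |(G.T x (s • v)).det| * (s * _root_.Vale.Agent.P219.TPH.sn k ‖v‖) ^ (n - 1) ≤
      |(G.T x v).det| * _root_.Vale.Agent.P219.TPH.sn k (s * ‖v‖) ^ (n - 1) := by
  have hv0 : 0 < ‖v‖ := norm_pos_iff.2 hv
  have hsn : 0 < _root_.Vale.Agent.P219.TPH.sn k ‖v‖ := _root_.Vale.Agent.P219.TPH.sn_pos hk hv0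
  have hsns : 0 < _root_.Vale.Agent.P219.TPH.sn k (s * ‖v‖) := _root_.Vale.Agent.P219.TPH.sn_pos hk (mul_pos h0 hv0)
  set β : ℝ := s * _root_.Vale.Agent.P219.TPH.sn k ‖v‖ / _root_.Vale.Agent.P219.TPH.sn k (s * ‖v‖) with hβ
  have hβ0 : 0 < β := div_pos (mul_pos h0 hsn) hsns
  have he : ‖‖v‖⁻¹ • v‖ = 1 := by
    rw [norm_smul, norm_inv, norm_norm, inv_mul_cancel₀ hv0.ne']
  have h2 := curvh_det_le hn (B := (G.T x (s • v)).comp (curvhL (‖v‖⁻¹ • v) β)) (C := G.T x v)
    (G.det_T_ne x v) (by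
      intro ξ
      obtain ⟨c, z, hz, hξ, hL⟩ := curvh_decomp hv β hβ0 ξ
      rw [ContinuousLinearMap.comp_apply, hL, hξ, map_add, map_add, map_smul, map_smul, map_smul]
      have h3 : ‖c • G.T x (s • v) v + β • G.T x (s • v) z‖ ^ 2 =
          c ^ 2 * ‖v‖ ^ 2 + ‖β • G.T x (s • v) z‖ ^ 2 :=
        curvh_norm_add c (curvh_norm_T_smul x v h0) (by
          rw [real_inner_smul_right, curvh_inner_T_smul x hz h0, mul_zero])
      have h4 : ‖c • G.T x v v + G.T x v z‖ ^ 2 = c ^ 2 * ‖v‖ ^ 2 + ‖G.T x v z‖ ^ 2 := by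
        have e1 := curvh_norm_T_smul (G := G) x v one_pos
        have e2 := curvh_inner_T_smul (G := G) x hz one_pos
        rw [one_smul] at e1 e2
        exact curvh_norm_add c e1 e2
      have h5 : ‖β • G.T x (s • v) z‖ ≤ ‖G.T x v z‖ := by
        rw [norm_smul, Real.norm_eq_abs, abs_of_pos hβ0, hβ, div_mul_eq_mul_div, div_le_iff₀ hsns]
        have := hG x v z s hz h0 h1
        linarith only [this]
      have h6 := pow_le_pow_left₀ (norm_nonneg _) h5 2
      exact le_of_sq_le_sq (by rw [h3, h4]; linarith only [h6]) (norm_nonneg _))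
  have h3 : ((G.T x (s • v)).comp (curvhL (‖v‖⁻¹ • v) β)).det =
      (G.T x (s • v)).det * β ^ (n - 1) := by
    rw [← curvhL_det hn he hβ0]
    unfold ContinuousLinearMap.det
    rw [ContinuousLinearMap.toLinearMap_comp, LinearMap.det_comp]
  rw [h3, abs_mul, abs_of_pos (pow_pos hβ0 _), hβ, div_pow, mul_div_assoc',
    div_le_iff₀ (pow_pos hsns _)] at h2
  exact h2

theorem sn_le_JM (hn : 1 ≤ n) (hk : 0 ≤ k) (hG : MonoSn G k) {x v : _root_.Vale.Agent.P219.TP.E n} (hv : v ≠ 0) :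
    _root_.Vale.Agent.P219.TPH.sn k ‖v‖ ^ (n - 1) ≤ ‖v‖ ^ (n - 1) * |(G.T x v).det| := by
  have hv0 : 0 < ‖v‖ := norm_pos_iff.2 hv
  have hsn : 0 < _root_.Vale.Agent.P219.TPH.sn k ‖v‖ := _root_.Vale.Agent.P219.TPH.sn_pos hk hv0
  set β : ℝ := _root_.Vale.Agent.P219.TPH.sn k ‖v‖ / ‖v‖ with hβ
  have hβ0 : 0 < β := div_pos hsn hv0
  have he : ‖‖v‖⁻¹ • v‖ = 1 := by
    rw [norm_smul, norm_inv, norm_norm, inv_mul_cancel₀ hv0.ne']
  have h2 := curvh_det_le hn (B := curvhL (‖v‖⁻¹ • v) β) (C := G.T x v)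
    (G.det_T_ne x v) (by
      intro ξ
      obtain ⟨c, z, hz, hξ, hL⟩ := curvh_decomp hv β hβ0 ξ
      rw [hL, hξ, map_add, map_smul]
      have h3 : ‖c • v + β • z‖ ^ 2 = c ^ 2 * ‖v‖ ^ 2 + ‖β • z‖ ^ 2 :=
        curvh_norm_add c rfl (by rw [real_inner_smul_right, hz, mul_zero])
      have h4 : ‖c • G.T x v v + G.T x v z‖ ^ 2 = c ^ 2 * ‖v‖ ^ 2 + ‖G.T x v z‖ ^ 2 := by
        have e1 := curvh_norm_T_smul (G := G) x v one_pos
        have e2 := curvh_inner_T_smul (G := G) x hz one_pos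
        rw [one_smul] at e1 e2
        exact curvh_norm_add c e1 e2
      have h5 : ‖β • z‖ ≤ ‖G.T x v z‖ := by
        rw [norm_smul, Real.norm_eq_abs, abs_of_pos hβ0, hβ, div_mul_eq_mul_div, div_le_iff₀ hv0]
        have := norm_T_snM (x := x) hk hG hv hz
        linarith only [this]
      have h6 := pow_le_pow_left₀ (norm_nonneg _) h5 2
      exact le_of_sq_le_sq (by rw [h3, h4]; linarith only [h6]) (norm_nonneg _))
  rw [curvhL_det hn he hβ0, abs_of_pos (pow_pos hβ0 _), hβ, div_pow,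
    div_le_iff₀ (pow_pos hv0 _)] at h2
  linarith only [h2]

/-- Monotonicity of the Jacobian along a ray. -/
theorem curvh_rayM (hn : 1 ≤ n) (hk : 0 ≤ k) (hG : MonoSn G k) (p : _root_.Vale.Agent.P219.TP.E n) {w : _root_.Vale.Agent.P219.TP.E n}
    (hw : ‖w‖ = 1) {a b : ℝ} (ha : 0 < a) (hab : a ≤ b) :
    |(G.T p (a • w)).det| * a ^ (n - 1) * _root_.Vale.Agent.P219.TPH.sn k b ^ (n - 1) ≤
      |(G.T p (b • w)).det| * b ^ (n - 1) * _root_.Vale.Agent.P219.TPH.sn k a ^ (n - 1) := by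
  have hb : 0 < b := ha.trans_le hab
  have hw0 : w ≠ 0 := by
    intro h
    rw [h, norm_zero] at hw
    exact zero_ne_one hw
  have h1 := jac_ratioM hn hk hG (x := p) (v := b • w) (smul_ne_zero hb.ne' hw0)
    (s := a / b) (div_pos ha hb) ((div_le_one hb).2 hab)
  rw [smul_smul, div_mul_cancel₀ _ hb.ne', norm_smul, hw, mul_one, Real.norm_eq_abs,
    abs_of_pos hb, div_mul_cancel₀ _ hb.ne'] at h1
  have h2 := mul_le_mul_of_nonneg_right h1 (pow_nonneg hb.le (n - 1))
  calc |(G.T p (a • w)).det| * a ^ (n - 1) * _root_.Vale.Agent.P219.TPH.sn k b ^ (n - 1)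
      = |(G.T p (a • w)).det| * (a / b * _root_.Vale.Agent.P219.TPH.sn k b) ^ (n - 1) * b ^ (n - 1) := by
        rw [mul_assoc, mul_assoc, ← mul_pow, ← mul_pow]
        congr 2
        field_simp
    _ ≤ _ := h2
    _ = _ := by ring


/-- The Jacobian in polar coordinates, dimension two. -/
noncomputable def jJ (G : Geo 2) (x u : _root_.Vale.Agent.P219.TP.E 2) (r : ℝ) : ℝ := r * (G.T x (r • u)).det

theorem jJ_contDiff (G : Geo 2) (x u : _root_.Vale.Agent.P219.TP.E 2) : ContDiff ℝ 1 (jJ G x u) := by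
  have h1 : ContDiff ℝ ∞ fun r : ℝ => (G.T x (r • u)).det :=
    (detExp_smooth G).comp (contDiff_const.prodMk (contDiff_id.smul contDiff_const))
  exact contDiff_id.mul (h1.of_le (by simp))

theorem jJ_zero (G : Geo 2) (x u : _root_.Vale.Agent.P219.TP.E 2) : jJ G x u 0 = 0 := by
  unfold jJ
  rw [zero_mul]

theorem jJ_ge {G : Geo 2} (hk : 0 ≤ k) (hG : MonoSn G k) (x : _root_.Vale.Agent.P219.TP.E 2) {u : _root_.Vale.Agent.P219.TP.E 2} (hu : ‖u‖ = 1)
    {r : ℝ} (hr : 0 < r) : _root_.Vale.Agent.P219.TPH.sn k r ≤ jJ G x u r := by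
  have hn1 : ‖r • u‖ = r := by rw [norm_smul, hu, mul_one, Real.norm_eq_abs, abs_of_pos hr]
  have h := sn_le_JM (n := 2) (by norm_num) hk hG (x := x) (v := r • u)
    (norm_ne_zero_iff.1 (by rw [hn1]; exact hr.ne'))
  rw [hn1, abs_of_pos (det_T_pos G x _)] at h
  simpa [jJ] using h

theorem jJ_mono {G : Geo 2} (hk : 0 ≤ k) (hG : MonoSn G k) (x : _root_.Vale.Agent.P219.TP.E 2) {u : _root_.Vale.Agent.P219.TP.E 2} (hu : ‖u‖ = 1)
    {a b : ℝ} (ha : 0 < a) (hab : a ≤ b) : jJ G x u a * _root_.Vale.Agent.P219.TPH.sn k b ≤ jJ G x u b * _root_.Vale.Agent.P219.TPH.sn k a := by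
  have h := curvh_rayM (n := 2) (by norm_num) hk hG x hu ha hab
  rw [abs_of_pos (det_T_pos G x _), abs_of_pos (det_T_pos G x _)] at h
  simp only [Nat.add_one_sub_one, pow_one] at h
  unfold jJ
  linarith

theorem jJ_deriv {G : Geo 2} (hk : 0 ≤ k) (hG : MonoSn G k) (x : _root_.Vale.Agent.P219.TP.E 2) {u : _root_.Vale.Agent.P219.TP.E 2} (hu : ‖u‖ = 1)
    {r : ℝ} (hr : 0 < r) : jJ G x u r * _root_.Vale.Agent.P219.TPH.cs k r ≤ deriv (jJ G x u) r * _root_.Vale.Agent.P219.TPH.sn k r := by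
  have hd : HasDerivAt (jJ G x u) (deriv (jJ G x u) r) r :=
    ((jJ_contDiff G x u).differentiable one_ne_zero r).hasDerivAt
  have h1 : HasDerivAt (fun b => jJ G x u b * _root_.Vale.Agent.P219.TPH.sn k r - jJ G x u r * _root_.Vale.Agent.P219.TPH.sn k b)
      (deriv (jJ G x u) r * _root_.Vale.Agent.P219.TPH.sn k r - jJ G x u r * _root_.Vale.Agent.P219.TPH.cs k r) r :=
    (hd.mul_const _).sub ((_root_.Vale.Agent.P219.TPH.hasDerivAt_sn k r).const_mul _)
  have h2 := h1.hasDerivWithinAt (s := Ioi r)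
  rw [hasDerivWithinAt_iff_tendsto_slope' self_notMem_Ioi] at h2
  have h3 : 0 ≤ deriv (jJ G x u) r * _root_.Vale.Agent.P219.TPH.sn k r - jJ G x u r * _root_.Vale.Agent.P219.TPH.cs k r := by
    refine ge_of_tendsto h2 ?_
    filter_upwards [self_mem_nhdsWithin] with b hb
    have hb' : r < b := hb
    rw [slope_def_field]
    have e := jJ_mono hk hG x hu hr hb'.le
    exact div_nonneg (by linarith) (by linarith)
  linarith

end Vale.Agent.P219.N2
end

section

/-! # `n = 2`: the pair inequality -/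

open MeasureTheory Set Metric
open scoped ENNReal ContDiff

namespace Vale.Agent.P219.N2

open Vale.Agent.P219.TP Vale.Agent.P219.TPH

variable {G : Geo 2} {k : ℝ}

/-! ### The flip -/

theorem flip_ex (G : Geo 2) (x v : _root_.Vale.Agent.P219.TP.E 2) : G.ex (G.ex x v) (-G.V 1 x v) = x := by
  rw [← G.lg_back, G.ex_lg]

theorem flip_V (G : Geo 2) (x v : _root_.Vale.Agent.P219.TP.E 2) : G.V 1 (G.ex x v) (-G.V 1 x v) = -v := by
  rw [← G.lg_back, G.lg_back', G.lg_ex]

theorem flip_det (G : Geo 2) (x v : _root_.Vale.Agent.P219.TP.E 2) :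
    (G.T (G.ex x v) (-G.V 1 x v)).det = (G.T x v).det := by
  have h := G.J_symm x (G.ex x v)
  rw [G.lg_ex, G.lg_back, abs_of_pos (det_T_pos G _ _), abs_of_pos (det_T_pos G _ _)] at h
  exact h.symm

/-- The pair integrand, with respect to `dv dvol(x)`. -/
noncomputable def Fp (G : Geo 2) (k : ℝ) (h : _root_.Vale.Agent.P219.TP.E 2 → ℝ) (z : _root_.Vale.Agent.P219.TP.E 2 × _root_.Vale.Agent.P219.TP.E 2) : ℝ≥0∞ :=
  ENNReal.ofReal (if h (G.ex z.1 z.2) < h z.1 then
    ‖z.2‖⁻¹ * (max 0 (-(inner ℝ (G.D h (G.ex z.1 z.2)) (‖z.2‖⁻¹ • G.V 1 z.1 z.2))) *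
      (k * (‖z.2‖ * (G.T z.1 z.2).det) + 1 + Real.exp (-(k * ‖z.2‖)))) else 0)

/-- The flipped integrand. -/
noncomputable def Fq (G : Geo 2) (k : ℝ) (h : _root_.Vale.Agent.P219.TP.E 2 → ℝ) (z : _root_.Vale.Agent.P219.TP.E 2 × _root_.Vale.Agent.P219.TP.E 2) : ℝ≥0∞ :=
  ENNReal.ofReal (if h z.1 < h (G.ex z.1 z.2) then
    ‖z.2‖⁻¹ * (max 0 (inner ℝ (G.D h z.1) (‖z.2‖⁻¹ • z.2)) *
      (k * (‖z.2‖ * (G.T z.1 z.2).det) + 1 + Real.exp (-(k * ‖z.2‖)))) else 0)

theorem Fp_flip (G : Geo 2) (k : ℝ) (h : _root_.Vale.Agent.P219.TP.E 2 → ℝ) (x v : _root_.Vale.Agent.P219.TP.E 2) :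
    Fp G k h (G.ex x v, -G.V 1 x v) = Fq G k h (x, v) := by
  unfold Fp Fq
  simp only [flip_ex, flip_V, flip_det, norm_neg, G.norm_V, smul_neg, inner_neg_right, neg_neg]

theorem measurable_Fp {h : _root_.Vale.Agent.P219.TP.E 2 → ℝ} (hh : ContDiff ℝ 1 h) : Measurable (Fp G k h) := by
  unfold Fp
  refine Measurable.ennreal_ofReal ?_
  have hex : Continuous fun z : _root_.Vale.Agent.P219.TP.E 2 × _root_.Vale.Agent.P219.TP.E 2 => G.ex z.1 z.2 := G.ex_smooth.continuous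
  have hV : Continuous fun z : _root_.Vale.Agent.P219.TP.E 2 × _root_.Vale.Agent.P219.TP.E 2 => G.V 1 z.1 z.2 :=
    G.V_smooth.continuous.comp (continuous_const.prodMk (continuous_fst.prodMk continuous_snd))
  have hD : Continuous (G.D h) := PairGe.continuous_D G hh
  have hT : Continuous fun z : _root_.Vale.Agent.P219.TP.E 2 × _root_.Vale.Agent.P219.TP.E 2 => (G.T z.1 z.2).det := (detExp_smooth G).continuous
  refine Measurable.ite ?_ ?_ measurable_const
  · exact (isOpen_lt (hh.continuous.comp hex) (hh.continuous.comp continuous_fst)).measurableSet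
  · refine Measurable.mul measurable_snd.norm.inv (Measurable.mul ?_ ?_)
    · refine measurable_const.max (Measurable.neg ?_)
      exact (hD.comp hex).measurable.inner (measurable_snd.norm.inv.smul hV.measurable)
    · exact (by fun_prop : Continuous fun z : E 2 × E 2 =>
        k * (‖z.2‖ * (G.T z.1 z.2).det) + 1 + Real.exp (-(k * ‖z.2‖))).measurable

theorem measurable_Fq {h : _root_.Vale.Agent.P219.TP.E 2 → ℝ} (hh : ContDiff ℝ 1 h) : Measurable (Fq G k h) := by
  unfold Fq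
  refine Measurable.ennreal_ofReal ?_
  have hex : Continuous fun z : _root_.Vale.Agent.P219.TP.E 2 × _root_.Vale.Agent.P219.TP.E 2 => G.ex z.1 z.2 := G.ex_smooth.continuous
  have hD : Continuous (G.D h) := PairGe.continuous_D G hh
  have hT : Continuous fun z : _root_.Vale.Agent.P219.TP.E 2 × _root_.Vale.Agent.P219.TP.E 2 => (G.T z.1 z.2).det := (detExp_smooth G).continuous
  refine Measurable.ite ?_ ?_ measurable_const
  · exact (isOpen_lt (hh.continuous.comp continuous_fst) (hh.continuous.comp hex)).measurableSet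
  · refine Measurable.mul measurable_snd.norm.inv (Measurable.mul ?_ ?_)
    · refine measurable_const.max ?_
      exact (hD.comp continuous_fst).measurable.inner (measurable_snd.norm.inv.smul measurable_snd)
    · exact (by fun_prop : Continuous fun z : E 2 × E 2 =>
        k * (‖z.2‖ * (G.T z.1 z.2).det) + 1 + Real.exp (-(k * ‖z.2‖))).measurable

theorem Fp_eq_Fq {h : _root_.Vale.Agent.P219.TP.E 2 → ℝ} (hh : ContDiff ℝ 1 h) :
    ∫⁻ x, ∫⁻ v, Fp G k h (x, v) ∂volume ∂G.vol = ∫⁻ x, ∫⁻ v, Fq G k h (x, v) ∂volume ∂G.vol := by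
  rw [← G.liouville (measurable_Fp hh)]
  simp only [Fp_flip]

/-! ### Lower bound -/

/-- Area in polar coordinates. -/
theorem polar_area (G : Geo 2) (x : _root_.Vale.Agent.P219.TP.E 2) {F : _root_.Vale.Agent.P219.TP.E 2 → ℝ≥0∞} (hF : Measurable F) :
    ∫⁻ y, F y ∂G.vol = ∫⁻ u : sphere (0 : _root_.Vale.Agent.P219.TP.E 2) 1, ∫⁻ r in Ioi (0 : ℝ),
      ENNReal.ofReal (jJ G x u r) * F (G.ex x (r • (u : _root_.Vale.Agent.P219.TP.E 2))) ∂volume
        ∂((volume : Measure (_root_.Vale.Agent.P219.TP.E 2)).toSphere) := by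
  have hT : Continuous fun v : _root_.Vale.Agent.P219.TP.E 2 => (G.T x v).det :=
    (detExp_smooth G).continuous.comp (continuous_const.prodMk continuous_id)
  have hex : Continuous fun v : _root_.Vale.Agent.P219.TP.E 2 => G.ex x v :=
    G.ex_smooth.continuous.comp (continuous_const.prodMk continuous_id)
  have hm : Measurable fun v : _root_.Vale.Agent.P219.TP.E 2 => ENNReal.ofReal |(G.T x v).det| * F (G.ex x v) :=
    hT.abs.measurable.ennreal_ofReal.mul (hF.comp hex.measurable)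
  rw [G.lintegral_vol_ex x hF, polar (n := 2) (by norm_num) hm]
  refine lintegral_congr fun u => setLIntegral_congr_fun measurableSet_Ioi fun r hr => ?_
  have hr0 : (0 : ℝ) < r := hr
  simp only [Nat.add_one_sub_one, pow_one]
  rw [← mul_assoc, ← ENNReal.ofReal_mul hr0.le, abs_of_pos (det_T_pos G x _)]
  rfl

theorem Fp_ray {h : _root_.Vale.Agent.P219.TP.E 2 → ℝ} (x : _root_.Vale.Agent.P219.TP.E 2) {u : _root_.Vale.Agent.P219.TP.E 2} (hu : ‖u‖ = 1) {r : ℝ} (hr : 0 < r) :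
    ENNReal.ofReal (r ^ (2 - 1)) * Fp G k h (x, r • u) =
      ENNReal.ofReal (rayF k (fun r => h (G.ex x (r • u)))
        (fun r => inner ℝ (G.D h (G.ex x (r • u))) (G.V r x u)) (jJ G x u) r) := by
  have hn1 : ‖r • u‖ = r := by rw [norm_smul, hu, mul_one, Real.norm_eq_abs, abs_of_pos hr]
  unfold Fp rayF
  rw [← ENNReal.ofReal_mul (by positivity)]
  congr 1
  simp only [hn1, zero_smul, G.ex_zero, G.V_eq, smul_smul, inv_mul_cancel₀ hr.ne', one_smul,
    Nat.add_one_sub_one, pow_one]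
  split_ifs with h1
  · unfold jJ
    rw [← mul_assoc, mul_inv_cancel₀ hr.ne', one_mul]
  · rw [mul_zero]

theorem pair_lower (hk : 0 ≤ k) (hG : MonoSn G k) {h : _root_.Vale.Agent.P219.TP.E 2 → ℝ} (hh : ContDiff ℝ 1 h)
    (hc : HasCompactSupport h) (h0 : ∀ x, 0 ≤ h x) (x : _root_.Vale.Agent.P219.TP.E 2) :
    ENNReal.ofReal (2 * h x) * (volume : Measure (_root_.Vale.Agent.P219.TP.E 2)).toSphere univ +
        ENNReal.ofReal (k ^ 2) * ∫⁻ y, ENNReal.ofReal (min (h x) (h y)) ∂G.vol ≤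
      ∫⁻ v, Fp G k h (x, v) := by
  obtain ⟨L, hL⟩ := exists_lg_bound G hc x
  have hm : Measurable fun v : _root_.Vale.Agent.P219.TP.E 2 => Fp G k h (x, v) :=
    (measurable_Fp hh).comp (measurable_const.prodMk measurable_id)
  rw [polar (n := 2) (by norm_num) hm]
  have hmin : Measurable fun y => ENNReal.ofReal (min (h x) (h y)) :=
    (measurable_const.min hh.continuous.measurable).ennreal_ofReal
  have e1 : ENNReal.ofReal (2 * h x) * (volume : Measure (_root_.Vale.Agent.P219.TP.E 2)).toSphere univ =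
      ∫⁻ _u : sphere (0 : _root_.Vale.Agent.P219.TP.E 2) 1, ENNReal.ofReal (2 * h x)
        ∂((volume : Measure (_root_.Vale.Agent.P219.TP.E 2)).toSphere) := by
    rw [lintegral_const]
  rw [e1, polar_area G x hmin, ← lintegral_const_mul' _ _ ENNReal.ofReal_ne_top,
    ← lintegral_add_left measurable_const]
  refine lintegral_mono fun u => ?_
  have hu : ‖(u : _root_.Vale.Agent.P219.TP.E 2)‖ = 1 := by simp
  have hcg : ∫⁻ r in Ioi (0 : ℝ), ENNReal.ofReal (r ^ (2 - 1)) * Fp G k h (x, r • (u : _root_.Vale.Agent.P219.TP.E 2)) =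
      ∫⁻ r in Ioi (0 : ℝ), ENNReal.ofReal (rayF k (fun r => h (G.ex x (r • (u : _root_.Vale.Agent.P219.TP.E 2))))
        (fun r => inner ℝ (G.D h (G.ex x (r • (u : _root_.Vale.Agent.P219.TP.E 2)))) (G.V r x u)) (jJ G x u) r) :=
    setLIntegral_congr_fun measurableSet_Ioi fun r hr => Fp_ray x hu hr
  show _ ≤ ∫⁻ r in Ioi (0 : ℝ), ENNReal.ofReal (r ^ (2 - 1)) * Fp G k h (x, r • (u : _root_.Vale.Agent.P219.TP.E 2))
  rw [hcg]
  have hVc : Continuous fun r : ℝ => G.V r x (u : _root_.Vale.Agent.P219.TP.E 2) :=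
    G.V_smooth.continuous.comp (by fun_prop : Continuous fun r : ℝ => (r, x, (u : E 2)))
  have hexc : Continuous fun r : ℝ => G.ex x (r • (u : _root_.Vale.Agent.P219.TP.E 2)) :=
    G.ex_smooth.continuous.comp (continuous_const.prodMk (continuous_id.smul continuous_const))
  have hD : Continuous (G.D h) := PairGe.continuous_D G hh
  have hJ := jJ_contDiff G x (u : _root_.Vale.Agent.P219.TP.E 2)
  have h1 := ray_lint hk (f := fun r => h (G.ex x (r • (u : _root_.Vale.Agent.P219.TP.E 2))))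
    (f' := fun r => inner ℝ (G.D h (G.ex x (r • (u : _root_.Vale.Agent.P219.TP.E 2)))) (G.V r x u))
    (j := jJ G x u) (j' := deriv (jJ G x u)) (ρ := max L 0 + 1)
    (fun r => G.hasDerivAt_geod hh x u r) ((hD.comp hexc).inner hVc) (fun r => h0 _)
    (by positivity) (by
      intro r hr
      by_contra hne
      have h2 := hL _ (subset_tsupport h hne)
      rw [G.lg_ex, norm_smul, hu, mul_one, Real.norm_eq_abs] at h2
      have h3 := le_abs_self r
      have h4 := le_max_left L 0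
      linarith)
    (fun r => (hJ.differentiable one_ne_zero r).hasDerivAt) (hJ.continuous_deriv le_rfl)
    (jJ_zero G x u) (fun r hr => jJ_ge hk hG x hu hr) (fun r hr => jJ_deriv hk hG x hu hr)
  refine le_trans (le_of_eq ?_) h1
  simp only [zero_smul, G.ex_zero]
  congr 1
  rw [← lintegral_const_mul' _ _ ENNReal.ofReal_ne_top]
  refine setLIntegral_congr_fun measurableSet_Ioi fun r hr => ?_
  have hj0 : 0 ≤ jJ G x u r := (_root_.Vale.Agent.P219.TPH.sn_pos hk hr).le.trans (jJ_ge hk hG x hu hr)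
  rw [ENNReal.ofReal_mul (sq_nonneg k), ENNReal.ofReal_mul (le_min (h0 _) (h0 _)), mul_comm
    (ENNReal.ofReal (min _ _))]

end Vale.Agent.P219.N2
end

section

/-! # `n = 2`, equality case: the local deficit -/

open MeasureTheory Set Metric Filter Topology
open scoped ENNReal ContDiff

noncomputable section

namespace Vale.Agent.P219.N2

open Vale.Agent.P219.TP Vale.Agent.P219.TPH

/-- The weight. -/
def rW (G : Geo 2) (k : ℝ) (y v : _root_.Vale.Agent.P219.TP.E 2) : ℝ :=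
  k * (‖v‖ * (G.T y v).det) + 1 + Real.exp (-(k * ‖v‖))

/-- The positive part of the cosine. -/
def rs (N v : _root_.Vale.Agent.P219.TP.E 2) : ℝ := max 0 (inner ℝ N (‖v‖⁻¹ • v))

/-- The bracket. -/
def rB (k ct : ℝ) (N v : _root_.Vale.Agent.P219.TP.E 2) : ℝ := rs N v * (1 + _root_.Vale.Agent.P219.TPH.cs k ‖v‖) - ct * _root_.Vale.Agent.P219.TPH.sn k ‖v‖

/-- The deficit inside. -/
def rI (G : Geo 2) (k ct : ℝ) (N y v : _root_.Vale.Agent.P219.TP.E 2) : ℝ :=
  ct * (‖v‖ * (G.T y v).det) + max 0 (rB k ct N v) - rs N v * rW G k y v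

/-- The deficit. -/
def rD (G : Geo 2) (k ct : ℝ) (h : _root_.Vale.Agent.P219.TP.E 2 → ℝ) (N y v : _root_.Vale.Agent.P219.TP.E 2) : ℝ :=
  ‖v‖⁻¹ * (if h y < h (G.ex y v) then rI G k ct N y v else max 0 (rB k ct N v))

/-- The deficit at a point. -/
def rDD (G : Geo 2) (k ct : ℝ) (h : _root_.Vale.Agent.P219.TP.E 2 → ℝ) (N y : _root_.Vale.Agent.P219.TP.E 2) : ℝ≥0∞ :=
  ∫⁻ v, ENNReal.ofReal (rD G k ct h N y v)

variable {G : Geo 2} {k ct : ℝ}

theorem rs_nonneg (N v : _root_.Vale.Agent.P219.TP.E 2) : 0 ≤ rs N v := le_max_left _ _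

theorem rs_le {N : _root_.Vale.Agent.P219.TP.E 2} (hN : ‖N‖ = 1) (v : _root_.Vale.Agent.P219.TP.E 2) : rs N v ≤ 1 := by
  refine max_le zero_le_one ?_
  refine (real_inner_le_norm _ _).trans ?_
  rw [hN, one_mul, norm_smul, norm_inv, norm_norm]
  exact inv_mul_le_one

theorem rI_eq (N y v : _root_.Vale.Agent.P219.TP.E 2) : rI G k ct N y v =
    (ct - rs N v * k) * (‖v‖ * (G.T y v).det - _root_.Vale.Agent.P219.TPH.sn k ‖v‖) +
      (max 0 (rB k ct N v) - rB k ct N v) := by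
  have h := cs_sub_sn k ‖v‖
  unfold rI rW
  rw [← h]
  unfold rB
  ring

theorem jv_ge (hk : 0 ≤ k) (hG : MonoSn G k) (y : _root_.Vale.Agent.P219.TP.E 2) {v : _root_.Vale.Agent.P219.TP.E 2} (hv : v ≠ 0) :
    _root_.Vale.Agent.P219.TPH.sn k ‖v‖ ≤ ‖v‖ * (G.T y v).det := by
  have h := sn_le_JM (n := 2) (by norm_num) hk hG (x := y) hv
  rw [abs_of_pos (det_T_pos G y _)] at h
  simpa using h

theorem rI_nonneg (hk : 0 ≤ k) (hG : MonoSn G k) (hct : k ≤ ct) {N : _root_.Vale.Agent.P219.TP.E 2} (hN : ‖N‖ = 1)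
    (y : _root_.Vale.Agent.P219.TP.E 2) {v : _root_.Vale.Agent.P219.TP.E 2} (hv : v ≠ 0) : 0 ≤ rI G k ct N y v := by
  rw [rI_eq]
  have h1 := jv_ge hk hG y hv
  have h2 : rs N v * k ≤ 1 * k := mul_le_mul_of_nonneg_right (rs_le hN v) hk
  have h3 : rB k ct N v ≤ max 0 (rB k ct N v) := le_max_right _ _
  have h4 : 0 ≤ (ct - rs N v * k) * (‖v‖ * (G.T y v).det - _root_.Vale.Agent.P219.TPH.sn k ‖v‖) :=
    mul_nonneg (by linarith) (by linarith)
  linarith

theorem rW_nonneg (hk : 0 ≤ k) (y v : _root_.Vale.Agent.P219.TP.E 2) : 0 ≤ rW G k y v := by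
  have h1 := (det_T_pos G y v).le
  have h2 := (Real.exp_pos (-(k * ‖v‖))).le
  unfold rW
  positivity

/-! ### Measurability -/

theorem rmeas_rs (N : _root_.Vale.Agent.P219.TP.E 2) : Measurable (rs N) := by
  unfold rs
  exact measurable_const.max (measurable_const.inner (measurable_norm.inv.smul measurable_id))

theorem rmeas_rB (N : _root_.Vale.Agent.P219.TP.E 2) : Measurable (rB k ct N) := by
  unfold rB
  have h1 : Continuous fun v : _root_.Vale.Agent.P219.TP.E 2 => 1 + _root_.Vale.Agent.P219.TPH.cs k ‖v‖ :=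
    continuous_const.add ((contDiff_cs k).continuous.comp continuous_norm)
  have h2 : Continuous fun v : _root_.Vale.Agent.P219.TP.E 2 => ct * _root_.Vale.Agent.P219.TPH.sn k ‖v‖ :=
    continuous_const.mul ((contDiff_sn k).continuous.comp continuous_norm)
  exact ((rmeas_rs N).mul h1.measurable).sub h2.measurable

theorem rcont_det (y : _root_.Vale.Agent.P219.TP.E 2) : Continuous fun v : _root_.Vale.Agent.P219.TP.E 2 => (G.T y v).det :=
  (detExp_smooth G).continuous.comp (continuous_const.prodMk continuous_id)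

theorem rcont_ex (y : _root_.Vale.Agent.P219.TP.E 2) : Continuous fun v : _root_.Vale.Agent.P219.TP.E 2 => G.ex y v :=
  G.ex_smooth.continuous.comp (continuous_const.prodMk continuous_id)

theorem rmeas_rW (y : _root_.Vale.Agent.P219.TP.E 2) : Measurable (rW G k y) := by
  unfold rW
  have h := rcont_det (G := G) y
  exact (by fun_prop : Continuous fun v : E 2 =>
    k * (‖v‖ * (G.T y v).det) + 1 + Real.exp (-(k * ‖v‖))).measurable

theorem rmeas_rI (N y : _root_.Vale.Agent.P219.TP.E 2) : Measurable (rI G k ct N y) := by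
  unfold rI
  have h := rcont_det (G := G) y
  have h1 : Measurable fun v : _root_.Vale.Agent.P219.TP.E 2 => ct * (‖v‖ * (G.T y v).det) :=
    (by fun_prop : Continuous fun v : E 2 => ct * (‖v‖ * (G.T y v).det)).measurable
  exact (h1.add (measurable_const.max (rmeas_rB N))).sub ((rmeas_rs N).mul (rmeas_rW y))

theorem rmeas_set {h : _root_.Vale.Agent.P219.TP.E 2 → ℝ} (hh : Continuous h) (y : _root_.Vale.Agent.P219.TP.E 2) :
    MeasurableSet {v | h y < h (G.ex y v)} :=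
  (isOpen_lt continuous_const (hh.comp (rcont_ex y))).measurableSet

theorem rmeas_rD {h : _root_.Vale.Agent.P219.TP.E 2 → ℝ} (hh : Continuous h) (N y : _root_.Vale.Agent.P219.TP.E 2) : Measurable (rD G k ct h N y) := by
  unfold rD
  exact measurable_norm.inv.mul (Measurable.ite (rmeas_set hh y) (rmeas_rI N y)
    (measurable_const.max (rmeas_rB N)))

/-! ### The pointwise upper bound -/

theorem rD_add (hk : 0 ≤ k) (hG : MonoSn G k) (hct : k ≤ ct) {h : _root_.Vale.Agent.P219.TP.E 2 → ℝ} {N : _root_.Vale.Agent.P219.TP.E 2}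
    (hN : ‖N‖ = 1) (y : _root_.Vale.Agent.P219.TP.E 2) {v : _root_.Vale.Agent.P219.TP.E 2} (hv : v ≠ 0) :
    ENNReal.ofReal (rD G k ct h N y v) +
        ENNReal.ofReal (if h y < h (G.ex y v) then ‖v‖⁻¹ * (rs N v * rW G k y v) else 0) =
      ENNReal.ofReal ct * (ENNReal.ofReal |(G.T y v).det| *
        {x | h y < h x}.indicator 1 (G.ex y v)) +
        ENNReal.ofReal (‖v‖⁻¹ * max 0 (rB k ct N v)) := by
  have hv0 : 0 < ‖v‖ := norm_pos_iff.2 hv
  have hct0 : 0 ≤ ct := hk.trans hct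
  have hI := rI_nonneg hk hG hct hN y hv
  have hW := rW_nonneg (G := G) hk y v
  have hs := rs_nonneg N v
  have hB : 0 ≤ max 0 (rB k ct N v) := le_max_left _ _
  have hdet := (det_T_pos G y v).le
  unfold rD
  by_cases hlt : h y < h (G.ex y v)
  · have hmem : G.ex y v ∈ {x | h y < h x} := hlt
    rw [if_pos hlt, if_pos hlt, indicator_of_mem hmem, Pi.one_apply, mul_one,
      ← ENNReal.ofReal_add (by positivity) (by (clear * - hv hs hW; positivity)), ← ENNReal.ofReal_mul hct0,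
      ← ENNReal.ofReal_add (by positivity) (by positivity), abs_of_nonneg hdet]
    congr 1
    unfold rI
    field_simp
    ring
  · have hmem : G.ex y v ∉ {x | h y < h x} := hlt
    rw [if_neg hlt, if_neg hlt, indicator_of_notMem hmem, mul_zero, mul_zero, zero_add,
      ENNReal.ofReal_zero, add_zero]

/-- The integral of the weight, at one point. -/
theorem rDD_add (hk : 0 ≤ k) (hG : MonoSn G k) (hct : k ≤ ct) {h : _root_.Vale.Agent.P219.TP.E 2 → ℝ}
    (hh : ContDiff ℝ 1 h) {CC : ℝ}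
    (hCC : ∀ N : _root_.Vale.Agent.P219.TP.E 2, ‖N‖ = 1 →
      ∫⁻ v, ENNReal.ofReal (‖v‖⁻¹ * max 0 (rB k ct N v)) ≤ ENNReal.ofReal CC)
    {N : _root_.Vale.Agent.P219.TP.E 2 → _root_.Vale.Agent.P219.TP.E 2} (hN : ∀ y, G.D h y = ‖G.D h y‖ • N y) (h0 : ∀ x, 0 ≤ h x) (y : _root_.Vale.Agent.P219.TP.E 2) :
    ‖G.D h y‖ₑ * rDD G k ct h (N y) y + ∫⁻ v, Fq G k h (y, v) ≤
      ‖G.D h y‖ₑ * (ENNReal.ofReal ct * G.vol {x | 0 < h x} + ENNReal.ofReal CC) := by
  by_cases hy : G.D h y = 0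
  · have hF : ∀ v, Fq G k h (y, v) = 0 := by
      intro v
      unfold Fq
      simp only [hy, inner_zero_left, max_self, zero_mul, mul_zero, ite_self,
        ENNReal.ofReal_zero]
    simp only [hF, hy, enorm_zero, zero_mul, lintegral_zero, add_zero, le_refl]
  have hy0 : 0 < ‖G.D h y‖ := norm_pos_iff.2 hy
  have hN1 : ‖N y‖ = 1 := by
    have h1 := congrArg norm (hN y)
    rw [norm_smul, norm_norm] at h1
    have h2 : ‖G.D h y‖ * ‖N y‖ = ‖G.D h y‖ * 1 := by rw [← h1, mul_one]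
    exact mul_left_cancel₀ hy0.ne' h2
  have hF : ∀ v, Fq G k h (y, v) = ‖G.D h y‖ₑ *
      ENNReal.ofReal (if h y < h (G.ex y v) then ‖v‖⁻¹ * (rs (N y) v * rW G k y v) else 0) := by
    intro v
    have e1 : max 0 (inner ℝ (G.D h y) (‖v‖⁻¹ • v)) = ‖G.D h y‖ * rs (N y) v := by
      rw [hN y, real_inner_smul_left, norm_smul, norm_norm, hN1, mul_one]
      unfold rs
      rw [mul_max_of_nonneg _ _ (norm_nonneg _), mul_zero]
    unfold Fq
    simp only [e1]
    rw [← ofReal_norm, ← ENNReal.ofReal_mul (norm_nonneg _)]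
    congr 1
    split_ifs
    · unfold rW
      ring
    · rw [mul_zero]
  simp only [hF]
  have hm : Measurable fun v => ENNReal.ofReal
      (if h y < h (G.ex y v) then ‖v‖⁻¹ * (rs (N y) v * rW G k y v) else 0) :=
    (Measurable.ite (rmeas_set hh.continuous y) (measurable_norm.inv.mul
      ((rmeas_rs _).mul (rmeas_rW y))) measurable_const).ennreal_ofReal
  rw [lintegral_const_mul _ hm, ← mul_add]
  refine mul_le_mul_right ?_ _
  unfold rDD
  rw [← lintegral_add_right _ hm]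
  have hae : ∀ᵐ v : _root_.Vale.Agent.P219.TP.E 2, v ≠ 0 := by
    rw [ae_iff]
    simp only [ne_eq, not_not]
    exact measure_singleton (0 : _root_.Vale.Agent.P219.TP.E 2)
  have hcg : ∫⁻ v, (ENNReal.ofReal (rD G k ct h (N y) y v) +
        ENNReal.ofReal (if h y < h (G.ex y v) then ‖v‖⁻¹ * (rs (N y) v * rW G k y v) else 0)) =
      ∫⁻ v, (ENNReal.ofReal ct * (ENNReal.ofReal |(G.T y v).det| *
        {x | h y < h x}.indicator 1 (G.ex y v)) +
        ENNReal.ofReal (‖v‖⁻¹ * max 0 (rB k ct (N y) v))) := by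
    refine lintegral_congr_ae ?_
    filter_upwards [hae] with v hv
    exact rD_add hk hG hct hN1 y hv
  rw [hcg]
  have hset : MeasurableSet {x | h y < h x} :=
    (isOpen_lt continuous_const hh.continuous).measurableSet
  have hm2 : Measurable fun v => ENNReal.ofReal (‖v‖⁻¹ * max 0 (rB k ct (N y) v)) :=
    (measurable_norm.inv.mul (measurable_const.max (rmeas_rB _))).ennreal_ofReal
  rw [lintegral_add_right _ hm2]
  refine add_le_add ?_ (hCC _ hN1)
  rw [lintegral_const_mul' _ _ ENNReal.ofReal_ne_top,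
    ← G.lintegral_vol_ex y (measurable_one.indicator hset), lintegral_indicator_one hset]
  exact mul_le_mul_right (measure_mono fun x hx => (h0 y).trans_lt hx) _

end Vale.Agent.P219.N2
end
end

section

/-! # `n = 2`, equality case: the total deficit -/

open MeasureTheory Set Metric Filter Topology
open scoped ENNReal ContDiff

noncomputable section

namespace Vale.Agent.P219.N2

open Vale.Agent.P219.TP Vale.Agent.P219.TPH

variable {G : Geo 2} {k ct : ℝ}

theorem rs_finite {h : _root_.Vale.Agent.P219.TP.E 2 → ℝ} (hc : HasCompactSupport h) : G.vol {x | 0 < h x} ≠ ⊤ := by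
  refine ne_top_of_le_ne_top (G.vol_compact_lt_top hc.isCompact).ne (measure_mono fun x hx => ?_)
  exact subset_tsupport h (ne_of_gt (show 0 < h x from hx))

theorem rs_finite1 {h : _root_.Vale.Agent.P219.TP.E 2 → ℝ} (hc : HasCompactSupport h) : G.vol {x | h x = 1} ≠ ⊤ := by
  refine ne_top_of_le_ne_top (rs_finite (G := G) hc) (measure_mono fun x hx => ?_)
  have : h x = 1 := hx
  show 0 < h x
  rw [this]
  exact one_pos

/-- The lower bound of the pair integral. -/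
theorem rpair_lower (hk : 0 ≤ k) (hG : MonoSn G k) {h : _root_.Vale.Agent.P219.TP.E 2 → ℝ} (hh : ContDiff ℝ 1 h)
    (hc : HasCompactSupport h) (h0 : ∀ x, 0 ≤ h x) :
    ENNReal.ofReal (2 * sig 2 * V1 G h + k ^ 2 * V1 G h ^ 2) ≤
      ∫⁻ x, ∫⁻ v, Fq G k h (x, v) ∂volume ∂G.vol := by
  rw [← Fp_eq_Fq hh]
  have hm1 : MeasurableSet {x | h x = 1} :=
    (isClosed_eq hh.continuous continuous_const).measurableSet
  have hfin := rs_finite1 (G := G) hc
  have hV : G.vol {x | h x = 1} = ENNReal.ofReal (V1 G h) := by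
    unfold V1
    rw [ofReal_measureReal hfin]
  have hV0 : 0 ≤ V1 G h := measureReal_nonneg
  have hsig : (volume : Measure (_root_.Vale.Agent.P219.TP.E 2)).toSphere univ = ENNReal.ofReal (sig 2) := by
    unfold sig
    rw [ofReal_measureReal]
  have hsig0 : 0 ≤ sig 2 := measureReal_nonneg
  have hlow : ∀ x ∈ {x | h x = 1}, ENNReal.ofReal (2 * sig 2 + k ^ 2 * V1 G h) ≤
      ∫⁻ v, Fp G k h (x, v) := by
    intro x hx
    have hx1 : h x = 1 := hx
    refine le_trans ?_ (pair_lower hk hG hh hc h0 x)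
    rw [ENNReal.ofReal_add (by positivity) (by positivity), ENNReal.ofReal_mul (by norm_num),
      hx1, mul_one, hsig, ENNReal.ofReal_mul (sq_nonneg k)]
    refine add_le_add le_rfl ?_
    refine mul_le_mul_right ?_ _
    rw [← hV, ← lintegral_indicator_one hm1]
    refine lintegral_mono fun y => ?_
    by_cases hy : y ∈ {x | h x = 1}
    · have hy1 : h y = 1 := hy
      rw [indicator_of_mem hy, hy1]
      simp
    · rw [indicator_of_notMem hy]
      exact bot_le
  calc ENNReal.ofReal (2 * sig 2 * V1 G h + k ^ 2 * V1 G h ^ 2)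
      = ENNReal.ofReal (2 * sig 2 + k ^ 2 * V1 G h) * G.vol {x | h x = 1} := by
        rw [hV, ← ENNReal.ofReal_mul (by (clear * - hsig0 hV0; positivity))]
        congr 1
        ring
    _ = ∫⁻ _x in {x | h x = 1}, ENNReal.ofReal (2 * sig 2 + k ^ 2 * V1 G h) ∂G.vol := by
        rw [setLIntegral_const]
    _ ≤ ∫⁻ x in {x | h x = 1}, ∫⁻ v, Fp G k h (x, v) ∂volume ∂G.vol :=
        setLIntegral_mono' hm1 hlow
    _ ≤ _ := setLIntegral_le_lintegral _ _

/-- The total deficit. -/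
theorem rtotal (hk : 0 ≤ k) (hG : MonoSn G k) (hct : k ≤ ct) {h : _root_.Vale.Agent.P219.TP.E 2 → ℝ}
    (hh : ContDiff ℝ 1 h) (hc : HasCompactSupport h) {CC : ℝ} (hCC0 : 0 ≤ CC)
    (hCC : ∀ N : _root_.Vale.Agent.P219.TP.E 2, ‖N‖ = 1 →
      ∫⁻ v, ENNReal.ofReal (‖v‖⁻¹ * max 0 (rB k ct N v)) ≤ ENNReal.ofReal CC)
    {N : _root_.Vale.Agent.P219.TP.E 2 → _root_.Vale.Agent.P219.TP.E 2} (hN : ∀ y, G.D h y = ‖G.D h y‖ • N y) (h0 : ∀ x, 0 ≤ h x) :
    ∫⁻ y, ‖G.D h y‖ₑ * rDD G k ct h (N y) y ∂G.vol +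
        ENNReal.ofReal (2 * sig 2 * V1 G h + k ^ 2 * V1 G h ^ 2) ≤
      ENNReal.ofReal (G.per h * (ct * G.vol.real {x | 0 < h x} + CC)) := by
  have hct0 : 0 ≤ ct := hk.trans hct
  have hD : Continuous (G.D h) := PairGe.continuous_D G hh
  have hDc : HasCompactSupport fun x => G.D h x := by
    refine (hc.fderiv (𝕜 := ℝ)).mono' ?_
    intro x hx
    refine subset_tsupport _ ?_
    rw [Function.mem_support] at hx ⊢
    intro h0
    apply hx
    unfold TP.Geo.D
    rw [h0, ContinuousLinearMap.zero_comp, map_zero]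
  have hDi : Integrable (fun x => G.D h x) G.vol := hD.integrable_of_hasCompactSupport hDc
  have hper0 : 0 ≤ G.per h := integral_nonneg fun x => norm_nonneg _
  calc ∫⁻ y, ‖G.D h y‖ₑ * rDD G k ct h (N y) y ∂G.vol +
        ENNReal.ofReal (2 * sig 2 * V1 G h + k ^ 2 * V1 G h ^ 2)
      ≤ ∫⁻ y, ‖G.D h y‖ₑ * rDD G k ct h (N y) y ∂G.vol +
          ∫⁻ x, ∫⁻ v, Fq G k h (x, v) ∂volume ∂G.vol :=
        add_le_add le_rfl (rpair_lower hk hG hh hc h0)
    _ ≤ ∫⁻ y, (‖G.D h y‖ₑ * rDD G k ct h (N y) y + ∫⁻ v, Fq G k h (y, v)) ∂G.vol :=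
        le_lintegral_add _ _
    _ ≤ ∫⁻ y, ‖G.D h y‖ₑ * (ENNReal.ofReal ct * G.vol {x | 0 < h x} +
          ENNReal.ofReal CC) ∂G.vol :=
        lintegral_mono fun y => rDD_add hk hG hct hh hCC hN h0 y
    _ = _ := by
        rw [lintegral_mul_const _ hD.enorm.measurable, ENNReal.ofReal_mul hper0]
        have e1 : ∫⁻ y, ‖G.D h y‖ₑ ∂G.vol = ENNReal.ofReal (G.per h) := by
          unfold TP.Geo.per
          rw [ofReal_integral_norm_eq_lintegral_enorm hDi]
        have e2 : G.vol {x | 0 < h x} = ENNReal.ofReal (G.vol.real {x | 0 < h x}) := by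
          rw [ofReal_measureReal (rs_finite hc)]
        rw [e1, e2, ← ENNReal.ofReal_mul hct0, ← ENNReal.ofReal_add (by positivity) hCC0]

theorem r_v0_le {h : _root_.Vale.Agent.P219.TP.E 2 → ℝ} (hc : HasCompactSupport h)
    (h1 : ∀ x, h x ≤ 1) :
    G.vol.real {x | 0 < h x} ≤ V1 G h + G.vol.real {x | 0 < h x ∧ h x < 1} := by
  have hsub : {x | 0 < h x} ⊆ {x | h x = 1} ∪ {x | 0 < h x ∧ h x < 1} := by
    intro x hx
    rcases (h1 x).lt_or_eq with h2 | h2
    · right; exact ⟨hx, h2⟩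
    · left; exact h2
  have hf : G.vol ({x | h x = 1} ∪ {x | 0 < h x ∧ h x < 1}) ≠ ⊤ := by
    refine (measure_union_lt_top (rs_finite1 hc).lt_top ?_).ne
    exact (measure_mono fun x hx => hx.1).trans_lt (rs_finite hc).lt_top
  exact (measureReal_mono hsub hf).trans (measureReal_union_le _ _)

/-- The total deficit of a minimising sequence tends to `0`. -/
theorem rtotal_tendsto (hk : 0 ≤ k) (hG : MonoSn G k) (hct : k ≤ ct) {CC : ℝ} (hCC0 : 0 ≤ CC)
    (hCC : ∀ N : _root_.Vale.Agent.P219.TP.E 2, ‖N‖ = 1 →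
      ∫⁻ v, ENNReal.ofReal (‖v‖⁻¹ * max 0 (rB k ct N v)) ≤ ENNReal.ofReal CC)
    {A V : ℝ} (hA : 0 ≤ A) (hV : 0 ≤ V)
    (halg : A * (ct * V + CC) ≤ 2 * sig 2 * V + k ^ 2 * V ^ 2)
    {h : ℕ → _root_.Vale.Agent.P219.TP.E 2 → ℝ} (hh : ∀ j, ContDiff ℝ 1 (h j)) (hc : ∀ j, HasCompactSupport (h j))
    (h0 : ∀ j x, 0 ≤ h j x) (h1 : ∀ j x, h j x ≤ 1)
    {N : _root_.Vale.Agent.P219.TP.E 2 → _root_.Vale.Agent.P219.TP.E 2} (hN : ∀ j y, G.D (h j) y = ‖G.D (h j) y‖ • N y)
    (hper : ∀ δ > 0, ∀ᶠ j in atTop, G.per (h j) ≤ A + δ)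
    (hV1 : Tendsto (fun j => V1 G (h j)) atTop (𝓝 V))
    (hlay : Tendsto (fun j => G.vol.real {x | 0 < h j x ∧ h j x < 1}) atTop (𝓝 0)) :
    ∀ δ > 0, ∀ᶠ j in atTop,
      ∫⁻ y, ‖G.D (h j) y‖ₑ * rDD G k ct (h j) (N y) y ∂G.vol ≤ ENNReal.ofReal δ := by
  intro δ hδ
  have hct0 : 0 ≤ ct := hk.trans hct
  have hB : 0 ≤ ct * V + CC := by positivity
  set η : ℝ := δ / (2 * (ct * V + CC + 1)) with hη
  have hη0 : 0 < η := by positivity
  have hlim : Tendsto (fun j => (A + η) * (ct * (V1 G (h j) +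
      G.vol.real {x | 0 < h j x ∧ h j x < 1}) + CC) -
      (2 * sig 2 * V1 G (h j) + k ^ 2 * V1 G (h j) ^ 2)) atTop
      (𝓝 ((A + η) * (ct * (V + 0) + CC) - (2 * sig 2 * V + k ^ 2 * V ^ 2))) :=
    ((((hV1.add hlay).const_mul ct).add_const CC).const_mul (A + η)).sub
      ((hV1.const_mul (2 * sig 2)).add ((hV1.pow 2).const_mul (k ^ 2)))
  have hval : (A + η) * (ct * (V + 0) + CC) - (2 * sig 2 * V + k ^ 2 * V ^ 2) < δ := by
    have e1 : η * (ct * V + CC) < δ := by
      rw [hη, div_mul_eq_mul_div, div_lt_iff₀ (by positivity)]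
      have : 0 ≤ δ * (ct * V + CC) := by (clear * - hδ hct0 hV hCC0; positivity)
      linarith only [this, hδ]
    rw [add_zero]
    linarith only [e1, halg]
  filter_upwards [hper η hη0, hlim.eventually (gt_mem_nhds hval)] with j hj1 hj2
  have ht := rtotal hk hG hct (hh j) (hc j) hCC0 hCC (hN j) (h0 j)
  have hsig0 : 0 ≤ sig 2 := measureReal_nonneg
  have hV10 : 0 ≤ V1 G (h j) := measureReal_nonneg
  have hb0 : 0 ≤ 2 * sig 2 * V1 G (h j) + k ^ 2 * V1 G (h j) ^ 2 := by (clear * - hsig0 hV10; positivity)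
  have h3 := ENNReal.le_sub_of_add_le_right ENNReal.ofReal_ne_top ht
  rw [← ENNReal.ofReal_sub _ hb0] at h3
  refine h3.trans (ENNReal.ofReal_le_ofReal ?_)
  have h4 := r_v0_le (G := G) (hc j) (h1 j)
  have h5 : G.per (h j) * (ct * G.vol.real {x | 0 < h j x} + CC) ≤
      (A + η) * (ct * (V1 G (h j) + G.vol.real {x | 0 < h j x ∧ h j x < 1}) + CC) := by
    refine mul_le_mul hj1 ?_ ?_ (by (clear * - hA hδ hct0 hV hCC0; positivity))
    · have := mul_le_mul_of_nonneg_left h4 hct0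
      linarith only [this]
    · have : 0 ≤ G.vol.real {x | 0 < h j x} := measureReal_nonneg
      (clear * - hct0 hCC0; positivity)
  linarith only [h5, hj2]

/-- A point near `p` with small deficit. -/
theorem rselect {h : ℕ → _root_.Vale.Agent.P219.TP.E 2 → ℝ} (hh : ∀ j, ContDiff ℝ 1 (h j))
    (hc : ∀ j, HasCompactSupport (h j)) {N : _root_.Vale.Agent.P219.TP.E 2 → _root_.Vale.Agent.P219.TP.E 2}
    (htot : ∀ δ > 0, ∀ᶠ j in atTop,
      ∫⁻ y, ‖G.D (h j) y‖ₑ * rDD G k ct (h j) (N y) y ∂G.vol ≤ ENNReal.ofReal δ)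
    {U : Set (_root_.Vale.Agent.P219.TP.E 2)} (hU : MeasurableSet U) {c : ℝ} (hc0 : 0 < c)
    (hlow : ∀ᶠ j in atTop, c ≤ ∫ y in U, ‖G.D (h j) y‖ ∂G.vol) {ε : ℝ} (hε : 0 < ε) (J : ℕ) :
    ∃ j, J ≤ j ∧ ∃ y ∈ U, G.D (h j) y ≠ 0 ∧ rDD G k ct (h j) (N y) y ≤ ENNReal.ofReal ε := by
  by_contra hcon
  push Not at hcon
  have hcε : 0 < c * ε / 2 := by positivity
  obtain ⟨j, hj1, hj2, hj3⟩ := ((htot _ hcε).and (hlow.and (eventually_ge_atTop J))).exists
  have hD : Continuous (G.D (h j)) := PairGe.continuous_D G (hh j)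
  have hDc : HasCompactSupport fun x => G.D (h j) x := by
    refine ((hc j).fderiv (𝕜 := ℝ)).mono' ?_
    intro x hx
    refine subset_tsupport _ ?_
    rw [Function.mem_support] at hx ⊢
    intro h0
    apply hx
    unfold TP.Geo.D
    rw [h0, ContinuousLinearMap.zero_comp, map_zero]
  have hDi : Integrable (fun x => G.D (h j) x) G.vol := hD.integrable_of_hasCompactSupport hDc
  have e1 : ∫⁻ y in U, ‖G.D (h j) y‖ₑ ∂G.vol =
      ENNReal.ofReal (∫ y in U, ‖G.D (h j) y‖ ∂G.vol) :=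
    (ofReal_integral_norm_eq_lintegral_enorm hDi.integrableOn).symm
  have h2 : ENNReal.ofReal (c * ε) ≤
      ∫⁻ y, ‖G.D (h j) y‖ₑ * rDD G k ct (h j) (N y) y ∂G.vol := by
    calc ENNReal.ofReal (c * ε) = ENNReal.ofReal c * ENNReal.ofReal ε :=
          ENNReal.ofReal_mul hc0.le
      _ ≤ (∫⁻ y in U, ‖G.D (h j) y‖ₑ ∂G.vol) * ENNReal.ofReal ε := by
          rw [e1]
          exact mul_le_mul_left (ENNReal.ofReal_le_ofReal hj2) _
      _ = ∫⁻ y in U, ‖G.D (h j) y‖ₑ * ENNReal.ofReal ε ∂G.vol :=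
          (lintegral_mul_const _ hD.enorm.measurable).symm
      _ ≤ ∫⁻ y in U, ‖G.D (h j) y‖ₑ * rDD G k ct (h j) (N y) y ∂G.vol := by
          refine setLIntegral_mono' hU fun y hy => ?_
          by_cases hy0 : G.D (h j) y = 0
          · rw [hy0, enorm_zero, zero_mul]
            exact bot_le
          · exact mul_le_mul_right (hcon j hj3 y hy hy0).le _
      _ ≤ _ := setLIntegral_le_lintegral _ _
  have h3 := h2.trans hj1
  rw [ENNReal.ofReal_le_ofReal_iff hcε.le] at h3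
  linarith only [h3, hcε]

end Vale.Agent.P219.N2
end
end

section

/-! # A set whose boundary consists of model chords is a ball -/

open MeasureTheory Set Metric Filter Topology
open scoped ENNReal ContDiff

namespace Vale.Agent.P219.TPH

open Vale.Agent.P219.TP

variable {n : ℕ} (G : Geo n)

section aux

variable {N : _root_.Vale.Agent.P219.TP.E n} {R : ℝ}

theorem eqb_sinh_cosh_lt {a b : ℝ} (h : a < b) :
    Real.sinh a * Real.cosh b < Real.sinh b * Real.cosh a := by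
  have h1 : 0 < Real.sinh (b - a) := Real.sinh_pos_iff.2 (sub_pos.2 h)
  rw [Real.sinh_sub] at h1
  linarith

theorem eqb_sinh_cosh_le {a b : ℝ} (h : a ≤ b) :
    Real.sinh a * Real.cosh b ≤ Real.sinh b * Real.cosh a := by
  have h1 : 0 ≤ Real.sinh (b - a) := Real.sinh_nonneg_iff.2 (sub_nonneg.2 h)
  rw [Real.sinh_sub] at h1
  linarith

/-- A smaller norm with the same component along `N`. -/
theorem eqb_mem_of_norm_le {v v' : _root_.Vale.Agent.P219.TP.E n} (hv : v ∈ regH N R) (hn : ‖v'‖ ≤ ‖v‖)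
    (hi : (inner ℝ v' N : ℝ) = inner ℝ v N) : v' ∈ regH N R := by
  have hv' : Real.sinh (‖v‖ / 2) * Real.cosh R * ‖v‖ <
    inner ℝ v N * (Real.cosh (‖v‖ / 2) * Real.sinh R) := hv
  have hC := Real.cosh_pos R
  have hc := Real.cosh_pos (‖v‖ / 2)
  have hc' := Real.cosh_pos (‖v'‖ / 2)
  have hs' : 0 ≤ Real.sinh (‖v'‖ / 2) := Real.sinh_nonneg_iff.2 (by positivity)
  have hs : 0 ≤ Real.sinh (‖v‖ / 2) := Real.sinh_nonneg_iff.2 (by positivity)
  have h1 : Real.sinh (‖v'‖ / 2) * Real.cosh (‖v‖ / 2) ≤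
      Real.sinh (‖v‖ / 2) * Real.cosh (‖v'‖ / 2) := eqb_sinh_cosh_le (by linarith only [hn])
  have h2 : Real.sinh (‖v'‖ / 2) * Real.cosh (‖v‖ / 2) * ‖v'‖ ≤
      Real.sinh (‖v‖ / 2) * Real.cosh (‖v'‖ / 2) * ‖v‖ :=
    mul_le_mul h1 hn (norm_nonneg _) (mul_nonneg hs hc'.le)
  have h3 : Real.cosh (‖v‖ / 2) * (Real.sinh (‖v'‖ / 2) * Real.cosh R * ‖v'‖) <
      Real.cosh (‖v‖ / 2) * (inner ℝ v' N * (Real.cosh (‖v'‖ / 2) * Real.sinh R)) := by
    calc Real.cosh (‖v‖ / 2) * (Real.sinh (‖v'‖ / 2) * Real.cosh R * ‖v'‖)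
        = Real.cosh R * (Real.sinh (‖v'‖ / 2) * Real.cosh (‖v‖ / 2) * ‖v'‖) := by ring
      _ ≤ Real.cosh R * (Real.sinh (‖v‖ / 2) * Real.cosh (‖v'‖ / 2) * ‖v‖) :=
        mul_le_mul_of_nonneg_left h2 hC.le
      _ = Real.cosh (‖v'‖ / 2) * (Real.sinh (‖v‖ / 2) * Real.cosh R * ‖v‖) := by ring
      _ < Real.cosh (‖v'‖ / 2) * (inner ℝ v N * (Real.cosh (‖v‖ / 2) * Real.sinh R)) :=
        mul_lt_mul_of_pos_left hv' hc'
      _ = _ := by rw [hi]; ring
  exact lt_of_mul_lt_mul_left h3 hc.le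

theorem eqb_smul_iff (hR : 0 < R) (hN : ‖N‖ = 1) (a : ℝ) :
    a • N ∈ regH N R ↔ 0 < a ∧ a < 2 * R := by
  have hsR : 0 < Real.sinh R := Real.sinh_pos_iff.2 hR
  have hi : (inner ℝ (a • N) N : ℝ) = a := by
    rw [inner_smul_left, real_inner_self_eq_norm_sq, hN]; simp
  have hn : ‖a • N‖ = |a| := by rw [norm_smul, hN, mul_one, Real.norm_eq_abs]
  have h0 : a • N ∈ regH N R ↔ Real.sinh (|a| / 2) * Real.cosh R * |a| <
      a * (Real.cosh (|a| / 2) * Real.sinh R) := by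
    show Real.sinh (‖a • N‖ / 2) * Real.cosh R * ‖a • N‖ <
      inner ℝ (a • N) N * (Real.cosh (‖a • N‖ / 2) * Real.sinh R) ↔ _
    rw [hi, hn]
  rw [h0]
  have hpos : 0 < Real.cosh (|a| / 2) * Real.sinh R := mul_pos (Real.cosh_pos _) hsR
  have key : 0 < a → (Real.sinh (|a| / 2) * Real.cosh R * |a| <
      a * (Real.cosh (|a| / 2) * Real.sinh R) ↔ a < 2 * R) := by
    intro ha
    rw [abs_of_pos ha]
    constructor
    · intro h
      by_contra hcon
      have h1 := eqb_sinh_cosh_le (a := R) (b := a / 2) (by linarith only [not_lt.1 hcon])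
      linarith only [h, mul_nonneg (le_of_lt (sub_pos.2 ha)) (sub_nonneg.2 h1)]
    · intro h
      have h1 := eqb_sinh_cosh_lt (a := a / 2) (b := R) (by linarith)
      linarith only [mul_pos (sub_pos.2 ha) (sub_pos.2 h1)]
  constructor
  · intro h
    have ha : 0 < a := by
      have h1 : 0 ≤ Real.sinh (|a| / 2) * Real.cosh R * |a| := by
        have : 0 ≤ Real.sinh (|a| / 2) := Real.sinh_nonneg_iff.2 (by positivity)
        have := Real.cosh_pos R
        (clear * -; positivity)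
      by_contra hcon
      have h2 : a * (Real.cosh (|a| / 2) * Real.sinh R) ≤ 0 :=
        mul_nonpos_of_nonpos_of_nonneg (not_lt.1 hcon) hpos.le
      linarith
    exact ⟨ha, (key ha).1 h⟩
  · rintro ⟨ha, h⟩
    exact (key ha).2 h

theorem eqb_preconnected (hR : 0 < R) (hN : ‖N‖ = 1) : IsPreconnected (regH N R) := by
  have hNN : (inner ℝ N N : ℝ) = 1 := by rw [real_inner_self_eq_norm_sq, hN]; norm_num
  refine isPreconnected_of_forall (R • N) fun v hv => ?_
  set c : ℝ := inner ℝ v N with hc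
  have hcv : |c| ≤ ‖v‖ := by
    have := abs_real_inner_le_norm v N
    rwa [hN, mul_one] at this
  have hcn : ‖c • N‖ ≤ ‖v‖ := by rwa [norm_smul, hN, mul_one, Real.norm_eq_abs]
  have hci : (inner ℝ (c • N) N : ℝ) = c := by
    rw [inner_smul_left, hNN]; simp
  have h1 : c • N ∈ regH N R := eqb_mem_of_norm_le hv hcn hci
  have h2 := (eqb_smul_iff hR hN c).1 h1
  have hseg1 : segment ℝ v (c • N) ⊆ regH N R := by
    rintro _ ⟨a, b, ha, hb, hab, rfl⟩
    refine eqb_mem_of_norm_le hv ?_ ?_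
    · calc ‖a • v + b • c • N‖ ≤ ‖a • v‖ + ‖b • c • N‖ := norm_add_le _ _
        _ = a * ‖v‖ + b * ‖c • N‖ := by
          rw [norm_smul, norm_smul b, Real.norm_of_nonneg ha, Real.norm_of_nonneg hb]
        _ ≤ a * ‖v‖ + b * ‖v‖ := by gcongr
        _ = ‖v‖ := by rw [← add_mul, hab, one_mul]
    · rw [inner_add_left, inner_smul_left, inner_smul_left, hci, ← hc]
      simp only [conj_trivial]
      rw [← add_mul, hab, one_mul]
  have hseg2 : segment ℝ (c • N) (R • N) ⊆ regH N R := by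
    rintro _ ⟨a, b, ha, hb, hab, rfl⟩
    rw [smul_smul, smul_smul, ← add_smul, eqb_smul_iff hR hN]
    have hb' : b = 1 - a := by linarith
    have ha1 : a ≤ 1 := by linarith
    subst hb'
    constructor
    · rcases ha.lt_or_eq with h | h
      · have := mul_pos h h2.1
        have := mul_nonneg hb hR.le
        linarith
      · rw [← h]; simpa using hR
    · rcases ha.lt_or_eq with h | h
      · have := mul_lt_mul_of_pos_left h2.2 h
        (by_contra nlg; linarith only [mul_nonneg (sub_nonneg.2 (not_lt.1 nlg)) (sub_nonneg.2 hb), mul_nonneg (sub_nonneg.2 (not_lt.1 nlg)) (le_of_lt (sub_pos.2 h)), mul_nonneg (le_of_lt (sub_pos.2 hR)) (sub_nonneg.2 hb), mul_nonneg (sub_nonneg.2 hb) (le_of_lt (sub_pos.2 this)), mul_pos (sub_pos.2 h) (sub_pos.2 this)])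
      · rw [← h]; simp only [zero_mul, zero_add, sub_zero, one_mul]; linarith
  refine ⟨segment ℝ v (c • N) ∪ segment ℝ (c • N) (R • N), union_subset hseg1 hseg2,
    Or.inr (right_mem_segment _ _ _), Or.inl (left_mem_segment _ _ _), ?_⟩
  exact IsPreconnected.union (c • N) (right_mem_segment _ _ _) (left_mem_segment _ _ _)
    (convex_segment _ _).isPreconnected (convex_segment _ _).isPreconnected

end aux

/-- PROOF: compare `eq_ball` in TPR/RigGeo.lean. In the coordinates `lg p` the frontier of `Ω` is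
contained in the frontier of `regH N R`, a topological sphere; `regH N R` and the complement of
its closure are connected (`regH N R` is star-shaped with respect to every point near ... e.g.
use rays from `0`: `v ∈ regH ↔ ⟨v,N⟩ > 0` and `‖v‖ < 2 artanh (tanh R ⟨v,N⟩/‖v‖)`), `Ω` is open,
bounded and nonempty, so `Ω = ex p '' regH N R`. -/
theorem eq_ball_H (hn : 2 ≤ n) {Ω : Set (_root_.Vale.Agent.P219.TP.E n)} (ho : IsOpen Ω) (hb : Bornology.IsBounded Ω)
    (hne : Ω.Nonempty) {p N : _root_.Vale.Agent.P219.TP.E n} {R : ℝ} (hR : 0 < R) (hN : ‖N‖ = 1)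
    (hfr : ∀ q ∈ frontier Ω, q ≠ p →
      Real.sinh (‖G.lg p q‖ / 2) * Real.cosh R * ‖G.lg p q‖ =
        inner ℝ (G.lg p q) N * (Real.cosh (‖G.lg p q‖ / 2) * Real.sinh R)) :
    Ω = G.ex p '' regH N R ∧ ∀ v ∈ regH N R, ∃ s : ℝ, 1 ≤ s ∧ G.ex p (s • v) ∈ frontier Ω := by
  set e : _root_.Vale.Agent.P219.TP.E n ≃ₜ _root_.Vale.Agent.P219.TP.E n := exHomeo G p with he
  have hev : ∀ v, e v = G.ex p v := fun v => rfl
  set W : Set (_root_.Vale.Agent.P219.TP.E n) := e ⁻¹' Ω with hW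
  have hWo : IsOpen W := ho.preimage e.continuous
  have hWfr' : frontier W = e ⁻¹' frontier Ω := by rw [hW, e.preimage_frontier]
  have hWfr : ∀ v ∈ frontier W, Real.sinh (‖v‖ / 2) * Real.cosh R * ‖v‖ =
      inner ℝ v N * (Real.cosh (‖v‖ / 2) * Real.sinh R) := by
    intro v hv
    rw [hWfr'] at hv
    by_cases hq : e v = p
    · have h0 : v = 0 := by
        have h1 : G.ex p v = G.ex p 0 := by rw [G.ex_zero]; exact hq
        have h2 := congrArg (G.lg p) h1
        rwa [G.lg_ex, G.lg_ex] at h2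
      rw [h0]; simp
    · have h1 := hfr (e v) hv hq
      rw [hev, G.lg_ex] at h1
      exact h1
  have hWne : W.Nonempty := by
    obtain ⟨y, hy⟩ := hne
    refine ⟨e.symm y, ?_⟩
    rw [hW, mem_preimage, e.apply_symm_apply]
    exact hy
  have hWb : Bornology.IsBounded W := by
    have hc : IsCompact (closure Ω) := hb.isCompact_closure
    have hc2 : IsCompact (e.symm '' closure Ω) := hc.image e.symm.continuous
    refine hc2.isBounded.subset ?_
    intro v hv
    exact ⟨e v, subset_closure hv, e.symm_apply_apply v⟩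
  have hconn : ∀ t : Set (_root_.Vale.Agent.P219.TP.E n), IsPreconnected t → (t ∩ W).Nonempty →
      (∀ y ∈ t, y ∉ frontier W) → t ⊆ W := by
    intro t ht h1 h2
    refine ht.subset_left_of_subset_union hWo isClosed_closure.isOpen_compl
      (disjoint_compl_right_iff_subset.2 subset_closure) ?_ h1
    intro y hy
    by_cases hyW : y ∈ closure W
    · left
      by_contra hyn
      have : y ∈ frontier W := ⟨hyW, by rwa [hWo.interior_eq]⟩
      exact h2 y hy this
    · right; exact hyW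
  have hray : ∀ v ∈ W, v ≠ 0 → ∃ s : ℝ, 1 ≤ s ∧ s • v ∈ frontier W := by
    intro v hv hv0
    by_contra hcon
    push Not at hcon
    have hsub : (fun s : ℝ => s • v) '' Ici 1 ⊆ W := by
      refine hconn _ (isPreconnected_Ici.image _ (by fun_prop)) ?_ ?_
      · exact ⟨v, ⟨1, self_mem_Ici, by simp⟩, hv⟩
      · rintro _ ⟨t, ht, rfl⟩
        exact hcon t ht
    obtain ⟨M, hM⟩ := hWb.exists_norm_le
    have hvpos : 0 < ‖v‖ := norm_pos_iff.2 hv0
    set t : ℝ := max 1 ((M + 1) / ‖v‖) with ht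
    have h1 := hM _ (hsub ⟨t, mem_Ici.2 (le_max_left _ _), rfl⟩)
    have h2 : M + 1 ≤ t * ‖v‖ := by
      rw [← div_le_iff₀ hvpos]; exact le_max_right _ _
    simp only at h1
    rw [norm_smul, Real.norm_of_nonneg (zero_le_one.trans (le_max_left _ _) : (0 : ℝ) ≤ t)] at h1
    linarith only [h2, h1]
  have hnot : ∀ v ∈ W, v ∉ frontier W := by
    intro v hv hf
    rw [hWo.frontier_eq] at hf
    exact hf.2 hv
  have hsub0 : ∀ v ∈ W, v ≠ 0 → v ∈ regH N R := by
    intro v hv hv0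
    obtain ⟨s, hs1, hs⟩ := hray v hv hv0
    have hs1' : 1 < s := by
      rcases hs1.lt_or_eq with h | h
      · exact h
      · exfalso
        rw [← h, one_smul] at hs
        exact hnot v hv hs
    have hs0 : 0 < s := by linarith
    have hvpos : 0 < ‖v‖ := norm_pos_iff.2 hv0
    have h1 := hWfr _ hs
    rw [norm_smul, Real.norm_of_nonneg hs0.le, inner_smul_left] at h1
    simp only [conj_trivial] at h1
    have h2 : Real.sinh (s * ‖v‖ / 2) * Real.cosh R * ‖v‖ =
        inner ℝ v N * (Real.cosh (s * ‖v‖ / 2) * Real.sinh R) := by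
      have h3 : s * (Real.sinh (s * ‖v‖ / 2) * Real.cosh R * ‖v‖) =
          s * (inner ℝ v N * (Real.cosh (s * ‖v‖ / 2) * Real.sinh R)) := by linarith
      exact mul_left_cancel₀ hs0.ne' h3
    have h4 : Real.sinh (‖v‖ / 2) * Real.cosh (s * ‖v‖ / 2) <
        Real.sinh (s * ‖v‖ / 2) * Real.cosh (‖v‖ / 2) := by
      apply eqb_sinh_cosh_lt
      have : ‖v‖ < s * ‖v‖ := by linarith only [mul_pos (sub_pos.2 hs1') (sub_pos.2 hvpos)]
      linarith only [this]
    have hc := Real.cosh_pos (s * ‖v‖ / 2)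
    have hCR := Real.cosh_pos R
    have h5 : Real.cosh (s * ‖v‖ / 2) * (Real.sinh (‖v‖ / 2) * Real.cosh R * ‖v‖) <
        Real.cosh (s * ‖v‖ / 2) * (inner ℝ v N * (Real.cosh (‖v‖ / 2) * Real.sinh R)) := by
      calc Real.cosh (s * ‖v‖ / 2) * (Real.sinh (‖v‖ / 2) * Real.cosh R * ‖v‖)
          = (Real.cosh R * ‖v‖) * (Real.sinh (‖v‖ / 2) * Real.cosh (s * ‖v‖ / 2)) := by ring
        _ < (Real.cosh R * ‖v‖) * (Real.sinh (s * ‖v‖ / 2) * Real.cosh (‖v‖ / 2)) :=
          mul_lt_mul_of_pos_left h4 (mul_pos hCR hvpos)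
        _ = Real.cosh (‖v‖ / 2) * (Real.sinh (s * ‖v‖ / 2) * Real.cosh R * ‖v‖) := by ring
        _ = _ := by rw [h2]; ring
    exact lt_of_mul_lt_mul_left h5 hc.le
  have hzero : (0 : _root_.Vale.Agent.P219.TP.E n) ∉ W := by
    intro h0
    have h1 : ∀ᶠ t : ℝ in 𝓝 0, t • N ∈ W := by
      have hct : ContinuousAt (fun t : ℝ => t • N) 0 := by fun_prop
      exact hct.preimage_mem_nhds (by simpa using hWo.mem_nhds h0)
    obtain ⟨ε, hε, h2⟩ := Metric.eventually_nhds_iff.1 h1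
    have h3 : (-(ε / 2)) • N ∈ W := by
      apply h2
      rw [Real.dist_eq, sub_zero, abs_neg, abs_of_pos (by positivity)]
      linarith
    have hN0 : N ≠ 0 := by
      rintro rfl
      simp at hN
    have h4 := hsub0 _ h3 (smul_ne_zero (by linarith : -(ε / 2) ≠ 0) hN0)
    have h5 := ((eqb_smul_iff hR hN _).1 h4).1
    linarith
  have hsub : W ⊆ regH N R := fun v hv => hsub0 v hv fun h => hzero (h ▸ hv)
  have hWeq : W = regH N R := by
    refine Subset.antisymm hsub (hconn _ (eqb_preconnected hR hN) ?_ ?_)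
    · obtain ⟨v, hv⟩ := hWne
      exact ⟨v, hsub hv, hv⟩
    · intro y hy hf
      have h1 : Real.sinh (‖y‖ / 2) * Real.cosh R * ‖y‖ <
        inner ℝ y N * (Real.cosh (‖y‖ / 2) * Real.sinh R) := hy
      rw [hWfr y hf] at h1
      exact lt_irrefl _ h1
  refine ⟨?_, ?_⟩
  · have : Ω = e '' regH N R := by rw [← hWeq, hW, e.image_preimage]
    exact this
  · intro v hv
    rw [← hWeq] at hv
    obtain ⟨s, hs1, hs⟩ := hray v hv fun h => hzero (h ▸ hv)
    rw [hWfr'] at hs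
    exact ⟨s, hs1, hs⟩

/-- The geometric conclusion. PROOF: `eq_ball_H`, `model_of_det` at the frontier point of the ray
through `v`, `model_segment`. -/
theorem hyp_ball (hn : 2 ≤ n) (hG : Curv G 1) {Ω : Set (_root_.Vale.Agent.P219.TP.E n)} (ho : IsOpen Ω)
    (hb : Bornology.IsBounded Ω) (hne : Ω.Nonempty) {p N : _root_.Vale.Agent.P219.TP.E n} {R : ℝ} (hR : 0 < R)
    (hN : ‖N‖ = 1)
    (hfr : ∀ q ∈ frontier Ω, q ≠ p →
      Real.sinh (‖G.lg p q‖ / 2) * Real.cosh R * ‖G.lg p q‖ =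
        inner ℝ (G.lg p q) N * (Real.cosh (‖G.lg p q‖ / 2) * Real.sinh R) ∧
      |(G.T p (G.lg p q)).det| * ‖G.lg p q‖ ^ (n - 1) = Real.sinh ‖G.lg p q‖ ^ (n - 1)) :
    Ω = G.ex p '' regH N R ∧ ∀ v ∈ regH N R, ∀ z, ‖G.T p v z‖ ^ 2 = mq v z := by
  obtain ⟨h1, h2⟩ := eq_ball_H G hn ho hb hne hR hN (fun q hq hqp => (hfr q hq hqp).1)
  refine ⟨h1, fun v hv z => ?_⟩
  obtain ⟨s, hs1, hs⟩ := h2 v hv
  have hs0 : 0 < s := by linarith
  have hv0 : v ≠ 0 := by
    rintro rfl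
    have h3 : Real.sinh (‖(0 : _root_.Vale.Agent.P219.TP.E n)‖ / 2) * Real.cosh R * ‖(0 : _root_.Vale.Agent.P219.TP.E n)‖ <
      inner ℝ (0 : _root_.Vale.Agent.P219.TP.E n) N * (Real.cosh (‖(0 : _root_.Vale.Agent.P219.TP.E n)‖ / 2) * Real.sinh R) := hv
    simp at h3
  have hsv : s • v ≠ 0 := smul_ne_zero hs0.ne' hv0
  have hqp : G.ex p (s • v) ≠ p := by
    intro h
    have h3 : G.ex p (s • v) = G.ex p 0 := by rw [G.ex_zero]; exact h
    have h4 := congrArg (G.lg p) h3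
    rw [G.lg_ex, G.lg_ex] at h4
    exact hsv h4
  have hdet := (hfr _ hs hqp).2
  rw [G.lg_ex] at hdet
  have hmod := model_of_det G hn hG p hsv hdet
  have h5 := model_segment G hn hG p hsv hmod (inv_pos.2 hs0) (inv_le_one_of_one_le₀ hs1) z
  rwa [smul_smul, inv_mul_cancel₀ hs0.ne', one_smul] at h5

end Vale.Agent.P219.TPH
end
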