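import Mathlib
import Vale.Agent.P219.Bdl.B6
import Vale.Agent.P255.Ode
import Vale.Agent.P219.Bdl.B3

set_option linter.all false

section

/-!
G1: complete smooth vector fields on finite-dimensional spaces have smooth global flows.
-/

open Set Filter Topology
open scoped ContDiff Manifold
open Vale.Agent.P255

noncomputable section

namespace Vale.Agent.P219.CH

section Gen

variable {F : Type} [NormedAddCommGroup F] [NormedSpace ℝ F] [FiniteDimensional ℝ F]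

omit [FiniteDimensional ℝ F] in
lemma fg_hasMFDeriv {γ : ℝ → F} {w : F} {t : ℝ} :
    HasMFDerivAt 𝓘(ℝ, ℝ) 𝓘(ℝ, F) γ t ((1 : ℝ →L[ℝ] ℝ).smulRight w) ↔ HasDerivAt γ w t := by
  have h1 : HasMFDerivAt 𝓘(ℝ, ℝ) 𝓘(ℝ, F) γ t ((1 : ℝ →L[ℝ] ℝ).smulRight w) ↔
      HasFDerivAt γ ((1 : ℝ →L[ℝ] ℝ).smulRight w : ℝ →L[ℝ] F) t := hasMFDerivAt_iff_hasFDerivAt
  have h2 : ((1 : ℝ →L[ℝ] ℝ).smulRight w : ℝ →L[ℝ] F)
      = ContinuousLinearMap.toSpanSingleton ℝ w := by
    ext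
    simp
  refine h1.trans ?_
  rw [hasDerivAt_iff_hasFDerivAt, h2]

omit [FiniteDimensional ℝ F] in
lemma fg_curveOn {γ : ℝ → F} {g : F → F} {s : Set ℝ} (hs : IsOpen s) :
    IsMIntegralCurveOn (I := 𝓘(ℝ, F)) γ (fun x => (g x : TangentSpace 𝓘(ℝ, F) x)) s ↔
      ∀ t ∈ s, HasDerivAt γ (g (γ t)) t := by
  unfold IsMIntegralCurveOn
  constructor
  · intro h t ht
    exact fg_hasMFDeriv.1 ((h t ht).hasMFDerivAt (hs.mem_nhds ht))
  · intro h t ht
    exact (fg_hasMFDeriv.2 (h t ht)).hasMFDerivWithinAt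

omit [FiniteDimensional ℝ F] in
lemma fg_section {g : F → F} (hg : ContDiff ℝ 1 g) :
    ContMDiff 𝓘(ℝ, F) 𝓘(ℝ, F).tangent 1
      (fun x => (⟨x, (g x : TangentSpace 𝓘(ℝ, F) x)⟩ : TangentBundle 𝓘(ℝ, F) F)) :=
  contMDiff_vectorSpace_iff_contDiff.2 hg

/-- Uniqueness of integral curves on intervals. -/
lemma fg_unique {g : F → F} (hg : ContDiff ℝ 1 g) {γ γ' : ℝ → F} {a b t₀ : ℝ}
    (ht₀ : t₀ ∈ Ioo a b) (h : ∀ t ∈ Ioo a b, HasDerivAt γ (g (γ t)) t)
    (h' : ∀ t ∈ Ioo a b, HasDerivAt γ' (g (γ' t)) t) (h0 : γ t₀ = γ' t₀) :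
    EqOn γ γ' (Ioo a b) := by
  have : CompleteSpace F := FiniteDimensional.complete ℝ F
  exact isMIntegralCurveOn_Ioo_eqOn_of_contMDiff_boundaryless (I := 𝓘(ℝ, F)) ht₀ (fg_section hg)
    ((fg_curveOn isOpen_Ioo).2 h) ((fg_curveOn isOpen_Ioo).2 h') h0

/-- A complete smooth vector field has a smooth global flow. -/
theorem fg_global_flow {g : F → F} (hg : ContDiff ℝ ∞ g)
    (hglob : ∀ p : F, ∃ γ : ℝ → F, γ 0 = p ∧ ∀ t, HasDerivAt γ (g (γ t)) t) :
    ∃ Ψ : ℝ × F → F, ContDiff ℝ ∞ Ψ ∧ (∀ p, Ψ (0, p) = p) ∧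
      ∀ t p, HasDerivAt (fun r => Ψ (r, p)) (g (Ψ (t, p))) t := by
  have hcomp : CompleteSpace F := FiniteDimensional.complete ℝ F
  have hg1 : ContDiff ℝ 1 g := hg.of_le (by simp)
  choose γ hγ0 hγ using hglob
  -- the group property
  have hgroup : ∀ (σ τ : ℝ) (p : F), γ p (τ + σ) = γ (γ p σ) τ := by
    intro σ τ p
    have h1 : ∀ t, HasDerivAt (fun r => γ p (r + σ)) (g (γ p (t + σ))) t := by
      intro t
      exact (hγ p (t + σ)).comp_add_const t σ
    have h2 : (fun r => γ p (r + σ)) 0 = γ (γ p σ) 0 := by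
      simp only [zero_add, hγ0]
    have h3 := fg_unique (a := -(|τ| + 1)) (b := |τ| + 1) (t₀ := 0) hg1
      (by constructor <;> linarith [abs_nonneg τ]) (fun t _ => h1 t)
      (fun t _ => hγ (γ p σ) t) h2
    exact h3 (by constructor <;> linarith [abs_nonneg τ, le_abs_self τ, neg_abs_le τ])
  -- local smoothness
  have hloc : ∀ y : F, ∃ ε > 0, ∃ W : Set F, IsOpen W ∧ y ∈ W ∧
      ContDiffOn ℝ ∞ (fun p : ℝ × F => γ p.2 p.1) (Ioo (-ε) ε ×ˢ W) := by
    intro y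
    obtain ⟨ε, hε, W, hW, hy, Φ, h0, h1, h2⟩ :=
      Vale.Agent.P255.exists_flow_smooth g univ isOpen_univ hg.contDiffOn y (mem_univ y)
    refine ⟨ε, hε, W, hW, hy, h2.congr ?_⟩
    rintro ⟨t, x⟩ ⟨ht, hx⟩
    have h3 := fg_unique (t₀ := 0) hg1 (by constructor <;> linarith) (fun t _ => hγ x t)
      (fun t ht => (h1 x hx t ht).2) (by rw [hγ0, h0 x hx])
    exact h3 ht
  -- smoothness in the initial point for fixed time
  have hB : ∀ (p : F) (τ : ℝ), ContDiffAt ℝ ∞ (fun x => γ x τ) p := by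
    intro p
    set B : Set ℝ := {τ | ContDiffAt ℝ ∞ (fun x => γ x τ) p} with hBdef
    have key : ∀ τ₀ : ℝ, ∃ ε > 0, ∀ σ ∈ Ioo (τ₀ - ε) (τ₀ + ε), σ ∈ B →
        ∀ τ ∈ Ioo (τ₀ - ε) (τ₀ + ε), τ ∈ B := by
      intro τ₀
      obtain ⟨ε, hε, W, hW, hy, hcd⟩ := hloc (γ p τ₀)
      have hcont : ContinuousAt (γ p) τ₀ := (hγ p τ₀).continuousAt
      obtain ⟨δ, hδ, hδW⟩ := Metric.eventually_nhds_iff.1 (hcont.eventually (hW.mem_nhds hy))
      refine ⟨min (ε / 2) δ, lt_min (by linarith) hδ, ?_⟩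
      intro σ hσ hσB τ hτ
      have hm1 := min_le_left (ε / 2) δ
      have hm2 := min_le_right (ε / 2) δ
      have hσW : γ p σ ∈ W := by
        apply hδW
        rw [Real.dist_eq, abs_lt]
        constructor <;> linarith [hσ.1, hσ.2]
      have hd : τ - σ ∈ Ioo (-ε) ε := by
        constructor <;> linarith [hσ.1, hσ.2, hτ.1, hτ.2]
      have h1 : ContDiffAt ℝ ∞ (fun q : ℝ × F => γ q.2 q.1) (τ - σ, γ p σ) :=
        hcd.contDiffAt ((isOpen_Ioo.prod hW).mem_nhds ⟨hd, hσW⟩)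
      have h2 : ContDiffAt ℝ ∞ (fun x : F => ((τ - σ, γ x σ) : ℝ × F)) p :=
        contDiffAt_const.prodMk hσB
      have h3 := ContDiffAt.comp p (f := fun x : F => ((τ - σ, γ x σ) : ℝ × F)) h1 h2
      have h4 : ((fun q : ℝ × F => γ q.2 q.1) ∘ fun x : F => ((τ - σ, γ x σ) : ℝ × F))
          = fun x => γ x τ := by
        funext x
        simp only [Function.comp]
        rw [← hgroup]
        congr 1
        ring
      rw [h4] at h3
      exact h3
    have hopen : IsOpen B := by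
      rw [isOpen_iff_mem_nhds]
      intro τ₀ hτ₀
      obtain ⟨ε, hε, h⟩ := key τ₀
      have hmem : τ₀ ∈ Ioo (τ₀ - ε) (τ₀ + ε) := by constructor <;> linarith
      exact mem_of_superset (Ioo_mem_nhds hmem.1 hmem.2) (h τ₀ hmem hτ₀)
    have hclosed : IsClosed B := by
      rw [← isOpen_compl_iff, isOpen_iff_mem_nhds]
      intro τ₀ hτ₀
      obtain ⟨ε, hε, h⟩ := key τ₀
      have hmem : τ₀ ∈ Ioo (τ₀ - ε) (τ₀ + ε) := by constructor <;> linarith
      refine mem_of_superset (Ioo_mem_nhds hmem.1 hmem.2) ?_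
      intro σ hσ hσB
      exact hτ₀ (h σ hσ hσB τ₀ hmem)
    have hne : B.Nonempty := by
      refine ⟨0, ?_⟩
      have : (fun x => γ x 0) = id := by
        funext x
        rw [hγ0]
        rfl
      simp only [hBdef, mem_ofPred_eq]
      rw [this]
      exact contDiffAt_id
    have huniv := IsClopen.eq_univ ⟨hclosed, hopen⟩ hne
    intro τ
    have : τ ∈ B := by rw [huniv]; trivial
    exact this
  refine ⟨fun q => γ q.2 q.1, ?_, fun p => hγ0 p, fun t p => hγ p t⟩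
  rw [contDiff_iff_contDiffAt]
  rintro ⟨τ₀, p⟩
  obtain ⟨ε, hε, W, hW, hy, hcd⟩ := hloc (γ p τ₀)
  have h1 : ContDiffAt ℝ ∞ (fun q : ℝ × F => γ q.2 q.1) (0, γ p τ₀) :=
    hcd.contDiffAt ((isOpen_Ioo.prod hW).mem_nhds ⟨by constructor <;> linarith, hy⟩)
  have h2 : ContDiffAt ℝ ∞ (fun q : ℝ × F => ((q.1 - τ₀, γ q.2 τ₀) : ℝ × F)) (τ₀, p) := by
    refine ContDiffAt.prodMk (contDiffAt_fst.sub contDiffAt_const) ?_
    exact ContDiffAt.comp (τ₀, p) (g := fun x => γ x τ₀) (hB p τ₀) contDiffAt_snd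
  have h1' : ContDiffAt ℝ ∞ (fun q : ℝ × F => γ q.2 q.1)
      ((fun q : ℝ × F => ((q.1 - τ₀, γ q.2 τ₀) : ℝ × F)) (τ₀, p)) := by
    simpa using h1
  have h3 := ContDiffAt.comp (τ₀, p) h1' h2
  have h4 : ((fun q : ℝ × F => γ q.2 q.1) ∘ fun q : ℝ × F => ((q.1 - τ₀, γ q.2 τ₀) : ℝ × F))
      = fun q : ℝ × F => γ q.2 q.1 := by
    funext q
    simp only [Function.comp]
    rw [← hgroup]
    congr 1
    ring
  rw [h4] at h3
  exact h3

end Gen

variable {V : Type} [NormedAddCommGroup V] [NormedSpace ℝ V] [FiniteDimensional ℝ V]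
variable {G : V → V →L[ℝ] V →L[ℝ] ℝ}

/-- A complete smooth vector field has a smooth global flow. -/
theorem exists_global_flow (f : V → V) (hf : ContDiff ℝ ∞ f)
    (hc : ∀ z, ∃ c : ℝ → V, c 0 = z ∧ ∀ t, HasDerivAt c (f (c t)) t) :
    ∃ Φ : ℝ → V → V, ContDiff ℝ ∞ (fun q : ℝ × V => Φ q.1 q.2) ∧ (∀ z, Φ 0 z = z) ∧
      (∀ t z, HasDerivAt (fun s => Φ s z) (f (Φ t z)) t) ∧
      ∀ c : ℝ → V, (∀ t, HasDerivAt c (f (c t)) t) → ∀ t, c t = Φ t (c 0) := by
  obtain ⟨Ψ, h1, h2, h3⟩ := fg_global_flow hf hc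
  refine ⟨fun t z => Ψ (t, z), h1, h2, h3, ?_⟩
  intro c hcd t
  have h4 := fg_unique (a := -(|t| + 1)) (b := |t| + 1) (t₀ := 0) (hf.of_le (by simp))
    (by constructor <;> linarith [abs_nonneg t]) (fun r _ => hcd r) (fun r _ => h3 r (c 0))
    (h2 (c 0)).symm
  exact h4 (by constructor <;> linarith [abs_nonneg t, le_abs_self t, neg_abs_le t])

theorem exists_gflow (h : IsMetricOn G univ) (hc : GeoComplete G) : Nonempty (GFlow G) := by
  have hf : ContDiff ℝ ∞ (geoField G) := by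
    have := h.contDiffOn_geoField
    rw [univ_prod_univ, contDiffOn_univ] at this
    exact this
  obtain ⟨Φ, h1, h2, h3, h4⟩ := exists_global_flow (geoField G) hf hc
  exact ⟨⟨Φ, h1, h2, h3, h4⟩⟩

end Vale.Agent.P219.CH
end
end

section

namespace Vale.Agent.P219.End

/-! Power inequalities for the averaging step: even and odd parts of `(1 + y) ^ c`. -/

open Finset

lemma rpow_le_lin {x b : ℝ} (hx : 0 < x) (h0 : 0 ≤ b) (h1 : b ≤ 1) : x ^ b ≤ 1 - b + b * x := by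
  have h := Real.geom_mean_le_arith_mean2_weighted (w₁ := 1 - b) (w₂ := b) (p₁ := 1) (p₂ := x)
    (by linarith) h0 zero_le_one hx.le (by ring)
  simpa using h

lemma rpow_le_sq {x b : ℝ} (hx : 0 < x) (h0 : 0 ≤ b) (h1 : b ≤ 2) :
    x ^ b ≤ 1 - b / 2 + b / 2 * x ^ 2 := by
  have h := rpow_le_lin (x := x ^ 2) (b := b / 2) (by positivity) (by linarith) (by linarith)
  have h2 : (x ^ 2) ^ (b / 2) = x ^ b := by
    rw [← Real.rpow_natCast, ← Real.rpow_mul hx.le]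
    congr 1
    push_cast
    ring
  rwa [h2] at h

/-- first order bounds for `(1 + y)^{-b}` -/
lemma rpow_neg_bounds {y b : ℝ} (hy : |y| ≤ 1 / 2) (h0 : 0 ≤ b) (h1 : b ≤ 1) :
    1 - b * y ≤ (1 + y) ^ (-b) ∧ (1 + y) ^ (-b) ≤ 1 - b * y + 2 * b * y ^ 2 := by
  obtain ⟨hy1, hy2⟩ := abs_le.1 hy
  have hp : 0 < 1 + y := by linarith only [hy1]
  have hle : (1 + y) ^ b ≤ 1 + b * y := by
    have := rpow_le_lin hp h0 h1
    linarith only [this]
  have hb0 : 0 < (1 + y) ^ b := Real.rpow_pos_of_pos hp b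
  constructor
  · rw [Real.rpow_neg hp.le]
    rw [le_inv_comm₀ (by nlinarith) hb0] 
    refine hle.trans ?_
    rw [le_inv_comm₀ (by linarith only [hb0, hle]) (by nlinarith)]
    rw [inv_eq_one_div, le_div_iff₀ (by nlinarith)]
    nlinarith [sq_nonneg (b * y)]
  · have h2 := rpow_le_lin (x := (1 + y)⁻¹) (by positivity) h0 h1
    rw [Real.inv_rpow hp.le, ← Real.rpow_neg hp.le] at h2
    refine h2.trans ?_
    have h3 : (1 + y)⁻¹ ≤ 1 - y + 2 * y ^ 2 := by
      rw [inv_eq_one_div, div_le_iff₀ hp]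
      nlinarith [mul_nonneg (sq_nonneg y) (show 0 ≤ 1 + 2 * y by linarith only [hy1])]
    linarith only [mul_le_mul_of_nonneg_left h3 h0]

/-- the even part of `(1 + y)^c`, second order -/
lemma rpow_even {c : ℝ} (h0 : 0 < c) (h1 : c < 1) {y : ℝ} (hy : |y| ≤ 1 / 2) :
    (1 + y) ^ c + (1 - y) ^ c ≤ 2 - c * (1 - c) * y ^ 2 + |y| ^ 3 := by
  have key : ∀ y : ℝ, 0 ≤ y → y ≤ 1 / 2 →
      (1 + y) ^ c + (1 - y) ^ c ≤ 2 - c * (1 - c) * y ^ 2 + c * y ^ 3 := by
    intro y hy0 hy1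
    set f : ℝ → ℝ := fun y => 2 - c * (1 - c) * y ^ 2 + c * y ^ 3 - (1 + y) ^ c - (1 - y) ^ c
      with hf
    have hd : ∀ x ∈ Set.Icc (0 : ℝ) (1 / 2), HasDerivAt f
        (-(c * (1 - c) * (2 * x)) + c * (3 * x ^ 2) - c * (1 + x) ^ (c - 1)
          + c * (1 - x) ^ (c - 1)) x := by
      intro x hx
      have e1 : HasDerivAt (fun y : ℝ => (1 + y) ^ c) (c * (1 + x) ^ (c - 1)) x := by
        have := ((hasDerivAt_id x).const_add 1).rpow_const (p := c)
          (Or.inl (by simp only [id]; linarith only [hx.1, h1, h0]))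
        simpa using this
      have e2 : HasDerivAt (fun y : ℝ => (1 - y) ^ c) (-(c * (1 - x) ^ (c - 1))) x := by
        have := ((hasDerivAt_id x).const_sub 1).rpow_const (p := c)
          (Or.inl (by simp only [id]; linarith only [hx.2, h1, h0]))
        simpa using this
      have e3 : HasDerivAt (fun y : ℝ => 2 - c * (1 - c) * y ^ 2) (-(c * (1 - c) * (2 * x))) x := by
        have := ((hasDerivAt_pow 2 x).const_mul (c * (1 - c))).const_sub 2
        simpa using this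
      have e4 : HasDerivAt (fun y : ℝ => c * y ^ 3) (c * (3 * x ^ 2)) x := by
        have := (hasDerivAt_pow 3 x).const_mul c
        simpa using this
      have e5 := ((e3.add e4).sub e1).sub e2
      exact e5.congr_deriv (by ring)
    have hm : MonotoneOn f (Set.Icc 0 (1 / 2)) := by
      refine monotoneOn_of_deriv_nonneg (convex_Icc _ _)
        (fun x hx => (hd x hx).continuousAt.continuousWithinAt) ?_ ?_
      · intro x hx
        rw [interior_Icc] at hx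
        exact (hd x ⟨hx.1.le, hx.2.le⟩).differentiableAt.differentiableWithinAt
      · intro x hx
        rw [interior_Icc] at hx
        rw [(hd x ⟨hx.1.le, hx.2.le⟩).deriv]
        have hx1 : |x| ≤ 1 / 2 := by rw [abs_of_pos hx.1]; exact hx.2.le
        have b1 := (rpow_neg_bounds (y := x) (b := 1 - c) hx1 (by linarith only [h1]) (by linarith only [h0])).2
        have b2 := (rpow_neg_bounds (y := -x) (b := 1 - c) (by rwa [abs_neg]) (by linarith only [h1])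
          (by linarith)).1
        have n1 : -(1 - c) = c - 1 := by ring
        rw [n1] at b1 b2
        have n2 : 1 + -x = 1 - x := by ring
        rw [n2] at b2
        have b3 : 0 ≤ (1 - x) ^ (c - 1) - (1 + x) ^ (c - 1) - 2 * (1 - c) * x
            + 2 * (1 - c) * x ^ 2 := by linarith only [b2, b1]
        have b4 := mul_nonneg h0.le b3
        linarith only [mul_nonneg (mul_nonneg h0.le h0.le) (sq_nonneg x), mul_nonneg h0.le (sq_nonneg x), b4]
    have h2 := hm (Set.left_mem_Icc.2 (by norm_num)) ⟨hy0, hy1⟩ hy0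
    simp only [hf] at h2
    norm_num at h2
    linarith only [h2]
  have h3 := key |y| (abs_nonneg y) hy
  have h4 : (1 + |y|) ^ c + (1 - |y|) ^ c = (1 + y) ^ c + (1 - y) ^ c := by
    rcases abs_cases y with ⟨h, _⟩ | ⟨h, _⟩
    · rw [h]
    · rw [h, add_comm]
      congr 2 <;> ring
  rw [h4, sq_abs] at h3
  have h5 : c * |y| ^ 3 ≤ |y| ^ 3 := by
    have : 0 ≤ |y| ^ 3 := by positivity
    (by_contra nlg; linarith only [nlg, mul_nonneg (le_of_lt (sub_pos.2 h1)) (sub_nonneg.2 this), mul_pos (sub_pos.2 (not_le.1 nlg)) (sub_pos.2 h1), mul_pos (sub_pos.2 (not_le.1 nlg)) (sub_pos.2 h0)])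
  linarith only [h5, h3]

/-- the even part of `(1 + y)^{-b}`, `b ≤ 2` -/
lemma rpow_even' {b : ℝ} (h0 : 0 ≤ b) (h1 : b ≤ 2) {y : ℝ} (hy : |y| ≤ 1 / 2) :
    (1 + y) ^ (-b) + (1 - y) ^ (-b) ≤ 2 + 11 * y ^ 2 := by
  obtain ⟨hy1, hy2⟩ := abs_le.1 hy
  have hp : 0 < 1 + y := by linarith only [hy1]
  have hm : 0 < 1 - y := by linarith only [hy2]
  have e1 := rpow_le_sq (x := (1 + y)⁻¹) (by positivity) h0 h1
  have e2 := rpow_le_sq (x := (1 - y)⁻¹) (by positivity) h0 h1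
  rw [Real.inv_rpow hp.le, ← Real.rpow_neg hp.le] at e1
  rw [Real.inv_rpow hm.le, ← Real.rpow_neg hm.le] at e2
  have e3 : ((1 + y)⁻¹) ^ 2 + ((1 - y)⁻¹) ^ 2 ≤ 2 + 11 * y ^ 2 := by
    have hy4 : y ^ 2 ≤ 1 / 4 := by (by_contra nlg; linarith only [nlg, mul_nonneg (sub_nonneg.2 hy1) (sub_nonneg.2 hy2), mul_pos (sub_pos.2 (not_le.1 nlg)) (sub_pos.2 hm), mul_pos (sub_pos.2 (not_le.1 nlg)) (sub_pos.2 hp)])
    have : ((1 + y)⁻¹) ^ 2 + ((1 - y)⁻¹) ^ 2 = (2 + 2 * y ^ 2) / (1 - y ^ 2) ^ 2 := by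
      have h3 : (1 - y ^ 2) = (1 + y) * (1 - y) := by ring
      rw [h3]
      field_simp
      ring
    rw [this, div_le_iff₀ (by (by_contra nlg; linarith only [nlg, mul_nonneg (sub_nonneg.2 hy4) (sub_nonneg.2 hy4), mul_nonneg (le_of_lt (sub_pos.2 hm)) (sub_nonneg.2 hy4), mul_nonneg (le_of_lt (sub_pos.2 hp)) (sub_nonneg.2 hy4), mul_pos (sub_pos.2 hp) (sub_pos.2 hm), mul_nonneg (sub_nonneg.2 hy2) (sq_nonneg (1 - y ^ 2)), mul_nonneg (sub_nonneg.2 (not_lt.1 nlg)) (le_of_lt (sub_pos.2 hm))]))]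
    linarith only [mul_nonneg (sq_nonneg y) (sq_nonneg y), mul_nonneg (mul_nonneg (sq_nonneg y) (sub_nonneg.2 hy4)) (sub_nonneg.2 hy4), mul_nonneg (sq_nonneg y) (sub_nonneg.2 hy4)]
  nlinarith [mul_le_mul_of_nonneg_left e3 (show 0 ≤ b / 2 by linarith only [h0]), sq_nonneg y, mul_nonneg (show 0 ≤ 2 - b by linarith only [h1]) (sq_nonneg y)]

end Vale.Agent.P219.End
end

section

/-!
# P219 / End : rigidity of the limit object (block L9)

If the sharp conformal Michael-Simon-Sobolev inequality holds on a limit object and constants are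
extremal, then the distance to a suitable centre is constant almost everywhere.
-/

open MeasureTheory Set Metric
open scoped ENNReal ContDiff

namespace Vale.Agent.P219.End

variable {n : ℕ}

namespace Lim

variable (L : Lim n)

theorem rg_mass_pos : 0 < L.V.real univ := by
  have h := L.V_ne
  rw [measureReal_def]
  exact ENNReal.toReal_pos (by rwa [Ne, Measure.measure_univ_eq_zero]) (measure_ne_top _ _)

theorem rg_sg_pos : 0 < sg L.m := by
  have h := L.m_pos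
  unfold sg
  have h1 := Real.Gamma_pos_of_pos h
  have h2 := Real.Gamma_pos_of_pos (half_pos h)
  positivity

/-- energy of a constant -/
theorem rg_En_one : L.En (fun _ => 1) = (L.H0 ^ 2 / L.m ^ 2 - L.k2) * L.V.real univ := by
  unfold En
  have h : ∀ z, L.G (fun _ => (1 : ℝ)) (fun _ => 1) z = 0 := by
    intro z
    show gv _ _ _ = 0
    rw [D_const, gv_zero_left]
  simp [h]

/-- energy of a tilt `(1 + e θ) ^ (1 / ps)` -/
theorem rg_ps_pos : 2 < L.ps := by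
  unfold ps
  rw [lt_div_iff₀ L.m_sub_pos]
  linarith

theorem rg_ps_inv : 2 / L.ps = (L.m - 2) / L.m := by
  unfold ps
  have h1 := L.m_pos
  have h2 := L.m_sub_pos
  field_simp

/-- the tilt -/
noncomputable def rgTilt (θ : E n → ℝ) (e : ℝ) (x : E n) : ℝ := (1 + e * θ x) ^ (1 / L.ps)

variable {L}

theorem rgTilt_smooth {θ : E n → ℝ} (hθ : ContDiff ℝ ∞ θ) {e : ℝ} (h : ∀ x, 0 < 1 + e * θ x) :
    ContDiff ℝ ∞ (L.rgTilt θ e) := by
  unfold rgTilt
  exact (contDiff_const.add (contDiff_const.mul hθ)).rpow_const_of_ne fun x => (h x).ne'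

theorem rgTilt_pos {θ : E n → ℝ} {e : ℝ} (h : ∀ x, 0 < 1 + e * θ x) (x : E n) :
    0 < L.rgTilt θ e x := Real.rpow_pos_of_pos (h x) _

theorem rgTilt_ps {θ : E n → ℝ} {e : ℝ} (h : ∀ x, 0 < 1 + e * θ x) (x : E n) :
    L.rgTilt θ e x ^ L.ps = 1 + e * θ x := by
  have h1 := L.rg_ps_pos
  unfold rgTilt
  rw [← Real.rpow_mul (h x).le, one_div, inv_mul_cancel₀ (by linarith), Real.rpow_one]

theorem rgTilt_sq {θ : E n → ℝ} {e : ℝ} (h : ∀ x, 0 < 1 + e * θ x) (x : E n) :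
    L.rgTilt θ e x ^ 2 = (1 + e * θ x) ^ (2 / L.ps) := by
  unfold rgTilt
  rw [← Real.rpow_natCast, ← Real.rpow_mul (h x).le]
  congr 1
  push_cast
  ring

theorem rgTilt_G {θ : E n → ℝ} (hθ : ContDiff ℝ ∞ θ) {e : ℝ} (h : ∀ x, 0 < 1 + e * θ x)
    (z : E n × E n) : L.G (L.rgTilt θ e) (L.rgTilt θ e) z =
      e ^ 2 / L.ps ^ 2 * (1 + e * θ z.1) ^ (-(2 - 2 / L.ps)) * L.G θ θ z := by
  have hp := L.rg_ps_pos
  have hd : DifferentiableAt ℝ θ z.1 := (hθ.differentiable (by simp)) _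
  have h1 : HasDerivAt (fun t : ℝ => (1 + e * t) ^ (1 / L.ps))
      (e * (1 / L.ps) * (1 + e * θ z.1) ^ (1 / L.ps - 1)) (θ z.1) := by
    have h2 : HasDerivAt (fun t : ℝ => 1 + e * t) e (θ z.1) := by
      simpa using ((hasDerivAt_id (θ z.1)).const_mul e).const_add 1
    exact h2.rpow_const (Or.inl (h z.1).ne')
  have h3 : D L.A (L.rgTilt θ e) z.1 =
      (e * (1 / L.ps) * (1 + e * θ z.1) ^ (1 / L.ps - 1)) • D L.A θ z.1 := D_comp h1 hd
  show gv _ _ _ = _ * gv _ _ _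
  rw [h3, gv_smul_left, gv_smul_right]
  have h4 : (1 + e * θ z.1) ^ (-(2 - 2 / L.ps)) =
      (1 + e * θ z.1) ^ (1 / L.ps - 1) * (1 + e * θ z.1) ^ (1 / L.ps - 1) := by
    rw [← Real.rpow_add (h z.1)]
    congr 1
    ring
  rw [h4]
  ring

variable (L)

/-- the energy inequality for a pair of tilts -/
theorem rg_pair (hC : ∀ u : E n → ℝ, ContDiff ℝ ∞ u → (∀ x, 0 < u x) →
      sg L.m ^ (2 / L.m) * (∫ z, u z.1 ^ L.ps ∂L.V) ^ (2 / L.ps) ≤ L.En u)
    (heq : (L.H0 ^ 2 / L.m ^ 2 - L.k2) * L.V.real univ ^ (2 / L.m) ≤ sg L.m ^ (2 / L.m))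
    {θ : E n → ℝ} (hθ : ContDiff ℝ ∞ θ) (hle : ∀ x, |θ x| ≤ 1) (h0 : ∫ z, θ z.1 ∂L.V = 0)
    (hk : 0 ≤ L.H0 ^ 2 / L.m ^ 2 - L.k2) {e : ℝ} (he : 0 < e) (he2 : e ≤ 1 / 2) :
    (L.H0 ^ 2 / L.m ^ 2 - L.k2) * (2 / L.ps * (1 - 2 / L.ps)) * ∫ z, θ z.1 ^ 2 ∂L.V ≤
      4 / (L.m * (L.m - 2)) / L.ps ^ 2 * (2 * ∫ z, L.G θ θ z ∂L.V) +
      e * ((L.H0 ^ 2 / L.m ^ 2 - L.k2) * L.V.real univ +
        4 / (L.m * (L.m - 2)) / L.ps ^ 2 * (11 * ∫ z, L.G θ θ z ∂L.V)) := by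
  have hp := L.rg_ps_pos
  have hm := L.m_pos
  have hm2 := L.m_sub_pos
  set H := L.H0 ^ 2 / L.m ^ 2 - L.k2 with hH
  set c := 2 / L.ps with hc
  have hc0 : 0 < c := by positivity
  have hc1 : c < 1 := by rw [hc, div_lt_one (by linarith only [hp, he2, he])]; exact hp
  set B := 4 / (L.m * (L.m - 2)) with hB
  have hB0 : 0 < B := by positivity
  have hsmall : ∀ x, |e * θ x| ≤ 1 / 2 := by
    intro x
    rw [abs_mul, abs_of_pos he]
    calc e * |θ x| ≤ e * 1 := mul_le_mul_of_nonneg_left (hle x) he.le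
      _ ≤ 1 / 2 := by linarith only [he2]
  have hp1 : ∀ x, 0 < 1 + e * θ x := fun x => by linarith only [(abs_le.1 (hsmall x)).1, hc1, hc0]
  have hp2 : ∀ x, 0 < 1 + -e * θ x := fun x => by linarith only [(abs_le.1 (hsmall x)).2, hc1, hc0]
  have hθc : Continuous fun z : E n × E n => θ z.1 := hθ.continuous.comp continuous_fst
  have hθ1 : ContDiff ℝ 1 θ := hθ.of_le (by exact_mod_cast le_top)
  -- mass
  have hmass : ∀ e' : ℝ, (∀ x, 0 < 1 + e' * θ x) →
      ∫ z, L.rgTilt θ e' z.1 ^ L.ps ∂L.V = L.V.real univ := by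
    intro e' he'
    have h1 : ∀ z : E n × E n, L.rgTilt θ e' z.1 ^ L.ps = 1 + e' * θ z.1 :=
      fun z => rgTilt_ps he' z.1
    simp only [h1]
    rw [integral_add (integrable_const _) ((L.integrable_of_cont hθc).const_mul _),
      integral_const_mul, h0]
    simp
  have key : ∀ e' : ℝ, (∀ x, 0 < 1 + e' * θ x) → H * L.V.real univ ≤ L.En (L.rgTilt θ e') := by
    intro e' he'
    refine le_trans ?_ (hC _ (rgTilt_smooth hθ he') (rgTilt_pos he'))
    rw [hmass e' he']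
    have h2 : L.V.real univ = L.V.real univ ^ (2 / L.m) * L.V.real univ ^ (2 / L.ps) := by
      rw [← Real.rpow_add L.rg_mass_pos, L.rg_ps_inv]
      have : 2 / L.m + (L.m - 2) / L.m = 1 := by field_simp; ring
      rw [this, Real.rpow_one]
    calc H * L.V.real univ = H * L.V.real univ ^ (2 / L.m) * L.V.real univ ^ (2 / L.ps) := by
          rw [mul_assoc, ← h2]
      _ ≤ _ := by gcongr
  have k1 := key e hp1
  have k2 := key (-e) hp2
  -- expansions
  unfold En at k1 k2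
  simp only [rgTilt_G hθ hp1, rgTilt_sq hp1] at k1
  simp only [rgTilt_G hθ hp2, rgTilt_sq hp2] at k2
  rw [← hH, ← hc, ← hB] at k1 k2
  have hcG : Continuous (L.G θ θ) := L.G_cont hθ1 hθ1
  have ci : ∀ (e' : ℝ) (r : ℝ), (∀ x, 0 < 1 + e' * θ x) →
      Continuous fun z : E n × E n => (1 + e' * θ z.1) ^ r := by
    intro e' r he'
    exact (continuous_const.add (continuous_const.mul hθc)).rpow_const
      fun z => Or.inl (he' z.1).ne'
  have i1 := L.integrable_of_cont (ci e c hp1)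
  have i2 := L.integrable_of_cont (ci (-e) c hp2)
  have j1 : Integrable (fun z : E n × E n =>
      e ^ 2 / L.ps ^ 2 * (1 + e * θ z.1) ^ (-(2 - c)) * L.G θ θ z) L.V :=
    L.integrable_of_cont ((continuous_const.mul (ci e (-(2 - c)) hp1)).mul hcG)
  have j2 : Integrable (fun z : E n × E n =>
      (-e) ^ 2 / L.ps ^ 2 * (1 + -e * θ z.1) ^ (-(2 - c)) * L.G θ θ z) L.V :=
    L.integrable_of_cont ((continuous_const.mul (ci (-e) (-(2 - c)) hp2)).mul hcG)
  have s1 : ∫ z, (1 + e * θ z.1) ^ c ∂L.V + ∫ z, (1 + -e * θ z.1) ^ c ∂L.V ≤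
      2 * L.V.real univ - c * (1 - c) * e ^ 2 * ∫ z, θ z.1 ^ 2 ∂L.V + e ^ 3 * L.V.real univ := by
    rw [← integral_add i1 i2]
    have hR : 2 * L.V.real univ - c * (1 - c) * e ^ 2 * ∫ z, θ z.1 ^ 2 ∂L.V +
        e ^ 3 * L.V.real univ =
        ∫ z, (2 - c * (1 - c) * e ^ 2 * θ z.1 ^ 2 + e ^ 3) ∂L.V := by
      have hi : Integrable (fun z : E n × E n => c * (1 - c) * e ^ 2 * θ z.1 ^ 2) L.V :=
        L.integrable_of_cont (continuous_const.mul (hθc.pow 2))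
      have hi2 : Integrable (fun z : E n × E n => 2 - c * (1 - c) * e ^ 2 * θ z.1 ^ 2) L.V :=
        L.integrable_of_cont (continuous_const.sub (continuous_const.mul (hθc.pow 2)))
      rw [integral_add hi2 (integrable_const _),
        integral_sub (integrable_const _) hi, integral_const_mul]
      simp [mul_comm]
    rw [hR]
    refine L.integral_mono_of ((ci e c hp1).add (ci (-e) c hp2)) (by exact Differentiable.continuous (by fun_prop)) ?_
    intro z _ _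
    have h3 := rpow_even hc0 hc1 (hsmall z.1)
    have h4 : |e * θ z.1| ^ 3 ≤ e ^ 3 := by
      rw [abs_mul, abs_of_pos he, mul_pow]
      have : |θ z.1| ^ 3 ≤ 1 := pow_le_one₀ (abs_nonneg _) (hle _)
      (by_contra nlg; linarith only [nlg, mul_nonneg (sub_nonneg.2 this) (le_of_lt (sub_pos.2 (pow_pos he 3))), mul_pos (sub_pos.2 (not_le.1 nlg)) (sub_pos.2 hc1), mul_pos (sub_pos.2 (not_le.1 nlg)) (sub_pos.2 hc0)])
    have h5 : 1 + -e * θ z.1 = 1 - e * θ z.1 := by ring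
    simp only [h5]
    linarith only [h4, h3]
  have s2 : ∫ z, e ^ 2 / L.ps ^ 2 * (1 + e * θ z.1) ^ (-(2 - c)) * L.G θ θ z ∂L.V +
      ∫ z, (-e) ^ 2 / L.ps ^ 2 * (1 + -e * θ z.1) ^ (-(2 - c)) * L.G θ θ z ∂L.V ≤
      e ^ 2 / L.ps ^ 2 * ((2 + 11 * e ^ 2) * ∫ z, L.G θ θ z ∂L.V) := by
    rw [← integral_add j1 j2, ← integral_const_mul, ← integral_const_mul]
    refine L.integral_mono_of (((continuous_const.mul (ci e (-(2 - c)) hp1)).mul hcG).add
      ((continuous_const.mul (ci (-e) (-(2 - c)) hp2)).mul hcG)) (by fun_prop) ?_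
    intro z _ hz
    have h3 := rpow_even' (b := 2 - c) (by linarith only [hc1, hc0]) (by linarith only [hc0]) (hsmall z.1)
    have hG := L.G_self_nonneg θ hz
    have h4 : (e * θ z.1) ^ 2 ≤ e ^ 2 := by
      rw [mul_pow]
      have : θ z.1 ^ 2 ≤ 1 := by
        rw [← sq_abs]
        exact pow_le_one₀ (abs_nonneg _) (hle _)
      (by_contra nlg; linarith only [nlg, mul_nonneg (sub_nonneg.2 this) (le_of_lt (sub_pos.2 (pow_pos he 2))), mul_pos (sub_pos.2 (not_le.1 nlg)) (sub_pos.2 hc1), mul_pos (sub_pos.2 (not_le.1 nlg)) (sub_pos.2 hc0)])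
    have h5 : 1 + -e * θ z.1 = 1 - e * θ z.1 := by ring
    simp only [h5, neg_sq]
    have h6 : (1 + e * θ z.1) ^ (-(2 - c)) + (1 - e * θ z.1) ^ (-(2 - c)) ≤ 2 + 11 * e ^ 2 := by
      linarith only [h4, h3]
    have h7 := mul_le_mul_of_nonneg_left (mul_le_mul_of_nonneg_right h6 hG)
      (show 0 ≤ e ^ 2 / L.ps ^ 2 by positivity)
    linarith only [h7]
  have h8 := mul_le_mul_of_nonneg_left s1 hk
  have h9 := mul_le_mul_of_nonneg_left s2 hB0.le
  have hG0 : 0 ≤ ∫ z, L.G θ θ z ∂L.V := L.integral_nonneg_of fun z _ hz => L.G_self_nonneg θ hz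
  have h10 : e ^ 2 * (H * (c * (1 - c)) * ∫ z, θ z.1 ^ 2 ∂L.V) ≤
      e ^ 2 * (B / L.ps ^ 2 * (2 * ∫ z, L.G θ θ z ∂L.V) +
      (e * (H * L.V.real univ) + e ^ 2 * (B / L.ps ^ 2 * (11 * ∫ z, L.G θ θ z ∂L.V)))) := by
    have : B * (e ^ 2 / L.ps ^ 2 * ((2 + 11 * e ^ 2) * ∫ z, L.G θ θ z ∂L.V)) =
      e ^ 2 * (B / L.ps ^ 2 * (2 * ∫ z, L.G θ θ z ∂L.V) +
      (e ^ 2 * (B / L.ps ^ 2 * (11 * ∫ z, L.G θ θ z ∂L.V)))) := by ring
    linarith only [this, h9, h8, k2, k1]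
  have h11 := le_of_mul_le_mul_left h10 (by positivity)
  refine h11.trans ?_
  have h12 : e ^ 2 * (B / L.ps ^ 2 * (11 * ∫ z, L.G θ θ z ∂L.V)) ≤
      e * (B / L.ps ^ 2 * (11 * ∫ z, L.G θ θ z ∂L.V)) := by
    refine mul_le_mul_of_nonneg_right (by (by_contra nlg; linarith only [nlg, mul_pos (sub_pos.2 he) (sub_pos.2 hc1), mul_pos (sub_pos.2 he) (sub_pos.2 hc0), mul_nonneg (le_of_lt (sub_pos.2 he)) (sub_nonneg.2 he2), mul_pos (sub_pos.2 (not_le.1 nlg)) (sub_pos.2 hc1), mul_pos (sub_pos.2 (not_le.1 nlg)) (sub_pos.2 hc0)])) ?_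
    (clear * - hm hm2 hp hG0; positivity)
  linarith only [h12]

/-- the infinitesimal form -/
theorem rg_inf (hC : ∀ u : E n → ℝ, ContDiff ℝ ∞ u → (∀ x, 0 < u x) →
      sg L.m ^ (2 / L.m) * (∫ z, u z.1 ^ L.ps ∂L.V) ^ (2 / L.ps) ≤ L.En u)
    (heq : (L.H0 ^ 2 / L.m ^ 2 - L.k2) * L.V.real univ ^ (2 / L.m) ≤ sg L.m ^ (2 / L.m))
    {θ : E n → ℝ} (hθ : ContDiff ℝ ∞ θ) (hle : ∀ x, |θ x| ≤ 1) (h0 : ∫ z, θ z.1 ∂L.V = 0)
    (hk : 0 ≤ L.H0 ^ 2 / L.m ^ 2 - L.k2) :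
    L.m * (L.H0 ^ 2 / L.m ^ 2 - L.k2) * ∫ z, θ z.1 ^ 2 ∂L.V ≤ ∫ z, L.G θ θ z ∂L.V := by
  have hm := L.m_pos
  have hm2 := L.m_sub_pos
  set a := (L.H0 ^ 2 / L.m ^ 2 - L.k2) * (2 / L.ps * (1 - 2 / L.ps)) * ∫ z, θ z.1 ^ 2 ∂L.V with ha
  set b := 4 / (L.m * (L.m - 2)) / L.ps ^ 2 * (2 * ∫ z, L.G θ θ z ∂L.V) with hb
  set C := (L.H0 ^ 2 / L.m ^ 2 - L.k2) * L.V.real univ +
        4 / (L.m * (L.m - 2)) / L.ps ^ 2 * (11 * ∫ z, L.G θ θ z ∂L.V) with hCd
  have h1 : ∀ e : ℝ, 0 < e → e ≤ 1 / 2 → a ≤ b + e * C :=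
    fun e he he2 => L.rg_pair hC heq hθ hle h0 hk he he2
  have hG0 : 0 ≤ ∫ z, L.G θ θ z ∂L.V := L.integral_nonneg_of fun z _ hz => L.G_self_nonneg θ hz
  have hC0 : 0 ≤ C := by
    have := L.rg_mass_pos
    have h2 : 0 < 4 / (L.m * (L.m - 2)) / L.ps ^ 2 := by
      have := L.rg_ps_pos
      (clear * - hm hm2 this; positivity)
    rw [hCd]
    (clear * - hk this h2 hG0; positivity)
  have h2 : a ≤ b := by
    refine le_of_forall_pos_le_add fun δ hδ => ?_
    have h3 : 0 < min (1 / 2) (δ / (C + 1)) := lt_min (by norm_num) (by (clear * - hδ hk hm hm2 hG0; positivity))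
    refine (h1 _ h3 (min_le_left _ _)).trans ?_
    have h4 : min (1 / 2) (δ / (C + 1)) * C ≤ δ := by
      calc min (1 / 2) (δ / (C + 1)) * C ≤ δ / (C + 1) * C :=
            mul_le_mul_of_nonneg_right (min_le_right _ _) hC0
        _ ≤ δ / (C + 1) * (C + 1) := mul_le_mul_of_nonneg_left (by linarith only []) (by (clear * - hδ hk hm hm2 hG0; positivity))
        _ = δ := by field_simp
    linarith only [h4]
  have h3 : a = 2 * (L.m - 2) / L.m ^ 3 *
      (L.m * (L.H0 ^ 2 / L.m ^ 2 - L.k2) * ∫ z, θ z.1 ^ 2 ∂L.V) := by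
    rw [ha, L.rg_ps_inv]
    field_simp
    ring
  have h4 : b = 2 * (L.m - 2) / L.m ^ 3 * ∫ z, L.G θ θ z ∂L.V := by
    rw [hb]
    unfold ps
    field_simp
    ring
  rw [h3, h4] at h2
  exact le_of_mul_le_mul_left h2 (by positivity)

/-- gradient of a function of `F c` -/
theorem rg_G_comp (c : E n) {φ : ℝ → ℝ} {φ' : ℝ} {z : E n × E n}
    (h : HasDerivAt φ φ' (L.F c z.1)) :
    L.G (fun x => φ (L.F c x)) (L.F c) z = φ' * L.G (L.F c) (L.F c) z := by
  show gv _ _ _ = _ * gv _ _ _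
  rw [D_comp h ((L.Fc_smooth c).differentiable (by simp) _), gv_smul_left]

theorem rg_inv_smooth (c : E n) {ε : ℝ} (hε : 0 < ε) :
    ContDiff ℝ ∞ fun x => (L.F c x + ε)⁻¹ :=
  ((L.Fc_smooth c).add contDiff_const).inv fun x => by
    have := L.F_nonneg c x
    positivity

theorem rg_inv2_smooth (c : E n) {ε : ℝ} (hε : 0 < ε) :
    ContDiff ℝ ∞ fun x => ((L.F c x + ε) ^ 2)⁻¹ :=
  (((L.Fc_smooth c).add contDiff_const).pow 2).inv fun x => by
    have := L.F_nonneg c x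
    positivity

theorem rg_dl_inv (c : E n) {ε : ℝ} (hε : 0 < ε) (z : E n × E n) :
    L.dl c (fun x => (L.F c x + ε)⁻¹) z =
      (L.H0 * L.nc c z - L.m * (1 + L.k2 * L.F c z.1)) / (L.F c z.1 + ε) +
        L.G (L.F c) (L.F c) z / (L.F c z.1 + ε) ^ 2 := by
  have hF := L.F_nonneg c z.1
  have hne : L.F c z.1 + ε ≠ 0 := by positivity
  have h1 : HasDerivAt (fun t : ℝ => (t + ε)⁻¹) (-1 / (L.F c z.1 + ε) ^ 2) (L.F c z.1) :=
    ((hasDerivAt_id (L.F c z.1)).add_const ε).inv hne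
  unfold dl
  rw [L.rg_G_comp c h1]
  field_simp
  ring

theorem rg_dl_inv2 (c : E n) {ε : ℝ} (hε : 0 < ε) (z : E n × E n) :
    L.dl c (fun x => ((L.F c x + ε) ^ 2)⁻¹) z =
      (L.H0 * L.nc c z - L.m * (1 + L.k2 * L.F c z.1)) / (L.F c z.1 + ε) ^ 2 +
        2 * L.G (L.F c) (L.F c) z / (L.F c z.1 + ε) ^ 3 := by
  have hF := L.F_nonneg c z.1
  have hne : L.F c z.1 + ε ≠ 0 := by positivity
  have h1 : HasDerivAt (fun t : ℝ => ((t + ε) ^ 2)⁻¹) (-(2 * (L.F c z.1 + ε)) /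
      ((L.F c z.1 + ε) ^ 2) ^ 2) (L.F c z.1) := by
    have h2 : HasDerivAt (fun t : ℝ => (t + ε) ^ 2) (2 * (L.F c z.1 + ε)) (L.F c z.1) :=
      (((hasDerivAt_id (L.F c z.1)).add_const ε).pow 2).congr_deriv (by simp)
    exact h2.inv (by positivity)
  unfold dl
  rw [L.rg_G_comp c h1]
  field_simp
  ring

theorem rg_w_sq (c : E n) {ε : ℝ} (hε : 0 < ε) (hk : L.k2 * ε < 2) (x : E n) :
    L.w c ε x ^ 2 = ε * (2 - L.k2 * ε) / (L.F c x + ε) ^ 2 := by
  unfold w bub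
  rw [div_pow, Real.sq_sqrt]
  have : 0 < 2 - L.k2 * ε := by linarith
  positivity

/-- the exact identity for the defect of constants -/
theorem rg_ident (c : E n) {ε : ℝ} (hε : 0 < ε) (hk : L.k2 * ε < 2) (z : E n × E n) :
    L.H0 ^ 2 / L.m ^ 2 - L.k2 - L.w c ε z.1 ^ 2 =
      (L.m - 2) / L.m * (L.G (L.F c) (L.F c) z / (L.F c z.1 + ε) ^ 2) +
      (L.H0 / L.m - L.nc c z / (L.F c z.1 + ε)) ^ 2 +
      2 / L.m * L.dl c (fun x => (L.F c x + ε)⁻¹) z := by
  have hm := L.m_pos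
  have hF := L.F_nonneg c z.1
  have hne : 0 < L.F c z.1 + ε := by positivity
  rw [L.rg_w_sq c hε hk, L.rg_dl_inv c hε, L.G_FF]
  field_simp
  ring

theorem rg_ae_zero {f : E n × E n → ℝ} (hf : Continuous f)
    (h : ∀ z : E n × E n, z.1 ∈ L.K → ‖z.2‖ = 1 → 0 ≤ f z) (h0 : ∫ z, f z ∂L.V ≤ 0) :
    ∀ᵐ z ∂L.V, f z = 0 := by
  have h1 : 0 ≤ᵐ[L.V] f := by
    filter_upwards [L.V_supp] with z hz
    exact h z hz.1 hz.2
  exact (integral_eq_zero_iff_of_nonneg_ae h1 (L.integrable_of_cont hf)).1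
    (le_antisymm h0 (L.integral_nonneg_of h))

/-- **Rigidity of the limit object.** If the sharp inequality holds on `L` and constants are
extremal, then `F c` is constant almost everywhere for some `c ∈ K`. -/
theorem rigid (hC : ∀ u : E n → ℝ, ContDiff ℝ ∞ u → (∀ x, 0 < u x) →
      sg L.m ^ (2 / L.m) * (∫ z, u z.1 ^ L.ps ∂L.V) ^ (2 / L.ps) ≤ L.En u)
    (heq : (L.H0 ^ 2 / L.m ^ 2 - L.k2) * L.V.real univ ^ (2 / L.m) ≤ sg L.m ^ (2 / L.m)) :
    0 < L.H0 ^ 2 / L.m ^ 2 - L.k2 ∧ ∃ c ∈ L.K, ∃ a : ℝ, 0 ≤ a ∧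
      2 * a + L.k2 * a ^ 2 = (L.H0 ^ 2 / L.m ^ 2 - L.k2)⁻¹ ∧ ∀ᵐ z ∂L.V, L.F c z.1 = a := by
  have hm := L.m_pos
  have hm2 := L.m_sub_pos
  have hM := L.rg_mass_pos
  -- positivity
  have hκ : 0 < L.H0 ^ 2 / L.m ^ 2 - L.k2 := by
    have h1 := hC (fun _ => 1) contDiff_const (fun _ => one_pos)
    rw [L.rg_En_one] at h1
    have h2 : 0 < sg L.m ^ (2 / L.m) * (∫ z : E n × E n, (1 : ℝ) ^ L.ps ∂L.V) ^ (2 / L.ps) := by
      have h3 : ∫ z : E n × E n, (1 : ℝ) ^ L.ps ∂L.V = L.V.real univ := by simp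
      rw [h3]
      have := Real.rpow_pos_of_pos L.rg_sg_pos (2 / L.m)
      have := Real.rpow_pos_of_pos hM (2 / L.ps)
      positivity
    exact pos_of_mul_pos_left (h2.trans_le h1) hM.le
  refine ⟨hκ, ?_⟩
  set κ := L.H0 ^ 2 / L.m ^ 2 - L.k2 with hκd
  obtain ⟨c, hc, ε, hε, hkε, θ, hθ, hsum, hgam, hbar⟩ :=
    L.bary (fun _ => 1) contDiff_const (fun _ => one_pos)
  refine ⟨c, hc, ?_⟩
  have hF0 : ∀ x, 0 < L.F c x + ε := fun x => by
    have := L.F_nonneg c x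
    positivity
  -- the trace inequality
  have hθ1 : ∀ i, ContDiff ℝ 1 (θ i) := fun i => (hθ i).of_le (by exact_mod_cast le_top)
  have hθle : ∀ i x, |θ i x| ≤ 1 := by
    intro i x
    rw [← sq_le_one_iff_abs_le_one, ← hsum x]
    exact Finset.single_le_sum (f := fun i => θ i x ^ 2) (fun j _ => sq_nonneg _)
      (Finset.mem_univ i)
  have hFc : Continuous fun z : E n × E n => L.F c z.1 := (L.Fc_cont c).comp continuous_fst
  have hwc : Continuous fun z : E n × E n => L.w c ε z.1 ^ 2 := by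
    have : (fun z : E n × E n => L.w c ε z.1 ^ 2) =
        fun z : E n × E n => ε * (2 - L.k2 * ε) / (L.F c z.1 + ε) ^ 2 := by
      funext z
      exact L.rg_w_sq c hε hkε z.1
    rw [this]
    refine continuous_const.div ((hFc.add continuous_const).pow 2) fun z => ?_
    have := hF0 z.1
    (clear * - this; positivity)
  have htr : κ * L.V.real univ ≤ ∫ z, L.w c ε z.1 ^ 2 ∂L.V := by
    have h1 : ∀ i, L.m * κ * ∫ z, θ i z.1 ^ 2 ∂L.V ≤ ∫ z, L.G (θ i) (θ i) z ∂L.V := by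
      intro i
      refine L.rg_inf hC heq (hθ i) (hθle i) ?_ hκ.le
      have := hbar i
      simpa using this
    have h2 := Finset.sum_le_sum fun i (_ : i ∈ Finset.univ) => h1 i
    have i2 : ∀ i ∈ Finset.univ, Integrable (fun z : E n × E n => θ i z.1 ^ 2) L.V := by
      intro i _
      exact L.integrable_of_cont (((hθ i).continuous.comp continuous_fst).pow 2)
    have i3 : ∀ i ∈ Finset.univ, Integrable (fun z : E n × E n => L.G (θ i) (θ i) z) L.V := by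
      intro i _
      exact L.integrable_of_cont (L.G_cont (hθ1 i) (hθ1 i))
    rw [← Finset.mul_sum, ← integral_finsetSum _ i2, ← integral_finsetSum _ i3] at h2
    have h3 : ∫ z : E n × E n, ∑ i, θ i z.1 ^ 2 ∂L.V = L.V.real univ := by
      simp [hsum]
    have h4 : ∫ z, ∑ i, L.G (θ i) (θ i) z ∂L.V ≤ ∫ z, L.m * L.w c ε z.1 ^ 2 ∂L.V := by
      refine integral_mono_ae (integrable_finsetSum _ i3)
        (L.integrable_of_cont (continuous_const.mul hwc)) ?_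
      filter_upwards [hgam] with z hz
      exact hz
    rw [h3] at h2
    rw [integral_const_mul] at h4
    have h5 : L.m * (κ * L.V.real univ) ≤ L.m * ∫ z, L.w c ε z.1 ^ 2 ∂L.V := by linarith only [h4, h2]
    exact le_of_mul_le_mul_left h5 hm
  -- the three terms
  have hG := L.G_cont (L.Fc_smooth1 c) (L.Fc_smooth1 c)
  have c1 : Continuous fun z : E n × E n => L.G (L.F c) (L.F c) z / (L.F c z.1 + ε) ^ 2 :=
    hG.div ((hFc.add continuous_const).pow 2) fun z => by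
      have := hF0 z.1
      (clear * - this; positivity)
  have c2 : Continuous fun z : E n × E n =>
      (L.H0 / L.m - L.nc c z / (L.F c z.1 + ε)) ^ 2 :=
    (continuous_const.sub ((L.nc_cont c).div (hFc.add continuous_const)
      fun z => (hF0 z.1).ne')).pow 2
  have s1 : ContDiff ℝ 1 fun x => (L.F c x + ε)⁻¹ :=
    (L.rg_inv_smooth c hε).of_le (by exact_mod_cast le_top)
  have s2 : ContDiff ℝ 1 fun x => ((L.F c x + ε) ^ 2)⁻¹ :=
    (L.rg_inv2_smooth c hε).of_le (by exact_mod_cast le_top)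
  have c3 := L.dl_cont c s1
  have hint : κ * L.V.real univ - ∫ z, L.w c ε z.1 ^ 2 ∂L.V =
      (L.m - 2) / L.m * ∫ z, L.G (L.F c) (L.F c) z / (L.F c z.1 + ε) ^ 2 ∂L.V +
      ∫ z, (L.H0 / L.m - L.nc c z / (L.F c z.1 + ε)) ^ 2 ∂L.V +
      2 / L.m * L.Dl c (fun x => (L.F c x + ε)⁻¹) := by
    have i1 := (L.integrable_of_cont c1).const_mul ((L.m - 2) / L.m)
    have i2 := L.integrable_of_cont c2
    have i3 := (L.integrable_of_cont c3).const_mul (2 / L.m)
    have i12 : Integrable (fun z => (L.m - 2) / L.m *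
        (L.G (L.F c) (L.F c) z / (L.F c z.1 + ε) ^ 2) +
        (L.H0 / L.m - L.nc c z / (L.F c z.1 + ε)) ^ 2) L.V := i1.add i2
    rw [Dl_eq, ← integral_const_mul, ← integral_const_mul, ← integral_add i1 i2,
      ← integral_add i12 i3]
    have h1 : κ * L.V.real univ = ∫ z : E n × E n, κ ∂L.V := by simp [mul_comm]
    rw [h1, ← integral_sub (integrable_const _) (L.integrable_of_cont hwc)]
    refine integral_congr_ae (Filter.Eventually.of_forall fun z => ?_)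
    exact L.rg_ident c hε hkε z
  have p1 : 0 ≤ ∫ z, L.G (L.F c) (L.F c) z / (L.F c z.1 + ε) ^ 2 ∂L.V :=
    L.integral_nonneg_of fun z _ hz => div_nonneg (L.G_self_nonneg _ hz) (sq_nonneg _)
  have p2 : 0 ≤ ∫ z, (L.H0 / L.m - L.nc c z / (L.F c z.1 + ε)) ^ 2 ∂L.V :=
    integral_nonneg fun z => sq_nonneg _
  have p3 : 0 ≤ L.Dl c (fun x => (L.F c x + ε)⁻¹) :=
    L.Dl_nonneg hc (L.rg_inv_smooth c hε) fun x => (inv_pos.2 (hF0 x)).le
  have p1' : 0 ≤ (L.m - 2) / L.m * ∫ z, L.G (L.F c) (L.F c) z / (L.F c z.1 + ε) ^ 2 ∂L.V := by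
    (clear * - hm2 hm p1; positivity)
  have p3' : 0 ≤ 2 / L.m * L.Dl c (fun x => (L.F c x + ε)⁻¹) := by (clear * - hm p3; positivity)
  have z1 : ∫ z, L.G (L.F c) (L.F c) z / (L.F c z.1 + ε) ^ 2 ∂L.V ≤ 0 := by
    have h1 : (L.m - 2) / L.m * ∫ z, L.G (L.F c) (L.F c) z / (L.F c z.1 + ε) ^ 2 ∂L.V ≤ 0 := by
      linarith only [p3', p2, hint, htr]
    exact nonpos_of_mul_nonpos_right h1 (by positivity)
  have z2 : ∫ z, (L.H0 / L.m - L.nc c z / (L.F c z.1 + ε)) ^ 2 ∂L.V ≤ 0 := by linarith only [p3', p1', hint, htr]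
  have z3 : L.Dl c (fun x => (L.F c x + ε)⁻¹) = 0 := by
    have h1 : 2 / L.m * L.Dl c (fun x => (L.F c x + ε)⁻¹) ≤ 0 := by linarith only [p1', p2, hint, htr]
    exact le_antisymm (nonpos_of_mul_nonpos_right h1 (by positivity)) p3
  have a1 := L.rg_ae_zero c1
    (fun z _ hz => div_nonneg (L.G_self_nonneg _ hz) (sq_nonneg _)) z1
  have a2 := L.rg_ae_zero c2 (fun z _ _ => sq_nonneg _) z2
  -- the second weight
  have z4 : L.Dl c (fun x => ((L.F c x + ε) ^ 2)⁻¹) = 0 := by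
    refine le_antisymm ?_ (L.Dl_nonneg hc (L.rg_inv2_smooth c hε) fun x => by
      have := hF0 x
      (clear * - this; positivity))
    have h1 := L.Dl_mono hc (L.rg_inv2_smooth c hε)
      (contDiff_const.mul (L.rg_inv_smooth c hε) : ContDiff ℝ ∞ fun x => ε⁻¹ * (L.F c x + ε)⁻¹)
      (fun x => by
        have h2 := hF0 x
        have h3 := L.F_nonneg c x
        rw [← mul_inv, sq]
        exact inv_anti₀ (by (clear * - hε h3; positivity)) (by gcongr; linarith only [h3]))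
    rw [L.Dl_smul c ε⁻¹ s1, z3, mul_zero] at h1
    exact h1
  -- conclusion
  set h := L.H0 / L.m with hh
  have hκ2 : κ = h ^ 2 - L.k2 := by rw [hκd, hh, div_pow]
  set a := (1 - h ^ 2 * ε) / κ with ha
  have hκa : κ * a = 1 - h ^ 2 * ε := by rw [ha]; field_simp
  have hfin : ∫ z, L.m * κ * (L.F c z.1 - a) ^ 2 / (L.F c z.1 + ε) ^ 2 ∂L.V = 0 := by
    have h1 : ∫ z, L.m * κ * (L.F c z.1 - a) ^ 2 / (L.F c z.1 + ε) ^ 2 ∂L.V =
        L.Dl c (fun x => (L.F c x + ε)⁻¹) -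
          (a + ε) * L.Dl c (fun x => ((L.F c x + ε) ^ 2)⁻¹) := by
      rw [Dl_eq, Dl_eq, ← integral_const_mul,
        ← integral_sub (L.dl_integrable c s1) ((L.dl_integrable c s2).const_mul _)]
      refine integral_congr_ae ?_
      filter_upwards [a1, a2] with z h3 h4
      have h5 := (hF0 z.1).ne'
      have h6 : L.G (L.F c) (L.F c) z = 0 := by
        rcases div_eq_zero_iff.1 h3 with h7 | h7
        · exact h7
        · exact absurd h7 (pow_ne_zero 2 h5)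
      have h7 : L.nc c z = h * (L.F c z.1 + ε) := by
        have h8 := pow_eq_zero_iff (two_ne_zero) |>.1 h4
        rw [sub_eq_zero, eq_div_iff h5] at h8
        exact h8.symm
      have h9 : L.H0 = L.m * h := by rw [hh]; field_simp
      rw [L.rg_dl_inv c hε, L.rg_dl_inv2 c hε, h6, h7, h9]
      have h10 : L.m * h * (h * (L.F c z.1 + ε)) - L.m * (1 + L.k2 * L.F c z.1) =
          L.m * κ * (L.F c z.1 - a) := by
        have : κ * (L.F c z.1 - a) = κ * L.F c z.1 - (1 - h ^ 2 * ε) := by rw [mul_sub, hκa]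
        rw [mul_assoc L.m κ, this, hκ2]
        ring
      rw [h10]
      field_simp
      ring
    rw [h1, z3, z4]
    ring
  have c5 : Continuous fun z : E n × E n =>
      L.m * κ * (L.F c z.1 - a) ^ 2 / (L.F c z.1 + ε) ^ 2 :=
    (continuous_const.mul ((hFc.sub continuous_const).pow 2)).div
      ((hFc.add continuous_const).pow 2) fun z => by
        have := hF0 z.1
        (clear * - this; positivity)
  have a3 := L.rg_ae_zero c5 (fun z _ _ => by (clear * - hm hκ; positivity)) hfin.le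
  have a4 : ∀ᵐ z ∂L.V, L.F c z.1 = a := by
    filter_upwards [a3] with z hz
    have h5 := (hF0 z.1).ne'
    have h6 : L.m * κ * (L.F c z.1 - a) ^ 2 = 0 := by
      rcases div_eq_zero_iff.1 hz with h7 | h7
      · exact h7
      · exact absurd h7 (pow_ne_zero 2 h5)
    have h7 : (L.F c z.1 - a) ^ 2 = 0 := by
      rcases mul_eq_zero.1 h6 with h8 | h8
      · exact absurd h8 (by (clear * - hm hκ; positivity))
      · exact h8
    exact sub_eq_zero.1 (pow_eq_zero_iff (two_ne_zero) |>.1 h7)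
  -- a point
  have hne : (ae L.V).NeBot := ae_neBot.2 L.V_ne
  obtain ⟨z, hz1, hz2, hz3⟩ := (a1.and (a2.and a4)).exists
  have h5 := (hF0 z.1).ne'
  have h6 : L.G (L.F c) (L.F c) z = 0 := by
    rcases div_eq_zero_iff.1 hz1 with h7 | h7
    · exact h7
    · exact absurd h7 (pow_ne_zero 2 h5)
  have h7 : L.nc c z = h * (L.F c z.1 + ε) := by
    have h8 := pow_eq_zero_iff (two_ne_zero) |>.1 hz2
    rw [sub_eq_zero, eq_div_iff h5] at h8
    exact h8.symm
  rw [L.G_FF, h7, hz3] at h6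
  refine ⟨a, hz3 ▸ L.F_nonneg c z.1, ?_, a4⟩
  have haε : 0 < a + ε := hz3 ▸ hF0 z.1
  have e1 : h ^ 2 * (a + ε) = 1 + L.k2 * a := by
    have : κ * a = (h ^ 2 - L.k2) * a := by rw [hκ2]
    linarith
  have e2 : 2 * a + L.k2 * a ^ 2 = (1 + L.k2 * a) * (a + ε) := by
    have : h ^ 2 * (a + ε) ^ 2 = (1 + L.k2 * a) * (a + ε) := by
      rw [sq (a + ε), ← mul_assoc, e1]
    linarith
  have e3 : a = (1 + L.k2 * a) * ε := by linarith
  rw [e2]
  refine eq_inv_of_mul_eq_one_left ?_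
  have e4 : κ * (a + ε) = 1 - L.k2 * ε := by
    have : κ * ε = (h ^ 2 - L.k2) * ε := by rw [hκ2]
    linarith
  calc (1 + L.k2 * a) * (a + ε) * κ = (1 + L.k2 * a) * (κ * (a + ε)) := by ring
    _ = (1 + L.k2 * a) * (1 - L.k2 * ε) := by rw [e4]
    _ = 1 + L.k2 * (a - (1 + L.k2 * a) * ε) := by ring
    _ = 1 := by rw [← e3]; ring

end Lim

end Vale.Agent.P219.End
end

section

/-!
# P219 / End : averaging

Near minimizers of `E + λ ∫ u²` have a small defect in some frame (statement B6a of the skeleton).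
The test functions are the tilts `u (1 ± t θ_i)`, `θ_i` from the conformal barycentre of `u^{2*}`.
-/

open MeasureTheory Set Metric
open scoped ENNReal ContDiff Topology

namespace Vale.Agent.P219.End

variable {n : ℕ}

theorem rpow_ge_sub {c x : ℝ} (h0 : 0 ≤ c) (h1 : c ≤ 1) (hx : |x| ≤ 1 / 2) :
    1 + c * x - x ^ 2 ≤ (1 + x) ^ c := by
  obtain ⟨hx1, hx2⟩ := abs_le.1 hx
  have hp : 0 < 1 + x := by linarith only [hx1]
  have h := (rpow_neg_bounds (y := x) (b := 1 - c) hx (by linarith only [h1]) (by linarith only [h0])).1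
  have e : (1 + x) ^ c = (1 + x) * (1 + x) ^ (-(1 - c)) := by
    nth_rewrite 2 [← Real.rpow_one (1 + x)]
    rw [← Real.rpow_add hp]
    congr 1
    ring
  rw [e]
  have h3 := mul_le_mul_of_nonneg_left h hp.le
  linarith only [mul_nonneg h0 (sq_nonneg x), h3]

theorem exp_neg_le {x : ℝ} (hx : 0 ≤ x) : Real.exp (-x) ≤ 1 - x + x ^ 2 / 2 := by
  have h : MonotoneOn (fun x : ℝ => 1 - x + x ^ 2 / 2 - Real.exp (-x)) (Set.Ici 0) := by
    have hd : ∀ x : ℝ, HasDerivAt (fun x : ℝ => 1 - x + x ^ 2 / 2 - Real.exp (-x))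
        (-1 + x + Real.exp (-x)) x := by
      intro x
      have e1 := ((hasDerivAt_id x).const_sub 1).add ((hasDerivAt_pow 2 x).div_const 2)
      have e2 := (Real.hasDerivAt_exp (-x)).comp x (hasDerivAt_neg x)
      exact (e1.sub e2).congr_deriv (by simp)
    refine monotoneOn_of_deriv_nonneg (convex_Ici _)
      (fun x _ => (hd x).continuousAt.continuousWithinAt)
      (fun x _ => (hd x).differentiableAt.differentiableWithinAt) ?_
    intro x hx
    rw [(hd x).deriv]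
    have := Real.add_one_le_exp (-x)
    linarith
  have h2 := h (Set.mem_Ici.2 le_rfl) (Set.mem_Ici.2 hx) hx
  simp only at h2
  norm_num at h2
  linarith only [h2]

/-- third order lower bound -/
theorem one_add_rpow_ge {q y : ℝ} (h2 : 2 ≤ q) (h6 : q ≤ 6) (hy : |y| ≤ 1 / 2) :
    1 + q * y + q * (q - 1) / 2 * y ^ 2 - 40 * |y| ^ 3 ≤ (1 + y) ^ q := by
  obtain ⟨hy1, hy2⟩ := abs_le.1 hy
  rcases le_total 0 y with h0 | h0
  · rw [abs_of_nonneg h0]
    set f : ℝ → ℝ := fun y => (1 + y) ^ q - (1 + q * y + q * (q - 1) / 2 * y ^ 2) with hf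
    have hd : ∀ x ∈ Set.Icc (0 : ℝ) (1 / 2), HasDerivAt f
        (q * (1 + x) ^ (q - 1) - (q + q * (q - 1) * x)) x := by
      intro x hx
      have e1 : HasDerivAt (fun y : ℝ => (1 + y) ^ q) (q * (1 + x) ^ (q - 1)) x := by
        have := ((hasDerivAt_id x).const_add 1).rpow_const (p := q)
          (Or.inl (by simp only [id]; linarith only [hx.1]))
        simpa using this
      have e2 : HasDerivAt (fun y : ℝ => 1 + q * y + q * (q - 1) / 2 * y ^ 2)
          (q + q * (q - 1) * x) x := by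
        have := (((hasDerivAt_id x).const_mul q).const_add 1).add
          ((hasDerivAt_pow 2 x).const_mul (q * (q - 1) / 2))
        exact this.congr_deriv (by simp; ring)
      exact e1.sub e2
    have hm : MonotoneOn f (Set.Icc 0 (1 / 2)) := by
      refine monotoneOn_of_deriv_nonneg (convex_Icc _ _)
        (fun x hx => (hd x hx).continuousAt.continuousWithinAt) ?_ ?_
      · intro x hx
        rw [interior_Icc] at hx
        exact (hd x ⟨hx.1.le, hx.2.le⟩).differentiableAt.differentiableWithinAt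
      · intro x hx
        rw [interior_Icc] at hx
        rw [(hd x ⟨hx.1.le, hx.2.le⟩).deriv]
        have h3 := one_add_mul_self_le_rpow_one_add (s := x) (p := q - 1) (by linarith only [hx.1])
          (by linarith only [h2])
        linarith only [mul_nonneg (sub_nonneg.2 h0) (sub_nonneg.2 h3), mul_nonneg (sub_nonneg.2 hy2) (sub_nonneg.2 h3), mul_nonneg (sub_nonneg.2 h2) (sub_nonneg.2 h3)]
    have h3 := hm (Set.left_mem_Icc.2 (by norm_num)) ⟨h0, hy2⟩ h0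
    simp only [hf] at h3
    norm_num at h3
    have : 0 ≤ y ^ 3 := by positivity
    linarith only [this, h3]
  · rw [abs_of_nonpos h0]
    obtain ⟨s, rfl⟩ : ∃ s, y = -s := ⟨-y, by ring⟩
    have hs0 : 0 ≤ s := by linarith only [h0]
    have hs1 : s ≤ 1 / 2 := by linarith
    set f : ℝ → ℝ := fun s => (1 - s) ^ q - (1 - q * s + q * (q - 1) / 2 * s ^ 2 - 40 * s ^ 3)
      with hf
    have hd : ∀ x ∈ Set.Icc (0 : ℝ) (1 / 2), HasDerivAt f
        (-(q * (1 - x) ^ (q - 1)) - (-q + q * (q - 1) * x - 120 * x ^ 2)) x := by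
      intro x hx
      have e1 : HasDerivAt (fun y : ℝ => (1 - y) ^ q) (-(q * (1 - x) ^ (q - 1))) x := by
        have := ((hasDerivAt_id x).const_sub 1).rpow_const (p := q)
          (Or.inl (by simp only [id]; linarith only [hx.2]))
        simpa using this
      have e2 : HasDerivAt (fun s : ℝ => 1 - q * s + q * (q - 1) / 2 * s ^ 2 - 40 * s ^ 3)
          (-q + q * (q - 1) * x - 120 * x ^ 2) x := by
        have := ((((hasDerivAt_id x).const_mul q).const_sub 1).add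
          ((hasDerivAt_pow 2 x).const_mul (q * (q - 1) / 2))).sub ((hasDerivAt_pow 3 x).const_mul 40)
        exact this.congr_deriv (by simp; ring)
      exact e1.sub e2
    have hm : MonotoneOn f (Set.Icc 0 (1 / 2)) := by
      refine monotoneOn_of_deriv_nonneg (convex_Icc _ _)
        (fun x hx => (hd x hx).continuousAt.continuousWithinAt) ?_ ?_
      · intro x hx
        rw [interior_Icc] at hx
        exact (hd x ⟨hx.1.le, hx.2.le⟩).differentiableAt.differentiableWithinAt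
      · intro x hx
        rw [interior_Icc] at hx
        rw [(hd x ⟨hx.1.le, hx.2.le⟩).deriv]
        obtain ⟨hx0, hx1⟩ := hx
        have hp : 0 < 1 - x := by linarith only [hx1, hx0]
        have h3 : (1 - x) ^ (q - 1) ≤ Real.exp (-((q - 1) * x)) := by
          rw [Real.rpow_def_of_pos hp]
          refine Real.exp_le_exp.2 ?_
          have h4 : Real.log (1 - x) ≤ -x := by
            have := Real.log_le_sub_one_of_pos hp
            linarith only [this]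
          (by_contra nlg; linarith only [nlg, mul_nonneg (le_of_lt (sub_pos.2 hp)) (sub_nonneg.2 h4), mul_nonneg (le_of_lt (sub_pos.2 hx0)) (sub_nonneg.2 h4), mul_nonneg (sub_nonneg.2 h2) (sub_nonneg.2 h4), mul_pos (sub_pos.2 (not_le.1 nlg)) (sub_pos.2 hp), mul_pos (sub_pos.2 (not_le.1 nlg)) (sub_pos.2 hx0)])
        have h4 := exp_neg_le (x := (q - 1) * x) (mul_nonneg (by linarith only [hx1, hx0, h2]) hx0.le)
        have h5 : ((q - 1) * x) ^ 2 / 2 ≤ 25 / 2 * x ^ 2 := by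
          have : (q - 1) ^ 2 ≤ 25 := by (by_contra nlg; linarith only [nlg, mul_nonneg (sub_nonneg.2 h6) (le_of_lt (sub_pos.2 hp)), mul_nonneg (sub_nonneg.2 h6) (le_of_lt (sub_pos.2 hx0)), mul_nonneg (sub_nonneg.2 h2) (sub_nonneg.2 h6), mul_pos (sub_pos.2 (not_le.1 nlg)) (sub_pos.2 hp), mul_pos (sub_pos.2 (not_le.1 nlg)) (sub_pos.2 hx0)])
          (by_contra nlg; linarith only [nlg, mul_nonneg (sub_nonneg.2 this) (sq_nonneg x), mul_pos (sub_pos.2 (not_le.1 nlg)) (sub_pos.2 hp), mul_pos (sub_pos.2 (not_le.1 nlg)) (sub_pos.2 hx0)])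
        nlinarith [sq_nonneg x]
    have h3 := hm (Set.left_mem_Icc.2 (by norm_num)) ⟨hs0, hs1⟩ hs0
    simp only [hf] at h3
    norm_num at h3
    have e3 : 1 + -s = 1 - s := by ring
    rw [e3]
    have e4 : - -s = s := by ring
    rw [e4]
    linarith only [h3]

/-- `∑ θ_i² = 1` implies `∑ θ_i ∇θ_i = 0` -/
theorem sum_theta_D {A : E n → E n →L[ℝ] E n} {ι : Type*} [Fintype ι] {θ : ι → E n → ℝ}
    (hθ : ∀ i, ContDiff ℝ 1 (θ i)) (h1 : ∀ x, ∑ i, θ i x ^ 2 = 1) (x : E n) :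
    ∑ i, θ i x • D A (θ i) x = 0 := by
  refine ext_inner_right ℝ fun y => ?_
  rw [sum_inner, inner_zero_left]
  have h2 : HasFDerivAt (fun x => ∑ i, θ i x ^ 2) (∑ i, (2 * θ i x) • fderiv ℝ (θ i) x) x := by
    refine HasFDerivAt.fun_sum fun i _ => ?_
    have := ((hθ i).differentiable (by norm_num) x).hasFDerivAt.pow 2
    simpa using this
  have h3 : (∑ i, (2 * θ i x) • fderiv ℝ (θ i) x) = 0 := by
    have e : (fun x => ∑ i, θ i x ^ 2) = fun _ => (1 : ℝ) := funext h1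
    rw [e] at h2
    exact h2.unique (hasFDerivAt_const 1 x)
  have h4 := congrArg (fun T : E n →L[ℝ] ℝ => T (A x y)) h3
  simp only [_root_.sum_apply, _root_.smul_apply, smul_eq_mul, _root_.zero_apply] at h4
  have h5 : ∀ i, inner ℝ (θ i x • D A (θ i) x) y = θ i x * fderiv ℝ (θ i) x (A x y) := by
    intro i
    rw [real_inner_smul_left, inner_D]
  simp only [h5]
  have h6 : ∑ i, 2 * θ i x * fderiv ℝ (θ i) x (A x y) =
      2 * ∑ i, θ i x * fderiv ℝ (θ i) x (A x y) := by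
    rw [Finset.mul_sum]
    exact Finset.sum_congr rfl fun i _ => by ring
  rw [h6] at h4
  linarith

/-- tilted function -/
noncomputable def tl (t : ℝ) (θ u : E n → ℝ) (x : E n) : ℝ := u x * (1 + t * θ x)

theorem tl_smooth {k : WithTop ℕ∞} {θ u : E n → ℝ} (t : ℝ) (hu : ContDiff ℝ k u) (hθ : ContDiff ℝ k θ) :
    ContDiff ℝ k (tl t θ u) :=
  hu.mul (contDiff_const.add (contDiff_const.mul hθ))

namespace Lim

variable (L : Lim n)

theorem G_tl {θ u : E n → ℝ} (t : ℝ) (hu : ContDiff ℝ 1 u) (hθ : ContDiff ℝ 1 θ) (z : E n × E n) :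
    L.G (tl t θ u) (tl t θ u) z = (1 + t * θ z.1) ^ 2 * L.G u u z +
      2 * u z.1 * t * (1 + t * θ z.1) * L.G u θ z + (u z.1 * t) ^ 2 * L.G θ θ z := by
  have hud := hu.differentiable (by norm_num) z.1
  have hθd := hθ.differentiable (by norm_num) z.1
  have e : D L.A (tl t θ u) z.1 =
      u z.1 • (t • D L.A θ z.1) + (1 + t * θ z.1) • D L.A u z.1 := by
    unfold tl
    have h1 : D L.A (fun y => 1 + t * θ y) z.1 = t • D L.A θ z.1 := by
      rw [D_add (u := fun _ => (1 : ℝ)) (v := fun y => t * θ y) (differentiableAt_const _)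
        (hθd.const_mul t), D_const, D_const_mul t hθd, zero_add]
    rw [D_mul (v := fun y => 1 + t * θ y) hud ((hθd.const_mul t).const_add 1), h1]
  show gv _ _ _ = _ * gv _ _ _ + _ * gv _ _ _ + _ * gv _ _ _
  rw [e]
  simp only [gv_add_left, gv_add_right, gv_smul_left, gv_smul_right]
  rw [gv_comm (D L.A θ z.1) (D L.A u z.1)]
  ring

/-- energy density with zero order coefficient `b` -/
noncomputable def ed (b : ℝ) (u : E n → ℝ) (z : E n × E n) : ℝ :=
  4 / (L.m * (L.m - 2)) * L.G u u z + b * u z.1 ^ 2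

theorem ed_cont (b : ℝ) {u : E n → ℝ} (hu : ContDiff ℝ 1 u) : Continuous (L.ed b u) := by
  have h1 := L.G_cont hu hu
  have h2 : Continuous fun z : E n × E n => u z.1 := hu.continuous.comp continuous_fst
  unfold ed
  continuity

/-- energy with zero order coefficient `b` -/
noncomputable def Eb (b : ℝ) (u : E n → ℝ) : ℝ := ∫ z, L.ed b u z ∂L.V

theorem Eb_eq (b : ℝ) {u : E n → ℝ} (hu : ContDiff ℝ 1 u) :
    L.Eb b u = 4 / (L.m * (L.m - 2)) * (∫ z, L.G u u z ∂L.V) + b * ∫ z, u z.1 ^ 2 ∂L.V := by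
  have h1 := L.integrable_of_cont (L.G_cont hu hu)
  have h2 : Integrable (fun z : E n × E n => u z.1 ^ 2) L.V :=
    L.integrable_of_cont ((hu.continuous.comp continuous_fst).pow 2)
  unfold Eb ed
  rw [integral_add (h1.const_mul _) (h2.const_mul _), integral_const_mul, integral_const_mul]

theorem En_eq_Eb (lam : ℝ) {u : E n → ℝ} (hu : ContDiff ℝ 1 u) :
    L.En u + lam * (∫ z, u z.1 ^ 2 ∂L.V) = L.Eb (L.H0 ^ 2 / L.m ^ 2 - L.k2 + lam) u := by
  rw [L.Eb_eq _ hu]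
  unfold En
  ring

/-- parallelogram identity for the tilts, summed over a partition `∑ θ_i² = 1` -/
theorem ed_tilt {ι : Type*} [Fintype ι] {θ : ι → E n → ℝ} (hθ : ∀ i, ContDiff ℝ 1 (θ i))
    (h1 : ∀ x, ∑ i, θ i x ^ 2 = 1) (b t : ℝ) {u : E n → ℝ} (hu : ContDiff ℝ 1 u) (z : E n × E n) :
    ∑ i, (L.ed b (tl t (θ i) u) z + L.ed b (tl (-t) (θ i) u) z) =
      2 * (Fintype.card ι) * L.ed b u z + 2 * t ^ 2 * (L.ed b u z +
        4 / (L.m * (L.m - 2)) * (u z.1 ^ 2 * ∑ i, L.G (θ i) (θ i) z)) := by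
  set a : ℝ := 4 / (L.m * (L.m - 2)) with ha
  have e1 : ∀ i, L.ed b (tl t (θ i) u) z + L.ed b (tl (-t) (θ i) u) z =
      2 * L.ed b u z + 2 * t ^ 2 * L.ed b u z * θ i z.1 ^ 2 +
        4 * t ^ 2 * a * u z.1 * (θ i z.1 * L.G u (θ i) z) +
        2 * t ^ 2 * a * u z.1 ^ 2 * L.G (θ i) (θ i) z := by
    intro i
    unfold ed
    rw [L.G_tl t hu (hθ i), L.G_tl (-t) hu (hθ i)]
    unfold tl
    ring
  have e2 : ∑ i, θ i z.1 * L.G u (θ i) z = 0 := by
    have h2 := sum_theta_D (A := L.A) hθ h1 z.1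
    have h3 : gv (∑ i, θ i z.1 • D L.A (θ i) z.1) (D L.A u z.1) z.2 = 0 := by
      rw [h2, gv_zero_left]
    rw [gv_sum_left] at h3
    rw [← h3]
    refine Finset.sum_congr rfl fun i _ => ?_
    rw [gv_smul_left, gv_comm]
    rfl
  simp only [e1, Finset.sum_add_distrib, ← Finset.mul_sum, e2, h1]
  rw [Finset.sum_const, Finset.card_univ, nsmul_eq_mul]
  ring

/-- the same, integrated -/
theorem Eb_tilt {ι : Type*} [Fintype ι] {θ : ι → E n → ℝ} (hθ : ∀ i, ContDiff ℝ 1 (θ i))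
    (h1 : ∀ x, ∑ i, θ i x ^ 2 = 1) {c : E n} {ε : ℝ} (hε : 0 < ε)
    (hG : ∀ᵐ z ∂L.V, ∑ i, L.G (θ i) (θ i) z ≤ L.m * L.w c ε z.1 ^ 2)
    (b t : ℝ) {u : E n → ℝ} (hu : ContDiff ℝ 1 u) :
    ∑ i, (L.Eb b (tl t (θ i) u) + L.Eb b (tl (-t) (θ i) u)) ≤
      2 * (Fintype.card ι) * L.Eb b u + 2 * t ^ 2 * (L.Eb b u +
        4 / (L.m - 2) * ∫ z, u z.1 ^ 2 * L.w c ε z.1 ^ 2 ∂L.V) := by
  have hi : ∀ s : ℝ, ∀ i, Integrable (L.ed b (tl s (θ i) u)) L.V := fun s i =>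
    L.integrable_of_cont (L.ed_cont b (tl_smooth s hu (hθ i)))
  have hi2 : ∀ i, Integrable (fun z => L.ed b (tl t (θ i) u) z + L.ed b (tl (-t) (θ i) u) z) L.V :=
    fun i => (hi t i).add (hi (-t) i)
  have e1 : ∑ i, (L.Eb b (tl t (θ i) u) + L.Eb b (tl (-t) (θ i) u)) =
      ∫ z, ∑ i, (L.ed b (tl t (θ i) u) z + L.ed b (tl (-t) (θ i) u) z) ∂L.V := by
    rw [integral_finsetSum _ fun i _ => hi2 i]
    refine Finset.sum_congr rfl fun i _ => ?_
    unfold Eb
    exact (integral_add (hi t i) (hi (-t) i)).symm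
  have cu : Continuous fun z : E n × E n => u z.1 := hu.continuous.comp continuous_fst
  have cw : Continuous fun z : E n × E n => L.w c ε z.1 :=
    (L.w_smooth hε).continuous.comp continuous_fst
  have iu := L.integrable_of_cont (L.ed_cont b hu)
  have iw : Integrable (fun z : E n × E n => u z.1 ^ 2 * L.w c ε z.1 ^ 2) L.V :=
    L.integrable_of_cont ((cu.pow 2).mul (cw.pow 2))
  have iw2 : Integrable (fun z : E n × E n => 4 / (L.m - 2) * (u z.1 ^ 2 * L.w c ε z.1 ^ 2)) L.V :=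
    iw.const_mul _
  have i3 : Integrable (fun z : E n × E n => L.ed b u z +
      4 / (L.m - 2) * (u z.1 ^ 2 * L.w c ε z.1 ^ 2)) L.V := iu.add iw2
  have e2 : 2 * (Fintype.card ι) * L.Eb b u + 2 * t ^ 2 * (L.Eb b u +
        4 / (L.m - 2) * ∫ z, u z.1 ^ 2 * L.w c ε z.1 ^ 2 ∂L.V) =
      ∫ z, (2 * (Fintype.card ι) * L.ed b u z + 2 * t ^ 2 * (L.ed b u z +
        4 / (L.m - 2) * (u z.1 ^ 2 * L.w c ε z.1 ^ 2))) ∂L.V := by
    rw [integral_add (iu.const_mul _) (i3.const_mul _), integral_const_mul,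
      integral_const_mul, integral_add iu iw2, integral_const_mul]
    rfl
  rw [e1, e2]
  refine integral_mono_ae (integrable_finsetSum _ fun i _ => hi2 i)
    ((iu.const_mul _).add (i3.const_mul _)) ?_
  filter_upwards [hG] with z hz
  show ∑ i, (L.ed b (tl t (θ i) u) z + L.ed b (tl (-t) (θ i) u) z) ≤
    2 * (Fintype.card ι) * L.ed b u z + 2 * t ^ 2 * (L.ed b u z +
        4 / (L.m - 2) * (u z.1 ^ 2 * L.w c ε z.1 ^ 2))
  rw [L.ed_tilt hθ h1 b t hu z]
  have hm := L.m_pos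
  have hm2 := L.m_sub_pos
  have h3 : 4 / (L.m * (L.m - 2)) * (u z.1 ^ 2 * ∑ i, L.G (θ i) (θ i) z) ≤
      4 / (L.m - 2) * (u z.1 ^ 2 * L.w c ε z.1 ^ 2) := by
    calc 4 / (L.m * (L.m - 2)) * (u z.1 ^ 2 * ∑ i, L.G (θ i) (θ i) z)
        ≤ 4 / (L.m * (L.m - 2)) * (u z.1 ^ 2 * (L.m * L.w c ε z.1 ^ 2)) := by gcongr
      _ = 4 / (L.m - 2) * (u z.1 ^ 2 * L.w c ε z.1 ^ 2) := by
        field_simp
  have h4 := mul_le_mul_of_nonneg_left h3 (show 0 ≤ 2 * t ^ 2 by (clear * -; positivity))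
  linarith only [h4]

theorem avn_two_lt_ps : 2 < L.ps := by
  have := L.m_sub_pos
  unfold ps
  rw [lt_div_iff₀ this]
  linarith

theorem avn_ps_le_six : L.ps ≤ 6 := by
  have := L.m_sub_pos
  have := L.three_le
  unfold ps
  rw [div_le_iff₀ (by assumption)]
  linarith

theorem avn_ps_pos : 0 < L.ps := by linarith [L.avn_two_lt_ps]

theorem avn_ps_sub : L.ps - 2 = 4 / (L.m - 2) := by
  have := L.m_sub_pos
  unfold ps
  field_simp
  ring

theorem avn_rpow_ps_smooth {u : E n → ℝ} (hu : SP u) : ContDiff ℝ ∞ fun x => u x ^ L.ps :=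
  hu.1.rpow_const_of_ne fun x => (hu.2 x).ne'

theorem avn_SP_cont {u : E n → ℝ} (hu : SP u) : Continuous fun z : E n × E n => u z.1 :=
  hu.1.continuous.comp continuous_fst

theorem avn_rpow_ps_cont {u : E n → ℝ} (hu : SP u) : Continuous fun z : E n × E n => u z.1 ^ L.ps :=
  (L.avn_rpow_ps_smooth hu).continuous.comp continuous_fst

theorem intPs_pos {u : E n → ℝ} (hu : SP u) : 0 < ∫ z, u z.1 ^ L.ps ∂L.V := by
  have h0 : ∀ z : E n × E n, 0 < u z.1 ^ L.ps := fun z => Real.rpow_pos_of_pos (hu.2 z.1) _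
  rw [integral_pos_iff_support_of_nonneg (fun z => (h0 z).le)
    (L.integrable_of_cont (L.avn_rpow_ps_cont hu))]
  have h1 : (Function.support fun z : E n × E n => u z.1 ^ L.ps) = univ :=
    eq_univ_of_forall fun z => (h0 z).ne'
  rw [h1]
  exact Measure.measure_univ_pos.2 L.V_ne

theorem ed_smul (b c : ℝ) {v : E n → ℝ} (hv : ContDiff ℝ 1 v) (z : E n × E n) :
    L.ed b (fun x => c * v x) z = c ^ 2 * L.ed b v z := by
  unfold ed
  have e : L.G (fun x => c * v x) (fun x => c * v x) z = c ^ 2 * L.G v v z := by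
    show gv _ _ _ = _ * gv _ _ _
    rw [D_const_mul c (hv.differentiable (by norm_num) _), gv_smul_left, gv_smul_right]
    ring
  rw [e]
  ring

theorem Eb_smul (b c : ℝ) {v : E n → ℝ} (hv : ContDiff ℝ 1 v) :
    L.Eb b (fun x => c * v x) = c ^ 2 * L.Eb b v := by
  unfold Eb
  rw [← integral_const_mul]
  exact integral_congr_ae (Filter.Eventually.of_forall fun z => L.ed_smul b c hv z)

/-- scaling of the near minimality -/
theorem near_scale {b e τ : ℝ} (hmin : ∀ v : E n → ℝ, SP v → ∫ z, v z.1 ^ L.ps ∂L.V = 1 →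
      e ≤ L.Eb b v + τ) {v : E n → ℝ} (hv : SP v) :
    (e - τ) * (∫ z, v z.1 ^ L.ps ∂L.V) ^ (2 / L.ps) ≤ L.Eb b v := by
  set N := ∫ z, v z.1 ^ L.ps ∂L.V with hN
  have hN0 : 0 < N := L.intPs_pos hv
  have hq := L.avn_ps_pos
  set c : ℝ := N ^ (-(1 / L.ps)) with hc
  have hc0 : 0 < c := Real.rpow_pos_of_pos hN0 _
  have hcv : SP fun x => c * v x := ⟨contDiff_const.mul hv.1, fun x => mul_pos hc0 (hv.2 x)⟩
  have h1 : ∫ z, (fun x => c * v x) z.1 ^ L.ps ∂L.V = 1 := by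
    have e1 : ∀ z : E n × E n, (c * v z.1) ^ L.ps = N⁻¹ * v z.1 ^ L.ps := by
      intro z
      rw [Real.mul_rpow hc0.le (hv.2 z.1).le, hc, ← Real.rpow_mul hN0.le]
      have : -(1 / L.ps) * L.ps = -1 := by field_simp
      rw [this, Real.rpow_neg_one]
    show ∫ z, (c * v z.1) ^ L.ps ∂L.V = 1
    simp only [e1]
    rw [integral_const_mul, ← hN]
    exact inv_mul_cancel₀ hN0.ne'
  have h2 := hmin _ hcv h1
  rw [L.Eb_smul b c (hv.1.of_le one_le_inf)] at h2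
  have h3 : c ^ 2 * N ^ (2 / L.ps) = 1 := by
    have e1 : c ^ 2 = N ^ (-(2 / L.ps)) := by
      rw [hc, ← Real.rpow_natCast, ← Real.rpow_mul hN0.le]
      congr 1
      push_cast
      ring
    rw [e1, ← Real.rpow_add hN0, neg_add_cancel, Real.rpow_zero]
  have h4 : 0 < N ^ (2 / L.ps) := Real.rpow_pos_of_pos hN0 _
  have h5 := mul_le_mul_of_nonneg_right (show e - τ ≤ c ^ 2 * L.Eb b v by linarith only [h2]) h4.le
  calc (e - τ) * N ^ (2 / L.ps) ≤ c ^ 2 * L.Eb b v * N ^ (2 / L.ps) := h5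
    _ = (c ^ 2 * N ^ (2 / L.ps)) * L.Eb b v := by ring
    _ = L.Eb b v := by rw [h3, one_mul]

/-- lower bound for the norm of a tilt -/
theorem tilt_norm {u θ : E n → ℝ} (hu : SP u) (hθ : Continuous θ) (hb : ∀ x, |θ x| ≤ 1)
    (h1 : ∫ z, u z.1 ^ L.ps ∂L.V = 1) (h0 : ∫ z, θ z.1 * u z.1 ^ L.ps ∂L.V = 0) {t : ℝ}
    (ht : |t| ≤ 1 / 6) :
    1 + (L.ps - 1) * t ^ 2 * (∫ z, θ z.1 ^ 2 * u z.1 ^ L.ps ∂L.V) - 121 * |t| ^ 3 ≤
      (∫ z, tl t θ u z.1 ^ L.ps ∂L.V) ^ (2 / L.ps) := by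
  have hq2 := L.avn_two_lt_ps
  have hq6 := L.avn_ps_le_six
  set q := L.ps with hq
  have cu := L.avn_rpow_ps_cont hu
  rw [← hq] at cu
  have cθ : Continuous fun z : E n × E n => θ z.1 := hθ.comp continuous_fst
  set p := ∫ z, θ z.1 ^ 2 * u z.1 ^ q ∂L.V with hp
  have up : ∀ x, 0 < u x ^ q := fun x => Real.rpow_pos_of_pos (hu.2 x) _
  have hθ2 : ∀ x, θ x ^ 2 ≤ 1 := fun x => by
    rw [← sq_abs]
    exact pow_le_one₀ (abs_nonneg _) (hb x)
  have hp0 : 0 ≤ p := L.integral_nonneg_of fun z _ _ => mul_nonneg (sq_nonneg _) (up z.1).le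
  have hp1 : p ≤ 1 := by
    rw [← h1]
    refine L.integral_mono_of ((cθ.pow 2).mul cu) cu fun z _ _ => ?_
    exact mul_le_of_le_one_left (up z.1).le (hθ2 z.1)
  have ht0 := abs_nonneg t
  have hty : ∀ x, |t * θ x| ≤ |t| := fun x => by
    rw [abs_mul]
    exact mul_le_of_le_one_right ht0 (hb x)
  set x : ℝ := q * (q - 1) / 2 * t ^ 2 * p - 40 * |t| ^ 3 with hx
  have hN : 1 + x ≤ ∫ z, tl t θ u z.1 ^ q ∂L.V := by
    have e1 : 1 + x = ∫ z, (u z.1 ^ q + q * t * (θ z.1 * u z.1 ^ q) +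
        q * (q - 1) / 2 * t ^ 2 * (θ z.1 ^ 2 * u z.1 ^ q) - 40 * |t| ^ 3 * u z.1 ^ q) ∂L.V := by
      have i1 : Integrable (fun z : E n × E n => u z.1 ^ q) L.V := L.integrable_of_cont cu
      have i2 : Integrable (fun z : E n × E n => q * t * (θ z.1 * u z.1 ^ q)) L.V :=
        (L.integrable_of_cont (cθ.mul cu)).const_mul _
      have i3 : Integrable (fun z : E n × E n => q * (q - 1) / 2 * t ^ 2 * (θ z.1 ^ 2 * u z.1 ^ q)) L.V :=
        (L.integrable_of_cont ((cθ.pow 2).mul cu)).const_mul _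
      have i4 : Integrable (fun z : E n × E n => 40 * |t| ^ 3 * u z.1 ^ q) L.V := i1.const_mul _
      have i12 : Integrable (fun z : E n × E n => u z.1 ^ q + q * t * (θ z.1 * u z.1 ^ q)) L.V :=
        i1.add i2
      have i123 : Integrable (fun z : E n × E n => u z.1 ^ q + q * t * (θ z.1 * u z.1 ^ q) +
        q * (q - 1) / 2 * t ^ 2 * (θ z.1 ^ 2 * u z.1 ^ q)) L.V := i12.add i3
      rw [integral_sub i123 i4, integral_add i12 i3, integral_add i1 i2, integral_const_mul,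
        integral_const_mul, integral_const_mul, h1, h0, ← hp, hx]
      ring
    rw [e1]
    have c1 : Continuous fun z : E n × E n => tl t θ u z.1 ^ q := by
      have h3 : Continuous fun z : E n × E n => tl t θ u z.1 := by
        unfold tl
        exact (avn_SP_cont hu).mul (continuous_const.add (continuous_const.mul cθ))
      exact h3.rpow_const fun z => Or.inr (by linarith only [hq2])
    refine L.integral_mono_of (((cu.add (continuous_const.mul (cθ.mul cu))).add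
      (continuous_const.mul ((cθ.pow 2).mul cu))).sub (continuous_const.mul cu)) c1 fun z _ _ => ?_
    have hy := hty z.1
    have hy2 : |t * θ z.1| ≤ 1 / 2 := by linarith only [hy, ht]
    have h3 := one_add_rpow_ge hq2.le hq6 hy2
    have h4 : |t * θ z.1| ^ 3 ≤ |t| ^ 3 := pow_le_pow_left₀ (abs_nonneg _) hy 3
    have h5 : 1 + q * (t * θ z.1) + q * (q - 1) / 2 * (t * θ z.1) ^ 2 - 40 * |t| ^ 3 ≤
        (1 + t * θ z.1) ^ q := by linarith only [h4, h3]
    have h6 := mul_le_mul_of_nonneg_left h5 (up z.1).le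
    have h7 : 0 ≤ 1 + t * θ z.1 := by linarith only [(abs_le.1 hy2).1]
    have e2 : tl t θ u z.1 ^ q = u z.1 ^ q * (1 + t * θ z.1) ^ q := by
      unfold tl
      exact Real.mul_rpow (hu.2 z.1).le h7
    rw [e2]
    refine le_trans (le_of_eq ?_) h6
    ring
  have t3 : |t| ^ 3 ≤ 1 / 6 * t ^ 2 := by
    have : |t| ^ 3 = |t| * t ^ 2 := by
      rw [← sq_abs t]
      ring
    rw [this]
    exact mul_le_mul_of_nonneg_right ht (sq_nonneg t)
  have t2 : t ^ 2 ≤ 1 / 36 := by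
    rw [← sq_abs t]
    (by_contra nlg; linarith only [nlg, mul_nonneg (sub_nonneg.2 ht) (sub_nonneg.2 ht0), mul_nonneg (sub_nonneg.2 ht) (sub_nonneg.2 hp1), mul_nonneg (sub_nonneg.2 ht) (sub_nonneg.2 hp0), mul_nonneg (le_of_lt (sub_pos.2 (not_le.1 nlg))) (sub_nonneg.2 hq6), mul_pos (sub_pos.2 (not_le.1 nlg)) (sub_pos.2 hq2)])
  have t30 : 0 ≤ |t| ^ 3 := by (clear * -; positivity)
  have qq : q * (q - 1) / 2 ≤ 15 := by (by_contra nlg; linarith only [nlg, mul_nonneg (sub_nonneg.2 hq6) (sub_nonneg.2 t30), mul_nonneg (sub_nonneg.2 hq6) (sub_nonneg.2 t2), mul_nonneg (sub_nonneg.2 hq6) (sub_nonneg.2 t3), mul_nonneg (le_of_lt (sub_pos.2 hq2)) (sub_nonneg.2 hq6), mul_nonneg (le_of_lt (sub_pos.2 (not_le.1 nlg))) (sub_nonneg.2 hq6), mul_pos (sub_pos.2 (not_le.1 nlg)) (sub_pos.2 hq2)])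
  have qq0 : 0 ≤ q * (q - 1) / 2 := by (by_contra nlg; linarith only [nlg, mul_nonneg (le_of_lt (sub_pos.2 hq2)) (sub_nonneg.2 t30), mul_nonneg (le_of_lt (sub_pos.2 hq2)) (sub_nonneg.2 t2), mul_nonneg (le_of_lt (sub_pos.2 hq2)) (sub_nonneg.2 t3), mul_pos (sub_pos.2 hq2) (sub_pos.2 hq2), mul_nonneg (le_of_lt (sub_pos.2 (not_le.1 nlg))) (sub_nonneg.2 t30), mul_nonneg (le_of_lt (sub_pos.2 (not_le.1 nlg))) (sub_nonneg.2 t2), mul_nonneg (le_of_lt (sub_pos.2 (not_le.1 nlg))) (sub_nonneg.2 t3)])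
  have hx1 : x ≤ 15 * t ^ 2 := by
    have h3 : q * (q - 1) / 2 * t ^ 2 * p ≤ 15 * t ^ 2 := by
      have h4 : q * (q - 1) / 2 * t ^ 2 ≤ 15 * t ^ 2 := mul_le_mul_of_nonneg_right qq (sq_nonneg t)
      have h5 : 0 ≤ q * (q - 1) / 2 * t ^ 2 := mul_nonneg qq0 (sq_nonneg t)
      (by_contra nlg; linarith only [nlg, mul_nonneg (sub_nonneg.2 qq0) (sub_nonneg.2 h4), mul_nonneg (sub_nonneg.2 qq) (sub_nonneg.2 h4), mul_nonneg (sub_nonneg.2 hp1) (sub_nonneg.2 h5), mul_nonneg (le_of_lt (sub_pos.2 (not_le.1 nlg))) (sub_nonneg.2 hq6), mul_pos (sub_pos.2 (not_le.1 nlg)) (sub_pos.2 hq2)])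
    linarith only [h3, t30, hx]
  have hx2 : -(40 * |t| ^ 3) ≤ x := by
    have h5 : 0 ≤ q * (q - 1) / 2 * t ^ 2 * p := mul_nonneg (mul_nonneg qq0 (sq_nonneg t)) hp0
    linarith only [h5, hx]
  have hxa : |x| ≤ 22 * t ^ 2 := by
    rw [abs_le]
    constructor <;> nlinarith [sq_nonneg t]
  have hxh : |x| ≤ 1 / 2 := by
    rw [abs_le]
    constructor <;> nlinarith [sq_nonneg t]
  have hxs : x ^ 2 ≤ 81 * |t| ^ 3 := by
    have h3 : x ^ 2 ≤ (22 * t ^ 2) ^ 2 := by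
      rw [← sq_abs x]
      exact pow_le_pow_left₀ (abs_nonneg _) hxa 2
    have h4 : (22 * t ^ 2) ^ 2 = 484 * (|t| * |t| ^ 3) := by
      rw [← sq_abs t]
      ring
    rw [h4] at h3
    have h5 : |t| * |t| ^ 3 ≤ 1 / 6 * |t| ^ 3 := mul_le_mul_of_nonneg_right ht t30
    linarith only [h5, h3, t30]
  have c0 : 0 ≤ 2 / q := by positivity
  have c1 : 2 / q ≤ 1 := by
    rw [div_le_one (by linarith only [hq2])]
    linarith only [hq2]
  have h3 := rpow_ge_sub c0 c1 hxh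
  have h4 : (1 + x) ^ (2 / q) ≤ (∫ z, tl t θ u z.1 ^ q ∂L.V) ^ (2 / q) :=
    Real.rpow_le_rpow (by linarith only [(abs_le.1 hxh).1]) hN c0
  refine le_trans ?_ (h3.trans h4)
  have h5 : 2 / q * x = (q - 1) * t ^ 2 * p - 2 / q * (40 * |t| ^ 3) := by
    rw [hx]
    field_simp
  have h6 : 2 / q * (40 * |t| ^ 3) ≤ 40 * |t| ^ 3 := mul_le_of_le_one_left (by (clear * -; positivity)) c1
  linarith only [h6, h5, hxs]

/-- the averaging inequality -/
theorem avg_ineq {b τ : ℝ} (hτ : 0 ≤ τ) {u : E n → ℝ} (hu : SP u)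
    (h1 : ∫ z, u z.1 ^ L.ps ∂L.V = 1)
    (hmin : ∀ v : E n → ℝ, SP v → ∫ z, v z.1 ^ L.ps ∂L.V = 1 → L.Eb b u ≤ L.Eb b v + τ)
    (he : τ ≤ L.Eb b u) {t : ℝ} (ht0 : 0 < t) (ht : t ≤ 1 / 6) :
    ∃ c ∈ L.K, ∃ ε : ℝ, 0 < ε ∧ L.k2 * ε < 2 ∧
      (L.ps - 2) * (L.Eb b u - ∫ z, u z.1 ^ 2 * L.w c ε z.1 ^ 2 ∂L.V) ≤
        121 * (n + 1) * t * L.Eb b u + τ * ((n + 1) / t ^ 2 + (L.ps - 1)) := by
  obtain ⟨c, hc, ε, hε, hk, θ, hθ, hs, hG, hi⟩ := L.bary (fun x => u x ^ L.ps)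
    (L.avn_rpow_ps_smooth hu) fun x => Real.rpow_pos_of_pos (hu.2 x) _
  refine ⟨c, hc, ε, hε, hk, ?_⟩
  have hθ1 : ∀ i, ContDiff ℝ 1 (θ i) := fun i => (hθ i).of_le one_le_inf
  have hθb : ∀ i x, |θ i x| ≤ 1 := by
    intro i x
    have h2 : θ i x ^ 2 ≤ 1 := by
      rw [← hs x]
      exact Finset.single_le_sum (f := fun i => θ i x ^ 2) (fun j _ => sq_nonneg _) (Finset.mem_univ i)
    exact (sq_le_one_iff_abs_le_one _).1 h2
  set e := L.Eb b u with hedef
  set W := ∫ z, u z.1 ^ 2 * L.w c ε z.1 ^ 2 ∂L.V with hW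
  set p : Fin (n + 1) → ℝ := fun i => ∫ z, θ i z.1 ^ 2 * u z.1 ^ L.ps ∂L.V with hp
  have hsum : ∑ i, p i = 1 := by
    rw [hp, ← h1]
    have cu := L.avn_rpow_ps_cont hu
    show ∑ i, (∫ z, θ i z.1 ^ 2 * u z.1 ^ L.ps ∂L.V) = _
    have ii : ∀ i, Integrable (fun z : E n × E n => θ i z.1 ^ 2 * u z.1 ^ L.ps) L.V := fun i =>
      L.integrable_of_cont ((((hθ i).continuous.comp continuous_fst).pow 2).mul cu)
    rw [← integral_finsetSum _ fun i _ => ii i]
    refine integral_congr_ae (Filter.Eventually.of_forall fun z => ?_)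
    show ∑ i, θ i z.1 ^ 2 * u z.1 ^ L.ps = u z.1 ^ L.ps
    rw [← Finset.sum_mul, hs, one_mul]
  have hlow : ∀ s : ℝ, |s| = t → ∀ i,
      (e - τ) * (1 + (L.ps - 1) * t ^ 2 * p i - 121 * t ^ 3) ≤ L.Eb b (tl s (θ i) u) := by
    intro s hst i
    have h3 := L.tilt_norm hu (hθ i).continuous (hθb i) h1 (hi i) (t := s) (by rw [hst]; exact ht)
    have hs2 : s ^ 2 = t ^ 2 := by rw [← sq_abs, hst]
    rw [hst, hs2] at h3
    have hsp : SP (tl s (θ i) u) := by
      refine ⟨tl_smooth s hu.1 (hθ i), fun x => mul_pos (hu.2 x) ?_⟩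
      have h4 : |s * θ i x| ≤ 1 / 6 := by
        rw [abs_mul, hst]
        exact (mul_le_of_le_one_right ht0.le (hθb i x)).trans ht
      linarith only [(abs_le.1 h4).1, ht, ht0]
    have h4 := L.near_scale hmin hsp
    exact (mul_le_mul_of_nonneg_left h3 (sub_nonneg.2 he)).trans h4
  have hup := L.Eb_tilt hθ1 hs hε (c := c) hG b t (hu.1.of_le one_le_inf)
  have h5 : ∑ i : Fin (n + 1), 2 * ((e - τ) * (1 + (L.ps - 1) * t ^ 2 * p i - 121 * t ^ 3)) ≤
      ∑ i, (L.Eb b (tl t (θ i) u) + L.Eb b (tl (-t) (θ i) u)) := by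
    refine Finset.sum_le_sum fun i _ => ?_
    have h6 := hlow t (abs_of_pos ht0) i
    have h7 := hlow (-t) (by rw [abs_neg, abs_of_pos ht0]) i
    linarith only [h7, h6]
  have h6 : ∑ i : Fin (n + 1), 2 * ((e - τ) * (1 + (L.ps - 1) * t ^ 2 * p i - 121 * t ^ 3)) =
      (e - τ) * (2 * (n + 1) + 2 * (L.ps - 1) * t ^ 2 - 242 * (n + 1) * t ^ 3) := by
    have e1 : ∀ i, 2 * ((e - τ) * (1 + (L.ps - 1) * t ^ 2 * p i - 121 * t ^ 3)) =
        2 * (e - τ) * (1 - 121 * t ^ 3) + 2 * (e - τ) * (L.ps - 1) * t ^ 2 * p i := fun i => by ring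
    simp only [e1, Finset.sum_add_distrib, ← Finset.mul_sum, hsum]
    rw [Finset.sum_const, Finset.card_univ, Fintype.card_fin, nsmul_eq_mul]
    push_cast
    ring
  have h7 := h5.trans hup
  rw [h6, Fintype.card_fin, ← L.avn_ps_sub, ← hedef, ← hW] at h7
  push_cast at h7
  have t2 : 0 < t ^ 2 := by positivity
  have h8 : t ^ 2 * ((L.ps - 2) * (e - W)) ≤
      t ^ 2 * (121 * (n + 1) * t * e + τ * ((n + 1) / t ^ 2 + (L.ps - 1))) := by
    have e2 : t ^ 2 * (121 * (n + 1) * t * e + τ * ((n + 1) / t ^ 2 + (L.ps - 1))) =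
        121 * (n + 1) * t ^ 3 * e + τ * ((n + 1) + (L.ps - 1) * t ^ 2) := by
      field_simp
    rw [e2]
    have h9 : 0 ≤ τ * (121 * (n + 1) * t ^ 3) := by (clear * - hτ ht0; positivity)
    linarith only [h9, h7]
  exact le_of_mul_le_mul_left h8 t2

/-- B6a near minimizers of `E + λ R` have a frame of small defect -/
theorem near_min (lam : ℝ) (hlam : 0 < lam) (δ : ℝ) (hδ : 0 < δ) : ∃ τ > 0, ∀ u : E n → ℝ, SP u →
    ∫ z, u z.1 ^ L.ps ∂L.V = 1 →
    (∀ v : E n → ℝ, SP v → ∫ z, v z.1 ^ L.ps ∂L.V = 1 →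
      L.En u + lam * (∫ z, u z.1 ^ 2 ∂L.V) ≤ L.En v + lam * (∫ z, v z.1 ^ 2 ∂L.V) + τ) →
    ∃ c ∈ L.K, ∃ ε : ℝ, 0 < ε ∧ L.k2 * ε < 2 ∧ L.Def c ε u ≤ δ ∧ ∫ z, u z.1 ^ 2 ∂L.V ≤ δ := by
  set b : ℝ := L.H0 ^ 2 / L.m ^ 2 - L.k2 + lam with hb
  -- a constant competitor
  obtain ⟨u₀, hu₀, hu1⟩ : ∃ u₀ : ℝ, 0 < u₀ ∧ ∫ _z : E n × E n, u₀ ^ L.ps ∂L.V = 1 := by
    have h0 := L.intPs_pos (u := fun _ => 1) ⟨contDiff_const, fun _ => one_pos⟩
    have hN : 0 < L.V.real univ := by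
      simpa using h0
    refine ⟨(L.V.real univ) ^ (-(1 / L.ps)), Real.rpow_pos_of_pos hN _, ?_⟩
    rw [integral_const, ← Real.rpow_mul hN.le]
    have hq := L.avn_ps_pos
    have : -(1 / L.ps) * L.ps = -1 := by field_simp
    rw [this, Real.rpow_neg_one, smul_eq_mul]
    exact mul_inv_cancel₀ hN.ne'
  set M : ℝ := |L.Eb b (fun _ => u₀)| + 1 with hM
  have hM0 : 0 < M := by positivity
  set δ' : ℝ := min δ (lam * δ) with hδ'
  have hδ0 : 0 < δ' := lt_min hδ (mul_pos hlam hδ)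
  have hκ : 0 < L.ps - 2 := by linarith [L.avn_two_lt_ps]
  set K : ℝ := 121 * (n + 1) with hK
  have hK0 : 0 < K := by positivity
  set t : ℝ := min (1 / 6) ((L.ps - 2) * δ' / (2 * K * M)) with ht
  have ht0 : 0 < t := lt_min (by norm_num) (by positivity)
  have ht1 : t ≤ 1 / 6 := min_le_left _ _
  have ht2 : K * t * M ≤ (L.ps - 2) * δ' / 2 := by
    have h1 : t ≤ (L.ps - 2) * δ' / (2 * K * M) := min_le_right _ _
    rw [le_div_iff₀ (by (clear * -; positivity))] at h1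
    linarith only [h1]
  set Q : ℝ := (n + 1) / t ^ 2 + (L.ps - 1) with hQ
  have hQ0 : 0 < Q := by
    have : 0 < L.ps - 1 := by linarith only [ht1, ht0, hκ]
    (clear * - hκ hδ hlam this; positivity)
  set τ : ℝ := min (min 1 δ') ((L.ps - 2) * δ' / (2 * Q)) with hτ
  have hτ0 : 0 < τ := lt_min (lt_min one_pos hδ0) (by (clear * - hκ hδ hlam hQ0; positivity))
  have hτ1 : τ ≤ 1 := (min_le_left _ _).trans (min_le_left _ _)
  have hτ2 : τ ≤ δ' := (min_le_left _ _).trans (min_le_right _ _)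
  have hτ3 : τ * Q ≤ (L.ps - 2) * δ' / 2 := by
    have h1 : τ ≤ (L.ps - 2) * δ' / (2 * Q) := min_le_right _ _
    rw [le_div_iff₀ (by (clear * - hQ0; positivity))] at h1
    linarith only [h1]
  refine ⟨τ, hτ0, fun u hu h1 hmin => ?_⟩
  have hu' : ContDiff ℝ 1 u := hu.1.of_le one_le_inf
  have hmin' : ∀ v : E n → ℝ, SP v → ∫ z, v z.1 ^ L.ps ∂L.V = 1 → L.Eb b u ≤ L.Eb b v + τ := by
    intro v hv h2
    have h3 := hmin v hv h2
    rwa [L.En_eq_Eb lam hu', L.En_eq_Eb lam (hv.1.of_le one_le_inf)] at h3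
  -- it is enough to bound `E + λ R - ∫ u² w²`
  suffices h : ∃ c ∈ L.K, ∃ ε : ℝ, 0 < ε ∧ L.k2 * ε < 2 ∧
      L.Eb b u - ∫ z, u z.1 ^ 2 * L.w c ε z.1 ^ 2 ∂L.V ≤ δ' by
    obtain ⟨c, hc, ε, hε, hk, h⟩ := h
    refine ⟨c, hc, ε, hε, hk, ?_⟩
    have h2 := L.Def_nonneg hc hε hk hu.1
    have h3 : 0 ≤ ∫ z, u z.1 ^ 2 ∂L.V := L.integral_nonneg_of fun z _ _ => sq_nonneg _
    rw [hb, ← L.En_eq_Eb lam hu'] at h
    have h4 : L.Def c ε u + lam * (∫ z, u z.1 ^ 2 ∂L.V) ≤ δ' := by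
      unfold Def
      linarith only [h]
    have h5 := mul_nonneg hlam.le h3
    have h6 : δ' ≤ δ := min_le_left _ _
    have h7 : δ' ≤ lam * δ := min_le_right _ _
    refine ⟨by linarith only [h6, h5, h4], ?_⟩
    have h8 : lam * (∫ z, u z.1 ^ 2 ∂L.V) ≤ lam * δ := by linarith only [h7, h4, h2]
    exact le_of_mul_le_mul_left h8 hlam
  rcases lt_or_ge (L.Eb b u) τ with hlt | hge
  · obtain ⟨c, hc, ε, hε, hk, -⟩ := L.bary (fun _ => 1) contDiff_const fun _ => one_pos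
    refine ⟨c, hc, ε, hε, hk, ?_⟩
    have h3 : 0 ≤ ∫ z, u z.1 ^ 2 * L.w c ε z.1 ^ 2 ∂L.V :=
      L.integral_nonneg_of fun z _ _ => mul_nonneg (sq_nonneg _) (sq_nonneg _)
    linarith only [h3, hlt, hτ2]
  · obtain ⟨c, hc, ε, hε, hk, h⟩ := L.avg_ineq hτ0.le hu h1 hmin' hge ht0 ht1
    refine ⟨c, hc, ε, hε, hk, ?_⟩
    have he0 : 0 ≤ L.Eb b u := hτ0.le.trans hge
    have heM : L.Eb b u ≤ M := by
      have h2 := hmin' (fun _ => u₀) ⟨contDiff_const, fun _ => hu₀⟩ hu1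
      have h3 := le_abs_self (L.Eb b fun _ => u₀)
      linarith only [h3, h2, hτ1]
    have h4 : K * t * L.Eb b u ≤ K * t * M := mul_le_mul_of_nonneg_left heM (by (clear * - hκ hδ hlam; positivity))
    have h5 : (L.ps - 2) * (L.Eb b u - ∫ z, u z.1 ^ 2 * L.w c ε z.1 ^ 2 ∂L.V) ≤
        (L.ps - 2) * δ' := by
      rw [← hK, ← hQ] at h
      linarith only [h4, h, hτ3, ht2]
    exact le_of_mul_le_mul_left h5 hκ

end Lim

end Vale.Agent.P219.End
end

section

/-!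
# P219 / End : integrability and averages of the truncated kernel, tail of the bubble

Everything is deduced from the upper density (first half of `upper_density`) by a dyadic layer
cake.
-/

open MeasureTheory Set Metric
open scoped ENNReal ContDiff Topology

namespace Vale.Agent.P219.End

variable {n : ℕ}

/-- dyadic layer cake, Lebesgue integral -/
theorem ki_dyad {Z : Type*} [MeasurableSpace Z] (V : Measure Z) [IsFiniteMeasure V] (g : Z → ℝ)
    {S : Set Z} (hS : MeasurableSet S) (A : ℕ → Set Z) (hA : ∀ k, MeasurableSet (A k))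
    (b : ℕ → ℝ) (hb : ∀ k, 0 ≤ b k) (hcov : ∀ z ∈ S, ∃ k, z ∈ A k ∧ g z ≤ b k) (c : ℝ)
    (hc : ∀ k, b k * V.real (A k) ≤ c * (1 / 2) ^ k) :
    ∫⁻ z in S, ENNReal.ofReal (g z) ∂V ≤ ENNReal.ofReal (2 * c) := by
  have hc0 : 0 ≤ c := by
    have h := hc 0
    have h1 : 0 ≤ b 0 * V.real (A 0) := mul_nonneg (hb 0) measureReal_nonneg
    simp only [pow_zero, mul_one] at h
    linarith
  calc ∫⁻ z in S, ENNReal.ofReal (g z) ∂V
      ≤ ∫⁻ z in S, ∑' k, (A k).indicator (fun _ => ENNReal.ofReal (b k)) z ∂V := by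
        apply setLIntegral_mono' hS
        intro z hz
        obtain ⟨k, hk, hgk⟩ := hcov z hz
        calc ENNReal.ofReal (g z) ≤ ENNReal.ofReal (b k) := ENNReal.ofReal_le_ofReal hgk
          _ = (A k).indicator (fun _ => ENNReal.ofReal (b k)) z := by
              rw [indicator_of_mem hk]
          _ ≤ ∑' k, (A k).indicator (fun _ => ENNReal.ofReal (b k)) z :=
              ENNReal.le_tsum k
    _ ≤ ∫⁻ z, ∑' k, (A k).indicator (fun _ => ENNReal.ofReal (b k)) z ∂V :=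
        setLIntegral_le_lintegral _ _
    _ = ∑' k, ∫⁻ z, (A k).indicator (fun _ => ENNReal.ofReal (b k)) z ∂V :=
        lintegral_tsum fun k => (measurable_const.indicator (hA k)).aemeasurable
    _ ≤ ∑' k : ℕ, ENNReal.ofReal (c * (1 / 2) ^ k) := by
        apply ENNReal.tsum_le_tsum
        intro k
        rw [lintegral_indicator_const (hA k)]
        have : V (A k) = ENNReal.ofReal (V.real (A k)) := by
          rw [measureReal_def, ENNReal.ofReal_toReal (measure_ne_top _ _)]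
        rw [this, ← ENNReal.ofReal_mul (hb k)]
        exact ENNReal.ofReal_le_ofReal (hc k)
    _ = ENNReal.ofReal (∑' k : ℕ, c * (1 / 2) ^ k) :=
        (ENNReal.ofReal_tsum_of_nonneg (fun k => by positivity)
          (summable_geometric_two.mul_left c)).symm
    _ = ENNReal.ofReal (2 * c) := by
        rw [tsum_mul_left, tsum_geometric_two]
        ring_nf

/-- dyadic layer cake -/
theorem ki_dyad_int {Z : Type*} [MeasurableSpace Z] (V : Measure Z) [IsFiniteMeasure V] {g : Z → ℝ}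
    (hgm : Measurable g) {S : Set Z} (hS : MeasurableSet S) (hg0 : ∀ z ∈ S, 0 ≤ g z)
    (A : ℕ → Set Z) (hA : ∀ k, MeasurableSet (A k))
    (b : ℕ → ℝ) (hb : ∀ k, 0 ≤ b k) (hcov : ∀ z ∈ S, ∃ k, z ∈ A k ∧ g z ≤ b k) (c : ℝ)
    (hc : ∀ k, b k * V.real (A k) ≤ c * (1 / 2) ^ k) :
    IntegrableOn g S V ∧ ∫ z in S, g z ∂V ≤ 2 * c := by
  have hc0 : 0 ≤ c := by
    have h := hc 0
    have h1 : 0 ≤ b 0 * V.real (A 0) := mul_nonneg (hb 0) measureReal_nonneg
    simp only [pow_zero, mul_one] at h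
    linarith
  have h := ki_dyad V g hS A hA b hb hcov c hc
  have hg0' : 0 ≤ᵐ[V.restrict S] g := (ae_restrict_iff' hS).2 (ae_of_all _ hg0)
  constructor
  · refine ⟨hgm.aestronglyMeasurable, ?_⟩
    rw [hasFiniteIntegral_iff_ofReal hg0']
    exact lt_of_le_of_lt h ENNReal.ofReal_lt_top
  · rw [integral_eq_lintegral_of_nonneg_ae hg0' hgm.aestronglyMeasurable]
    exact ENNReal.toReal_le_of_le_ofReal (by linarith) h

namespace Lim

variable (L : Lim n)

theorem ki_ds_nonneg (c x : E n) : 0 ≤ L.ds c x := Real.sqrt_nonneg _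

theorem ki_ds_sq (c x : E n) : L.ds c x ^ 2 = 2 * L.F c x :=
  Real.sq_sqrt (by linarith [L.F_nonneg c x])

theorem ki_ds_cont (c : E n) : Continuous (L.ds c) :=
  Real.continuous_sqrt.comp (continuous_const.mul (L.Fc_cont c))

theorem ki_ds_meas (c : E n) : Measurable fun z : E n × E n => L.ds c z.1 :=
  ((L.ki_ds_cont c).comp continuous_fst).measurable

theorem ki_ds_meas_le (c : E n) (s : ℝ) : MeasurableSet {z : E n × E n | L.ds c z.1 ≤ s} :=
  measurableSet_le (L.ki_ds_meas c) measurable_const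

theorem ki_ds_meas_lt (c : E n) (s : ℝ) : MeasurableSet {z : E n × E n | s < L.ds c z.1} :=
  measurableSet_lt measurable_const (L.ki_ds_meas c)

/-- far from the centre: `∫_{d > R} d^(-2m) ≤ C R^(-m)` -/
theorem ki_far_int {C : ℝ} {c : E n}
    (hud : ∀ s : ℝ, 0 < s → L.V.real {z | L.ds c z.1 ≤ s} ≤ C * s ^ L.m) {R : ℝ} (hR : 0 < R) :
    IntegrableOn (fun z => L.ds c z.1 ^ (-(2 * L.m))) {z | R < L.ds c z.1} L.V ∧
      ∫ z in {z | R < L.ds c z.1}, L.ds c z.1 ^ (-(2 * L.m)) ∂L.V ≤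
        2 * (C * 2 ^ L.m * R ^ (-L.m)) := by
  have hm := L.three_le
  have hC : 0 ≤ C := by
    have h := hud 1 one_pos
    rw [Real.one_rpow, mul_one] at h
    exact measureReal_nonneg.trans h
  refine ki_dyad_int L.V (g := fun z => L.ds c z.1 ^ (-(2 * L.m)))
    ((L.ki_ds_meas c).pow_const _) (L.ki_ds_meas_lt c R)
    (fun z _ => Real.rpow_nonneg (L.ki_ds_nonneg _ _) _)
    (fun k => {z | L.ds c z.1 ≤ R * 2 ^ (k + 1)}) (fun k => L.ki_ds_meas_le c _)
    (fun k => (R * 2 ^ k) ^ (-(2 * L.m))) (fun k => by positivity) ?_ _ ?_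
  · intro z hz
    have hz' : R < L.ds c z.1 := hz
    obtain ⟨k, hk1, hk2⟩ := exists_nat_pow_near (x := L.ds c z.1 / R)
      (y := (2 : ℝ)) ((one_le_div hR).2 hz'.le) (by norm_num)
    refine ⟨k, ?_, ?_⟩
    · rw [div_lt_iff₀ hR] at hk2
      show L.ds c z.1 ≤ R * 2 ^ (k + 1)
      linarith
    · rw [le_div_iff₀ hR] at hk1
      apply Real.rpow_le_rpow_of_nonpos (by positivity) (by linarith) (by linarith)
  · intro k
    have h1 := hud (R * 2 ^ (k + 1)) (by positivity)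
    calc (R * 2 ^ k) ^ (-(2 * L.m)) * L.V.real {z | L.ds c z.1 ≤ R * 2 ^ (k + 1)}
        ≤ (R * 2 ^ k) ^ (-(2 * L.m)) * (C * (R * 2 ^ (k + 1)) ^ L.m) :=
          mul_le_mul_of_nonneg_left h1 (by positivity)
      _ = C * 2 ^ L.m * (R * 2 ^ k) ^ (-L.m) := by
          have e1 : R * (2 : ℝ) ^ (k + 1) = (R * 2 ^ k) * 2 := by ring
          rw [e1, Real.mul_rpow (x := R * 2 ^ k) (y := 2) (by positivity) (by norm_num)]
          have e3 : (R * (2 : ℝ) ^ k) ^ (-(2 * L.m)) * (R * 2 ^ k) ^ L.m =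
              (R * 2 ^ k) ^ (-L.m) := by
            rw [← Real.rpow_add (by positivity)]
            congr 1
            ring
          calc (R * 2 ^ k) ^ (-(2 * L.m)) * (C * ((R * 2 ^ k) ^ L.m * 2 ^ L.m))
              = C * 2 ^ L.m * ((R * 2 ^ k) ^ (-(2 * L.m)) * (R * 2 ^ k) ^ L.m) := by ring
            _ = _ := by rw [e3]
      _ ≤ C * 2 ^ L.m * R ^ (-L.m) * (1 / 2) ^ k := by
          rw [Real.mul_rpow hR.le (by positivity)]
          have e4 : ((2 : ℝ) ^ k) ^ (-L.m) ≤ (1 / 2) ^ k := by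
            rw [Real.rpow_neg (by positivity), one_div, inv_pow]
            apply inv_anti₀ (by positivity)
            calc (2 : ℝ) ^ k = ((2 : ℝ) ^ k) ^ (1 : ℝ) := (Real.rpow_one _).symm
              _ ≤ ((2 : ℝ) ^ k) ^ L.m :=
                Real.rpow_le_rpow_of_exponent_le (one_le_pow₀ (by norm_num)) (by linarith)
          have e5 : 0 ≤ C * 2 ^ L.m * R ^ (-L.m) := by positivity
          calc C * 2 ^ L.m * (R ^ (-L.m) * (2 ^ k) ^ (-L.m))
              = C * 2 ^ L.m * R ^ (-L.m) * (2 ^ k) ^ (-L.m) := by ring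
            _ ≤ _ := mul_le_mul_of_nonneg_left e4 e5

theorem ki_kws_eq {s : ℝ} (hs : L.Ad s) (c x : E n) :
    L.ws c s x = 2 * s * √(1 - L.k2 * s ^ 2 / 4) / (s ^ 2 + L.ds c x ^ 2) := by
  have hs0 := hs.1
  have hF := L.F_nonneg c x
  unfold ws w bub
  have h1 : √(s ^ 2 / 2 * (2 - L.k2 * (s ^ 2 / 2))) = s * √(1 - L.k2 * s ^ 2 / 4) := by
    rw [show s ^ 2 / 2 * (2 - L.k2 * (s ^ 2 / 2)) = s ^ 2 * (1 - L.k2 * s ^ 2 / 4) by ring,
      Real.sqrt_mul (by positivity), Real.sqrt_sq hs0.le]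
  rw [h1, L.ki_ds_sq, div_eq_div_iff (by positivity) (by positivity)]
  ring

theorem ki_kws_le {s : ℝ} (hs : L.Ad s) (c x : E n) :
    L.ws c s x ≤ 2 * s / (s ^ 2 + L.ds c x ^ 2) := by
  have hs0 := hs.1
  have hk := L.k2_nonneg
  rw [L.ki_kws_eq hs]
  apply div_le_div_of_nonneg_right _ (by positivity)
  have h1 : √(1 - L.k2 * s ^ 2 / 4) ≤ 1 := by
    rw [Real.sqrt_le_one]
    have : 0 ≤ L.k2 * s ^ 2 := by positivity
    linarith only [this]
  calc 2 * s * √(1 - L.k2 * s ^ 2 / 4) ≤ 2 * s * 1 :=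
        mul_le_mul_of_nonneg_left h1 (by positivity)
    _ = 2 * s := mul_one _

theorem ki_kws_ge {s : ℝ} (hs : L.Ad s) (c x : E n) :
    s / (s ^ 2 + L.ds c x ^ 2) ≤ L.ws c s x := by
  have hs0 := hs.1
  have hk := L.k2_nonneg
  have h3 := hs.2.2
  rw [L.ki_kws_eq hs]
  apply div_le_div_of_nonneg_right _ (by positivity)
  have h1 : 1 / 2 ≤ √(1 - L.k2 * s ^ 2 / 4) := by
    apply Real.le_sqrt_of_sq_le
    linarith
  calc s = 2 * s * (1 / 2) := by ring
    _ ≤ 2 * s * √(1 - L.k2 * s ^ 2 / 4) := mul_le_mul_of_nonneg_left h1 (by positivity)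

/-- B3g: tail of the bubble -/
theorem ki_tail_of {D : ℝ} (hD : 0 < D)
    (hud : ∀ c ∈ L.K, ∀ s : ℝ, 0 < s → L.V.real {z | L.ds c z.1 ≤ s} ≤ D * s ^ L.m) :
    ∃ C > 0, ∀ c ∈ L.K, ∀ s : ℝ, L.Ad s → ∀ N ≥ 1,
    ∫ z in {z | N * s < L.ds c z.1}, L.ws c s z.1 ^ L.m ∂L.V ≤ C * N ^ (-L.m) := by
  have hm := L.three_le
  refine ⟨2 ^ L.m * (2 * (D * 2 ^ L.m)), by positivity, fun c hc s hAd N hN => ?_⟩
  have hs := hAd.1
  have hN0 : 0 < N := by linarith
  have hR : 0 < N * s := by positivity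
  obtain ⟨hI, hB⟩ := L.ki_far_int (hud c hc) hR
  have hI' : IntegrableOn (fun z => (2 ^ L.m * s ^ L.m) * L.ds c z.1 ^ (-(2 * L.m)))
    {z | N * s < L.ds c z.1} L.V := hI.const_mul _
  have hw : ∀ x, 0 < L.ws c s x := fun x => by
    refine lt_of_lt_of_le ?_ (L.ki_kws_ge hAd c x)
    have := L.ki_ds_nonneg c x
    positivity
  calc ∫ z in {z | N * s < L.ds c z.1}, L.ws c s z.1 ^ L.m ∂L.V
      ≤ ∫ z in {z | N * s < L.ds c z.1},
        (2 ^ L.m * s ^ L.m) * L.ds c z.1 ^ (-(2 * L.m)) ∂L.V := by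
        apply integral_mono_of_nonneg (ae_of_all _ fun z => Real.rpow_nonneg (hw _).le _) hI'
        refine (ae_restrict_iff' (L.ki_ds_meas_lt c _)).2 (ae_of_all _ fun z hz => ?_)
        have hz' : N * s < L.ds c z.1 := hz
        have hd : 0 < L.ds c z.1 := hR.trans hz'
        have h1 : L.ws c s z.1 ≤ 2 * s * (L.ds c z.1 ^ 2)⁻¹ := by
          refine (L.ki_kws_le hAd c z.1).trans ?_
          rw [div_eq_mul_inv]
          apply mul_le_mul_of_nonneg_left _ (by positivity)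
          apply inv_anti₀ (by positivity)
          have : 0 ≤ s ^ 2 := by positivity
          linarith
        calc L.ws c s z.1 ^ L.m ≤ (2 * s * (L.ds c z.1 ^ 2)⁻¹) ^ L.m :=
              Real.rpow_le_rpow (hw _).le h1 (by linarith)
          _ = (2 ^ L.m * s ^ L.m) * L.ds c z.1 ^ (-(2 * L.m)) := by
              rw [Real.mul_rpow (by positivity) (by positivity),
                Real.mul_rpow (by positivity) (by positivity), Real.inv_rpow (by positivity),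
                ← Real.rpow_natCast_mul hd.le, ← Real.rpow_neg hd.le]
              push_cast
              rfl
    _ = (2 ^ L.m * s ^ L.m) * ∫ z in {z | N * s < L.ds c z.1},
        L.ds c z.1 ^ (-(2 * L.m)) ∂L.V := integral_const_mul _ _
    _ ≤ (2 ^ L.m * s ^ L.m) * (2 * (D * 2 ^ L.m * (N * s) ^ (-L.m))) :=
        mul_le_mul_of_nonneg_left hB (by positivity)
    _ = 2 ^ L.m * (2 * (D * 2 ^ L.m)) * N ^ (-L.m) := by
        rw [Real.mul_rpow hN0.le hs.le, Real.rpow_neg hs.le]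
        have : s ^ L.m ≠ 0 := by positivity
        field_simp

/-- B3g: tail of the bubble -/
theorem tail : ∃ C > 0, ∀ c ∈ L.K, ∀ s : ℝ, L.Ad s → ∀ N ≥ 1,
    ∫ z in {z | N * s < L.ds c z.1}, L.ws c s z.1 ^ L.m ∂L.V ≤ C * N ^ (-L.m) := by
  obtain ⟨C, hC0, hC, _⟩ := L.upper_density
  exact L.ki_tail_of hC0 hC

end Lim

end Vale.Agent.P219.End
end
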