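import Mathlib
import Vale.Agent.P219.Bdl.B6
import Vale.Agent.P219.Bdl.B2
import Vale.Agent.P219.Bdl.B4
import Vale.Agent.P219.Bdl.B5
import Vale.Agent.P219.Bdl.B11
import Vale.Agent.P219.Bdl.B1
import Vale.Agent.P219.Bdl.B8
import Vale.Agent.P219.Bdl.B7
import Vale.Agent.P219.Bdl.B9
import Vale.Agent.P219.CoIsoK

set_option linter.all false

section

/-! # P219, all dimensions: a crude isoperimetric inequality in a ball -/

open MeasureTheory Set Metric Filter Topology
open scoped ENNReal NNReal ContDiff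

namespace Vale.Agent.P219.SA

open Vale.Agent.P219.TP Vale.Agent.P219.TPH

variable {n : ℕ} (G : Geo n)

/-- The Euclidean differential is bounded by the gradient in the frame, on compact sets. -/
theorem fderiv_le_D {K : Set (_root_.Vale.Agent.P219.TP.E n)} (hK : IsCompact K) :
    ∃ C : ℝ, 0 ≤ C ∧ ∀ (h : _root_.Vale.Agent.P219.TP.E n → ℝ), ∀ x ∈ K, ∀ v : _root_.Vale.Agent.P219.TP.E n,
      |fderiv ℝ h x v| ≤ C * ‖G.D h x‖ * ‖v‖ := by
  obtain ⟨C, hC⟩ : ∃ C : ℝ, ∀ z ∈ K ×ˢ sphere (0 : _root_.Vale.Agent.P219.TP.E n) 1, ‖‖G.A z.1 z.2‖⁻¹‖ ≤ C := by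
    refine (hK.prod (isCompact_sphere (0 : _root_.Vale.Agent.P219.TP.E n) 1)).exists_bound_of_continuousOn ?_
    have h1 : Continuous fun z : _root_.Vale.Agent.P219.TP.E n × _root_.Vale.Agent.P219.TP.E n => ‖G.A z.1 z.2‖ :=
      (((G.A_smooth.continuous.comp continuous_fst).clm_apply continuous_snd)).norm
    refine h1.continuousOn.inv₀ fun z hz => ?_
    have hz2 : z.2 ≠ 0 := by
      intro h0
      have := hz.2
      rw [h0] at this
      simp at this
    rw [norm_ne_zero_iff]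
    intro h0
    exact hz2 (G.A_injective z.1 (by rw [h0, map_zero]))
  refine ⟨max C 0, le_max_right _ _, fun h x hx v => ?_⟩
  obtain ⟨u, rfl⟩ : ∃ u, G.A x u = v :=
    (LinearMap.injective_iff_surjective (f := (G.A x : _root_.Vale.Agent.P219.TP.E n →ₗ[ℝ] _root_.Vale.Agent.P219.TP.E n))).1
      (G.A_injective x) v
  rw [← G.inner_D h x u]
  rcases eq_or_ne u 0 with rfl | hu
  · simp
  have hun : 0 < ‖u‖ := norm_pos_iff.2 hu
  have h1 := hC (x, ‖u‖⁻¹ • u) ⟨hx, by
    rw [mem_sphere_zero_iff_norm, norm_smul, norm_inv, norm_norm, inv_mul_cancel₀ hun.ne']⟩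
  have h1' : ‖u‖ * ‖G.A x u‖⁻¹ ≤ C := by
    have e1 : ‖‖G.A x (‖u‖⁻¹ • u)‖⁻¹‖ = ‖u‖ * ‖G.A x u‖⁻¹ := by
      simp [map_smul, norm_smul, mul_comm]
    rw [← e1]
    exact h1
  have hAu : 0 < ‖G.A x u‖ := by
    rw [norm_pos_iff]
    intro h0
    exact hu (G.A_injective x (by rw [h0, map_zero]))
  have h2 : ‖u‖ ≤ max C 0 * ‖G.A x u‖ := by
    have h3 : ‖u‖ * ‖G.A x u‖⁻¹ ≤ max C 0 := h1'.trans (le_max_left _ _)
    calc ‖u‖ = ‖u‖ * ‖G.A x u‖⁻¹ * ‖G.A x u‖ := by field_simp
      _ ≤ max C 0 * ‖G.A x u‖ := mul_le_mul_of_nonneg_right h3 hAu.le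
  calc |inner ℝ (G.D h x) u| ≤ ‖G.D h x‖ * ‖u‖ := abs_real_inner_le_norm _ _
    _ ≤ ‖G.D h x‖ * (max C 0 * ‖G.A x u‖) := by gcongr
    _ = max C 0 * ‖G.D h x‖ * ‖G.A x u‖ := by ring

theorem crude_pt {K : Set (_root_.Vale.Agent.P219.TP.E n)} {C L W : ℝ} (hC : 0 ≤ C)
    (hCb : ∀ (h : _root_.Vale.Agent.P219.TP.E n → ℝ), ∀ x ∈ K, ∀ v : _root_.Vale.Agent.P219.TP.E n, |fderiv ℝ h x v| ≤ C * ‖G.D h x‖ * ‖v‖)
    (hL : ∀ x ∈ K, ‖x‖ ≤ L) (hW : ∀ x ∈ K, ‖(G.w x)⁻¹‖ ≤ W) (h : _root_.Vale.Agent.P219.TP.E n → ℝ) {x : _root_.Vale.Agent.P219.TP.E n}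
    (hx : x ∈ K) : -(fderiv ℝ h x x) ≤ C * max L 0 * max W 0 * (G.w x * ‖G.D h x‖) := by
  have h1 := hCb h x hx x
  have h2 : ‖x‖ ≤ max L 0 := (hL x hx).trans (le_max_left _ _)
  have h3 : (G.w x)⁻¹ ≤ max W 0 := (le_abs_self _).trans ((hW x hx).trans (le_max_left _ _))
  have h4 : 1 ≤ max W 0 * G.w x := by
    have := mul_le_mul_of_nonneg_right h3 (G.w_pos x).le
    rwa [inv_mul_cancel₀ (G.w_pos x).ne'] at this
  have h5 : 0 ≤ C * max L 0 * ‖G.D h x‖ := by
    have : 0 ≤ max L 0 := le_max_right _ _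
    positivity
  calc -(fderiv ℝ h x x) ≤ |fderiv ℝ h x x| := neg_le_abs _
    _ ≤ C * ‖G.D h x‖ * ‖x‖ := h1
    _ ≤ C * ‖G.D h x‖ * max L 0 := by gcongr
    _ = C * max L 0 * ‖G.D h x‖ * 1 := by ring
    _ ≤ C * max L 0 * ‖G.D h x‖ * (max W 0 * G.w x) := mul_le_mul_of_nonneg_left h4 h5
    _ = C * max L 0 * max W 0 * (G.w x * ‖G.D h x‖) := by ring

theorem integral_le_per (hn : 1 ≤ n) (o : _root_.Vale.Agent.P219.TP.E n) (ρ : ℝ) :
    ∃ C : ℝ, 0 ≤ C ∧ ∀ h, G.Cls o ρ h → ∫ x, h x ≤ C * G.per h := by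
  obtain ⟨C, hC, hCb⟩ := fderiv_le_D G (G.isCompact_gball o ρ)
  obtain ⟨L, hL⟩ := (G.isCompact_gball o ρ).exists_bound_of_continuousOn
    (f := fun x : _root_.Vale.Agent.P219.TP.E n => x) continuous_id.continuousOn
  obtain ⟨W, hW⟩ := (G.isCompact_gball o ρ).exists_bound_of_continuousOn
    (f := fun x : _root_.Vale.Agent.P219.TP.E n => (G.w x)⁻¹)
    (G.w_smooth.continuous.continuousOn.inv₀ fun x _ => (G.w_pos x).ne')
  have hL0 : 0 ≤ max L 0 := le_max_right _ _
  have hW0 : 0 ≤ max W 0 := le_max_right _ _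
  refine ⟨C * max L 0 * max W 0, by positivity, fun h hh => ?_⟩
  have hcs := Cls.hasCompactSupport G hh
  have h1 := ibp_euclid (X := fun x : _root_.Vale.Agent.P219.TP.E n => x) contDiff_id hh.smooth hcs
  have h2 : ∀ x : _root_.Vale.Agent.P219.TP.E n, ∑ i, fderiv ℝ (fun x : _root_.Vale.Agent.P219.TP.E n => x) x (EuclideanSpace.single i 1) i =
      (n : ℝ) := by
    intro x
    simp
  simp only [h2] at h1
  rw [integral_mul_const] at h1
  have hDcont := perc_D_cont G hh.smooth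
  have hD0 : ∀ x, x ∉ {x | ‖G.lg o x‖ ≤ ρ} → G.D h x = 0 := fun x hx =>
    perc_D_of_eventually G (perc_D_zero G hh (not_le.1 hx))
  have hint : Integrable (fun x => G.w x * ‖G.D h x‖) := by
    refine (G.w_smooth.continuous.mul hDcont.norm).integrable_of_hasCompactSupport ?_
    refine HasCompactSupport.intro (G.isCompact_gball o ρ) fun x hx => ?_
    show G.w x * ‖G.D h x‖ = 0
    rw [hD0 x hx, norm_zero, mul_zero]
  have hint2 : Integrable (fun x => -(fderiv ℝ h x x)) := by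
    have h3 : Continuous fun x => -(fderiv ℝ h x x) :=
      ((hh.smooth.continuous_fderiv (by simp)).clm_apply continuous_id).neg
    refine h3.integrable_of_hasCompactSupport ?_
    refine HasCompactSupport.intro (G.isCompact_gball o ρ) fun x hx => ?_
    have h4 : h =ᶠ[𝓝 x] fun _ => 0 := perc_D_zero G hh (not_le.1 hx)
    rw [h4.fderiv_eq]
    simp
  have h4 : - ∫ x, fderiv ℝ h x x ≤ ∫ x, C * max L 0 * max W 0 * (G.w x * ‖G.D h x‖) := by
    rw [← integral_neg]
    refine integral_mono hint2 (hint.const_mul _) fun x => ?_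
    by_cases hx : x ∈ {x | ‖G.lg o x‖ ≤ ρ}
    · exact crude_pt G hC hCb hL hW h hx
    · have h4 : h =ᶠ[𝓝 x] fun _ => 0 := perc_D_zero G hh (not_le.1 hx)
      show -(fderiv ℝ h x x) ≤ _
      rw [h4.fderiv_eq, hD0 x hx]
      simp
  rw [integral_const_mul] at h4
  have h5 : G.per h = ∫ x, G.w x * ‖G.D h x‖ := by
    unfold Geo.per
    rw [ibp_integral_vol]
  rw [← h5, ← h1] at h4
  have h6 : 0 ≤ ∫ x, h x := integral_nonneg hh.nonneg
  have h7 : (1 : ℝ) ≤ n := by exact_mod_cast hn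
  linarith only [mul_nonneg (sub_nonneg.2 h6) (sub_nonneg.2 h7), h4]

/-- **Crude isoperimetric inequality.** -/
theorem V1_le_per (hn : 1 ≤ n) (o : _root_.Vale.Agent.P219.TP.E n) (ρ : ℝ) :
    ∃ C : ℝ, 0 < C ∧ ∀ h, G.Cls o ρ h → V1 G h ≤ C * G.per h := by
  obtain ⟨C, hC, hCb⟩ := integral_le_per G hn o ρ
  obtain ⟨W, hW⟩ := (G.isCompact_gball o ρ).exists_bound_of_continuousOn
    (f := G.w) G.w_smooth.continuous.continuousOn
  have hW0 : 0 ≤ max W 0 := le_max_right _ _
  refine ⟨max W 0 * C + 1, by positivity, fun h hh => ?_⟩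
  have hcs := Cls.hasCompactSupport G hh
  have hint : Integrable h := hh.smooth.continuous.integrable_of_hasCompactSupport hcs
  have hmeas : MeasurableSet {x | h x = 1} :=
    (isClosed_singleton.preimage hh.smooth.continuous).measurableSet
  have hfin : G.vol {x | h x = 1} ≠ ⊤ := by
    refine ((measure_mono ?_).trans_lt (slice_vol_ball_lt G o ρ)).ne
    intro x hx
    apply hh.supp x
    rw [show h x = 1 from hx]
    exact one_ne_zero
  have h1 : V1 G h = ∫ x, G.w x * {x | h x = 1}.indicator (fun _ => (1 : ℝ)) x := by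
    unfold V1
    rw [← ibp_integral_vol, integral_indicator hmeas, integral_const, smul_eq_mul, mul_one,
      measureReal_restrict_apply MeasurableSet.univ, univ_inter]
  have h2 : V1 G h ≤ ∫ x, max W 0 * h x := by
    rw [h1]
    refine integral_mono_of_nonneg (Eventually.of_forall fun x => ?_) (hint.const_mul _)
      (Eventually.of_forall fun x => ?_)
    · exact mul_nonneg (G.w_pos x).le (indicator_nonneg (fun _ _ => zero_le_one) _)
    · show G.w x * {x | h x = 1}.indicator (fun _ => (1 : ℝ)) x ≤ max W 0 * h x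
      by_cases hx : h x = 1
      · rw [indicator_of_mem (show x ∈ {x | h x = 1} from hx), hx, mul_one, mul_one]
        have h3 := hW x (hh.supp x (by rw [hx]; exact one_ne_zero))
        exact (le_abs_self _).trans (h3.trans (le_max_left _ _))
      · rw [indicator_of_notMem (show x ∉ {x | h x = 1} from hx), mul_zero]
        exact mul_nonneg hW0 (hh.nonneg x)
  rw [integral_const_mul] at h2
  have h3 := hCb h hh
  have h4 : 0 ≤ G.per h := integral_nonneg fun _ => norm_nonneg _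
  calc V1 G h ≤ max W 0 * ∫ x, h x := h2
    _ ≤ max W 0 * (C * G.per h) := mul_le_mul_of_nonneg_left h3 hW0
    _ ≤ (max W 0 * C + 1) * G.per h := by linarith only [h4]

end Vale.Agent.P219.SA
end

section

/-! # Regularity and symmetry of the exact kernel (task H12) -/

open MeasureTheory Set Metric
open scoped ENNReal ContDiff

namespace Vale.Agent.P219.TPH

open Vale.Agent.P219.TP

variable {n : ℕ} (G : Geo n) {k : ℝ}

/-! ### Auxiliary lemmas -/

section

variable {Φ : ℝ × ℝ → ℝ} {δ : ℝ}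

end

end Vale.Agent.P219.TPH
end

section

/-! # P219, all dimensions: the limit measure if the isoperimetric inequality fails -/

open MeasureTheory Set Metric Filter Topology
open scoped ENNReal NNReal ContDiff

namespace Vale.Agent.P219.SA

open Vale.Agent.P219.TP Vale.Agent.P219.TPH
open Vale.Agent.P219.End (KS nrm)

variable {n : ℕ} {k : ℝ} (G : Geo n)

/-- The mass of the limit. -/
theorem mass_eq {o : _root_.Vale.Agent.P219.TP.E n} {ρ : ℝ} {I : ℝ → ℝ} {J Vs : ℝ} {U : Ultrafilter ℕ}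
    {h : ℕ → _root_.Vale.Agent.P219.TP.E n → ℝ} {V : Measure (_root_.Vale.Agent.P219.TP.E n × _root_.Vale.Agent.P219.TP.E n)} (hIcont : ContinuousOn I (Ici 0)) (hVs : 0 ≤ Vs)
    (hm : MinSeq G o ρ I J Vs U h) (hV : IsLim G o ρ U h V) : V.real univ = J + I Vs := by
  have h1 := IsLim.mass G hV
  have h2 : Tendsto (fun j => I (V1 G (h j))) U (𝓝 (I Vs)) := by
    have h3 : Tendsto (fun j => V1 G (h j)) U (𝓝[Ici 0] Vs) :=
      tendsto_nhdsWithin_iff.2 ⟨hm.vol, Eventually.of_forall fun j => sliceh_V1_nonneg G (h j)⟩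
    exact (hIcont Vs hVs).tendsto.comp h3
  have h3 := hm.lim.add h2
  refine tendsto_nhds_unique h1 (h3.congr fun j => ?_)
  ring

/-- The limit is not zero. -/
theorem mass_pos (hn : 1 ≤ n) {o : _root_.Vale.Agent.P219.TP.E n} {ρ : ℝ} {I : ℝ → ℝ} {J Vs : ℝ} {U : Ultrafilter ℕ}
    {h : ℕ → _root_.Vale.Agent.P219.TP.E n → ℝ} {V : Measure (_root_.Vale.Agent.P219.TP.E n × _root_.Vale.Agent.P219.TP.E n)} (hVs : 0 < Vs)
    (hm : MinSeq G o ρ I J Vs U h) (hV : IsLim G o ρ U h V) : 0 < V.real univ := by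
  obtain ⟨C, hC, hCb⟩ := V1_le_per G hn o ρ
  have h1 := (IsLim.mass G hV).const_mul C
  have h2 : Vs ≤ C * V.real univ :=
    le_of_tendsto_of_tendsto hm.vol h1 (Eventually.of_forall fun j => hCb _ (hm.cls j))
  by_contra h3
  rw [not_lt] at h3
  linarith only [mul_nonneg (le_of_lt (sub_pos.2 hC)) (sub_nonneg.2 h3), h2, hVs]

/-- If the isoperimetric inequality fails, there is a minimising sequence with negative
infimum. -/
theorem exists_minSeq (hn : 2 ≤ n) (hk : 0 ≤ k) {I : ℝ → ℝ} (hImono : MonotoneOn I (Ici 0))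
    (hIcont : ContinuousOn I (Ici 0)) (hI0 : ∀ V, 0 ≤ V → 0 ≤ I V) (hIz : I 0 = 0)
    (o : _root_.Vale.Agent.P219.TP.E n) (ρ : ℝ) {h : _root_.Vale.Agent.P219.TP.E n → ℝ} (hh : G.Cls o ρ h) (hneg : G.per h - I (V1 G h) < 0)
    {U : Ultrafilter ℕ} (hU : (U : Filter ℕ) ≤ atTop) :
    ∃ J Rs : ℝ, J < 0 ∧ 0 < Rs ∧ ∃ g : ℕ → _root_.Vale.Agent.P219.TP.E n → ℝ, MinSeq G o ρ I J (VR n k Rs) U g ∧
      ∃ C, ∀ j, G.per (g j) ≤ C := by
  obtain ⟨Cb, hCb⟩ := deficit_bddBelow G hImono o ρ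
  set S : Set ℝ := {y | ∃ h, G.Cls o ρ h ∧ G.per h - I (V1 G h) = y} with hS
  have hSb : BddBelow S := ⟨-Cb, by rintro y ⟨g, hg, rfl⟩; exact hCb g hg⟩
  have hSn : S.Nonempty := ⟨_, h, hh, rfl⟩
  obtain ⟨J, hJdef⟩ : ∃ J, J = sInf S := ⟨_, rfl⟩
  have hJ : ∀ g, G.Cls o ρ g → J ≤ G.per g - I (V1 G g) :=
    fun g hg => hJdef ▸ csInf_le hSb ⟨g, hg, rfl⟩
  have hJ' : ∀ ε > 0, ∃ g, G.Cls o ρ g ∧ G.per g - I (V1 G g) < J + ε := by
    intro ε hε
    obtain ⟨y, ⟨g, hg, rfl⟩, hlt⟩ := exists_lt_of_csInf_lt hSn (lt_add_of_pos_right (sInf S) hε)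
    exact ⟨g, hg, hJdef ▸ hlt⟩
  have hJ0 : J < 0 := (hJ h hh).trans_lt hneg
  obtain ⟨Vs, hVs0, hseq⟩ := exists_min_seq G hI0 hImono o ρ hJ hJ'
  have hper : ∀ g : _root_.Vale.Agent.P219.TP.E n → ℝ, 0 ≤ G.per g := fun g => integral_nonneg fun _ => norm_nonneg _
  have hIVs : -J ≤ I Vs := by
    by_contra hlt
    rw [not_le] at hlt
    obtain ⟨δ, hδ, h1⟩ := Metric.continuousOn_iff.1 hIcont Vs hVs0 ((-J - I Vs) / 2)
      (by linarith only [hlt])
    obtain ⟨g, hg, h2, -, h3⟩ := hseq (min δ ((-J - I Vs) / 2)) (lt_min hδ (by linarith))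
    have h4 := h1 (V1 G g) (sliceh_V1_nonneg G g)
      (by rw [Real.dist_eq]; exact h3.trans_le (min_le_left _ _))
    rw [Real.dist_eq] at h4
    have h5 := (abs_lt.1 h4).2
    have h6 := min_le_right δ ((-J - I Vs) / 2)
    have h7 := hper g
    linarith only [h7, h6, h5, h2]
  obtain ⟨Rs, hRs0, hRs⟩ := exists_VR (n := n) (k := k) (by omega) hk hVs0
  have hRsp : 0 < Rs := by
    rcases hRs0.eq_or_lt with h0 | h0
    · rw [← h0, VR_zero] at hRs
      rw [← hRs, hIz] at hIVs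
      linarith
    · exact h0
  have hpos : ∀ j : ℕ, (0 : ℝ) < 1 / ((j : ℝ) + 1) := fun j => by (clear * -; positivity)
  choose g hg hgJ hgl hgV using fun j : ℕ => hseq (1 / ((j : ℝ) + 1)) (hpos j)
  have h0 : Tendsto (fun j : ℕ => 1 / ((j : ℝ) + 1)) U (𝓝 0) :=
    tendsto_one_div_add_atTop_nhds_zero_nat.mono_left hU
  refine ⟨J, Rs, hJ0, hRsp, g, ⟨hg, hJ, ?_, ?_, ?_⟩, ?_⟩
  · have h1 : Tendsto (fun j : ℕ => J + 1 / ((j : ℝ) + 1)) U (𝓝 J) := by
      simpa using h0.const_add J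
    exact tendsto_of_tendsto_of_tendsto_of_le_of_le tendsto_const_nhds h1
      (fun j => hJ _ (hg j)) (fun j => (hgJ j).le)
  · exact tendsto_of_tendsto_of_tendsto_of_le_of_le tendsto_const_nhds h0
      (fun j => measureReal_nonneg) (fun j => (hgl j).le)
  · rw [hRs]
    rw [tendsto_iff_dist_tendsto_zero]
    exact tendsto_of_tendsto_of_tendsto_of_le_of_le tendsto_const_nhds h0
      (fun j => dist_nonneg) (fun j => by rw [Real.dist_eq]; exact (hgV j).le)
  · refine ⟨J + 1 + I (G.vol.real {x | ‖G.lg o x‖ ≤ ρ}), fun j => ?_⟩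
    have h1 := hImono (sliceh_V1_nonneg G (g j)) (measureReal_nonneg) (sliceh_V1_le G (hg j))
    have h2 := hgJ j
    have h3 : 1 / ((j : ℝ) + 1) ≤ 1 := by
      rw [div_le_one (by positivity)]
      linarith [(Nat.cast_nonneg j : (0 : ℝ) ≤ j)]
    linarith

/-- **If the isoperimetric inequality fails**, there is a limit measure with too small mass. -/
theorem exists_lim_of_neg (hn : 2 ≤ n) (hk : 0 ≤ k) {I : ℝ → ℝ}
    (hImono : MonotoneOn I (Ici 0)) (hIcont : ContinuousOn I (Ici 0))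
    (hI0 : ∀ V, 0 ≤ V → 0 ≤ I V) (hIz : I 0 = 0) (hIR : ∀ R, 0 ≤ R → I (VR n k R) = AR n k R)
    (o : _root_.Vale.Agent.P219.TP.E n) (ρ : ℝ) {h : _root_.Vale.Agent.P219.TP.E n → ℝ} (hh : G.Cls o ρ h) (hneg : G.per h - I (V1 G h) < 0)
    {U : Ultrafilter ℕ} (hU : (U : Filter ℕ) ≤ atTop) :
    ∃ J Rs : ℝ, 0 < Rs ∧ 0 < VR n k Rs ∧ ∃ (g : ℕ → _root_.Vale.Agent.P219.TP.E n → ℝ) (V : Measure (_root_.Vale.Agent.P219.TP.E n × _root_.Vale.Agent.P219.TP.E n)),
      MinSeq G o ρ I J (VR n k Rs) U g ∧ IsLim G o ρ U g V ∧ 0 < V.real univ ∧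
      V.real univ < AR n k Rs := by
  obtain ⟨J, Rs, hJ, hRs, g, hg, C, hC⟩ := exists_minSeq G hn hk hImono hIcont hI0 hIz o ρ hh
    hneg hU
  have hVR : 0 < VR n k Rs := by
    have h1 := (VR_strictMonoOn (n := n) (k := k) (by omega) hk) (mem_Ici.2 le_rfl)
      (mem_Ici.2 hRs.le) hRs
    rwa [VR_zero] at h1
  obtain ⟨V, hV⟩ := exists_isLim G hg.cls hC U
  refine ⟨J, Rs, hRs, hVR, g, V, hg, hV, mass_pos G (by omega) hVR hg hV, ?_⟩
  rw [mass_eq G hIcont hVR.le hg hV, hIR Rs hRs.le]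
  linarith

/-- The final arithmetic. -/
theorem AR_le_of_main (hn : 2 ≤ n) (hk : 0 ≤ k) {R v s : ℝ} (hR : 0 < R) (hv : 0 ≤ v)
    (hs : s = sig n)
    (h : s ^ (2 / ((n : ℝ) - 1)) ≤
      (H0 n k R ^ 2 / ((n : ℝ) - 1) ^ 2 - k ^ 2) * v ^ (2 / ((n : ℝ) - 1))) :
    AR n k R ≤ v := by
  have hsn := _root_.Vale.Agent.P219.TPH.sn_pos hk hR
  have hsig : 0 < sig n := sig_pos (by omega)
  have hn2 : (2 : ℝ) ≤ n := by exact_mod_cast hn
  have hm : 0 < (n : ℝ) - 1 := by linarith only [hn2]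
  have h1 : H0 n k R ^ 2 / ((n : ℝ) - 1) ^ 2 - k ^ 2 = (_root_.Vale.Agent.P219.TPH.sn k R ^ 2)⁻¹ := by
    have e1 : _root_.Vale.Agent.P219.TPH.cs k R ^ 2 - k ^ 2 * _root_.Vale.Agent.P219.TPH.sn k R ^ 2 = 1 := by
      unfold _root_.Vale.Agent.P219.TPH.cs _root_.Vale.Agent.P219.TPH.sn
      split_ifs with hk0
      · rw [hk0]; simp
      · have := Real.cosh_sq (k * R)
        rw [div_pow]
        field_simp
        linarith
    unfold H0
    rw [eq_comm, inv_eq_iff_eq_inv, eq_comm, inv_eq_iff_eq_inv]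
    field_simp
    linarith
  rw [h1, hs] at h
  have h2 : sig n ^ (2 / ((n : ℝ) - 1)) * _root_.Vale.Agent.P219.TPH.sn k R ^ 2 ≤ v ^ (2 / ((n : ℝ) - 1)) := by
    have h3 := mul_le_mul_of_nonneg_right h (by positivity : 0 ≤ sn k R ^ 2)
    calc sig n ^ (2 / ((n : ℝ) - 1)) * _root_.Vale.Agent.P219.TPH.sn k R ^ 2
        ≤ (_root_.Vale.Agent.P219.TPH.sn k R ^ 2)⁻¹ * v ^ (2 / ((n : ℝ) - 1)) * _root_.Vale.Agent.P219.TPH.sn k R ^ 2 := h3
      _ = v ^ (2 / ((n : ℝ) - 1)) := by field_simp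
  have h3 : sig n ^ (2 / ((n : ℝ) - 1)) * _root_.Vale.Agent.P219.TPH.sn k R ^ 2 = AR n k R ^ (2 / ((n : ℝ) - 1)) := by
    unfold AR
    rw [Real.mul_rpow hsig.le (by positivity), ← Real.rpow_natCast (_root_.Vale.Agent.P219.TPH.sn k R) (n - 1),
      ← Real.rpow_mul hsn.le, Nat.cast_sub (by omega : 1 ≤ n)]
    congr 1
    rw [Nat.cast_one, mul_div_cancel₀ _ hm.ne', ← Real.rpow_natCast]
    norm_num
  rw [h3] at h2
  exact (Real.rpow_le_rpow_iff (AR_pos (by omega) hk hR).le hv (by positivity)).1 h2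

end Vale.Agent.P219.SA
end

section

/-!
Existence of a smooth orthonormal triangular frame (Gram-Schmidt from the last vector downwards).
-/

open scoped ContDiff

noncomputable section

namespace Vale.Agent.P219.CH

/-- a triangular frame defined for the last `k` indices -/
structure PartFrame {n : ℕ} (M : RiemMetric n) (k : ℕ) (e : Fin n → E n → E n) : Prop where
  smooth : ∀ a : Fin n, n ≤ a + k → ContDiff ℝ ∞ (e a)
  orthonormal : ∀ x (a b : Fin n), n ≤ a + k → n ≤ b + k →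
    M.g x (e a x) (e b x) = if a = b then 1 else 0
  triangular : ∀ a : Fin n, n ≤ a + k → ∀ x i, i < a → e a x i = 0
  positive : ∀ a : Fin n, n ≤ a + k → ∀ x, 0 < e a x a

theorem frame_basisVec_apply {n : ℕ} (i j : Fin n) :
    (basisVec i : E n) j = if j = i then 1 else 0 := by
  simp [basisVec]

theorem PartFrame.step {n : ℕ} {M : RiemMetric n} {k : ℕ} {e : Fin n → E n → E n}
    (h : PartFrame M k e) (hk : k < n) : ∃ e', PartFrame M (k + 1) e' := by
  obtain ⟨a0, ha0⟩ : ∃ a0 : Fin n, (a0 : ℕ) + k + 1 = n := ⟨⟨n - k - 1, by omega⟩, by simp; omega⟩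
  set s : Finset (Fin n) := Finset.univ.filter (fun b : Fin n => a0 < b) with hs
  have hsk : ∀ b ∈ s, n ≤ (b : ℕ) + k := by
    intro b hb
    have : a0 < b := (Finset.mem_filter.1 hb).2
    have : (a0 : ℕ) < b := this
    omega
  have hks : ∀ b : Fin n, n ≤ (b : ℕ) + k → b ∈ s := by
    intro b hb
    refine Finset.mem_filter.2 ⟨Finset.mem_univ _, ?_⟩
    change (a0 : ℕ) < b
    omega
  set u : E n → E n := fun x =>
    basisVec a0 - ∑ b ∈ s, M.g x (basisVec a0) (e b x) • e b x with hu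
  have hus : ContDiff ℝ ∞ u := by
    refine contDiff_const.sub (ContDiff.sum fun b hb => ?_)
    exact ((M.smooth.clm_apply contDiff_const).clm_apply (h.smooth b (hsk b hb))).smul
      (h.smooth b (hsk b hb))
  have hucomp : ∀ x i, u x i = (basisVec a0 : E n) i -
      ∑ b ∈ s, M.g x (basisVec a0) (e b x) * e b x i := by
    intro x i
    have h1 : (∑ b ∈ s, M.g x (basisVec a0) (e b x) • e b x : E n) i =
        ∑ b ∈ s, M.g x (basisVec a0) (e b x) * e b x i :=
      map_sum (EuclideanSpace.proj i : E n →L[ℝ] ℝ)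
        (fun b => M.g x (basisVec a0) (e b x) • e b x) s
    simp only [hu, PiLp.sub_apply]
    rw [h1]
  have hu0 : ∀ x, u x a0 = 1 := by
    intro x
    rw [hucomp, frame_basisVec_apply, if_pos rfl, Finset.sum_eq_zero, sub_zero]
    intro b hb
    rw [h.triangular b (hsk b hb) x a0 (Finset.mem_filter.1 hb).2, mul_zero]
  have hutri : ∀ x i, i < a0 → u x i = 0 := by
    intro x i hi
    rw [hucomp, frame_basisVec_apply, if_neg hi.ne, Finset.sum_eq_zero, sub_zero]
    intro b hb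
    rw [h.triangular b (hsk b hb) x i (hi.trans (Finset.mem_filter.1 hb).2), mul_zero]
  have hune : ∀ x, u x ≠ 0 := by
    intro x h0
    have := hu0 x
    rw [h0] at this
    simp at this
  have hpos : ∀ x, 0 < M.g x (u x) (u x) := fun x => M.pos x _ (hune x)
  have horth : ∀ x, ∀ b ∈ s, M.g x (u x) (e b x) = 0 := by
    intro x b hb
    simp only [hu, map_sub, map_sum, map_smul, sub_apply,
      sum_apply, smul_apply, smul_eq_mul]
    rw [Finset.sum_eq_single b]
    · rw [h.orthonormal x b b (hsk b hb) (hsk b hb), if_pos rfl, mul_one, sub_self]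
    · intro c hc hcb
      rw [h.orthonormal x c b (hsk c hc) (hsk b hb), if_neg hcb, mul_zero]
    · intro hb'
      exact absurd hb hb'
  set w : E n → E n := fun x => (√(M.g x (u x) (u x)))⁻¹ • u x with hw
  have hws : ContDiff ℝ ∞ w := by
    have h1 : ContDiff ℝ ∞ (fun x => M.g x (u x) (u x)) :=
      (M.smooth.clm_apply hus).clm_apply hus
    exact ((h1.sqrt (fun x => (hpos x).ne')).inv (fun x => (Real.sqrt_pos.2 (hpos x)).ne')).smul hus
  have hww : ∀ x, M.g x (w x) (w x) = 1 := by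
    intro x
    simp only [hw, map_smul, smul_apply, smul_eq_mul]
    have h1 := Real.mul_self_sqrt (hpos x).le
    have h2 := (Real.sqrt_pos.2 (hpos x)).ne'
    field_simp
    nlinarith
  have hwe : ∀ x, ∀ b ∈ s, M.g x (w x) (e b x) = 0 := by
    intro x b hb
    simp only [hw, map_smul, smul_apply, smul_eq_mul]
    rw [horth x b hb, mul_zero]
  have ha0s : a0 ∉ s := by simp [hs]
  have hcase : ∀ a : Fin n, n ≤ (a : ℕ) + (k + 1) → a = a0 ∨ (a ≠ a0 ∧ a ∈ s) := by
    intro a ha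
    by_cases haa : a = a0
    · exact Or.inl haa
    · refine Or.inr ⟨haa, hks a ?_⟩
      have : (a : ℕ) ≠ a0 := fun h => haa (Fin.ext h)
      omega
  refine ⟨Function.update e a0 w, ?_, ?_, ?_, ?_⟩
  · intro a ha
    rcases hcase a ha with rfl | ⟨h1, h2⟩
    · rw [Function.update_self]; exact hws
    · rw [Function.update_of_ne h1]; exact h.smooth a (hsk a h2)
  · intro x a b ha hb
    rcases hcase a ha with rfl | ⟨h1, h2⟩
    · rcases hcase b hb with rfl | ⟨h3, h4⟩
      · rw [Function.update_self, if_pos rfl]; exact hww x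
      · rw [Function.update_self, Function.update_of_ne h3, if_neg h3.symm]
        exact hwe x b h4
    · rcases hcase b hb with rfl | ⟨h3, h4⟩
      · rw [Function.update_self, Function.update_of_ne h1, if_neg h1, M.symm]
        exact hwe x a h2
      · rw [Function.update_of_ne h3, Function.update_of_ne h1]
        exact h.orthonormal x a b (hsk a h2) (hsk b h4)
  · intro a ha x i hi
    rcases hcase a ha with rfl | ⟨h1, h2⟩
    · rw [Function.update_self]
      simp only [hw, PiLp.smul_apply, smul_eq_mul]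
      rw [hutri x i hi, mul_zero]
    · rw [Function.update_of_ne h1]
      exact h.triangular a (hsk a h2) x i hi
  · intro a ha x
    rcases hcase a ha with rfl | ⟨h1, h2⟩
    · rw [Function.update_self]
      simp only [hw, PiLp.smul_apply, smul_eq_mul]
      rw [hu0 x, mul_one]
      exact inv_pos.2 (Real.sqrt_pos.2 (hpos x))
    · rw [Function.update_of_ne h1]
      exact h.positive a (hsk a h2) x

theorem exists_partFrame {n : ℕ} (M : RiemMetric n) :
    ∀ k, k ≤ n → ∃ e, PartFrame M k e := by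
  intro k
  induction k with
  | zero =>
    intro _
    refine ⟨fun _ _ => 0, ?_, ?_, ?_, ?_⟩
    · intro a ha; have := a.2; omega
    · intro x a b ha; have := a.2; omega
    · intro a ha; have := a.2; omega
    · intro a ha; have := a.2; omega
  | succ k ih =>
    intro hk
    obtain ⟨e, he⟩ := ih (by omega)
    exact he.step (by omega)

/-- every metric on `ℝⁿ` has a smooth orthonormal triangular frame -/
theorem exists_triangularFrame {n : ℕ} (M : RiemMetric n) : ∃ e, TriangularFrame M e := by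
  obtain ⟨e, he⟩ := exists_partFrame M n le_rfl
  exact ⟨e, fun a => he.smooth a (by omega), fun x a b => he.orthonormal x a b (by omega) (by omega),
    fun a x i hi => he.triangular a (by omega) x i hi, fun a x => he.positive a (by omega) x⟩

end Vale.Agent.P219.CH
end
end

section

/-!
The abstract geometry `TP.Geo n` of a complete metric of nonpositive curvature on `ℝⁿ`, and the
isoperimetric inequality from a certificate.
-/

open Set Filter Topology MeasureTheory
open scoped ContDiff ENNReal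
open Vale.Agent.P255

noncomputable section

namespace Vale.Agent.P219.CH

variable {n : ℕ} {M : RiemMetric n} {e : Fin n → E n → E n}

theorem velF_smul (F : GFlow M.g) (c t : ℝ) (x v : E n) :
    velF F e t x (c • v) = c • velF F e (c * t) x v := by
  have h : IsMetricOn M.g univ := isMetricOn M
  have h1 : velF F e t x (c • v) =
      frB M e (exF F e x (t • c • v)) (F.vel t x (frA e x (c • v))) := rfl
  have h2 : velF F e (c * t) x v =
      frB M e (exF F e x ((c * t) • v)) (F.vel (c * t) x (frA e x v)) := rfl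
  rw [h1, h2, map_smul, F.vel_smul h, map_smul, smul_smul, mul_comm t c]

theorem dexF_smooth (F : GFlow M.g) (he : TriangularFrame M e) :
    ContDiff ℝ ∞ fun q : E n × E n => dexF M F e q.1 q.2 := by
  unfold dexF
  have h1 : ContDiff ℝ ∞ fun q : E n × E n => frB M e (exF F e q.1 q.2) :=
    (frB_smooth he).comp (exF_smooth F he)
  have h2 : ContDiff ℝ ∞ fun q : E n × E n => fderiv ℝ (exF F e q.1) q.2 := by
    refine ContDiff.fderiv (m := ∞) (n := ∞) (f := fun (q : E n × E n) v => exF F e q.1 v) ?_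
      contDiff_snd (by simp)
    exact (exF_smooth F he).comp ((contDiff_fst.comp contDiff_fst).prodMk contDiff_snd)
  exact h1.clm_comp h2

/-- the abstract geometry of a metric with a global geodesic flow and curvature `≤ 0` -/
def toGeo (M : RiemMetric n) (e : Fin n → E n → E n) (he : TriangularFrame M e)
    (hs : SecLE M 0) (F : GFlow M.g) : TP.Geo n where
  w := volDensity M
  A := frA e
  ex := exF F e
  V := velF F e
  lg := (exists_logF F he hs).choose
  T := dexF M F e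
  w_smooth := volDensity_smooth M e he
  A_smooth := frA_smooth he
  ex_smooth := exF_smooth F he
  V_smooth := velF_smooth F he
  lg_smooth := (exists_logF F he hs).choose_spec.1
  T_smooth := dexF_smooth F he
  w_pos := volDensity_gt M e he
  w_det := frA_det he
  ex_zero := exF_zero F
  ex_lg := (exists_logF F he hs).choose_spec.2.1
  lg_ex := (exists_logF F he hs).choose_spec.2.2
  V_zero := velF_zero F he
  norm_V := norm_velF F he
  V_smul := velF_smul F
  ex_flow := exF_add F he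
  V_flow s t x v := (velF_add F he s t x v).symm
  ex_deriv := hasDerivAt_exF F he
  T_spec x v z := by
    simp only [dexF, ContinuousLinearMap.comp_apply]
    exact frA_frB he _ _
  gauss := gaussF F he
  mono x v z s _ h0 h1 := by
    have := norm_dexF_mono F he hs x v z h0 h1
    rwa [one_smul] at this

theorem norm_D_eq (he : TriangularFrame M e) (hs : SecLE M 0) (F : GFlow M.g) (h : E n → ℝ)
    (x : E n) : ‖(toGeo M e he hs F).D h x‖ = covNorm M x (fderiv ℝ h x) := by
  rw [covNorm_eq he, EuclideanSpace.norm_eq]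
  congr 1
  refine Finset.sum_congr rfl fun a _ => ?_
  rw [Real.norm_eq_abs, sq_abs]
  congr 1
  have h1 : inner ℝ ((toGeo M e he hs F).D h x) (basisVec a) =
      fderiv ℝ h x (frA e x (basisVec a)) := by
    unfold TP.Geo.D
    rw [InnerProductSpace.toDual_symm_apply]
    rfl
  have h2 : frA e x (basisVec a) = e a x := by
    rw [frA_apply]
    simp [basisVec]
  rw [h2] at h1
  rw [← h1]
  simp [basisVec, EuclideanSpace.inner_single_right]

theorem integral_vol (he : TriangularFrame M e) (hs : SecLE M 0) (F : GFlow M.g) (f : E n → ℝ) :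
    ∫ x, f x ∂(toGeo M e he hs F).vol = ∫ x, f x * volDensity M x := by
  have hc : Continuous (volDensity M) := (volDensity_smooth M e he).continuous
  have h1 : (toGeo M e he hs F).vol =
      volume.withDensity fun x => ENNReal.ofReal (volDensity M x) := rfl
  rw [h1, integral_withDensity_eq_integral_toReal_smul hc.measurable.ennreal_ofReal
    (Eventually.of_forall fun x => ENNReal.ofReal_lt_top)]
  refine integral_congr_ae (Eventually.of_forall fun x => ?_)
  simp only [ENNReal.toReal_ofReal (volDensity_gt M e he x).le, smul_eq_mul]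
  ring

theorem om_eq (n : ℕ) : TP.Geo.om n = omega n := rfl

end Vale.Agent.P219.CH
end
end

section

/-! # The abstract geometry of a complete metric with `Sec ≤ -1` -/

open Set Filter Topology
open scoped ContDiff
open Vale.Agent.P255

noncomputable section

namespace Vale.Agent.P219.CH

variable {n : ℕ} {M : RiemMetric n} {e : Fin n → E n → E n}

theorem tgh_finrank {u : E n} (hu : ‖u‖ = 1) : Module.finrank ℝ (ℝ ∙ u)ᗮ = n - 1 := by
  have h0 : u ≠ 0 := by
    rintro rfl
    simp at hu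
  have h1 := (ℝ ∙ u).finrank_add_finrank_orthogonal
  rw [finrank_span_singleton h0, finrank_euclideanSpace_fin] at h1
  omega

theorem tgh_abs_det_isom (Q : E n ≃ₗᵢ[ℝ] E n) :
    |LinearMap.det (Q.toLinearEquiv : E n →ₗ[ℝ] E n)| = 1 := by
  rw [← LinearMap.normDet_eq_abs_det]
  exact Q.toLinearIsometry.normDet_eq_one

/-- block determinant -/
theorem tgh_det_block {u : E n} (L : E n →ₗ[ℝ] E n)
    (A : (ℝ ∙ u)ᗮ →ₗ[ℝ] (ℝ ∙ u)ᗮ) (hLu : L u = u) (hA : ∀ w : (ℝ ∙ u)ᗮ, L w = A w) :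
    LinearMap.det L = LinearMap.det A := by
  have hc : IsCompl (ℝ ∙ u) (ℝ ∙ u)ᗮ := Submodule.isCompl_orthogonal _
  set Φ := Submodule.prodEquivOfIsCompl _ _ hc with hΦ
  have h1 : L = Φ.toLinearMap ∘ₗ
      (LinearMap.prodMap (LinearMap.id : (ℝ ∙ u) →ₗ[ℝ] (ℝ ∙ u)) A) ∘ₗ Φ.symm.toLinearMap := by
    have h2 : L ∘ₗ Φ.toLinearMap =
        Φ.toLinearMap ∘ₗ (LinearMap.prodMap (LinearMap.id : (ℝ ∙ u) →ₗ[ℝ] (ℝ ∙ u)) A) := by
      refine LinearMap.ext fun p => ?_
      obtain ⟨⟨p1, hp1⟩, p2⟩ := p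
      obtain ⟨c, rfl⟩ := Submodule.mem_span_singleton.1 hp1
      simp only [LinearMap.comp_apply, LinearEquiv.coe_coe, hΦ,
        Submodule.coe_prodEquivOfIsCompl', LinearMap.prodMap_apply, LinearMap.id_apply, map_add,
        map_smul, hLu, hA]
    rw [← LinearMap.comp_assoc, ← h2, LinearMap.comp_assoc]
    refine LinearMap.ext fun x => ?_
    simp
  have h3 : LinearMap.det L = LinearMap.det (LinearMap.prodMap
      (LinearMap.id : (ℝ ∙ u) →ₗ[ℝ] (ℝ ∙ u)) A) := by
    rw [h1]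
    exact LinearMap.det_conj _ Φ
  rw [h3, LinearMap.det_prodMap, LinearMap.det_id, one_mul]

theorem tgh_det_main {u : E n} (hu : ‖u‖ = 1) {r : ℝ} (hr : 0 < r) (D : E n →L[ℝ] E n)
    (Q₁ Q₂ : E n ≃ₗᵢ[ℝ] E n) (A : (ℝ ∙ u)ᗮ →L[ℝ] (ℝ ∙ u)ᗮ) (hDu : D (Q₂ u) = Q₁ u)
    (hA : ∀ w : (ℝ ∙ u)ᗮ, Q₁ (A w) = r • D (Q₂ w)) :
    |D.det| * r ^ (n - 1) = |A.det| := by
  set L : E n →ₗ[ℝ] E n := (Q₁.symm.toLinearEquiv : E n →ₗ[ℝ] E n) ∘ₗ (D : E n →ₗ[ℝ] E n) ∘ₗ
    (Q₂.toLinearEquiv : E n →ₗ[ℝ] E n) with hL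
  have h1 : LinearMap.det L = LinearMap.det (r⁻¹ • (A : (ℝ ∙ u)ᗮ →ₗ[ℝ] (ℝ ∙ u)ᗮ)) := by
    refine tgh_det_block L _ ?_ ?_
    · simp only [hL, LinearMap.comp_apply]
      change Q₁.symm (D (Q₂ u)) = u
      rw [hDu, Q₁.symm_apply_apply]
    · intro w
      simp only [hL, LinearMap.comp_apply]
      change Q₁.symm (D (Q₂ w)) = ((r⁻¹ • (A w) : (ℝ ∙ u)ᗮ) : E n)
      have h2 : D (Q₂ w) = r⁻¹ • Q₁ (A w) := by
        rw [hA w, smul_smul, inv_mul_cancel₀ hr.ne', one_smul]
      rw [h2, map_smul, Q₁.symm_apply_apply]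
      rfl
  have h2 : |LinearMap.det L| = |D.det| := by
    rw [hL, LinearMap.det_comp, LinearMap.det_comp, abs_mul, abs_mul,
      tgh_abs_det_isom, tgh_abs_det_isom, one_mul, mul_one]
  rw [← h2, h1, LinearMap.det_smul, tgh_finrank hu, abs_mul, abs_pow, abs_inv, abs_of_pos hr]
  have h3 : r ^ (n - 1) ≠ 0 := pow_ne_zero _ hr.ne'
  rw [inv_pow]
  field_simp

theorem tgh_dexF_self (F : GFlow M.g) (x u : E n) (t : ℝ) :
    dexF M F e x (t • u) u = velF F e t x u := by
  have h : IsMetricOn M.g univ := isMetricOn M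
  simp only [dexF, ContinuousLinearMap.comp_apply, velF]
  rw [fderiv_exF, map_smul, F.fderiv_ray h]

/-- PROOF: `v = r u`, jt_mono, `Q` is an isometry: `t • dexF x (t u) w = Q t (A t w)`. -/
theorem toGeo_monoH (he : TriangularFrame M e) (hs : SecLE M (-1)) (F : GFlow M.g) (x v z : E n)
    (s : ℝ) (hz : inner ℝ v z = 0) (h0 : 0 ≤ s) (h1 : s ≤ 1) :
    s * Real.sinh ‖v‖ * ‖(toGeo M e he (secLE_zero hs) F).T x (s • v) z‖ ≤
      Real.sinh (s * ‖v‖) * ‖(toGeo M e he (secLE_zero hs) F).T x v z‖ := by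
  change s * Real.sinh ‖v‖ * ‖dexF M F e x (s • v) z‖ ≤
      Real.sinh (s * ‖v‖) * ‖dexF M F e x v z‖
  rcases eq_or_ne v 0 with rfl | hv
  · simp
  have hρ : 0 < ‖v‖ := norm_pos_iff.2 hv
  set ρ := ‖v‖ with hρd
  set u : E n := ρ⁻¹ • v with hu
  have hun : ‖u‖ = 1 := by
    rw [hu, norm_smul, norm_inv, Real.norm_of_nonneg hρ.le, ← hρd, inv_mul_cancel₀ hρ.ne']
  have hvu : v = ρ • u := by rw [hu, smul_smul, mul_inv_cancel₀ hρ.ne', one_smul]
  have hzu : z ∈ (ℝ ∙ u)ᗮ := by
    rw [Submodule.mem_orthogonal_singleton_iff_inner_right, hu, inner_smul_left, hz, mul_zero]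
  obtain ⟨R, A, A', B, B', Q, hJA, -, -, -, hR, hA0, hA1, -, -, -, hQA, -⟩ :=
    exists_JT F he hs x u hun 0
  have key := (jt_mono hJA hA0 hA1 hR ⟨z, hzu⟩ (s := s * ρ) (t := ρ) (by positivity)
    (by linarith only [mul_nonneg (sub_nonneg.2 h1) (le_of_lt (sub_pos.2 hρ))])).1
  have hn : ∀ t : ℝ, 0 ≤ t → ‖A t ⟨z, hzu⟩‖ = t * ‖dexF M F e x (t • u) z‖ := by
    intro t ht
    have h2 : ‖A t ⟨z, hzu⟩‖ = ‖Q t (A t ⟨z, hzu⟩)‖ := by
      rw [(Q t).norm_map]
      rfl
    rw [h2, hQA t ⟨z, hzu⟩, norm_smul, Real.norm_of_nonneg ht]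
  rw [hn _ (by positivity), hn _ hρ.le] at key
  rw [hvu, smul_smul]
  have h3 : Real.sinh ρ * (s * ρ * ‖dexF M F e x ((s * ρ) • u) z‖) =
      ρ * (s * Real.sinh ρ * ‖dexF M F e x ((s * ρ) • u) z‖) := by ring
  have h4 : Real.sinh (s * ρ) * (ρ * ‖dexF M F e x (ρ • u) z‖) =
      ρ * (Real.sinh (s * ρ) * ‖dexF M F e x (ρ • u) z‖) := by ring
  rw [h3, h4] at key
  exact le_of_mul_le_mul_left key hρ

/-- `|det T (r u)| = |det A(r)| / r^{n-1}` (T maps `u` to the velocity, `u^⊥` to its orthogonal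
complement). -/
theorem det_dexF (he : TriangularFrame M e) (F : GFlow M.g) (x u : E n)
    (hu : ‖u‖ = 1) {r : ℝ} (hr : 0 < r) (A : (ℝ ∙ u)ᗮ →L[ℝ] (ℝ ∙ u)ᗮ) (Q : E n ≃ₗᵢ[ℝ] E n)
    (hQ : Q u = velF F e r x u)
    (hA : ∀ w : (ℝ ∙ u)ᗮ, Q (A w) = r • dexF M F e x (r • u) w) :
    |(dexF M F e x (r • u)).det| * r ^ (n - 1) = |A.det| := by
  refine tgh_det_main hu hr _ Q (LinearIsometryEquiv.refl ℝ _) A ?_ hA
  rw [hQ]
  exact tgh_dexF_self F x u r

theorem tgh_dexF_inj (he : TriangularFrame M e) (hs : SecLE M 0) (F : GFlow M.g) (x v : E n) :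
    (dexF M F e x v).det ≠ 0 := by
  have h1 : ∀ z, dexF M F e x v z = 0 → z = 0 := by
    intro z hz
    have h2 := norm_dexF_mono F he hs x v z (le_refl 0) zero_le_one
    rw [zero_smul, one_smul, dexF_zero F he, hz, norm_zero] at h2
    exact norm_le_zero_iff.1 h2
  intro h0
  obtain ⟨L, hL⟩ := hadamard_exists_equiv (dexF M F e x v) h1
  rw [← hL] at h0
  have h3 : IsUnit (LinearMap.det (L.toLinearEquiv : E n →ₗ[ℝ] E n)) :=
    LinearEquiv.isUnit_det' L.toLinearEquiv
  exact h3.ne_zero h0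

theorem tgh_det_eq (L : E n →L[ℝ] E n) :
    L.det = Matrix.det (Matrix.of fun i j : Fin n => (L (basisVec j)) i) := by
  rw [ContinuousLinearMap.det, ← LinearMap.det_toMatrix (EuclideanSpace.basisFun (Fin n) ℝ).toBasis]
  congr 1

theorem tgh_det_diff {f : E n → E n →L[ℝ] E n} (hf : Differentiable ℝ f) :
    Differentiable ℝ fun w => (f w).det := by
  have h5 : ∀ i j : Fin n, Differentiable ℝ fun w => (f w (basisVec j)) i := by
    intro i j
    have h6 : Differentiable ℝ fun w => f w (basisVec j) :=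
      hf.clm_apply (differentiable_const _)
    exact (EuclideanSpace.proj (𝕜 := ℝ) i).differentiable.comp h6
  have h7 : (fun w => (f w).det) = fun w => ∑ σ : Equiv.Perm (Fin n),
      ((Equiv.Perm.sign σ : ℤ) : ℝ) * ∏ i, (f w (basisVec i)) (σ i) := by
    funext w
    rw [tgh_det_eq, Matrix.det_apply']
    rfl
  rw [h7]
  refine Differentiable.fun_sum fun σ _ => Differentiable.const_mul ?_ _
  intro w
  exact (HasFDerivAt.finsetProd (u := Finset.univ)
    (g := fun (i : Fin n) (w : E n) => (f w (basisVec i)) (σ i))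
    fun i _ => (h5 (σ i) i w).hasFDerivAt).differentiableAt

theorem tgh_partial {f : E n → E n → E n →L[ℝ] E n}
    (hf : ContDiff ℝ ∞ fun q : E n × E n => f q.1 q.2) (x : E n) : Differentiable ℝ (f x) := by
  have h0 : Differentiable ℝ fun w : E n => (x, w) :=
    (differentiable_const x).prodMk differentiable_id
  exact (hf.differentiable (by simp)).comp h0

theorem tgh_dexF_diff (he : TriangularFrame M e) (F : GFlow M.g) (x : E n) :
    Differentiable ℝ (dexF M F e x) :=
  tgh_partial (f := dexF M F e) (dexF_smooth F he) x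

theorem tgh_log_diff (he : TriangularFrame M e) (hs : SecLE M 0) (F : GFlow M.g) (x v : E n) :
    DifferentiableAt ℝ (fun w => Real.log |(dexF M F e x w).det|) v := by
  have h2 : DifferentiableAt ℝ (fun w => (dexF M F e x w).det) v :=
    tgh_det_diff (tgh_dexF_diff he F x) v
  have h3 := h2.log (tgh_dexF_inj he hs F x v)
  have h4 : (fun w => Real.log |(dexF M F e x w).det|) =
      fun w => Real.log (dexF M F e x w).det := funext fun w => Real.log_abs _
  rw [h4]
  exact h3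

/-- the radial derivative of `log |det|` -/
theorem tgh_radial (he : TriangularFrame M e) (hs : SecLE M 0) (F : GFlow M.g) (x u : E n)
    (hu : ‖u‖ = 1) (hn : 2 ≤ n) {r d : ℝ} (hr : 0 < r) {D : ℝ → ℝ}
    (hD : ∀ t, 0 < t → |(dexF M F e x (t • u)).det| * t ^ (n - 1) = |D t|)
    (hd : HasDerivAt (fun t => Real.log |D t|) d r) (v : E n) (hv : v = r • u) :
    fderiv ℝ (fun w => Real.log |(dexF M F e x w).det|) v (‖v‖⁻¹ • v) +
      ((n : ℝ) - 1) / ‖v‖ - ((n : ℝ) - 1) * TP.cth ‖v‖ = d - ((n : ℝ) - 1) * TP.cth r := by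
  have hvn : ‖v‖ = r := by rw [hv, norm_smul, hu, mul_one, Real.norm_of_nonneg hr.le]
  have hvu : ‖v‖⁻¹ • v = u := by
    rw [hvn, hv, smul_smul, inv_mul_cancel₀ hr.ne', one_smul]
  rw [hvu, hvn]
  have hcast : ((n - 1 : ℕ) : ℝ) = (n : ℝ) - 1 := by
    rw [Nat.cast_sub (by omega), Nat.cast_one]
  have h1 : HasDerivAt (fun t : ℝ => Real.log |(dexF M F e x (t • u)).det|)
      (fderiv ℝ (fun w => Real.log |(dexF M F e x w).det|) v u) r := by
    have h2 : HasDerivAt (fun s : ℝ => s • u) u r := by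
      simpa using (hasDerivAt_id r).smul_const u
    have h3 := (tgh_log_diff he hs F x v).hasFDerivAt
    rw [hv] at h3 ⊢
    exact HasFDerivAt.comp_hasDerivAt (f := fun s : ℝ => s • u) r h3 h2
  have h4 : HasDerivAt (fun t : ℝ => Real.log |(dexF M F e x (t • u)).det|)
      (d - ((n : ℝ) - 1) / r) r := by
    have h5 : HasDerivAt (fun t : ℝ => Real.log |D t| - ((n : ℝ) - 1) * Real.log t)
        (d - ((n : ℝ) - 1) * r⁻¹) r := hd.sub ((Real.hasDerivAt_log hr.ne').const_mul _)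
    rw [div_eq_mul_inv]
    refine h5.congr_of_eventuallyEq ?_
    filter_upwards [lt_mem_nhds hr] with t ht
    have h6 := tgh_dexF_inj he hs F x (t • u)
    rw [← hD t ht, Real.log_mul (abs_ne_zero.2 h6) (pow_ne_zero _ ht.ne'), Real.log_pow, hcast]
    ring
  rw [h1.unique h4]
  ring

/-- PROOF: jt_bonus, jt_log_det, det_dexF (for `t` near `r`, and for the reversed geodesic). -/
theorem toGeo_bonus (he : TriangularFrame M e) (hs : SecLE M (-1)) (F : GFlow M.g) (hn : 2 ≤ n)
    (x v : E n) (a b : ℝ) (hv : v ≠ 0) (ha : 0 ≤ a) (hb : 0 ≤ b) :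
    2 * a * b / Real.sinh ‖v‖ * (1 - (Real.sinh ‖v‖ / ‖v‖) ^ (n - 1) /
        |((toGeo M e he (secLE_zero hs) F).T x v).det|) ≤
      b ^ 2 * (toGeo M e he (secLE_zero hs) F).tau x v +
      a ^ 2 * (toGeo M e he (secLE_zero hs) F).tau ((toGeo M e he (secLE_zero hs) F).ex x v)
        ((toGeo M e he (secLE_zero hs) F).lg ((toGeo M e he (secLE_zero hs) F).ex x v) x) := by
  have hs0 := secLE_zero hs
  have hr : 0 < ‖v‖ := norm_pos_iff.2 hv
  obtain ⟨r, hrd⟩ : ∃ r : ℝ, r = ‖v‖ := ⟨_, rfl⟩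
  rw [← hrd] at hr
  obtain ⟨u, hu⟩ : ∃ u : E n, u = r⁻¹ • v := ⟨_, rfl⟩
  have hun : ‖u‖ = 1 := by
    rw [hu, norm_smul, norm_inv, Real.norm_of_nonneg hr.le, ← hrd, inv_mul_cancel₀ hr.ne']
  have hvu : v = r • u := by rw [hu, smul_smul, mul_inv_cancel₀ hr.ne', one_smul]
  obtain ⟨R, A, A', B, B', Q, hJA, hJB, hRc, hsym, hR, hA0, hA1, hB0, hB1, hQu, hQA, hQB⟩ :=
    exists_JT F he hs x u hun r
  have hfr := tgh_finrank hun
  have hcast : ((n - 1 : ℕ) : ℝ) = (n : ℝ) - 1 := by
    rw [Nat.cast_sub (by omega), Nat.cast_one]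
  have key := jt_bonus (by rw [hfr]; omega) hJA hA0 hA1 hsym hR hRc hr hJB hB0 hB1 ha hb
  rw [hfr, hcast] at key
  -- determinants from `x`
  have hdA : ∀ t, 0 < t → |(dexF M F e x (t • u)).det| * t ^ (n - 1) = |(A t).det| := by
    intro t ht
    exact det_dexF he F x u hun ht (A t) (Q t) (hQu t) (hQA t)
  -- determinants from `y`
  obtain ⟨y, hy⟩ : ∃ y : E n, y = exF F e x (r • u) := ⟨_, rfl⟩
  obtain ⟨V, hV⟩ : ∃ V : E n, V = velF F e r x u := ⟨_, rfl⟩
  rw [← hy, ← hV] at hQB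
  have hVn : ‖-V‖ = 1 := by rw [norm_neg, hV, norm_velF F he, hun]
  have hself : ∀ t : ℝ, dexF M F e y ((r - t) • (-V)) V = Q t u := by
    intro t
    have h1 := tgh_dexF_self (e := e) F y (-V) (r - t)
    have h2 : velF F e (r - t) y (-V) = - velF F e t x u := by
      have h3 : (-V : E n) = (-1 : ℝ) • V := by simp
      rw [h3, velF_smul, hy, hV, ← velF_add F he]
      have h4 : r + -1 * (r - t) = t := by ring
      rw [h4]
      simp
    rw [h2, map_neg, neg_inj] at h1
    rw [h1, hQu]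
  have hdB : ∀ t, 0 < t → |(dexF M F e y (t • (-V))).det| * t ^ (n - 1) = |(B (r - t)).det| := by
    intro t ht
    have h1 : r - (r - t) = t := by ring
    have h2 := hself (r - t)
    have h3 := hQB (r - t)
    rw [h1] at h2 h3
    refine tgh_det_main hun ht _ (Q (r - t)) (Q r) (B (r - t)) ?_ h3
    rw [hQu r, ← hV]
    exact h2
  have hAr : (A r).det ≠ 0 := by
    rw [← abs_pos, ← hdA r hr]
    exact mul_pos (abs_pos.2 (tgh_dexF_inj he hs0 F x _)) (pow_pos hr _)
  have hBr : (B 0).det ≠ 0 := by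
    have h1 := hdB r hr
    rw [sub_self] at h1
    rw [← abs_pos, ← h1]
    exact mul_pos (abs_pos.2 (tgh_dexF_inj he hs0 F y _)) (pow_pos hr _)
  have htx := tgh_radial he hs0 F x u hun hn hr hdA (jt_log_det (hJA.d1 r) hAr) v hvu
  have hty := tgh_radial he hs0 F y (-V) hVn hn hr (D := fun t => (B (r - t)).det) hdB
    (d := -LinearMap.trace ℝ _ ((B' 0).comp (B 0).inverse).toLinearMap) (by
      have h1 := jt_log_det (hJB.d1 0) hBr
      have h2 : HasDerivAt (fun t : ℝ => r - t) (-1) r := by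
        simpa using (hasDerivAt_id r).const_sub r
      have h3 : r - r = 0 := sub_self r
      rw [← h3] at h1
      have h4 := HasDerivAt.comp (h₂ := fun s => Real.log |(B s).det|) r h1 h2
      rw [h3, mul_neg_one] at h4
      exact h4) (r • (-V)) rfl
  -- the logarithm
  have hex : (toGeo M e he (secLE_zero hs) F).ex x v = y := by
    rw [hy, ← hvu]
    rfl
  have hlg : (toGeo M e he (secLE_zero hs) F).lg y x = r • (-V) := by
    have h1 : (toGeo M e he (secLE_zero hs) F).ex y (r • (-V)) = x := by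
      change exF F e y (r • (-V)) = x
      have h2 := exF_add F he r (-r) x u
      rw [← hy, ← hV, add_neg_cancel, zero_smul, exF_zero F] at h2
      rw [smul_neg, ← neg_smul]
      exact h2
    have h3 := (toGeo M e he (secLE_zero hs) F).lg_ex y (r • (-V))
    rw [h1] at h3
    exact h3
  have e1 : (toGeo M e he (secLE_zero hs) F).tau x v =
      LinearMap.trace ℝ _ ((A' r).comp (A r).inverse).toLinearMap - ((n : ℝ) - 1) * TP.cth r :=
    htx
  have e2 : (toGeo M e he (secLE_zero hs) F).tau y (r • (-V)) =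
      -LinearMap.trace ℝ _ ((B' 0).comp (B 0).inverse).toLinearMap - ((n : ℝ) - 1) * TP.cth r :=
    hty
  rw [hex, hlg, e1, e2]
  refine le_trans (le_of_eq ?_) key
  rw [← hrd]
  have e3 : |((toGeo M e he (secLE_zero hs) F).T x v).det| * r ^ (n - 1) = |(A r).det| := by
    have := hdA r hr
    rw [← hvu] at this
    exact this
  rw [← e3, div_pow]
  have h5 : r ^ (n - 1) ≠ 0 := pow_ne_zero _ hr.ne'
  congr 2
  rw [div_div, mul_comm (r ^ (n - 1))]

/-- the abstract geometry -/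
def toGeoH (M : RiemMetric n) (e : Fin n → E n → E n) (he : TriangularFrame M e)
    (hs : SecLE M (-1)) (F : GFlow M.g) (hn : 2 ≤ n) : TP.GeoH n where
  toGeo := toGeo M e he (secLE_zero hs) F
  monoH := toGeo_monoH he hs F
  bonus := toGeo_bonus he hs F hn

end Vale.Agent.P219.CH
end
end

section

/-! # Equality case: conclusion for a pair of boundary points -/

open MeasureTheory Set Metric Filter Topology
open scoped ENNReal ContDiff

namespace Vale.Agent.P219.TP

variable {n : ℕ} (G : Geo n)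

end Vale.Agent.P219.TP
end

section

set_option linter.all false

/-! # Equality case for domains -/

open MeasureTheory Set Metric Filter Topology
open scoped ENNReal ContDiff

noncomputable section

namespace Vale.Agent.P219.CH

variable {n : ℕ}

/-- The inner unit normal of the level sets of `ρ`, in the frame. -/
def nrm (G : TP.Geo n) (ρ : E n → ℝ) (x : E n) : E n :=
  ‖G.D (fun y => -ρ y) x‖⁻¹ • G.D (fun y => -ρ y) x

theorem rd_D_cont (G : TP.Geo n) {h : E n → ℝ} (hh : ContDiff ℝ 1 h) : Continuous (G.D h) := by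
  unfold TP.Geo.D
  exact (InnerProductSpace.toDual ℝ (E n)).symm.continuous.comp
    ((hh.continuous_fderiv one_ne_zero).clm_comp G.A_smooth.continuous)

theorem rd_A_surj (G : TP.Geo n) (x : E n) : Function.Surjective (G.A x) :=
  (LinearMap.injective_iff_surjective (f := (G.A x : E n →ₗ[ℝ] E n))).1 (G.A_injective x)

theorem rd_D_ne (G : TP.Geo n) {h : E n → ℝ} {x : E n} (hx : fderiv ℝ h x ≠ 0) :
    G.D h x ≠ 0 := by
  intro h0
  apply hx
  ext v
  obtain ⟨z, rfl⟩ := rd_A_surj G x v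
  rw [← G.inner_D h x z, h0, inner_zero_left]
  rfl

theorem rd_fderiv_neg (D : SmoothDomain n) (x : E n) :
    fderiv ℝ (fun y => -D.ρ y) x = -fderiv ℝ D.ρ x := fderiv_fun_neg

theorem nrm_norm (G : TP.Geo n) (D : SmoothDomain n) {p : E n} (hp : D.ρ p = 0) :
    ContinuousAt (nrm G D.ρ) p ∧ ∀ᶠ y in 𝓝 p, ‖nrm G D.ρ y‖ = 1 := by
  have hc : Continuous (G.D fun y => -D.ρ y) := rd_D_cont G (D.smooth.neg.of_le (by simp))
  have h0 : G.D (fun y => -D.ρ y) p ≠ 0 := by
    apply rd_D_ne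
    rw [rd_fderiv_neg]
    exact neg_ne_zero.2 (D.regular p hp)
  constructor
  · exact (hc.norm.continuousAt.inv₀ (norm_ne_zero_iff.2 h0)).smul hc.continuousAt
  · filter_upwards [hc.continuousAt.eventually_ne h0] with y hy
    unfold nrm
    rw [norm_smul, norm_inv, norm_norm, inv_mul_cancel₀ (norm_ne_zero_iff.2 hy)]

theorem D_feps (G : TP.Geo n) (D : SmoothDomain n) {ε : ℝ} (hε : 0 < ε) (y : E n) :
    G.D (Feps D ε) y = ‖G.D (Feps D ε) y‖ • nrm G D.ρ y := by
  have h1 : G.D (Feps D ε) y = (ε⁻¹ * Coarea.chi' (-D.ρ y / ε)) • G.D (fun y => -D.ρ y) y := by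
    unfold TP.Geo.D
    rw [Feps_fderiv, rd_fderiv_neg, ← map_smul]
    congr 1
    ext v
    simp
  have hc : 0 ≤ ε⁻¹ * Coarea.chi' (-D.ρ y / ε) :=
    mul_nonneg (inv_pos.2 hε).le (Coarea.chi'_nonneg _)
  rw [h1, norm_smul, Real.norm_of_nonneg hc]
  unfold nrm
  by_cases h0 : G.D (fun y => -D.ρ y) y = 0
  · rw [h0]; simp
  · rw [smul_smul, mul_assoc, mul_inv_cancel₀ (norm_ne_zero_iff.2 h0), mul_one]

theorem rd_pos {X : Type*} [TopologicalSpace X] {K : Set X} (hK : IsCompact K) {f : X → ℝ}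
    (hf : Continuous f) (hp : ∀ x ∈ K, 0 < f x) : ∃ c > 0, ∀ x ∈ K, c ≤ f x := by
  rcases K.eq_empty_or_nonempty with h | h
  · subst h
    exact ⟨1, one_pos, fun x hx => absurd hx (Set.notMem_empty x)⟩
  · obtain ⟨x, hx, hmin⟩ := hK.exists_isMinOn h hf.continuousOn
    exact ⟨f x, hp x hx, fun y hy => hmin hy⟩

theorem rd_A_inv (G : TP.Geo n) {K : Set (E n)} (hK : IsCompact K) :
    ∃ C > 0, ∀ x ∈ K, ∀ ν : E n, ∃ z, G.A x z = ν ∧ ‖z‖ ≤ C * ‖ν‖ := by
  have hS : IsCompact (K ×ˢ sphere (0 : E n) 1) := hK.prod (isCompact_sphere 0 1)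
  have hF : Continuous fun q : E n × E n => ‖G.A q.1 q.2‖ :=
    ((G.A_smooth.continuous.comp continuous_fst).clm_apply continuous_snd).norm
  obtain ⟨m, hm, hmin⟩ := rd_pos hS hF (by
    rintro ⟨x, z⟩ ⟨_, hz⟩
    refine norm_pos_iff.2 fun h0 => ?_
    have h1 : z = 0 := G.A_injective x (by rw [h0, map_zero])
    rw [h1] at hz
    simp at hz)
  refine ⟨m⁻¹, inv_pos.2 hm, fun x hx ν => ?_⟩
  obtain ⟨z, rfl⟩ := rd_A_surj G x ν
  refine ⟨z, rfl, ?_⟩
  by_cases h0 : z = 0
  · rw [h0]; simp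
  have hz : 0 < ‖z‖ := norm_pos_iff.2 h0
  have h1 := hmin (x, ‖z‖⁻¹ • z) ⟨hx, by
    rw [mem_sphere_zero_iff_norm, norm_smul, norm_inv, norm_norm, inv_mul_cancel₀ hz.ne']⟩
  simp only [map_smul, norm_smul, norm_inv, norm_norm] at h1
  rw [inv_mul_eq_div, le_div_iff₀ hm, mul_comm]
  rwa [inv_mul_eq_div, le_div_iff₀ hz] at h1

/-- a bound for directional derivatives -/
theorem rd_fderiv_le (G : TP.Geo n) {K : Set (E n)} (hK : IsCompact K) (ν : E n) :
    ∃ C > 0, ∀ x ∈ K, ∀ h : E n → ℝ, |fderiv ℝ h x ν| ≤ C * (‖G.D h x‖ * G.w x) := by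
  obtain ⟨C, hC, hCz⟩ := rd_A_inv G hK
  obtain ⟨m, hm, hmw⟩ := rd_pos hK G.w_smooth.continuous fun x _ => G.w_pos x
  refine ⟨C * (‖ν‖ + 1) / m, by positivity, fun x hx h => ?_⟩
  obtain ⟨z, hz, hz2⟩ := hCz x hx ν
  have h1 : |fderiv ℝ h x ν| ≤ ‖G.D h x‖ * (C * (‖ν‖ + 1)) := by
    rw [← hz, ← G.inner_D h x z]
    refine (abs_real_inner_le_norm _ _).trans (mul_le_mul_of_nonneg_left ?_ (norm_nonneg _))
    rw [hz]
    refine hz2.trans (mul_le_mul_of_nonneg_left (by linarith) hC.le)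
  refine h1.trans ?_
  have h2 : 1 ≤ G.w x / m := by rw [one_le_div hm]; exact hmw x hx
  calc ‖G.D h x‖ * (C * (‖ν‖ + 1)) ≤ ‖G.D h x‖ * (C * (‖ν‖ + 1)) * (G.w x / m) :=
        le_mul_of_one_le_right (by positivity) h2
    _ = _ := by ring

/-- near a boundary point there are two small balls, translates of each other, one outside and
one inside the domain -/
theorem rd_two_balls (D : SmoothDomain n) {p : E n} (hp : D.ρ p = 0) {δ : ℝ} (hδ : 0 < δ) :
    ∃ (ν : E n) (s η r : ℝ), ‖ν‖ = 1 ∧ 0 < s ∧ 0 < η ∧ 0 < r ∧ r + s ≤ δ ∧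
      ∀ x ∈ ball (p - s • ν) r, 0 < D.ρ x ∧ D.ρ (x + (2 * s) • ν) < -η := by
  obtain ⟨ν, hν, hν2⟩ := Coarea.exists_unit (φ := -fderiv ℝ D.ρ p) (neg_ne_zero.2 (D.regular p hp))
  have hneg : fderiv ℝ D.ρ p ν < 0 := by
    have h1 : 0 < ‖-fderiv ℝ D.ρ p‖ := norm_pos_iff.2 (neg_ne_zero.2 (D.regular p hp))
    rw [← hν2, neg_apply] at h1
    linarith
  have hder : HasDerivAt (fun t : ℝ => D.ρ (p + t • ν)) (fderiv ℝ D.ρ p ν) 0 := by
    have h1 : HasFDerivAt D.ρ (fderiv ℝ D.ρ p) (p + (0 : ℝ) • ν) := by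
      rw [zero_smul, add_zero]
      exact (D.smooth.differentiable (by simp) p).hasFDerivAt
    have h2 : HasDerivAt (fun t : ℝ => p + t • ν) ν 0 := by
      have := ((hasDerivAt_id (0 : ℝ)).smul_const ν).const_add p
      simpa using this
    exact h1.comp_hasDerivAt 0 h2
  have hsl := (hasDerivAt_iff_tendsto_slope.1 hder).eventually (gt_mem_nhds hneg)
  rw [eventually_nhdsWithin_iff, Metric.eventually_nhds_iff] at hsl
  obtain ⟨τ, hτ, hsl⟩ := hsl
  set s : ℝ := min (τ / 2) (δ / 2) with hs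
  have hs0 : 0 < s := lt_min (by linarith) (by linarith)
  have hsτ : s < τ := (min_le_left _ _).trans_lt (by linarith)
  have hsδ : s ≤ δ / 2 := min_le_right _ _
  have e0 : D.ρ (p + (0 : ℝ) • ν) = 0 := by rw [zero_smul, add_zero]; exact hp
  have hin : D.ρ (p + s • ν) < 0 := by
    have h1 := hsl (y := s) (by rw [Real.dist_eq, sub_zero, abs_of_pos hs0]; exact hsτ)
      (by simpa using hs0.ne')
    rw [slope_def_field, e0, sub_zero, sub_zero] at h1
    by_contra h2
    exact absurd h1 (not_lt.2 (div_nonneg (not_lt.1 h2) hs0.le))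
  have hout : 0 < D.ρ (p - s • ν) := by
    have h1 := hsl (y := -s) (by rw [Real.dist_eq, sub_zero, abs_neg, abs_of_pos hs0]; exact hsτ)
      (by simpa using hs0.ne')
    rw [slope_def_field, e0, sub_zero, sub_zero, neg_smul, ← sub_eq_add_neg] at h1
    by_contra h2
    exact absurd h1 (not_lt.2 (div_nonneg_of_nonpos (not_lt.1 h2) (by linarith only [hs0])))
  set η : ℝ := -D.ρ (p + s • ν) / 2 with hη
  have hη0 : 0 < η := by rw [hη]; linarith only [hin]
  have hc := D.smooth.continuous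
  have ho : IsOpen ({x | 0 < D.ρ x} ∩ {x | D.ρ (x + (2 * s) • ν) < -η}) :=
    (isOpen_lt continuous_const hc).inter
      (isOpen_lt (hc.comp (continuous_id.add continuous_const)) continuous_const)
  have hmem : p - s • ν ∈ {x | 0 < D.ρ x} ∩ {x | D.ρ (x + (2 * s) • ν) < -η} := by
    refine ⟨hout, ?_⟩
    have e1 : p - s • ν + (2 * s) • ν = p + s • ν := by
      rw [two_mul, add_smul]; abel
    change D.ρ (p - s • ν + (2 * s) • ν) < -η
    rw [e1, hη]
    linarith only [hη, hη0]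
  obtain ⟨r0, hr0, hball⟩ := Metric.isOpen_iff.1 ho _ hmem
  refine ⟨ν, s, η, min r0 (δ / 2), hν, hs0, hη0, lt_min hr0 (by linarith only [hsδ, hs0]), ?_, ?_⟩
  · have := min_le_right r0 (δ / 2)
    linarith only [this, hsδ]
  · intro x hx
    exact hball (ball_subset_ball (min_le_left _ _) hx)

/-- integration over a ball of points, along segments in a fixed direction -/
theorem rd_segments {g : E n → ℝ} (hgc : Continuous g) (hg0 : ∀ y, 0 ≤ g y) {B : Set (E n)}
    (hmB : MeasurableSet B) {p ν : E n} {δ s : ℝ} (hs : 0 < s)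
    (hin : ∀ x ∈ B, ∀ t ∈ Icc (0 : ℝ) (2 * s), x + t • ν ∈ ball p δ)
    (hseg : ∀ x ∈ B, (1 : ℝ≥0∞) ≤ ∫⁻ t in Icc (0 : ℝ) (2 * s), ENNReal.ofReal (g (x + t • ν))) :
    (volume B).toReal ≤ 2 * s * ∫ y in ball p δ, g y := by
  have hmeas : Measurable fun q : E n × ℝ => ENNReal.ofReal (g (q.1 + q.2 • ν)) :=
    (hgc.comp (continuous_fst.add
      (continuous_snd.smul continuous_const))).measurable.ennreal_ofReal
  have hint : volume B ≤ ENNReal.ofReal (2 * s) * ∫⁻ y in ball p δ, ENNReal.ofReal (g y) := by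
    calc volume B = ∫⁻ x in B, 1 := by rw [setLIntegral_one]
      _ ≤ ∫⁻ x in B, ∫⁻ t in Icc (0 : ℝ) (2 * s), ENNReal.ofReal (g (x + t • ν)) :=
          setLIntegral_mono' hmB fun x hx => hseg x hx
      _ = ∫⁻ t in Icc (0 : ℝ) (2 * s), ∫⁻ x in B, ENNReal.ofReal (g (x + t • ν)) :=
          lintegral_lintegral_swap hmeas.aemeasurable
      _ ≤ ∫⁻ t in Icc (0 : ℝ) (2 * s), ∫⁻ y in ball p δ, ENNReal.ofReal (g y) := by
          refine setLIntegral_mono' measurableSet_Icc fun t ht => ?_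
          rw [← lintegral_indicator hmB, ← lintegral_indicator isOpen_ball.measurableSet]
          calc ∫⁻ x, B.indicator (fun x => ENNReal.ofReal (g (x + t • ν))) x
              ≤ ∫⁻ x, (ball p δ).indicator (fun y => ENNReal.ofReal (g y)) (x + t • ν) := by
                refine lintegral_mono fun x => ?_
                by_cases hx : x ∈ B
                · rw [indicator_of_mem hx, indicator_of_mem (hin x hx t ht)]
                · rw [indicator_of_notMem hx]; exact zero_le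
            _ = _ := lintegral_add_right_eq_self _ _
      _ = _ := by
          rw [setLIntegral_const, Real.volume_Icc, sub_zero, mul_comm]
  have hgi : IntegrableOn g (ball p δ) :=
    (hgc.continuousOn.integrableOn_compact
      (isCompact_closedBall p δ)).mono_set ball_subset_closedBall
  have h7 : ∫⁻ y in ball p δ, ENNReal.ofReal (g y) =
      ENNReal.ofReal (∫ y in ball p δ, g y) :=
    (ofReal_integral_eq_lintegral_ofReal hgi (Eventually.of_forall fun t => hg0 _)).symm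
  have hIg : 0 ≤ ∫ y in ball p δ, g y := integral_nonneg fun y => hg0 _
  rw [h7, ← ENNReal.ofReal_mul (by linarith)] at hint
  exact ENNReal.toReal_le_of_le_ofReal (by positivity) hint

theorem rd_D_integrable (G : TP.Geo n) {h : E n → ℝ} (hh1 : ContDiff ℝ 1 h)
    (hc : HasCompactSupport h) : Integrable (fun y => ‖G.D h y‖) G.vol := by
  refine (rd_D_cont G hh1).norm.integrable_of_hasCompactSupport ?_
  have h11 : HasCompactSupport (fderiv ℝ h) := hc.fderiv ℝ
  refine h11.mono ?_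
  intro y hy
  by_contra h12
  have h13 : fderiv ℝ h y = 0 := by simpa using h12
  apply hy
  have : G.D h y = 0 := by
    unfold TP.Geo.D
    rw [h13]
    simp
  simp [this]

theorem rd_ball_vol (G : TP.Geo n) (f : E n → ℝ) (p : E n) (δ : ℝ) :
    ∫ y in ball p δ, f y ∂G.vol = ∫ y in ball p δ, f y * G.w y := by
  have hmball : MeasurableSet (ball p δ) := isOpen_ball.measurableSet
  rw [← integral_indicator hmball, ← integral_indicator hmball, TP.ibp_integral_vol]
  refine integral_congr_ae (Eventually.of_forall fun y => ?_)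
  by_cases hy : y ∈ ball p δ
  · simp only [indicator_of_mem hy]; ring
  · simp only [indicator_of_notMem hy, mul_zero]

/-- PROOF: near `p` choose the unit vector `ν = -∇ρ/|∇ρ|` (Euclidean) and a small cylinder
`p + y + t ν`, `|y| < δ`, `|t| < δ'` on which `∂_ν ρ ≤ -c < 0`; on every segment in direction `ν` the function
`Feps` increases from `0` to `1` (for `ε` small), `‖G.D h‖ w ≥ c' |∂_ν h|` on the compact cylinder. -/
theorem feps_lower (G : TP.Geo n) (hn : 1 ≤ n) (D : SmoothDomain n) {p : E n} (hp : D.ρ p = 0)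
    {U : Set (E n)} (hU : U ∈ 𝓝 p) :
    ∃ c > 0, ∀ᶠ k : ℕ in atTop, c ≤ ∫ y in U, ‖G.D (Feps D (1 / (k + 1))) y‖ ∂G.vol := by
  obtain ⟨δ, hδ, hδU⟩ := Metric.mem_nhds_iff.1 hU
  obtain ⟨ν, s, η, r, hν, hs, hη, hr, hrs, hB⟩ := rd_two_balls D hp hδ
  obtain ⟨C, hC, hCb⟩ := rd_fderiv_le G (isCompact_closedBall p δ) ν
  set B : Set (E n) := ball (p - s • ν) r with hBdef
  have hvB0 : 0 < (volume B).toReal :=
    ENNReal.toReal_pos (measure_ball_pos _ _ hr).ne' measure_ball_lt_top.ne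
  refine ⟨(volume B).toReal / (2 * s * C), by positivity, ?_⟩
  have hev : ∀ᶠ k : ℕ in atTop, 1 / ((k : ℝ) + 1) ≤ η := by
    have := (tendsto_one_div_add_atTop_nhds_zero_nat (𝕜 := ℝ)).eventually (Iio_mem_nhds hη)
    filter_upwards [this] with k hk
    exact le_of_lt hk
  filter_upwards [hev] with k hk
  set ε : ℝ := 1 / ((k : ℝ) + 1) with hε
  have hε0 : 0 < ε := by rw [hε]; (clear * -; positivity)
  set h : E n → ℝ := Feps D ε with hh
  have hh1 : ContDiff ℝ 1 h := (Feps_smooth D ε).of_le (by simp)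
  have hDc : Continuous (G.D h) := rd_D_cont G hh1
  set g : E n → ℝ := fun y => ‖G.D h y‖ * G.w y with hg
  have hgc : Continuous g := hDc.norm.mul G.w_smooth.continuous
  have hg0 : ∀ y, 0 ≤ g y := fun y => mul_nonneg (norm_nonneg _) (G.w_pos y).le
  have hfc : Continuous fun y => fderiv ℝ h y ν :=
    (hh1.continuous_fderiv one_ne_zero).clm_apply continuous_const
  -- points of the ball
  have hin : ∀ x ∈ B, ∀ t ∈ Icc (0 : ℝ) (2 * s), x + t • ν ∈ ball p δ := by
    intro x hx t ht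
    have h1 : x + t • ν - p = (x - (p - s • ν)) + (t - s) • ν := by
      rw [sub_smul]; abel
    rw [mem_ball, dist_eq_norm, h1]
    have h2 : ‖x - (p - s • ν)‖ < r := by rw [← dist_eq_norm]; exact hx
    have h3 : ‖(t - s) • ν‖ ≤ s := by
      rw [norm_smul, hν, mul_one, Real.norm_eq_abs, abs_le]
      constructor <;> linarith [ht.1, ht.2]
    calc _ ≤ ‖x - (p - s • ν)‖ + ‖(t - s) • ν‖ := norm_add_le _ _
      _ < r + s := by linarith
      _ ≤ δ := hrs
  -- one segment
  have hseg : ∀ x ∈ B, (1 : ℝ≥0∞) ≤ ∫⁻ t in Icc (0 : ℝ) (2 * s),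
      ENNReal.ofReal (C * g (x + t • ν)) := by
    intro x hx
    have h0 : h x = 0 := Feps_eq_zero D hε0 (by
      intro hx'
      have h1 : D.ρ x < 0 := hx'
      exact absurd (hB x hx).1 (by linarith only [h1]))
    have h1 : h (x + (2 * s) • ν) = 1 := by
      apply Real.smoothTransition.one_of_one_le
      rw [le_div_iff₀ hε0]
      have := (hB x hx).2
      linarith
    have hder : ∀ t : ℝ, HasDerivAt (fun t : ℝ => h (x + t • ν)) (fderiv ℝ h (x + t • ν) ν) t := by
      intro t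
      have h2 : HasFDerivAt h (fderiv ℝ h (x + t • ν)) (x + t • ν) :=
        (hh1.differentiable one_ne_zero _).hasFDerivAt
      have h3 : HasDerivAt (fun t : ℝ => x + t • ν) ν t := by
        have := ((hasDerivAt_id t).smul_const ν).const_add x
        simpa using this
      exact h2.comp_hasDerivAt t h3
    have hcl : Continuous fun t : ℝ => fderiv ℝ h (x + t • ν) ν :=
      hfc.comp (continuous_const.add (continuous_id.smul continuous_const))
    have hcg : Continuous fun t : ℝ => C * g (x + t • ν) :=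
      continuous_const.mul (hgc.comp (continuous_const.add (continuous_id.smul continuous_const)))
    have h4 : ∫ t in (0 : ℝ)..(2 * s), fderiv ℝ h (x + t • ν) ν = 1 := by
      rw [intervalIntegral.integral_eq_sub_of_hasDerivAt (fun t _ => hder t)
        (hcl.intervalIntegrable _ _), zero_smul, add_zero, h0, h1, sub_zero]
    have h5 : (1 : ℝ) ≤ ∫ t in Icc (0 : ℝ) (2 * s), C * g (x + t • ν) := by
      rw [integral_Icc_eq_integral_Ioc, ← intervalIntegral.integral_of_le (by linarith only [hs]), ← h4]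
      refine intervalIntegral.integral_mono_on (by linarith only [hs]) (hcl.intervalIntegrable _ _)
        (hcg.intervalIntegrable _ _) fun t ht => ?_
      exact (le_abs_self _).trans (hCb _ (ball_subset_closedBall (hin x hx t ht)) h)
    have h6 : ENNReal.ofReal (∫ t in Icc (0 : ℝ) (2 * s), C * g (x + t • ν)) =
        ∫⁻ t in Icc (0 : ℝ) (2 * s), ENNReal.ofReal (C * g (x + t • ν)) :=
      ofReal_integral_eq_lintegral_ofReal (hcg.continuousOn.integrableOn_Icc)
        (Eventually.of_forall fun t => mul_nonneg hC.le (hg0 _))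
    rw [← h6]
    exact ENNReal.one_le_ofReal.2 h5
  have hmB : MeasurableSet B := isOpen_ball.measurableSet
  have h8 : (volume B).toReal ≤ 2 * s * ∫ y in ball p δ, C * g y :=
    rd_segments (g := fun y => C * g y) (continuous_const.mul hgc)
      (fun y => mul_nonneg hC.le (hg0 y)) hmB hs hin hseg
  rw [integral_const_mul] at h8
  have h9 : (volume B).toReal / (2 * s * C) ≤ ∫ y in ball p δ, g y := by
    rw [div_le_iff₀ (by positivity)]
    linarith
  refine h9.trans ?_
  rw [← rd_ball_vol G (fun y => ‖G.D h y‖) p δ]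
  exact setIntegral_mono_set (rd_D_integrable G hh1 (Feps_compact D hε0)).integrableOn
    (Eventually.of_forall fun y => norm_nonneg _) (HasSubset.Subset.eventuallyLE hδU)

theorem rd_seq : Tendsto (fun k : ℕ => 1 / ((k : ℝ) + 1)) atTop (𝓝[>] 0) := by
  rw [tendsto_nhdsWithin_iff]
  exact ⟨tendsto_one_div_add_atTop_nhds_zero_nat, Eventually.of_forall fun k => by
    show (0 : ℝ) < 1 / ((k : ℝ) + 1)
    positivity⟩

/-- PROOF: coarea_limsup as in Limit.lean (`isop_of_liminf`, `isop_of_functional`). -/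
theorem feps_per (M : RiemMetric n) (e : Fin n → E n → E n) (he : TriangularFrame M e)
    (hs : SecLE M 0) (F : GFlow M.g) (hn : 2 ≤ n) (D : SmoothDomain n) {A : ℝ} (hA0 : 0 ≤ A)
    (hA : riemArea M D ≤ ENNReal.ofReal A) :
    ∀ δ > 0, ∀ᶠ k : ℕ in atTop, (toGeo M e he hs F).per (Feps D (1 / (k + 1))) ≤ A + δ := by
  intro δ hδ
  have h1 := rd_seq.eventually (Feps_area M e he D hδ)
  filter_upwards [h1] with k hk
  have hF1 : ContDiff ℝ 1 (Feps D (1 / (k + 1))) := (Feps_smooth D _).of_le (by simp)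
  have hnn : ∀ x, 0 ≤ covNorm M x (fderiv ℝ (Feps D (1 / (k + 1))) x) * volDensity M x := fun x =>
    mul_nonneg (covNorm_nonneg M e he x _) (volDensity_gt M e he x).le
  have hc : Continuous fun x =>
      covNorm M x (fderiv ℝ (Feps D (1 / (k + 1))) x) * volDensity M x :=
    (covNorm_fderiv_continuous M e he hF1).mul (volDensity_smooth M e he).continuous
  unfold TP.Geo.per
  rw [integral_vol he hs F]
  simp only [norm_D_eq he hs F]
  rw [integral_eq_lintegral_of_nonneg_ae (Eventually.of_forall hnn) hc.aestronglyMeasurable]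
  refine ENNReal.toReal_le_of_le_ofReal (by positivity) ?_
  rw [ENNReal.ofReal_add hA0 hδ.le]
  exact hk.trans (by gcongr)

theorem feps_vol (M : RiemMetric n) (e : Fin n → E n → E n) (he : TriangularFrame M e)
    (hs : SecLE M 0) (F : GFlow M.g) (hn : 2 ≤ n) (D : SmoothDomain n) {V : ℝ} (hV0 : 0 ≤ V)
    (hV : riemVol M D.carrier = ENNReal.ofReal V) :
    Tendsto (fun k : ℕ => (toGeo M e he hs F).vp (Feps D (1 / (k + 1)))) atTop (𝓝 V) ∧
    ∀ δ > 0, ∀ᶠ k : ℕ in atTop, (toGeo M e he hs F).vol.real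
      {x | 0 < Feps D (1 / (k + 1)) x ∧ Feps D (1 / (k + 1)) x < 1} < δ := by
  have hmeas : MeasurableSet D.carrier :=
    (isOpen_lt D.smooth.continuous continuous_const).measurableSet
  have hvc := (volDensity_smooth M e he).continuous
  have hint : IntegrableOn (volDensity M) D.carrier :=
    (hvc.continuousOn.integrableOn_compact D.bdd.isCompact_closure).mono_set subset_closure
  have hVeq : V = ∫ x in D.carrier, volDensity M x := by
    rw [riemVol_eq M e he] at hV
    exact (ENNReal.ofReal_eq_ofReal_iff (integral_nonneg fun x =>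
      (volDensity_gt M e he x).le) hV0).1 hV |>.symm
  have hε : ∀ k : ℕ, 0 < 1 / ((k : ℝ) + 1) := fun k => by positivity
  have hpt : ∀ x, Tendsto (fun k : ℕ => Feps D (1 / (k + 1)) x) atTop
      (𝓝 (D.carrier.indicator (fun _ => 1) x)) := fun x => (Feps_tendsto D x).comp rd_seq
  constructor
  · rw [hVeq, ← integral_indicator hmeas]
    unfold TP.Geo.vp
    simp only [integral_vol he hs F]
    set a : ℝ := (n : ℝ) / (n - 1) with ha
    have ha0 : 0 < a := by
      have : (2 : ℝ) ≤ n := by exact_mod_cast hn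
      rw [ha]
      exact div_pos (by linarith only [this]) (by linarith)
    refine tendsto_integral_filter_of_dominated_convergence
      (D.carrier.indicator (volDensity M)) ?_ ?_ (hint.integrable_indicator hmeas) ?_
    · filter_upwards with k
      exact (((Feps_smooth D _).continuous.rpow_const fun x => Or.inr ha0.le).mul
        hvc).aestronglyMeasurable
    · filter_upwards with k
      filter_upwards with x
      have hv := volDensity_gt M e he x
      by_cases hx : x ∈ D.carrier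
      · rw [indicator_of_mem hx, Real.norm_eq_abs, abs_of_nonneg
          (mul_nonneg (Real.rpow_nonneg (Feps_nonneg D _ x) _) hv.le)]
        have := Real.rpow_le_one (Feps_nonneg D (1 / (k + 1)) x) (Feps_le_one D _ x) ha0.le
        linarith only [mul_nonneg (le_of_lt (sub_pos.2 hv)) (sub_nonneg.2 this)]
      · rw [indicator_of_notMem hx, Feps_eq_zero D (hε k) hx, Real.zero_rpow ha0.ne']
        simp
    · filter_upwards with x
      have h1 := ((hpt x).rpow_const (p := a) (Or.inr ha0.le)).mul_const (volDensity M x)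
      have h2 : (D.carrier.indicator (fun _ => (1 : ℝ)) x) ^ a * volDensity M x =
          D.carrier.indicator (volDensity M) x := by
        by_cases hx : x ∈ D.carrier
        · rw [indicator_of_mem hx, indicator_of_mem hx, Real.one_rpow, one_mul]
        · rw [indicator_of_notMem hx, indicator_of_notMem hx, Real.zero_rpow ha0.ne', zero_mul]
      rwa [h2] at h1
  · intro δ hδ
    set μ := (toGeo M e he hs F).vol with hμ
    set S : ℕ → Set (E n) := fun k =>
      {x | 0 < Feps D (1 / (k + 1)) x ∧ Feps D (1 / (k + 1)) x < 1} with hS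
    have hSm : ∀ k, MeasurableSet (S k) := fun k =>
      (isOpen_lt continuous_const (Feps_smooth D _).continuous).measurableSet.inter
        (isOpen_lt (Feps_smooth D _).continuous continuous_const).measurableSet
    have hμD : μ D.carrier < ⊤ :=
      (measure_mono subset_closure).trans_lt
        ((toGeo M e he hs F).vol_compact_lt_top D.bdd.isCompact_closure)
    have hSD : ∀ k, S k ⊆ D.carrier := by
      intro k x hx
      by_contra h
      have := hx.1
      rw [Feps_eq_zero D (hε k) h] at this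
      exact lt_irrefl _ this
    have hlim : Tendsto (fun k => ∫ x in D.carrier, (S k).indicator (fun _ => (1 : ℝ)) x ∂μ) atTop
        (𝓝 (∫ x in D.carrier, (0 : ℝ) ∂μ)) := by
      refine tendsto_integral_filter_of_dominated_convergence (fun _ => (1 : ℝ)) ?_ ?_ ?_ ?_
      · filter_upwards with k
        exact (measurable_const.indicator (hSm k)).aestronglyMeasurable
      · filter_upwards with k
        filter_upwards with x
        by_cases hx : x ∈ S k
        · rw [indicator_of_mem hx]; simp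
        · rw [indicator_of_notMem hx]; simp
      · exact integrableOn_const hμD.ne
      · rw [ae_restrict_iff' hmeas]
        filter_upwards with x hx
        apply tendsto_const_nhds.congr'
        have hρ : D.ρ x < 0 := hx
        have h1 : ∀ᶠ k : ℕ in atTop, 1 / ((k : ℝ) + 1) < -D.ρ x :=
          tendsto_one_div_add_atTop_nhds_zero_nat.eventually (gt_mem_nhds (by linarith))
        filter_upwards [h1] with k hk
        rw [indicator_of_notMem]
        intro hxS
        have h2 : Feps D (1 / (k + 1)) x = 1 := by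
          apply Real.smoothTransition.one_of_one_le
          rw [le_div_iff₀ (hε k)]
          linarith
        exact absurd hxS.2 (by rw [h2]; exact lt_irrefl _)
    have heq : ∀ k, ∫ x in D.carrier, (S k).indicator (fun _ => (1 : ℝ)) x ∂μ = μ.real (S k) := by
      intro k
      rw [integral_indicator (hSm k), Measure.restrict_restrict (hSm k),
        inter_eq_self_of_subset_left (hSD k)]
      simp
    simp only [heq, integral_zero] at hlim
    exact hlim.eventually (gt_mem_nhds hδ)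

/-- The frontier of a smooth domain is its boundary. -/
theorem frontier_carrier (D : SmoothDomain n) : frontier D.carrier = {x | D.ρ x = 0} ∩
    closure D.carrier := by
  have ho : IsOpen D.carrier := isOpen_lt D.smooth.continuous continuous_const
  rw [ho.frontier_eq]
  ext x
  constructor
  · rintro ⟨h1, h2⟩
    refine ⟨le_antisymm ?_ (not_lt.1 h2), h1⟩
    have h3 : closure D.carrier ⊆ {x | D.ρ x ≤ 0} :=
      closure_minimal (fun y (hy : D.ρ y < 0) => show D.ρ y ≤ 0 from hy.le)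
        (isClosed_le D.smooth.continuous continuous_const)
    exact h3 h1
  · rintro ⟨h1, h2⟩
    refine ⟨h2, fun h3 => ?_⟩
    have h4 : D.ρ x < 0 := h3
    rw [show D.ρ x = 0 from h1] at h4
    exact lt_irrefl _ h4

end Vale.Agent.P219.CH
end
end

section

/-! # The isoperimetric inequality from the functional inequality -/

open MeasureTheory Set Filter Topology
open scoped ENNReal ContDiff

noncomputable section

namespace Vale.Agent.P219.CH

variable {n : ℕ} {M : RiemMetric n} {e : Fin n → E n → E n}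

/-- `vp h ≤ vol {h = 1} + vol {0 < h < 1}`. -/
theorem gl_vp_le (G : TP.Geo n) (hn : 2 ≤ n) {h : E n → ℝ} (hh1 : ContDiff ℝ 1 h)
    (hcs : HasCompactSupport h) (h01 : ∀ x, 0 ≤ h x ∧ h x ≤ 1) :
    G.vp h ≤ G.vol.real {x | h x = 1} + G.vol.real {x | 0 < h x ∧ h x < 1} := by
  have hp0 : (0 : ℝ) < (n : ℝ) / (n - 1) := by
    have : (2 : ℝ) ≤ n := by exact_mod_cast hn
    exact div_pos (by linarith) (by linarith)
  have hm1 : MeasurableSet {x | h x = 1} :=
    (isClosed_eq hh1.continuous continuous_const).measurableSet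
  have hm2 : MeasurableSet {x | 0 < h x ∧ h x < 1} :=
    ((isOpen_lt continuous_const hh1.continuous).inter
      (isOpen_lt hh1.continuous continuous_const)).measurableSet
  have hK : G.vol (tsupport h) < ⊤ := hcs.isCompact.measure_lt_top
  have hf1 : G.vol {x | h x = 1} ≠ ⊤ := by
    refine ((measure_mono fun x hx => ?_).trans_lt hK).ne
    refine subset_tsupport h ?_
    have : h x = 1 := hx
    rw [Function.mem_support, this]
    exact one_ne_zero
  have hf2 : G.vol {x | 0 < h x ∧ h x < 1} ≠ ⊤ := by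
    refine ((measure_mono fun x hx => ?_).trans_lt hK).ne
    exact subset_tsupport h (Function.mem_support.2 hx.1.ne')
  unfold TP.Geo.vp
  rw [← integral_indicator_one hm1, ← integral_indicator_one hm2, ← integral_add]
  · refine integral_mono_of_nonneg (Eventually.of_forall fun x => ?_) ?_
      (Eventually.of_forall fun x => ?_)
    · exact Real.rpow_nonneg (h01 x).1 _
    · exact ((integrable_indicator_iff hm1).2 (integrableOn_const hf1)).add
        ((integrable_indicator_iff hm2).2 (integrableOn_const hf2))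
    · obtain ⟨h0, h1⟩ := h01 x
      rcases h0.eq_or_lt with h0 | h0
      · simp only [← h0, Real.zero_rpow hp0.ne']
        exact add_nonneg (indicator_nonneg (fun _ _ => zero_le_one) _)
          (indicator_nonneg (fun _ _ => zero_le_one) _)
      · rcases h1.eq_or_lt with h1 | h1
        · have : x ∈ {x | h x = 1} := h1
          simp only [indicator_of_mem this, h1, Real.one_rpow, Pi.one_apply]
          exact le_add_of_nonneg_right (indicator_nonneg (fun _ _ => zero_le_one) _)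
        · have : x ∈ {x | 0 < h x ∧ h x < 1} := ⟨h0, h1⟩
          simp only [indicator_of_mem this, Pi.one_apply]
          refine le_add_of_nonneg_of_le (indicator_nonneg (fun _ _ => zero_le_one) _) ?_
          exact Real.rpow_le_one h0.le h1.le hp0.le
  · exact (integrable_indicator_iff hm1).2 (integrableOn_const hf1)
  · exact (integrable_indicator_iff hm2).2 (integrableOn_const hf2)

/-- The isoperimetric inequality from the functional inequality. -/
theorem gl_isop (hn : 2 ≤ n) {k κ : ℝ} (hVM : ∀ r, modelVol n κ r = TPH.VR n k r)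
    (hAM : ∀ r, modelArea n κ r = TPH.AR n k r) (FI : TPH.FuncIso n k)
    (he : TriangularFrame M e) (hs0 : SecLE M 0) (F : GFlow M.g)
    (hcurv : TPH.MonoSn (toGeo M e he hs0 F) k) : IsoperimetricIneq M κ := by
  have hn1 : 1 ≤ n := by omega
  refine isop_of_liminf M e he κ hn fun D r A hr hV hA => ?_
  have hV0 : 0 ≤ modelVol n κ r := by
    rw [← hV]; exact integral_nonneg fun x => (volDensity_gt M e he x).le
  have hVr : riemVol M D.carrier = ENNReal.ofReal (modelVol n κ r) := by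
    rw [riemVol_eq M e he, hV]
  obtain ⟨hvp, hlay⟩ := feps_vol M e he hs0 F hn D hV0 hVr
  set G := toGeo M e he hs0 F with hG
  have hε : ∀ k : ℕ, 0 < 1 / ((k : ℝ) + 1) := fun k => by positivity
  -- perimeter
  have hper : ∀ δ > 0, ∀ᶠ k : ℕ in atTop, G.per (Feps D (1 / (k + 1))) ≤ A + δ := by
    intro δ hδ
    filter_upwards [rd_seq.eventually (hA δ hδ)] with k hk
    unfold TP.Geo.per
    rw [hG, integral_vol he hs0 F]
    simp only [norm_D_eq he hs0 F]
    exact hk
  -- it suffices to treat smaller radii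
  have hmain : ∀ r' : ℝ, 0 ≤ r' → r' < r → modelArea n κ r' ≤ A := by
    intro r' hr' hlt
    refine le_of_forall_pos_le_add fun δ hδ => ?_
    have hlt' : modelVol n κ r' < modelVol n κ r :=
      modelVol_strictMonoOn n hn1 κ hr' hr.le hlt
    set η : ℝ := (modelVol n κ r - modelVol n κ r') / 2 with hη
    have hη0 : 0 < η := by rw [hη]; linarith only [hlt']
    obtain ⟨k, hk1, hk2, hk3⟩ := ((hper δ hδ).and ((hlay η hη0).and
      (hvp.eventually (lt_mem_nhds (show modelVol n κ r - η < modelVol n κ r by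
        linarith only [hη0]))))).exists
    set h : E n → ℝ := Feps D (1 / ((k : ℝ) + 1)) with hh
    have hh1 : ContDiff ℝ 1 h := (Feps_smooth D _).of_le (by simp)
    have hcs : HasCompactSupport h := Feps_compact D (hε k)
    have h01 : ∀ x, 0 ≤ h x ∧ h x ≤ 1 := fun x => ⟨Feps_nonneg D _ x, Feps_le_one D _ x⟩
    refine le_trans ?_ hk1
    rw [hAM]
    refine FI G hcurv h hh1 hcs h01 r' hr' ?_
    rw [← hVM]
    have hvp1 := gl_vp_le G hn hh1 hcs h01
    linarith only [hη, hk2, hk3, hvp1]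
  have hcont := (modelArea_continuous n κ).continuousAt (x := r)
  refine le_of_tendsto (hcont.tendsto.mono_left (nhdsWithin_le_nhds (s := Iio r))) ?_
  filter_upwards [Ioo_mem_nhdsLT hr] with r' hr'
  exact hmain r' hr'.1.le hr'.2

theorem gl_sn_one (r : ℝ) : sn √(-(-1)) r = TPH.sn 1 r := by
  unfold sn TPH.sn
  rw [neg_neg, Real.sqrt_one]

theorem gl_sn_zero (r : ℝ) : sn √(-0) r = TPH.sn 0 r := by
  unfold sn TPH.sn
  rw [neg_zero, Real.sqrt_zero]

/-- `κ = -1`. -/
theorem gl_isop_one (hn : 2 ≤ n) (FI : TPH.FuncIso n 1)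
    (M : RiemMetric n) (hc : GeoComplete M.g) (hs : SecLE M (-1)) : IsoperimetricIneq M (-1) := by
  obtain ⟨e, he⟩ := exists_triangularFrame M
  obtain ⟨F⟩ := exists_gflow (isMetricOn M) hc
  have hn1 : 1 ≤ n := by omega
  refine gl_isop hn (fun r => ?_) (fun r => ?_) FI he (secLE_zero hs) F
    (TPH.curv_of_geoH (toGeoH M e he hs F hn)).monoSn
  · unfold modelVol TPH.VR
    rw [TP.sig_eq hn1, om_eq]
    simp only [gl_sn_one]
  · unfold modelArea TPH.AR
    rw [TP.sig_eq hn1, om_eq, gl_sn_one]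

/-- `κ = 0`. -/
theorem gl_isop_zero (hn : 2 ≤ n) (FI : TPH.FuncIso n 0)
    (M : RiemMetric n) (hc : GeoComplete M.g) (hs : SecLE M 0) : IsoperimetricIneq M 0 := by
  obtain ⟨e, he⟩ := exists_triangularFrame M
  obtain ⟨F⟩ := exists_gflow (isMetricOn M) hc
  have hn1 : 1 ≤ n := by omega
  refine gl_isop hn (fun r => ?_) (fun r => ?_) FI he hs F (TPH.MonoSn.zero _)
  · unfold modelVol TPH.VR
    rw [TP.sig_eq hn1, om_eq]
    simp only [gl_sn_zero]
  · unfold modelArea TPH.AR
    rw [TP.sig_eq hn1, om_eq, gl_sn_zero]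

end Vale.Agent.P219.CH

namespace Vale.Agent.P219.Co

/-- The isoperimetric inequality for `Sec ≤ κ`, all `κ ≤ 0`, from the functional inequality. -/
theorem isop_of_func {n : ℕ} (hn : 2 ≤ n) (FI : ∀ k : ℝ, 0 ≤ k → TPH.FuncIso n k)
    (M : RiemMetric n) (hc : GeodesicallyComplete M) {κ : ℝ} (hκ : κ ≤ 0) (hs : SecLE M κ) :
    IsoperimetricIneq M κ := by
  rcases hκ.eq_or_lt with rfl | hκ
  · obtain ⟨e, he⟩ := CH.exists_triangularFrame (old M)
    have h := CH.gl_isop_zero hn (FI 0 le_rfl) (old M) (geoComplete_old hc)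
      (secLE_old_of_frame ⟨e, he⟩ hs)
    exact isop_old (frame_of_old he) h
  · refine isop_of_scale (by omega) hκ ?_
    set M' := scale M (-κ) (neg_pos.2 hκ) with hM'
    obtain ⟨e, he⟩ := CH.exists_triangularFrame (old M')
    have h := CH.gl_isop_one hn (FI 1 zero_le_one) (old M') (geoComplete_old (scale_complete _ hc))
      (secLE_old_of_frame ⟨e, he⟩ (scale_sec hκ hs))
    exact isop_old (frame_of_old he) h

end Vale.Agent.P219.Co
end
end

section

/-! # Equality case: from the limit measure to every boundary point -/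

open MeasureTheory Set Metric Filter Topology
open scoped ENNReal ContDiff

noncomputable section

namespace Vale.Agent.P219.CH

variable {n : ℕ}

theorem rf_continuous (G : TP.Geo n) (D : SmoothDomain n) (ε : ℝ) :
    Continuous fun x => ‖G.D (Feps D ε) x‖ :=
  (rd_D_cont G ((Feps_smooth D ε).of_le (by simp))).norm

theorem rf_integrable (G : TP.Geo n) (D : SmoothDomain n) {ε : ℝ} (hε : 0 < ε) {φ : E n → ℝ}
    (hφ : Continuous φ) : Integrable (fun x => φ x * ‖G.D (Feps D ε) x‖) G.vol := by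
  have hcs : HasCompactSupport fun x => ‖G.D (Feps D ε) x‖ := by
    refine ((Feps_compact D hε).fderiv (𝕜 := ℝ)).mono' ?_
    intro x hx
    refine subset_tsupport _ ?_
    rw [Function.mem_support] at hx ⊢
    intro h0
    apply hx
    unfold TP.Geo.D
    rw [h0, ContinuousLinearMap.zero_comp, map_zero, norm_zero]
  have : IsFiniteMeasureOnCompacts G.vol := ⟨fun K hK => G.vol_compact_lt_top hK⟩
  exact (hφ.mul (rf_continuous G D ε)).integrable_of_hasCompactSupport hcs.mul_left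

/-- Step (5) of the equality case. -/
theorem frontier_of_lim (G : TP.Geo n) (hn : 1 ≤ n) (D : SmoothDomain n) {φ : E n → ℝ}
    (hφ : Continuous φ) (h0 : ∀ x, 0 ≤ φ x) {U : Filter ℕ} [NeBot U] (hU : U ≤ atTop)
    (hlim : Tendsto (fun k : ℕ => ∫ x, φ x * ‖G.D (Feps D (1 / (k + 1))) x‖ ∂G.vol) U (𝓝 0)) :
    ∀ q ∈ frontier D.carrier, φ q = 0 := by
  intro q hq
  have hρ : D.ρ q = 0 := by
    rw [frontier_carrier] at hq
    exact hq.1
  by_contra hne
  have hpos : 0 < φ q := lt_of_le_of_ne (h0 q) (Ne.symm hne)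
  set W : Set (E n) := {x | φ q / 2 < φ x} with hW
  have hWn : W ∈ 𝓝 q := (isOpen_lt continuous_const hφ).mem_nhds (by
    show φ q / 2 < φ q
    linarith only [hpos])
  have hWm : MeasurableSet W := (isOpen_lt continuous_const hφ).measurableSet
  obtain ⟨c, hc, hev⟩ := feps_lower G hn D hρ hWn
  have hkey : ∀ᶠ k : ℕ in U, φ q / 2 * c ≤
      ∫ x, φ x * ‖G.D (Feps D (1 / (k + 1))) x‖ ∂G.vol := by
    filter_upwards [hev.filter_mono hU] with k hk
    have hε : (0 : ℝ) < 1 / ((k : ℝ) + 1) := by (clear * -; positivity)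
    have hi := rf_integrable G D hε hφ
    have hi1 : Integrable (fun x => ‖G.D (Feps D (1 / ((k : ℝ) + 1))) x‖) G.vol := by
      have := rf_integrable G D hε (φ := fun _ => 1) continuous_const
      simpa using this
    calc φ q / 2 * c ≤ φ q / 2 * ∫ x in W, ‖G.D (Feps D (1 / (k + 1))) x‖ ∂G.vol :=
          mul_le_mul_of_nonneg_left hk (by positivity)
      _ = ∫ x in W, φ q / 2 * ‖G.D (Feps D (1 / (k + 1))) x‖ ∂G.vol :=
          (integral_const_mul _ _).symm
      _ ≤ ∫ x in W, φ x * ‖G.D (Feps D (1 / (k + 1))) x‖ ∂G.vol := by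
          refine setIntegral_mono_on (hi1.const_mul _).integrableOn hi.integrableOn hWm
            fun x hx => mul_le_mul_of_nonneg_right (le_of_lt hx) (norm_nonneg _)
      _ ≤ ∫ x, φ x * ‖G.D (Feps D (1 / (k + 1))) x‖ ∂G.vol :=
          setIntegral_le_integral hi (Eventually.of_forall fun x =>
            mul_nonneg (h0 x) (norm_nonneg _))
  have h1 : φ q / 2 * c ≤ 0 := ge_of_tendsto hlim hkey
  have h2 : 0 < φ q / 2 * c := by positivity
  linarith only [h1, h2]

/-- If the limit measure of `|D h_k|` is concentrated on the geodesic sphere, then the frontier is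
contained in it. -/
theorem frontier_sphere_of_lim (G : TP.Geo n) (hn : 1 ≤ n) (D : SmoothDomain n) (c : E n) (r : ℝ)
    {U : Filter ℕ} [NeBot U] (hU : U ≤ atTop)
    (hlim : Tendsto (fun k : ℕ => ∫ x, (‖G.lg c x‖ - r) ^ 2 *
      ‖G.D (Feps D (1 / (k + 1))) x‖ ∂G.vol) U (𝓝 0)) :
    ∀ q ∈ frontier D.carrier, ‖G.lg c q‖ = r := by
  intro q hq
  have hlg : Continuous fun x => ‖G.lg c x‖ :=
    (G.lg_smooth.continuous.comp (continuous_const.prodMk continuous_id)).norm
  have h1 := frontier_of_lim G hn D ((hlg.sub continuous_const).pow 2) (fun x => sq_nonneg _) hU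
    hlim q hq
  have h2 : ‖G.lg c q‖ - r = 0 := pow_eq_zero_iff two_ne_zero |>.1 h1
  linarith

end Vale.Agent.P219.CH
end
end

section

/-! # Hyperboloid coordinates with respect to the center -/

open MeasureTheory Set Metric Filter Topology
open scoped ENNReal ContDiff

namespace Vale.Agent.P219.TPH

open Vale.Agent.P219.TP

variable {n : ℕ}

/-- The hyperbolic metric in hyperboloid coordinates: the metric induced by `-dy₀² + |dy|²` on the
graph `y₀ = √(1 + |y|²)`. -/
noncomputable def hq (y z : _root_.Vale.Agent.P219.TP.E n) : ℝ := ‖z‖ ^ 2 - inner ℝ y z ^ 2 / (1 + ‖y‖ ^ 2)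

/-- The height of a point of the hyperboloid. -/
noncomputable def rcH (y : _root_.Vale.Agent.P219.TP.E n) : ℝ := √(1 + ‖y‖ ^ 2)

/-- The boost. -/
noncomputable def rcB (N : _root_.Vale.Agent.P219.TP.E n) (c s : ℝ) (y : _root_.Vale.Agent.P219.TP.E n) : _root_.Vale.Agent.P219.TP.E n :=
  y + ((c - 1) * inner ℝ y N + s * rcH y) • N

/-- From hyperboloid coordinates to normal coordinates. -/
noncomputable def rcE (w : _root_.Vale.Agent.P219.TP.E n) : _root_.Vale.Agent.P219.TP.E n := (Real.arsinh ‖w‖ / ‖w‖) • w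

/-- From normal coordinates to hyperboloid coordinates. -/
noncomputable def rcL (v : _root_.Vale.Agent.P219.TP.E n) : _root_.Vale.Agent.P219.TP.E n := (Real.sinh ‖v‖ / ‖v‖) • v

theorem rcH_sq (y : _root_.Vale.Agent.P219.TP.E n) : rcH y ^ 2 = 1 + ‖y‖ ^ 2 := by
  unfold rcH
  exact Real.sq_sqrt (by positivity)

theorem rcH_pos (y : _root_.Vale.Agent.P219.TP.E n) : 0 < rcH y := by
  unfold rcH
  exact Real.sqrt_pos.mpr (by positivity)

theorem rcB_inner {N : _root_.Vale.Agent.P219.TP.E n} (hN : ‖N‖ = 1) (c s : ℝ) (y : _root_.Vale.Agent.P219.TP.E n) :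
    inner ℝ (rcB N c s y) N = c * inner ℝ y N + s * rcH y := by
  unfold rcB
  rw [inner_add_left, real_inner_smul_left, real_inner_self_eq_norm_sq, hN]
  ring

theorem rcB_norm_sq {N : _root_.Vale.Agent.P219.TP.E n} (hN : ‖N‖ = 1) (c s : ℝ) (y : _root_.Vale.Agent.P219.TP.E n) :
    ‖rcB N c s y‖ ^ 2 = ‖y‖ ^ 2 - inner ℝ y N ^ 2 + (c * inner ℝ y N + s * rcH y) ^ 2 := by
  unfold rcB
  rw [norm_add_sq_real, real_inner_smul_right, norm_smul, hN, mul_one, Real.norm_eq_abs, sq_abs]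
  ring

theorem abs_inner_lt_rcH {N : _root_.Vale.Agent.P219.TP.E n} (hN : ‖N‖ = 1) (y : _root_.Vale.Agent.P219.TP.E n) : |inner ℝ y N| < rcH y := by
  have h1 : |inner ℝ y N| ≤ ‖y‖ := by
    have := abs_real_inner_le_norm y N
    rwa [hN, mul_one] at this
  have h2 : ‖y‖ < rcH y := by
    have h := rcH_sq y
    have h0 := rcH_pos y
    have h3 := norm_nonneg y
    nlinarith
  linarith

theorem rcB_height {N : _root_.Vale.Agent.P219.TP.E n} (hN : ‖N‖ = 1) {c s : ℝ} (hc : 0 < c) (hs : 0 ≤ s)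
    (hcs : c ^ 2 - s ^ 2 = 1) (y : _root_.Vale.Agent.P219.TP.E n) :
    rcH (rcB N c s y) = c * rcH y + s * inner ℝ y N := by
  have h1 := rcH_sq y
  have h2 : rcH (rcB N c s y) ^ 2 = (c * rcH y + s * inner ℝ y N) ^ 2 := by
    rw [rcH_sq, rcB_norm_sq hN]
    have : ‖y‖ ^ 2 = rcH y ^ 2 - 1 := by linarith
    rw [this]
    linear_combination (inner ℝ y N ^ 2 - rcH y ^ 2) * hcs
  have h3 : 0 < c * rcH y + s * inner ℝ y N := by
    have h4 := abs_inner_lt_rcH hN y
    have h5 := abs_lt.mp h4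
    have hsc : s < c := by nlinarith
    have h6 := rcH_pos y
    nlinarith
  have h4 := rcH_pos (rcB N c s y)
  exact (pow_left_inj₀ h4.le h3.le two_ne_zero).mp h2

/-- The inverse of the boost. -/
theorem rcB_inv {N : _root_.Vale.Agent.P219.TP.E n} (hN : ‖N‖ = 1) {c s : ℝ} (hc : 0 < c) (hs : 0 ≤ s)
    (hcs : c ^ 2 - s ^ 2 = 1) (y : _root_.Vale.Agent.P219.TP.E n) :
    rcB N c s y + ((c - 1) * inner ℝ (rcB N c s y) N - s * rcH (rcB N c s y)) • N = y := by
  rw [rcB_height hN hc hs hcs, rcB_inner hN]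
  unfold rcB
  rw [add_assoc, ← add_smul]
  have : (c - 1) * inner ℝ y N + s * rcH y +
      ((c - 1) * (c * inner ℝ y N + s * rcH y) - s * (c * rcH y + s * inner ℝ y N)) = 0 := by
    linear_combination (inner ℝ y N) * hcs
  rw [this, zero_smul, add_zero]

/-- The other inverse. -/
theorem rcB_neg {N : _root_.Vale.Agent.P219.TP.E n} (w : _root_.Vale.Agent.P219.TP.E n) (c s : ℝ) :
    rcB N c (-s) w = w + ((c - 1) * inner ℝ w N - s * rcH w) • N := by
  unfold rcB
  congr 2
  ring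

theorem rcB_height_neg {N : _root_.Vale.Agent.P219.TP.E n} (hN : ‖N‖ = 1) {c s : ℝ} (hc : 0 < c) (hs : 0 ≤ s)
    (hcs : c ^ 2 - s ^ 2 = 1) (w : _root_.Vale.Agent.P219.TP.E n) :
    rcH (rcB N c (-s) w) = c * rcH w - s * inner ℝ w N := by
  have h1 := rcH_sq w
  have h2 : rcH (rcB N c (-s) w) ^ 2 = (c * rcH w - s * inner ℝ w N) ^ 2 := by
    rw [rcH_sq, rcB_norm_sq hN]
    have : ‖w‖ ^ 2 = rcH w ^ 2 - 1 := by linarith
    rw [this]
    linear_combination (inner ℝ w N ^ 2 - rcH w ^ 2) * hcs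
  have h3 : 0 < c * rcH w - s * inner ℝ w N := by
    have h4 := abs_inner_lt_rcH hN w
    have h5 := abs_lt.mp h4
    have hsc : s < c := by nlinarith
    have h6 := rcH_pos w
    nlinarith
  have h4 := rcH_pos (rcB N c (-s) w)
  exact (pow_left_inj₀ h4.le h3.le two_ne_zero).mp h2

theorem rcB_rcB_neg {N : _root_.Vale.Agent.P219.TP.E n} (hN : ‖N‖ = 1) {c s : ℝ} (hc : 0 < c) (hs : 0 ≤ s)
    (hcs : c ^ 2 - s ^ 2 = 1) (w : _root_.Vale.Agent.P219.TP.E n) : rcB N c s (rcB N c (-s) w) = w := by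
  have e1 := rcB_height_neg hN hc hs hcs w
  have e2 := rcB_inner hN c (-s) w
  have e3 : rcB N c s (rcB N c (-s) w) = rcB N c (-s) w +
      ((c - 1) * inner ℝ (rcB N c (-s) w) N + s * rcH (rcB N c (-s) w)) • N := rfl
  rw [e3, e1, e2, rcB_neg, add_assoc, ← add_smul]
  have : (c - 1) * inner ℝ w N - s * rcH w +
      ((c - 1) * (c * inner ℝ w N + -s * rcH w) + s * (c * rcH w - s * inner ℝ w N)) = 0 := by
    linear_combination (inner ℝ w N) * hcs
  rw [this, zero_smul, add_zero]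

theorem rcE_norm (w : _root_.Vale.Agent.P219.TP.E n) (hw : w ≠ 0) : ‖rcE w‖ = Real.arsinh ‖w‖ := by
  have h0 : 0 < ‖w‖ := norm_pos_iff.mpr hw
  unfold rcE
  rw [norm_smul, Real.norm_eq_abs, abs_div, abs_of_pos h0,
    abs_of_pos (Real.arsinh_pos_iff.mpr h0)]
  field_simp

theorem rcL_rcE (w : _root_.Vale.Agent.P219.TP.E n) (hw : w ≠ 0) : rcL (rcE w) = w := by
  have h0 : 0 < ‖w‖ := norm_pos_iff.mpr hw
  have h1 := Real.arsinh_pos_iff.mpr h0
  have e : rcL (rcE w) = (Real.sinh ‖rcE w‖ / ‖rcE w‖) • rcE w := rfl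
  rw [e, rcE_norm w hw, Real.sinh_arsinh]
  unfold rcE
  rw [smul_smul]
  have : ‖w‖ / Real.arsinh ‖w‖ * (Real.arsinh ‖w‖ / ‖w‖) = 1 := by
    field_simp
  rw [this, one_smul]

theorem rcL_norm (v : _root_.Vale.Agent.P219.TP.E n) (hv : v ≠ 0) : ‖rcL v‖ = Real.sinh ‖v‖ := by
  have h0 : 0 < ‖v‖ := norm_pos_iff.mpr hv
  unfold rcL
  rw [norm_smul, Real.norm_eq_abs, abs_div, abs_of_pos h0,
    abs_of_pos (Real.sinh_pos_iff.mpr h0)]
  field_simp

theorem rcE_rcL (v : _root_.Vale.Agent.P219.TP.E n) (hv : v ≠ 0) : rcE (rcL v) = v := by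
  have h0 : 0 < ‖v‖ := norm_pos_iff.mpr hv
  have h1 := Real.sinh_pos_iff.mpr h0
  have e : rcE (rcL v) = (Real.arsinh ‖rcL v‖ / ‖rcL v‖) • rcL v := rfl
  rw [e, rcL_norm v hv, Real.arsinh_sinh]
  unfold rcL
  rw [smul_smul]
  have : ‖v‖ / Real.sinh ‖v‖ * (Real.sinh ‖v‖ / ‖v‖) = 1 := by
    field_simp
  rw [this, one_smul]

theorem rcH_rcL (v : _root_.Vale.Agent.P219.TP.E n) (hv : v ≠ 0) : rcH (rcL v) = Real.cosh ‖v‖ := by
  have h2 : rcH (rcL v) ^ 2 = Real.cosh ‖v‖ ^ 2 := by
    rw [rcH_sq, rcL_norm v hv, Real.cosh_sq]; ring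
  exact (pow_left_inj₀ (rcH_pos _).le (Real.cosh_pos _).le two_ne_zero).mp h2

theorem rcH_lt_iff (y : _root_.Vale.Agent.P219.TP.E n) {R : ℝ} (hR : 0 < R) :
    rcH y < Real.cosh R ↔ ‖y‖ < Real.sinh R := by
  have h1 := rcH_sq y
  have h2 := Real.cosh_sq R
  have h3 := rcH_pos y
  have h4 := Real.cosh_pos R
  have h5 := Real.sinh_pos_iff.mpr hR
  have h6 := norm_nonneg y
  constructor
  · intro h; nlinarith
  · intro h; nlinarith

/-- Membership in the ball in normal coordinates. -/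
theorem mem_regH_iff {N : _root_.Vale.Agent.P219.TP.E n} {R : ℝ} {v : _root_.Vale.Agent.P219.TP.E n} (hv : v ≠ 0) :
    v ∈ regH N R ↔
      Real.cosh R * rcH (rcL v) - Real.sinh R * inner ℝ (rcL v) N < Real.cosh R := by
  have h0 : 0 < ‖v‖ := norm_pos_iff.mpr hv
  rw [rcH_rcL v hv]
  have hin : inner ℝ (rcL v) N = Real.sinh ‖v‖ / ‖v‖ * inner ℝ v N := by
    unfold rcL
    rw [real_inner_smul_left]
  rw [hin]
  have hc : Real.cosh ‖v‖ = 1 + 2 * Real.sinh (‖v‖ / 2) ^ 2 := by
    have h1 := Real.cosh_two_mul (‖v‖ / 2)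
    have h2 := Real.cosh_sq (‖v‖ / 2)
    have h3 : 2 * (‖v‖ / 2) = ‖v‖ := by ring
    rw [h3] at h1
    rw [h1, h2]; ring
  have hs : Real.sinh ‖v‖ = 2 * Real.sinh (‖v‖ / 2) * Real.cosh (‖v‖ / 2) := by
    have h1 := Real.sinh_two_mul (‖v‖ / 2)
    have h3 : 2 * (‖v‖ / 2) = ‖v‖ := by ring
    rwa [h3] at h1
  have hsp : 0 < Real.sinh (‖v‖ / 2) := Real.sinh_pos_iff.mpr (by positivity)
  show Real.sinh (‖v‖ / 2) * Real.cosh R * ‖v‖ <
    inner ℝ v N * (Real.cosh (‖v‖ / 2) * Real.sinh R) ↔ _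
  have hk : 0 < 2 * Real.sinh (‖v‖ / 2) / ‖v‖ := by positivity
  rw [← mul_lt_mul_iff_right₀ hk]
  have e1 : 2 * Real.sinh (‖v‖ / 2) / ‖v‖ * (Real.sinh (‖v‖ / 2) * Real.cosh R * ‖v‖)
      = Real.cosh R * Real.cosh ‖v‖ - Real.cosh R := by
    rw [hc]; field_simp; ring
  have e2 : 2 * Real.sinh (‖v‖ / 2) / ‖v‖ *
      (inner ℝ v N * (Real.cosh (‖v‖ / 2) * Real.sinh R))
      = Real.sinh R * (Real.sinh ‖v‖ / ‖v‖ * inner ℝ v N) := by
    rw [hs]; field_simp
  rw [e1, e2]
  constructor <;> intro h <;> linarith only [h]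

theorem zero_not_mem_regH {N : _root_.Vale.Agent.P219.TP.E n} {R : ℝ} : (0 : _root_.Vale.Agent.P219.TP.E n) ∉ regH N R := by
  intro h
  have h1 : Real.sinh (‖(0 : _root_.Vale.Agent.P219.TP.E n)‖ / 2) * Real.cosh R * ‖(0 : _root_.Vale.Agent.P219.TP.E n)‖ <
    inner ℝ (0 : _root_.Vale.Agent.P219.TP.E n) N * (Real.cosh (‖(0 : _root_.Vale.Agent.P219.TP.E n)‖ / 2) * Real.sinh R) := h
  simp at h1

theorem rcB_contDiff (N : _root_.Vale.Agent.P219.TP.E n) (c s : ℝ) : ContDiff ℝ ∞ (rcB N c s) := by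
  have h0 : ContDiff ℝ ∞ (fun y : _root_.Vale.Agent.P219.TP.E n => rcH y) := by
    unfold rcH
    refine ContDiff.sqrt ?_ fun y => by positivity
    exact contDiff_const.add (contDiff_norm_sq ℝ)
  have h1 : ContDiff ℝ ∞ (fun y : _root_.Vale.Agent.P219.TP.E n => inner ℝ y N) := contDiff_id.inner ℝ contDiff_const
  unfold rcB
  exact contDiff_id.add (((contDiff_const.mul h1).add (contDiff_const.mul h0)).smul contDiff_const)

/-- The derivative of the height along a line. -/
theorem rcH_hasDeriv (y z : _root_.Vale.Agent.P219.TP.E n) :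
    HasDerivAt (fun τ : ℝ => rcH (y + τ • z)) (inner ℝ y z / rcH y) 0 := by
  have h1 : HasDerivAt (fun τ : ℝ => y + τ • z) z 0 := by
    have := ((hasDerivAt_id (0 : ℝ)).smul_const z).const_add y
    simpa using this
  have h2 := (h1.norm_sq.const_add 1).sqrt (by positivity)
  simp only [zero_smul, add_zero] at h2
  have e : 2 * inner ℝ y z / (2 * √(1 + ‖y‖ ^ 2)) = inner ℝ y z / rcH y := by
    unfold rcH
    rw [mul_div_mul_left _ _ two_ne_zero]
  rw [e] at h2
  exact h2

/-- The derivative of the boost along a line. -/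
theorem rcB_hasDeriv (N : _root_.Vale.Agent.P219.TP.E n) (c s : ℝ) (y z : _root_.Vale.Agent.P219.TP.E n) :
    HasDerivAt (fun τ : ℝ => rcB N c s (y + τ • z))
      (z + ((c - 1) * inner ℝ z N + s * (inner ℝ y z / rcH y)) • N) 0 := by
  have h1 : HasDerivAt (fun τ : ℝ => y + τ • z) z 0 := by
    have := ((hasDerivAt_id (0 : ℝ)).smul_const z).const_add y
    simpa using this
  have h2 : HasDerivAt (fun τ : ℝ => inner ℝ (y + τ • z) N) (inner ℝ z N) 0 := by
    have := HasDerivAt.inner ℝ h1 (hasDerivAt_const (0 : ℝ) N)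
    simpa using this
  have h3 := rcH_hasDeriv y z
  exact h1.add (((h2.const_mul (c - 1)).add (h3.const_mul s)).smul_const N)

/-- The boost is an isometry. -/
theorem hq_rcB {N : _root_.Vale.Agent.P219.TP.E n} (hN : ‖N‖ = 1) {c s : ℝ} (hc : 0 < c) (hs : 0 ≤ s)
    (hcs : c ^ 2 - s ^ 2 = 1) (y z : _root_.Vale.Agent.P219.TP.E n) :
    hq (rcB N c s y) (z + ((c - 1) * inner ℝ z N + s * (inner ℝ y z / rcH y)) • N) = hq y z := by
  set t := inner ℝ y N with ht
  set τ := inner ℝ z N with hτ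
  set z0 := inner ℝ y z / rcH y with hz0
  have hy0 := rcH_pos y
  have hyz : inner ℝ y z = rcH y * z0 := by
    rw [hz0]; field_simp
  have hn : ‖z + ((c - 1) * τ + s * z0) • N‖ ^ 2 = ‖z‖ ^ 2 - τ ^ 2 + (c * τ + s * z0) ^ 2 := by
    rw [norm_add_sq_real, real_inner_smul_right, norm_smul, hN, mul_one, Real.norm_eq_abs,
      sq_abs, ← hτ]
    ring
  have hin : inner ℝ (rcB N c s y) (z + ((c - 1) * τ + s * z0) • N)
      = (c * rcH y + s * t) * (c * z0 + s * τ) := by
    rw [inner_add_right, real_inner_smul_right, rcB_inner hN]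
    unfold rcB
    rw [inner_add_left, real_inner_smul_left, real_inner_comm z N, ← hτ, ← ht, hyz]
    linear_combination (t * τ - rcH y * z0) * hcs
  have hh : 1 + ‖rcB N c s y‖ ^ 2 = (c * rcH y + s * t) ^ 2 := by
    rw [← rcH_sq, rcB_height hN hc hs hcs]
  have hpos : 0 < c * rcH y + s * t := by
    rw [← rcB_height hN hc hs hcs]; exact rcH_pos _
  unfold hq
  rw [hn, hin, hh, hyz, ← rcH_sq y]
  have e1 : ((c * rcH y + s * t) * (c * z0 + s * τ)) ^ 2 / (c * rcH y + s * t) ^ 2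
      = (c * z0 + s * τ) ^ 2 := by
    field_simp
  have e2 : (rcH y * z0) ^ 2 / rcH y ^ 2 = z0 ^ 2 := by
    field_simp
  rw [e1, e2]
  linear_combination (τ ^ 2 - z0 ^ 2) * hcs

/-- The derivative of `rcE` along a curve, and the metric. -/
theorem rcE_hasDeriv {W : ℝ → _root_.Vale.Agent.P219.TP.E n} {w z : _root_.Vale.Agent.P219.TP.E n} (hW : HasDerivAt W z 0) (hw0 : W 0 = w)
    (hw : w ≠ 0) :
    ∃ ζ, HasDerivAt (fun τ => rcE (W τ)) ζ 0 ∧ mq (rcE w) ζ = hq w z := by
  have hρ : 0 < ‖w‖ := norm_pos_iff.mpr hw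
  set ρ := ‖w‖ with hρd
  have h1 : HasDerivAt (fun τ => ‖W τ‖) (inner ℝ w z / ρ) 0 := by
    have h2 := hW.norm_sq.sqrt (by rw [hw0]; positivity)
    rw [hw0] at h2
    have e : (fun τ => √(‖W τ‖ ^ 2)) = fun τ => ‖W τ‖ := by
      funext τ; exact Real.sqrt_sq (norm_nonneg _)
    rw [e, Real.sqrt_sq (norm_nonneg _), mul_div_mul_left _ _ two_ne_zero] at h2
    exact h2
  have h2 := h1.arsinh
  rw [hw0, ← hρd] at h2
  have h3 := h2.div h1 (by rw [hw0]; exact hρ.ne')
  have h4 := h3.smul hW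
  rw [hw0, ← hρd] at h4
  set A := Real.arsinh ρ with hA
  have hApos : 0 < A := Real.arsinh_pos_iff.mpr hρ
  set q0 := √(1 + ρ ^ 2) with hq0
  have hq0pos : 0 < q0 := Real.sqrt_pos.mpr (by positivity)
  have hq0sq : q0 ^ 2 = 1 + ρ ^ 2 := Real.sq_sqrt (by positivity)
  refine ⟨_, h4, ?_⟩
  set b := (q0⁻¹ • (inner ℝ w z / ρ) * ρ - A * (inner ℝ w z / ρ)) / ρ ^ 2 with hb
  set ip := inner ℝ w z with hip
  have hbval : b = (ip / q0 - A * ip / ρ) / ρ ^ 2 := by
    rw [hb, smul_eq_mul]; field_simp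
  have hζn : ∀ X : _root_.Vale.Agent.P219.TP.E n, X = (A / ρ) • z + b • w → mq (rcE w) X = hq w z := by
    intro X hX
    have hXn : ‖X‖ ^ 2 = (A / ρ) ^ 2 * ‖z‖ ^ 2 + 2 * (A / ρ) * b * ip + b ^ 2 * ρ ^ 2 := by
      rw [hX, norm_add_sq_real, norm_smul, norm_smul, real_inner_smul_left,
        real_inner_smul_right, real_inner_comm, ← hip, mul_pow, mul_pow, Real.norm_eq_abs,
        Real.norm_eq_abs, sq_abs, sq_abs, ← hρd]
      ring
    have hXi : inner ℝ (rcE w) X = (A / ρ) * ((A / ρ) * ip + b * ρ ^ 2) := by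
      unfold rcE
      rw [real_inner_smul_left, hX, inner_add_right, real_inner_smul_right,
        real_inner_smul_right, real_inner_self_eq_norm_sq, ← hip, ← hρd, ← hA]
    have hnE : ‖rcE w‖ = A := rcE_norm w hw
    unfold mq hq
    rw [hXn, hXi, hnE, ← hρd, ← hip, hA, Real.sinh_arsinh, ← hA]
    have hkey : (A / ρ) * ip + b * ρ ^ 2 = ip / q0 := by
      rw [hbval]; field_simp; ring
    rw [hkey]
    have hbb : b = (ip / q0 - A * ip / ρ) / ρ ^ 2 := hbval
    have e1 : (A / ρ * (ip / q0)) ^ 2 / A ^ 2 = ip ^ 2 / (ρ ^ 2 * q0 ^ 2) := by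
      field_simp
    have e2 : (A / ρ) ^ 2 * ‖z‖ ^ 2 + 2 * (A / ρ) * b * ip + b ^ 2 * ρ ^ 2
        = (A / ρ) ^ 2 * (‖z‖ ^ 2 - ip ^ 2 / ρ ^ 2) + ip ^ 2 / (ρ ^ 2 * q0 ^ 2) := by
      rw [hbb]; field_simp; ring
    rw [e1, e2, add_sub_cancel_right]
    have e3 : (ρ / A) ^ 2 * ((A / ρ) ^ 2 * (‖z‖ ^ 2 - ip ^ 2 / ρ ^ 2))
        = ‖z‖ ^ 2 - ip ^ 2 / ρ ^ 2 := by
      field_simp
    rw [e3, hq0sq]
    have h1ρ : (0 : ℝ) < 1 + ρ ^ 2 := by positivity
    field_simp
    ring
  apply hζn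
  simp only [Pi.div_apply, hw0, ← hρd, ← hA]

/-- The isometry from the ball about the center (hyperboloid coordinates) to normal coordinates
at a boundary point. PROOF: with `y₀ = √(1 + |y|²)`, `t = ⟨y, N⟩` put (boost)
`y' = y + ((cosh R - 1) t + sinh R y₀) N`, so that `y'₀ := √(1 + |y'|²) = cosh R y₀ + sinh R t`, and
`Ψ y = (arsinh |y'| / |y'|) y'` (`y' ≠ 0` on the ball since `⟨y', N⟩ = cosh R t + sinh R y₀ > 0` for
`|y| < sinh R`). Isometry: `mq v dv` for `v = r θ` is `dr² + sinh² r |dθ|²`, equal to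
`|dy'|² - (dy'₀)²` for `y' = sinh r θ`; the boost preserves `|dy|² - dy₀²`. Image: `|y| < sinh R` iff
`y₀ < cosh R`, and `y₀ = cosh R y'₀ - sinh R ⟨y', N⟩ = cosh R cosh |v| - sinh R sinh |v| ⟨v,N⟩/|v|`;
`cosh |v| - 1 = 2 sinh² (|v|/2)`, `sinh |v| = 2 sinh (|v|/2) cosh (|v|/2)`. -/
theorem exists_recenter {N : _root_.Vale.Agent.P219.TP.E n} (hN : ‖N‖ = 1) {R : ℝ} (hR : 0 < R) :
    ∃ Ψ : _root_.Vale.Agent.P219.TP.E n → _root_.Vale.Agent.P219.TP.E n, ContDiffOn ℝ ∞ Ψ (ball 0 (Real.sinh R)) ∧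
      InjOn Ψ (ball 0 (Real.sinh R)) ∧ Ψ '' ball 0 (Real.sinh R) = regH N R ∧
      ∀ y ∈ ball (0 : _root_.Vale.Agent.P219.TP.E n) (Real.sinh R), ∀ z, mq (Ψ y) (fderiv ℝ Ψ y z) = hq y z := by
  set c := Real.cosh R with hcd
  set s := Real.sinh R with hsd
  have hc : 0 < c := Real.cosh_pos R
  have hs : 0 < s := Real.sinh_pos_iff.mpr hR
  have hcs : c ^ 2 - s ^ 2 = 1 := Real.cosh_sq_sub_sinh_sq R
  -- the boosted point is not zero
  have hne : ∀ y ∈ ball (0 : _root_.Vale.Agent.P219.TP.E n) s, rcB N c s y ≠ 0 := by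
    intro y hy h0
    rw [mem_ball_zero_iff] at hy
    have h1 := rcB_inner hN c s y
    rw [h0, inner_zero_left] at h1
    have h2 : |inner ℝ y N| ≤ ‖y‖ := by
      have := abs_real_inner_le_norm y N
      rwa [hN, mul_one] at this
    have h3 := (abs_le.mp h2).1
    have h4 := rcH_sq y
    have h5 := rcH_pos y
    have h6 := norm_nonneg y
    -- s * rcH y > c * ‖y‖
    have h7 : (c * ‖y‖) ^ 2 < (s * rcH y) ^ 2 := by
      rw [mul_pow, mul_pow, h4]
      have : c ^ 2 = 1 + s ^ 2 := by linarith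
      rw [this]
      linarith only [mul_pos (sub_pos.2 hy) (sub_pos.2 hy), mul_nonneg (le_of_lt (sub_pos.2 hy)) (sub_nonneg.2 h6)]
    have h8 : c * ‖y‖ < s * rcH y := lt_of_pow_lt_pow_left₀ 2 (by positivity) h7
    linarith only [mul_nonneg (sq_nonneg (c : ℝ)) (sub_nonneg.2 h3), mul_eq_zero_of_left (sub_eq_zero.2 h1) (c - (0)), mul_pos (sub_pos.2 hc) (sub_pos.2 h8)]
  have hsm : ContDiffOn ℝ ∞ (fun y => rcE (rcB N c s y)) (ball 0 s) := by
    have hB : ContDiffOn ℝ ∞ (rcB N c s) (ball 0 s) := (rcB_contDiff N c s).contDiffOn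
    have hnB : ContDiffOn ℝ ∞ (fun y => ‖rcB N c s y‖) (ball 0 s) := hB.norm ℝ hne
    unfold rcE
    exact (hnB.arsinh.div hnB fun y hy => (norm_pos_iff.mpr (hne y hy)).ne').smul hB
  refine ⟨fun y => rcE (rcB N c s y), hsm, ?_, ?_, ?_⟩
  · intro y hy y' hy' h
    have h1 : rcL (rcE (rcB N c s y)) = rcL (rcE (rcB N c s y')) := congrArg rcL h
    rw [rcL_rcE _ (hne y hy), rcL_rcE _ (hne y' hy')] at h1
    have h2 := rcB_inv hN hc hs.le hcs y
    have h3 := rcB_inv hN hc hs.le hcs y'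
    rw [← h2, ← h3, h1]
  · ext v
    constructor
    · rintro ⟨y, hy, rfl⟩
      have hw := hne y hy
      have hv : rcE (rcB N c s y) ≠ 0 := by
        rw [← norm_pos_iff, rcE_norm _ hw]
        exact Real.arsinh_pos_iff.mpr (norm_pos_iff.mpr hw)
      show rcE (rcB N c s y) ∈ regH N R
      rw [mem_regH_iff hv, rcL_rcE _ hw, ← hcd, ← hsd, rcB_height hN hc hs.le hcs, rcB_inner hN]
      have h1 : rcH y < c := (rcH_lt_iff y hR).mpr (mem_ball_zero_iff.mp hy)
      have hc2 : c ^ 2 = 1 + s ^ 2 := by linarith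
      linarith only [mul_eq_zero_of_left (sub_eq_zero.2 hc2) (c - (rcH y)), mul_eq_zero_of_left (sub_eq_zero.2 hc2) (c - (0)), h1]
    · intro hv
      have hv0 : v ≠ 0 := by
        rintro rfl
        exact zero_not_mem_regH hv
      rw [mem_regH_iff hv0, ← hcd, ← hsd] at hv
      refine ⟨rcB N c (-s) (rcL v), ?_, ?_⟩
      · rw [mem_ball_zero_iff, hsd, ← rcH_lt_iff _ hR, ← hsd, ← hcd,
          rcB_height_neg hN hc hs.le hcs]
        exact hv
      · show rcE (rcB N c s (rcB N c (-s) (rcL v))) = v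
        rw [rcB_rcB_neg hN hc hs.le hcs, rcE_rcL v hv0]
  · intro y hy z
    have hW := rcB_hasDeriv N c s y z
    have hW0 : (fun τ : ℝ => rcB N c s (y + τ • z)) 0 = rcB N c s y := by simp
    obtain ⟨ζ, hζ, hm⟩ := rcE_hasDeriv hW hW0 (hne y hy)
    have hd : DifferentiableAt ℝ (fun y => rcE (rcB N c s y)) y :=
      (hsm.contDiffAt (isOpen_ball.mem_nhds hy)).differentiableAt (by simp)
    have hline : HasDerivAt (fun τ : ℝ => y + τ • z) z 0 := by
      have := ((hasDerivAt_id (0 : ℝ)).smul_const z).const_add y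
      simpa using this
    have hf : HasFDerivAt (fun y => rcE (rcB N c s y))
        (fderiv ℝ (fun y => rcE (rcB N c s y)) y) ((fun τ : ℝ => y + τ • z) 0) := by
      simpa using hd.hasFDerivAt
    have hcomp := hf.comp_hasDerivAt (0 : ℝ) hline
    have heq : fderiv ℝ (fun y => rcE (rcB N c s y)) y z = ζ := hcomp.unique hζ
    show mq (rcE (rcB N c s y)) (fderiv ℝ (fun y => rcE (rcB N c s y)) y z) = hq y z
    rw [heq, hm]
    exact hq_rcB hN hc hs.le hcs y z

end Vale.Agent.P219.TPH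
end

section

/-! # Equality case: a domain whose boundary is a geodesic sphere -/

open MeasureTheory Set Metric Filter Topology
open scoped ENNReal ContDiff Nat

namespace Vale.Agent.P219.SR

open Vale.Agent.P219.TP Vale.Agent.P219.TPH

variable {n : ℕ} (G : Geo n)

/-- A bounded open set whose frontier lies in a geodesic sphere is the geodesic ball. -/
theorem rc_eq_ball {Ω : Set (_root_.Vale.Agent.P219.TP.E n)} (ho : IsOpen Ω) (hb : Bornology.IsBounded Ω)
    (hne : Ω.Nonempty) {c : _root_.Vale.Agent.P219.TP.E n} {R : ℝ} (hR : 0 < R)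
    (hfr : ∀ q ∈ frontier Ω, ‖G.lg c q‖ = R) : Ω = G.ex c '' ball 0 R := by
  set e : _root_.Vale.Agent.P219.TP.E n ≃ₜ _root_.Vale.Agent.P219.TP.E n := exHomeo G c with he
  have hev : ∀ v, e v = G.ex c v := fun v => rfl
  set W : Set (_root_.Vale.Agent.P219.TP.E n) := e ⁻¹' Ω with hW
  have hWo : IsOpen W := ho.preimage e.continuous
  have hWfr : frontier W ⊆ sphere (0 : _root_.Vale.Agent.P219.TP.E n) R := by
    intro v hv
    rw [hW, ← e.preimage_frontier] at hv
    have h1 := hfr (e v) hv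
    rw [hev, G.lg_ex] at h1
    rwa [mem_sphere_zero_iff_norm]
  have hWne : W.Nonempty := by
    obtain ⟨y, hy⟩ := hne
    refine ⟨e.symm y, ?_⟩
    rw [hW, mem_preimage, e.apply_symm_apply]
    exact hy
  have hWb : Bornology.IsBounded W := by
    have hc : IsCompact (closure Ω) := hb.isCompact_closure
    have hc2 : IsCompact (e.symm '' closure Ω) := hc.image e.symm.continuous
    refine hc2.isBounded.subset ?_
    intro v hv
    exact ⟨e v, subset_closure hv, e.symm_apply_apply v⟩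
  have hconn : ∀ t : Set (_root_.Vale.Agent.P219.TP.E n), IsPreconnected t → (t ∩ W).Nonempty →
      Disjoint t (sphere (0 : _root_.Vale.Agent.P219.TP.E n) R) → t ⊆ W := by
    intro t ht h1 h2
    refine ht.subset_left_of_subset_union hWo isClosed_closure.isOpen_compl
      (disjoint_compl_right_iff_subset.2 subset_closure) ?_ h1
    intro y hy
    by_cases hyW : y ∈ closure W
    · left
      by_contra hyn
      have : y ∈ frontier W := ⟨hyW, by rwa [hWo.interior_eq]⟩
      exact (Set.disjoint_left.1 h2) hy (hWfr this)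
    · right; exact hyW
  have hWcb : W ⊆ closedBall (0 : _root_.Vale.Agent.P219.TP.E n) R := by
    intro v hv
    by_contra hout
    rw [mem_closedBall_zero_iff, not_le] at hout
    have hvpos : 0 < ‖v‖ := hR.trans hout
    have hray : (fun t : ℝ => t • v) '' Ici 1 ⊆ W := by
      refine hconn _ (isPreconnected_Ici.image _ (by fun_prop)) ?_ ?_
      · exact ⟨v, ⟨1, self_mem_Ici, by simp⟩, hv⟩
      · rw [Set.disjoint_left]
        rintro _ ⟨t, ht, rfl⟩ hs
        rw [mem_sphere_zero_iff_norm, norm_smul, Real.norm_of_nonneg (zero_le_one.trans ht)] at hs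
        have : ‖v‖ ≤ t * ‖v‖ := le_mul_of_one_le_left hvpos.le ht
        linarith
    obtain ⟨M, hM⟩ := hWb.exists_norm_le
    set t : ℝ := max 1 ((M + 1) / ‖v‖) with ht
    have h1 := hM _ (hray ⟨t, mem_Ici.2 (le_max_left _ _), rfl⟩)
    have h2 : M + 1 ≤ t * ‖v‖ := by
      rw [← div_le_iff₀ hvpos]; exact le_max_right _ _
    simp only at h1
    rw [norm_smul, Real.norm_of_nonneg (zero_le_one.trans (le_max_left _ _) : (0:ℝ) ≤ t)] at h1
    linarith
  have hWb' : W ⊆ ball (0 : _root_.Vale.Agent.P219.TP.E n) R := by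
    rw [← interior_closedBall _ hR.ne']
    exact hWo.subset_interior_iff.2 hWcb
  have hWeq : W = ball (0 : _root_.Vale.Agent.P219.TP.E n) R := by
    refine Subset.antisymm hWb' (hconn _ (convex_ball _ _).isPreconnected ?_ ?_)
    · obtain ⟨v, hv⟩ := hWne
      exact ⟨v, hWb' hv, hv⟩
    · rw [Set.disjoint_left]
      intro y h1 h2
      rw [mem_ball] at h1
      rw [mem_sphere] at h2
      linarith
  have hΩ : Ω = e '' ball (0 : _root_.Vale.Agent.P219.TP.E n) R := by
    rw [← hWeq, hW, e.image_preimage]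
  exact hΩ

/-- Volume of the image under the exponential map. -/
theorem rc_vol (c : _root_.Vale.Agent.P219.TP.E n) {S : Set (_root_.Vale.Agent.P219.TP.E n)} (hS : MeasurableSet S) :
    G.vol (G.ex c '' S) = ∫⁻ v in S, ENNReal.ofReal |(G.T c v).det| := by
  have hm : MeasurableSet (G.ex c '' S) :=
    (exHomeo G c).measurableEmbedding.measurableSet_image.2 hS
  rw [← lintegral_indicator_one hm, G.lintegral_vol_ex c (measurable_one.indicator hm),
    ← lintegral_indicator hS]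
  refine lintegral_congr fun v => ?_
  by_cases hv : v ∈ S
  · have h1 : G.ex c v ∈ G.ex c '' S := ⟨v, hv, rfl⟩
    rw [indicator_of_mem hv, indicator_of_mem h1, Pi.one_apply, mul_one]
  · have h1 : G.ex c v ∉ G.ex c '' S := by
      rintro ⟨v', hv', h⟩
      have h2 := congrArg (G.lg c) h
      rw [G.lg_ex, G.lg_ex] at h2
      exact hv (h2 ▸ hv')
    rw [indicator_of_notMem hv, indicator_of_notMem h1, mul_zero]

/-- The volume of the model ball, in normal coordinates. -/
theorem rc_model_vol (hn : 1 ≤ n) {k : ℝ} (hk : 0 ≤ k) {R : ℝ} (hR : 0 < R) :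
    ∫⁻ v in ball (0 : _root_.Vale.Agent.P219.TP.E n) R, ENNReal.ofReal ((_root_.Vale.Agent.P219.TPH.sn k ‖v‖ / ‖v‖) ^ (n - 1)) =
      ENNReal.ofReal (VR n k R) := by
  have hsn : Continuous (_root_.Vale.Agent.P219.TPH.sn k) := (contDiff_sn k).continuous
  have hmeas : Measurable fun v : _root_.Vale.Agent.P219.TP.E n => ENNReal.ofReal ((_root_.Vale.Agent.P219.TPH.sn k ‖v‖ / ‖v‖) ^ (n - 1)) :=
    (((hsn.measurable.comp measurable_norm).div measurable_norm).pow_const _).ennreal_ofReal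
  rw [← lintegral_indicator measurableSet_ball, polar hn (hmeas.indicator measurableSet_ball)]
  have h1 : ∀ u : sphere (0 : _root_.Vale.Agent.P219.TP.E n) 1, ∫⁻ r in Ioi (0 : ℝ), ENNReal.ofReal (r ^ (n - 1)) *
      (ball (0 : _root_.Vale.Agent.P219.TP.E n) R).indicator (fun v => ENNReal.ofReal ((_root_.Vale.Agent.P219.TPH.sn k ‖v‖ / ‖v‖) ^ (n - 1)))
        (r • (u : _root_.Vale.Agent.P219.TP.E n)) = ENNReal.ofReal (∫ r in (0 : ℝ)..R, _root_.Vale.Agent.P219.TPH.sn k r ^ (n - 1)) := by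
    intro u
    have hu : ‖(u : _root_.Vale.Agent.P219.TP.E n)‖ = 1 := by simp
    have hnorm : ∀ r : ℝ, 0 < r → ‖r • (u : _root_.Vale.Agent.P219.TP.E n)‖ = r := fun r hr => by
      rw [norm_smul, hu, mul_one, Real.norm_of_nonneg hr.le]
    rw [intervalIntegral.integral_of_le hR.le, integral_Ioc_eq_integral_Ioo,
      ofReal_integral_eq_lintegral_ofReal]
    · have hsub : Ioo (0 : ℝ) R ⊆ Ioi 0 := fun r hr => hr.1
      rw [← lintegral_indicator measurableSet_Ioi, ← lintegral_indicator measurableSet_Ioo]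
      refine lintegral_congr fun r => ?_
      by_cases hr : r ∈ Ioo (0 : ℝ) R
      · have hr0 : 0 < r := hr.1
        have hmem : r • (u : _root_.Vale.Agent.P219.TP.E n) ∈ ball (0 : _root_.Vale.Agent.P219.TP.E n) R := by
          rw [mem_ball_zero_iff, hnorm r hr0]; exact hr.2
        rw [indicator_of_mem hr, indicator_of_mem (hsub hr), indicator_of_mem hmem, hnorm r hr0,
          ← ENNReal.ofReal_mul (pow_nonneg hr0.le _), div_pow]
        congr 1
        field_simp
      · rw [indicator_of_notMem hr]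
        by_cases hr0 : r ∈ Ioi (0 : ℝ)
        · have hnm : r • (u : _root_.Vale.Agent.P219.TP.E n) ∉ ball (0 : _root_.Vale.Agent.P219.TP.E n) R := by
            rw [mem_ball_zero_iff, hnorm r hr0]
            exact fun h => hr ⟨hr0, h⟩
          rw [indicator_of_mem hr0, indicator_of_notMem hnm, mul_zero]
        · rw [indicator_of_notMem hr0]
    · exact ((hsn.pow _).integrableOn_Icc).mono_set Ioo_subset_Icc_self
    · filter_upwards [self_mem_ae_restrict measurableSet_Ioo] with r hr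
      exact pow_nonneg (_root_.Vale.Agent.P219.TPH.sn_pos hk hr.1).le _
  simp only [h1]
  rw [lintegral_const, VR, sig, ENNReal.ofReal_mul measureReal_nonneg, measureReal_def,
    ENNReal.ofReal_toReal (measure_ne_top _ _), mul_comm]

/-- Equality in the volume comparison forces the model determinant. -/
theorem rc_det (hn : 1 ≤ n) {k : ℝ} (hk : 0 ≤ k) {c : _root_.Vale.Agent.P219.TP.E n}
    (hJ : ∀ v : _root_.Vale.Agent.P219.TP.E n, v ≠ 0 → _root_.Vale.Agent.P219.TPH.sn k ‖v‖ ^ (n - 1) ≤ ‖v‖ ^ (n - 1) * |(G.T c v).det|)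
    {R : ℝ} (hR : 0 < R)
    (hV : G.vol (G.ex c '' ball 0 R) ≤ ENNReal.ofReal (VR n k R)) {v : _root_.Vale.Agent.P219.TP.E n}
    (hv : v ∈ ball (0 : _root_.Vale.Agent.P219.TP.E n) R) (hv0 : v ≠ 0) :
    |(G.T c v).det| * ‖v‖ ^ (n - 1) = _root_.Vale.Agent.P219.TPH.sn k ‖v‖ ^ (n - 1) := by
  rw [rc_vol G c measurableSet_ball, ← rc_model_vol hn hk hR] at hV
  have hsn : Continuous (_root_.Vale.Agent.P219.TPH.sn k) := (contDiff_sn k).continuous
  have hdet : Continuous fun v => |(G.T c v).det| := by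
    have h1 : ContDiff ℝ ∞ fun v => G.T c v :=
      G.T_smooth.comp (contDiff_const.prodMk contDiff_id)
    exact (ContinuousLinearMap.continuous_det.comp h1.continuous).abs
  have hle : ∀ v : _root_.Vale.Agent.P219.TP.E n, v ≠ 0 → (_root_.Vale.Agent.P219.TPH.sn k ‖v‖ / ‖v‖) ^ (n - 1) ≤ |(G.T c v).det| := by
    intro v hv
    have h1 := hJ v hv
    have h2 : 0 < ‖v‖ ^ (n - 1) := pow_pos (norm_pos_iff.2 hv) _
    rw [div_pow, div_le_iff₀ h2]
    linarith
  have hmeas : Measurable fun v : _root_.Vale.Agent.P219.TP.E n => ENNReal.ofReal ((_root_.Vale.Agent.P219.TPH.sn k ‖v‖ / ‖v‖) ^ (n - 1)) :=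
    (((hsn.measurable.comp measurable_norm).div measurable_norm).pow_const _).ennreal_ofReal
  have hmeas2 : Measurable fun v : _root_.Vale.Agent.P219.TP.E n => ENNReal.ofReal |(G.T c v).det| :=
    hdet.measurable.ennreal_ofReal
  have hae0 : ∀ᵐ v ∂(volume.restrict (ball (0 : _root_.Vale.Agent.P219.TP.E n) R)), v ≠ 0 := by
    have : Nonempty (Fin n) := ⟨⟨0, by omega⟩⟩
    have hnt : Nontrivial (_root_.Vale.Agent.P219.TP.E n) := inferInstance
    exact ae_restrict_of_ae (by
      rw [ae_iff]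
      simp only [ne_eq, not_not]
      have : {v : _root_.Vale.Agent.P219.TP.E n | v = 0} = {0} := rfl
      rw [this, measure_singleton])
  have hae : (fun v : _root_.Vale.Agent.P219.TP.E n => ENNReal.ofReal ((_root_.Vale.Agent.P219.TPH.sn k ‖v‖ / ‖v‖) ^ (n - 1)))
      =ᵐ[volume.restrict (ball (0 : _root_.Vale.Agent.P219.TP.E n) R)] fun v => ENNReal.ofReal |(G.T c v).det| := by
    refine ae_eq_of_ae_le_of_lintegral_le ?_ ?_ hmeas2.aemeasurable hV
    · filter_upwards [hae0] with v hv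
      exact ENNReal.ofReal_le_ofReal (hle v hv)
    · rw [rc_model_vol hn hk hR]
      exact ENNReal.ofReal_ne_top
  have hae' : (fun v : _root_.Vale.Agent.P219.TP.E n => (_root_.Vale.Agent.P219.TPH.sn k ‖v‖ / ‖v‖) ^ (n - 1))
      =ᵐ[volume.restrict (ball (0 : _root_.Vale.Agent.P219.TP.E n) R \ {0})] fun v => |(G.T c v).det| := by
    have h1 := ae_mono (Measure.restrict_mono (sdiff_subset (s := ball (0 : _root_.Vale.Agent.P219.TP.E n) R) (t := {0}))
      (le_refl (volume : Measure (_root_.Vale.Agent.P219.TP.E n)))) hae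
    filter_upwards [h1] with v hv
    have h2 : (0 : ℝ) ≤ (_root_.Vale.Agent.P219.TPH.sn k ‖v‖ / ‖v‖) ^ (n - 1) :=
      pow_nonneg (div_nonneg (modelH_sn_nonneg hk (norm_nonneg _)) (norm_nonneg _)) _
    exact (ENNReal.ofReal_eq_ofReal_iff h2 (abs_nonneg _)).1 hv
  have hopen : IsOpen (ball (0 : _root_.Vale.Agent.P219.TP.E n) R \ {0}) := isOpen_ball.sdiff isClosed_singleton
  have hcont : ContinuousOn (fun v : _root_.Vale.Agent.P219.TP.E n => (_root_.Vale.Agent.P219.TPH.sn k ‖v‖ / ‖v‖) ^ (n - 1))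
      (ball (0 : _root_.Vale.Agent.P219.TP.E n) R \ {0}) := by
    refine ContinuousOn.pow (ContinuousOn.div (hsn.comp continuous_norm).continuousOn
      continuous_norm.continuousOn fun v hv => ?_) _
    exact norm_ne_zero_iff.2 fun h => hv.2 h
  have heq := Measure.eqOn_open_of_ae_eq hae' hopen hcont hdet.continuousOn ⟨hv, hv0⟩
  simp only at heq
  have h2 : 0 < ‖v‖ ^ (n - 1) := pow_pos (norm_pos_iff.2 hv0) _
  rw [← heq, div_pow, div_mul_cancel₀ _ h2.ne']

/-- Flat case: the exponential map is an isometry on the ball. -/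
theorem rc_flat (hn : 1 ≤ n) {c : _root_.Vale.Agent.P219.TP.E n} {R : ℝ} (hR : 0 < R)
    (hV : G.vol (G.ex c '' ball 0 R) ≤ ENNReal.ofReal (VR n 0 R)) {v : _root_.Vale.Agent.P219.TP.E n}
    (hv : v ∈ ball (0 : _root_.Vale.Agent.P219.TP.E n) R) (z : _root_.Vale.Agent.P219.TP.E n) : ‖G.T c v z‖ = ‖z‖ := by
  rcases eq_or_ne v 0 with rfl | hv0
  · rw [G.T_zero]
  · have h1 := rc_det G hn le_rfl (fun w _ => by
      have h6 : _root_.Vale.Agent.P219.TPH.sn 0 ‖w‖ = ‖w‖ := by simp [_root_.Vale.Agent.P219.TPH.sn]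
      rw [h6]
      exact le_mul_of_one_le_right (pow_nonneg (norm_nonneg _) _) (G.one_le_J c w)) hR hV hv hv0
    have h2 : 0 < ‖v‖ ^ (n - 1) := pow_pos (norm_pos_iff.2 hv0) _
    have h3 : _root_.Vale.Agent.P219.TPH.sn 0 ‖v‖ = ‖v‖ := by simp [_root_.Vale.Agent.P219.TPH.sn]
    rw [h3] at h1
    have h4 : |(G.T c v).det| = 1 := by
      have h5 : |(G.T c v).det| * ‖v‖ ^ (n - 1) = 1 * ‖v‖ ^ (n - 1) := by rw [h1, one_mul]
      exact mul_right_cancel₀ h2.ne' h5
    exact isometry_of_det G c v h4 z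

/-- Curvature `-1`: the metric is the model metric on the ball. -/
theorem rc_hyp (hn : 2 ≤ n) (hG : Curv G 1) {c : _root_.Vale.Agent.P219.TP.E n} {R : ℝ} (hR : 0 < R)
    (hV : G.vol (G.ex c '' ball 0 R) ≤ ENNReal.ofReal (VR n 1 R)) {v : _root_.Vale.Agent.P219.TP.E n}
    (hv : v ∈ ball (0 : _root_.Vale.Agent.P219.TP.E n) R) (hv0 : v ≠ 0) (z : _root_.Vale.Agent.P219.TP.E n) : ‖G.T c v z‖ ^ 2 = mq v z := by
  have h1 := rc_det G (by omega) zero_le_one
    (fun w hw => sn_le_J (by omega) zero_le_one hG hw) hR hV hv hv0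
  rw [bridge_sn] at h1
  exact model_of_det G hn hG c hv0 h1 z

end Vale.Agent.P219.SR
end

section

/-! # Hyperboloid coordinates about the center -/

open MeasureTheory Set Metric Filter Topology
open scoped ENNReal ContDiff Nat

namespace Vale.Agent.P219.SR

open Vale.Agent.P219.TP Vale.Agent.P219.TPH

variable {n : ℕ}

/-- The coefficients of `sinh √x / √x`. -/
noncomputable def rhc (j : ℕ) : ℝ := ((2 * j + 1)! : ℝ)⁻¹

/-- The power series of `sinh √x / √x`. -/
noncomputable def rhp : FormalMultilinearSeries ℝ ℝ ℝ := FormalMultilinearSeries.ofScalars ℝ rhc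

theorem rhp_radius : rhp.radius = ⊤ := by
  refine FormalMultilinearSeries.ofScalars_radius_eq_top_of_tendsto ℝ rhc
    (Eventually.of_forall fun j => ?_) ?_
  · exact inv_ne_zero (by positivity)
  · have h1 : ∀ j : ℕ, ‖rhc j.succ‖ / ‖rhc j‖ = (((2 * j + 3 : ℕ) : ℝ) * ((2 * j + 2 : ℕ) : ℝ))⁻¹ := by
      intro j
      have e1 : 2 * j.succ + 1 = (2 * j + 2) + 1 := by simp [Nat.succ_eq_add_one]; ring
      have e2 : 2 * j + 2 = (2 * j + 1) + 1 := rfl
      unfold rhc
      rw [Real.norm_of_nonneg (by positivity), Real.norm_of_nonneg (by positivity), e1,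
        Nat.factorial_succ (2 * j + 2), e2, Nat.factorial_succ (2 * j + 1)]
      push_cast
      have : ((2 * j + 1)! : ℝ) ≠ 0 := by positivity
      field_simp
      ring
    rw [tendsto_congr h1]
    have h2 : Tendsto (fun j : ℕ => ((2 * j + 3 : ℕ) : ℝ)) atTop atTop :=
      tendsto_natCast_atTop_atTop.comp (tendsto_atTop_mono (fun j => by simp only [id]; omega) tendsto_id)
    have h3 : Tendsto (fun j : ℕ => ((2 * j + 2 : ℕ) : ℝ)) atTop atTop :=
      tendsto_natCast_atTop_atTop.comp (tendsto_atTop_mono (fun j => by simp only [id]; omega) tendsto_id)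
    exact (h2.atTop_mul_atTop₀ h3).inv_tendsto_atTop

/-- `sinh √x / √x`, an entire function. -/
noncomputable def rhS (x : ℝ) : ℝ := rhp.sum x

theorem rhS_smooth : ContDiff ℝ ∞ rhS := by
  have h1 : HasFPowerSeriesOnBall rhp.sum rhp 0 rhp.radius :=
    rhp.hasFPowerSeriesOnBall (by rw [rhp_radius]; exact ENNReal.coe_lt_top)
  rw [rhp_radius] at h1
  have h2 : AnalyticOnNhd ℝ rhS univ := by
    intro x _
    exact h1.analyticAt_of_mem (by simp)
  exact contDiffOn_univ.1 (h2.contDiffOn (uniqueDiffOn_univ)) |>.of_le le_top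

theorem rhS_sq {t : ℝ} (ht : t ≠ 0) : rhS (t ^ 2) = Real.sinh t / t := by
  have h1 : rhS (t ^ 2) = ∑' j : ℕ, rhc j • (t ^ 2) ^ j :=
    FormalMultilinearSeries.ofScalars_sum_eq rhc (t ^ 2)
  rw [h1]
  have h2 := (Real.hasSum_sinh t).div_const t
  have h3 : (fun j : ℕ => rhc j • (t ^ 2) ^ j) =
      fun j : ℕ => t ^ (2 * j + 1) / ((2 * j + 1)! : ℝ) / t := by
    funext j
    unfold rhc
    rw [smul_eq_mul, ← pow_mul, pow_succ]
    field_simp
  rw [h3]
  exact h2.tsum_eq

theorem rhS_zero : rhS 0 = 1 := by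
  have h1 : rhS 0 = rhc 0 • (1 : ℝ) := FormalMultilinearSeries.ofScalarsSum_zero rhc
  rw [h1]
  simp [rhc]

theorem rcL_eq (v : _root_.Vale.Agent.P219.TP.E n) : rcL v = rhS (‖v‖ ^ 2) • v := by
  rcases eq_or_ne v 0 with rfl | hv
  · simp [rcL]
  · unfold rcL
    rw [rhS_sq (norm_ne_zero_iff.2 hv)]

theorem rcL_smooth : ContDiff ℝ ∞ (rcL : _root_.Vale.Agent.P219.TP.E n → _root_.Vale.Agent.P219.TP.E n) := by
  have h1 : (rcL : _root_.Vale.Agent.P219.TP.E n → _root_.Vale.Agent.P219.TP.E n) = fun v => rhS (‖v‖ ^ 2) • v := funext rcL_eq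
  rw [h1]
  exact (rhS_smooth.comp (contDiff_norm_sq ℝ)).smul contDiff_id

theorem rcL_hasFDerivAt_zero :
    HasFDerivAt (rcL : _root_.Vale.Agent.P219.TP.E n → _root_.Vale.Agent.P219.TP.E n) (ContinuousLinearMap.id ℝ (_root_.Vale.Agent.P219.TP.E n)) 0 := by
  have h1 : (rcL : _root_.Vale.Agent.P219.TP.E n → _root_.Vale.Agent.P219.TP.E n) = fun v => rhS (‖v‖ ^ 2) • v := funext rcL_eq
  rw [h1]
  have h2 : DifferentiableAt ℝ (fun v : _root_.Vale.Agent.P219.TP.E n => rhS (‖v‖ ^ 2)) 0 :=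
    (rhS_smooth.comp (contDiff_norm_sq ℝ)).differentiable (by simp) 0
  have h3 := h2.hasFDerivAt.smul (hasFDerivAt_id (𝕜 := ℝ) (0 : _root_.Vale.Agent.P219.TP.E n))
  refine h3.congr_fderiv ?_
  ext z
  simp [rhS_zero]

theorem rcL_zero : rcL (0 : _root_.Vale.Agent.P219.TP.E n) = 0 := by simp [rcL]

theorem rcE_zero : rcE (0 : _root_.Vale.Agent.P219.TP.E n) = 0 := by simp [rcE]

theorem rcE_rcL' (v : _root_.Vale.Agent.P219.TP.E n) : rcE (rcL v) = v := by
  rcases eq_or_ne v 0 with rfl | hv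
  · rw [rcL_zero, rcE_zero]
  · exact rcE_rcL v hv

theorem rcL_rcE' (w : _root_.Vale.Agent.P219.TP.E n) : rcL (rcE w) = w := by
  rcases eq_or_ne w 0 with rfl | hw
  · rw [rcE_zero, rcL_zero]
  · exact rcL_rcE w hw

theorem rcE_norm' (w : _root_.Vale.Agent.P219.TP.E n) : ‖rcE w‖ = Real.arsinh ‖w‖ := by
  rcases eq_or_ne w 0 with rfl | hw
  · rw [rcE_zero, norm_zero, Real.arsinh_zero]
  · exact rcE_norm w hw

/-- Normal coordinates are a smooth function of hyperboloid coordinates. -/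
theorem rcE_smooth : ContDiff ℝ ∞ (rcE : _root_.Vale.Agent.P219.TP.E n → _root_.Vale.Agent.P219.TP.E n) := by
  rw [contDiff_iff_contDiffAt]
  intro w
  rcases eq_or_ne w 0 with rfl | hw
  · have hd : HasFDerivAt (rcL : _root_.Vale.Agent.P219.TP.E n → _root_.Vale.Agent.P219.TP.E n)
        ((ContinuousLinearEquiv.refl ℝ (_root_.Vale.Agent.P219.TP.E n) : _root_.Vale.Agent.P219.TP.E n ≃L[ℝ] _root_.Vale.Agent.P219.TP.E n) : _root_.Vale.Agent.P219.TP.E n →L[ℝ] _root_.Vale.Agent.P219.TP.E n) 0 :=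
      rcL_hasFDerivAt_zero
    have h1 : ContDiffAt ℝ ∞ (rcL : _root_.Vale.Agent.P219.TP.E n → _root_.Vale.Agent.P219.TP.E n) 0 := rcL_smooth.contDiffAt
    have h2 := h1.to_localInverse hd (by simp)
    have h3 := h1.hasStrictFDerivAt' hd (by simp)
    have h4 := h3.localInverse_unique (g := rcE) (Eventually.of_forall rcE_rcL')
    rw [rcL_zero] at h2 h4
    exact h2.congr_of_eventuallyEq h4
  · have hopen : ∀ᶠ y in 𝓝 w, y ≠ 0 := isOpen_ne.mem_nhds hw
    unfold rcE
    have hn : ContDiffAt ℝ ∞ (fun y : _root_.Vale.Agent.P219.TP.E n => ‖y‖) w := contDiffAt_id.norm ℝ hw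
    exact (hn.arsinh.div hn (norm_ne_zero_iff.2 hw)).smul contDiffAt_id

theorem rcE_fderiv_zero : fderiv ℝ (rcE : _root_.Vale.Agent.P219.TP.E n → _root_.Vale.Agent.P219.TP.E n) 0 = ContinuousLinearMap.id ℝ (_root_.Vale.Agent.P219.TP.E n) := by
  have h1 : DifferentiableAt ℝ (rcE : _root_.Vale.Agent.P219.TP.E n → _root_.Vale.Agent.P219.TP.E n) 0 := rcE_smooth.differentiable (by simp) 0
  have h2 : HasFDerivAt (rcL : _root_.Vale.Agent.P219.TP.E n → _root_.Vale.Agent.P219.TP.E n) (ContinuousLinearMap.id ℝ (_root_.Vale.Agent.P219.TP.E n)) (rcE (0 : _root_.Vale.Agent.P219.TP.E n)) := by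
    rw [rcE_zero]; exact rcL_hasFDerivAt_zero
  have h3 := h2.comp (0 : _root_.Vale.Agent.P219.TP.E n) h1.hasFDerivAt
  have h4 : (rcL ∘ rcE : _root_.Vale.Agent.P219.TP.E n → _root_.Vale.Agent.P219.TP.E n) = id := funext rcL_rcE'
  rw [h4] at h3
  have h5 := h3.unique (hasFDerivAt_id (𝕜 := ℝ) (0 : _root_.Vale.Agent.P219.TP.E n))
  rwa [ContinuousLinearMap.id_comp] at h5

theorem rcE_metric {y : _root_.Vale.Agent.P219.TP.E n} (hy : y ≠ 0) (z : _root_.Vale.Agent.P219.TP.E n) :
    mq (rcE y) (fderiv ℝ rcE y z) = hq y z := by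
  have hline : HasDerivAt (fun τ : ℝ => y + τ • z) z 0 := by
    have := ((hasDerivAt_id (0 : ℝ)).smul_const z).const_add y
    simpa using this
  have hW0 : (fun τ : ℝ => y + τ • z) 0 = y := by simp
  obtain ⟨ζ, hζ, hm⟩ := rcE_hasDeriv hline hW0 hy
  have hd : DifferentiableAt ℝ (rcE : _root_.Vale.Agent.P219.TP.E n → _root_.Vale.Agent.P219.TP.E n) y := rcE_smooth.differentiable (by simp) y
  have hf : HasFDerivAt (rcE : _root_.Vale.Agent.P219.TP.E n → _root_.Vale.Agent.P219.TP.E n) (fderiv ℝ rcE y) ((fun τ : ℝ => y + τ • z) 0) := by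
    simpa using hd.hasFDerivAt
  have hcomp := hf.comp_hasDerivAt (0 : ℝ) hline
  have heq : fderiv ℝ rcE y z = ζ := hcomp.unique hζ
  rw [heq, hm]

theorem rcE_injective : Function.Injective (rcE : _root_.Vale.Agent.P219.TP.E n → _root_.Vale.Agent.P219.TP.E n) := fun y y' h => by
  rw [← rcL_rcE' y, ← rcL_rcE' y', h]

theorem rcE_image {R : ℝ} : rcE '' ball (0 : _root_.Vale.Agent.P219.TP.E n) (Real.sinh R) = ball 0 R := by
  ext v
  constructor
  · rintro ⟨y, hy, rfl⟩
    rw [mem_ball_zero_iff] at hy ⊢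
    rw [rcE_norm', ← Real.arsinh_sinh R]
    exact Real.arsinh_lt_arsinh.2 hy
  · intro hv
    rw [mem_ball_zero_iff] at hv
    refine ⟨rcL v, ?_, rcE_rcL' v⟩
    rw [mem_ball_zero_iff]
    rcases eq_or_ne v 0 with rfl | hv0
    · rw [rcL_zero, norm_zero]
      rw [norm_zero] at hv
      exact Real.sinh_pos_iff.2 hv
    · rw [rcL_norm v hv0]
      exact Real.sinh_lt_sinh.2 hv

/-- The metric in hyperboloid coordinates about the center. -/
theorem rc_chart (G : Geo n) {c : _root_.Vale.Agent.P219.TP.E n} {R : ℝ}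
    (hT : ∀ v ∈ ball (0 : _root_.Vale.Agent.P219.TP.E n) R, v ≠ 0 → ∀ z, ‖G.T c v z‖ ^ 2 = mq v z) {y : _root_.Vale.Agent.P219.TP.E n}
    (hy : y ∈ ball (0 : _root_.Vale.Agent.P219.TP.E n) (Real.sinh R)) (u : _root_.Vale.Agent.P219.TP.E n) :
    ‖G.T c (rcE y) (fderiv ℝ rcE y u)‖ ^ 2 = hq y u := by
  rcases eq_or_ne y 0 with rfl | hy0
  · rw [rcE_zero, G.T_zero, rcE_fderiv_zero]
    simp [hq]
  · have h1 : rcE y ∈ ball (0 : _root_.Vale.Agent.P219.TP.E n) R := by
      rw [← rcE_image]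
      exact ⟨y, hy, rfl⟩
    have h2 : rcE y ≠ 0 := by
      intro h
      exact hy0 (rcE_injective (h.trans rcE_zero.symm))
    rw [hT _ h1 h2, rcE_metric hy0]

end Vale.Agent.P219.SR
end

section

/-! # Equality case: a domain whose boundary is a geodesic sphere is a model ball -/

open MeasureTheory Set Metric Filter Topology
open scoped ENNReal ContDiff

noncomputable section

namespace Vale.Agent.P219.CH

variable {n : ℕ}

theorem rcm_vol (M : RiemMetric n) (e : Fin n → E n → E n) (he : TriangularFrame M e)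
    (hs : SecLE M 0) (F : GFlow M.g) {S : Set (E n)} (hS : MeasurableSet S) :
    (toGeo M e he hs F).vol S = riemVol M S := by
  have h1 : (toGeo M e he hs F).vol =
      volume.withDensity fun x => ENNReal.ofReal (volDensity M x) := rfl
  rw [h1, withDensity_apply _ hS]
  rfl

theorem rcm_ne (M : RiemMetric n) (D : SmoothDomain n) {V : ℝ} (hV0 : 0 < V)
    (hV : riemVol M D.carrier = ENNReal.ofReal V) : D.carrier.Nonempty := by
  rw [nonempty_iff_ne_empty]
  intro h0
  rw [h0] at hV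
  unfold riemVol at hV
  rw [Measure.restrict_empty, lintegral_zero_measure] at hV
  have := ENNReal.ofReal_pos.2 hV0
  rw [← hV] at this
  exact lt_irrefl _ this

theorem rcm_vol0 (hn : 1 ≤ n) (r : ℝ) : modelVol n 0 r = TPH.VR n 0 r := by
  have h1 : ∀ t : ℝ, sn √(-0) t = TPH.sn 0 t := by
    intro t
    simp [sn, TPH.sn]
  unfold modelVol TPH.VR
  rw [TP.sig_eq hn, om_eq]
  simp only [h1]

theorem rcm_vol1 (hn : 1 ≤ n) (r : ℝ) : modelVol n (-1) r = TPH.VR n 1 r := by
  have h1 : ∀ t : ℝ, sn √(-(-1)) t = TPH.sn 1 t := by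
    intro t
    unfold sn TPH.sn
    rw [neg_neg, Real.sqrt_one]
  unfold modelVol TPH.VR
  rw [TP.sig_eq hn, om_eq]
  simp only [h1]

/-- Equality case, `K = 0`: the geometric end. -/
theorem rig_center_flat (hn : 2 ≤ n) (M : RiemMetric n) (e : Fin n → E n → E n)
    (he : TriangularFrame M e) (hs : SecLE M 0) (F : GFlow M.g) (D : SmoothDomain n) {r : ℝ}
    (hr : 0 < r) (c : E n) (hfr : ∀ q ∈ frontier D.carrier, ‖(toGeo M e he hs F).lg c q‖ = r)
    (hV : riemVol M D.carrier = ENNReal.ofReal (modelVol n 0 r)) :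
    ∃ φ : E n → E n, ContDiff ℝ ∞ φ ∧ InjOn φ (ball 0 r) ∧ φ '' ball 0 r = D.carrier ∧
      ∀ x ∈ ball (0 : E n) r, ∀ u v,
        M.g (φ x) (fderiv ℝ φ x u) (fderiv ℝ φ x v) = inner ℝ u v := by
  set G := toGeo M e he hs F with hG
  have hn1 : 1 ≤ n := by omega
  have hopen : IsOpen D.carrier := isOpen_lt D.smooth.continuous continuous_const
  have hVpos : 0 < TPH.VR n 0 r := by
    have h1 := TPH.VR_strictMonoOn (k := 0) hn1 le_rfl (mem_Ici.2 le_rfl) (mem_Ici.2 hr.le) hr
    rwa [TPH.VR_zero] at h1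
  rw [rcm_vol0 hn1] at hV
  have hne : D.carrier.Nonempty := rcm_ne M D hVpos hV
  have hball : D.carrier = G.ex c '' ball 0 r := SR.rc_eq_ball G hopen D.bdd hne hr hfr
  have hVG : G.vol (G.ex c '' ball 0 r) ≤ ENNReal.ofReal (TPH.VR n 0 r) := by
    rw [← hball, ← hV]
    exact (rcm_vol M e he hs F hopen.measurableSet).le
  have hT : ∀ v ∈ ball (0 : E n) r, ∀ z, ‖G.T c v z‖ = ‖z‖ := fun v hv z =>
    SR.rc_flat G hn1 hr hVG hv z
  have hexs : ContDiff ℝ ∞ (G.ex c) := G.ex_smooth.comp (contDiff_const.prodMk contDiff_id)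
  refine ⟨G.ex c, hexs, ?_, hball.symm, ?_⟩
  · intro x _ y _ hxy
    have h1 := congrArg (G.lg c) hxy
    simpa only [G.lg_ex] using h1
  · intro x hx u v
    have hfd : ∀ u, fderiv ℝ (G.ex c) x u = frA e (G.ex c x) (G.T c x u) := fun u =>
      (G.T_spec c x u).symm
    rw [hfd, hfd]
    have h1 : M.g (G.ex c x) (frA e (G.ex c x) (G.T c x u)) (frA e (G.ex c x) (G.T c x v)) =
        inner ℝ (G.T c x u) (G.T c x v) := g_frA he _ _ _
    refine h1.trans ?_
    let L : E n →ₗᵢ[ℝ] E n := ⟨(G.T c x).toLinearMap, hT x hx⟩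
    exact L.inner_map_map u v

/-- Equality case, `K = -1`: the geometric end. -/
theorem rig_center_hyp (hn : 2 ≤ n) (M : RiemMetric n) (e : Fin n → E n → E n)
    (he : TriangularFrame M e) (hs : SecLE M (-1)) (F : GFlow M.g) (D : SmoothDomain n) {r : ℝ}
    (hr : 0 < r) (c : E n)
    (hfr : ∀ q ∈ frontier D.carrier, ‖(toGeo M e he (secLE_zero hs) F).lg c q‖ = r)
    (hV : riemVol M D.carrier = ENNReal.ofReal (modelVol n (-1) r)) :
    ∃ φ : E n → E n, ContDiffOn ℝ ∞ φ (ball 0 (Real.sinh r)) ∧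
      InjOn φ (ball 0 (Real.sinh r)) ∧ φ '' ball 0 (Real.sinh r) = D.carrier ∧
      ∀ y ∈ ball (0 : E n) (Real.sinh r), ∀ u v,
        M.g (φ y) (fderiv ℝ φ y u) (fderiv ℝ φ y v) =
          inner ℝ u v - inner ℝ y u * inner ℝ y v / (1 + ‖y‖ ^ 2) := by
  have hs0 : SecLE M 0 := secLE_zero hs
  have hcurv : TPH.Curv (toGeo M e he hs0 F) 1 := TPH.curv_of_geoH (toGeoH M e he hs F hn)
  set G := toGeo M e he hs0 F with hG
  have hn1 : 1 ≤ n := by omega
  have hopen : IsOpen D.carrier := isOpen_lt D.smooth.continuous continuous_const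
  have hVpos : 0 < TPH.VR n 1 r := by
    have h1 := TPH.VR_strictMonoOn (k := 1) hn1 zero_le_one (mem_Ici.2 le_rfl)
      (mem_Ici.2 hr.le) hr
    rwa [TPH.VR_zero] at h1
  rw [rcm_vol1 hn1] at hV
  have hne : D.carrier.Nonempty := rcm_ne M D hVpos hV
  have hball : D.carrier = G.ex c '' ball 0 r := SR.rc_eq_ball G hopen D.bdd hne hr hfr
  have hVG : G.vol (G.ex c '' ball 0 r) ≤ ENNReal.ofReal (TPH.VR n 1 r) := by
    rw [← hball, ← hV]
    exact (rcm_vol M e he hs0 F hopen.measurableSet).le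
  have hT : ∀ v ∈ ball (0 : E n) r, v ≠ 0 → ∀ z, ‖G.T c v z‖ ^ 2 = TPH.mq v z :=
    fun v hv hv0 z => SR.rc_hyp G hn hcurv hr hVG hv hv0 z
  have hexs : ContDiff ℝ ∞ (G.ex c) := G.ex_smooth.comp (contDiff_const.prodMk contDiff_id)
  have hinj : Function.Injective (G.ex c) := by
    intro x y hxy
    have h1 := congrArg (G.lg c) hxy
    simpa only [G.lg_ex] using h1
  refine ⟨fun y => G.ex c (TPH.rcE y), (hexs.comp SR.rcE_smooth).contDiffOn, ?_, ?_, ?_⟩
  · intro x _ y _ hxy
    exact SR.rcE_injective (hinj hxy)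
  · have h1 : (fun y => G.ex c (TPH.rcE y)) '' ball 0 (Real.sinh r) =
        G.ex c '' (TPH.rcE '' ball 0 (Real.sinh r)) := by rw [image_image]
    rw [h1, SR.rcE_image, ← hball]
  · intro y hy u v
    have hΨd : DifferentiableAt ℝ (TPH.rcE : E n → E n) y :=
      SR.rcE_smooth.differentiable (by simp) y
    have hexd : DifferentiableAt ℝ (G.ex c) (TPH.rcE y) := hexs.differentiable (by simp) _
    set L : E n →L[ℝ] E n := (G.T c (TPH.rcE y)).comp (fderiv ℝ TPH.rcE y) with hL
    have hfd : ∀ u, fderiv ℝ (fun y => G.ex c (TPH.rcE y)) y u =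
        frA e (G.ex c (TPH.rcE y)) (L u) := by
      intro u
      have h1 : fderiv ℝ (fun y => G.ex c (TPH.rcE y)) y =
          (fderiv ℝ (G.ex c) (TPH.rcE y)).comp (fderiv ℝ TPH.rcE y) := fderiv_comp y hexd hΨd
      rw [h1, ContinuousLinearMap.comp_apply]
      exact (G.T_spec c (TPH.rcE y) (fderiv ℝ TPH.rcE y u)).symm
    have hn2 : ∀ u, ‖L u‖ ^ 2 = ‖u‖ ^ 2 - inner ℝ y u ^ 2 / (1 + ‖y‖ ^ 2) := by
      intro u
      exact SR.rc_chart G hT hy u
    rw [hfd, hfd]
    have h1 : M.g (G.ex c (TPH.rcE y)) (frA e (G.ex c (TPH.rcE y)) (L u))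
        (frA e (G.ex c (TPH.rcE y)) (L v)) = inner ℝ (L u) (L v) := g_frA he _ _ _
    refine h1.trans ?_
    have h2 := hn2 (u + v)
    rw [map_add, norm_add_sq_real, norm_add_sq_real, hn2 u, hn2 v, inner_add_right] at h2
    have h3 : (1 + ‖y‖ ^ 2) ≠ 0 := by (clear * -; positivity)
    field_simp at h2 ⊢
    linarith

end Vale.Agent.P219.CH
end
end

section

/-! # Equality case, coordinate definitions, from the geodesic sphere statement -/

open MeasureTheory Set Metric Filter Topology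
open scoped ENNReal ContDiff

namespace Vale.Agent.P219.CH

/-- In the equality case for `K = 0` the boundary is a geodesic sphere. -/
def CenterFlat (n : ℕ) : Prop :=
  ∀ (M : RiemMetric n) (e : Fin n → E n → E n) (he : TriangularFrame M e) (hs : SecLE M 0)
    (F : GFlow M.g) (D : SmoothDomain n) (r : ℝ), 0 < r →
    riemVol M D.carrier = ENNReal.ofReal (modelVol n 0 r) →
    riemArea M D ≤ ENNReal.ofReal (modelArea n 0 r) →
    ∃ c, ∀ q ∈ frontier D.carrier, ‖(toGeo M e he hs F).lg c q‖ = r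

/-- In the equality case for `K = -1` the boundary is a geodesic sphere. -/
def CenterHyp (n : ℕ) : Prop :=
  ∀ (M : RiemMetric n) (e : Fin n → E n → E n) (he : TriangularFrame M e) (hs : SecLE M (-1))
    (F : GFlow M.g) (D : SmoothDomain n) (r : ℝ), 0 < r →
    riemVol M D.carrier = ENNReal.ofReal (modelVol n (-1) r) →
    riemArea M D ≤ ENNReal.ofReal (modelArea n (-1) r) →
    ∃ c, ∀ q ∈ frontier D.carrier, ‖(toGeo M e he (secLE_zero hs) F).lg c q‖ = r

end Vale.Agent.P219.CH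

namespace Vale.Agent.P219.Co

theorem rcc_pd_comp_smul {n : ℕ} (b : ℝ) (f : E n → ℝ) (i : Fin n) (y : E n) :
    pd i (fun z => f (b • z)) y = b * pd i f (b • y) := by
  unfold pd lineDeriv
  have e : (fun t : ℝ => f (b • (y + t • EuclideanSpace.single i 1))) =
      fun t : ℝ => (fun s : ℝ => f (b • y + s • EuclideanSpace.single i 1)) (b * t) := by
    funext t
    simp only [smul_add, smul_smul]
  have h := deriv_comp_mul_left b
    (fun s : ℝ => f (b • y + s • EuclideanSpace.single i 1)) 0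
  rw [mul_zero, smul_eq_mul] at h
  exact (congrArg (fun g => deriv g 0) e).trans h

/-- Scaling: `φ y = φ' (b y)`, `b = √(-κ)`. -/
theorem rcc_of_scale {n : ℕ} {M : RiemMetric n} {κ : ℝ} (hκ : κ < 0)
    {D : SmoothDomain n} {r : ℝ}
    (h : IsometricToBallK (scale M (-κ) (neg_pos.2 hκ)) (-1) D (√(-κ) * r)) :
    IsometricToBallK M κ D r := by
  obtain ⟨b, hb0, hb, hb2⟩ : ∃ b : ℝ, √(-κ) = b ∧ 0 < b ∧ -κ = b ^ 2 :=
    ⟨√(-κ), rfl, Real.sqrt_pos.2 (neg_pos.2 hκ), (Real.sq_sqrt (neg_pos.2 hκ).le).symm⟩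
  obtain ⟨φ, h1, h2, h3, h4⟩ := h
  rw [scale_sn_one, hb0] at h1 h2 h3 h4
  have hS : ∀ y : E n, ∑ i, y i ^ 2 < sn √(-κ) r ^ 2 ↔
      ∑ i, (b • y) i ^ 2 < Real.sinh (b * r) ^ 2 := by
    intro y
    rw [scale_sn hb hb2, div_pow, lt_div_iff₀ (pow_pos hb 2), Finset.sum_mul]
    have e : ∀ i, (b • y) i ^ 2 = y i ^ 2 * b ^ 2 := by
      intro i
      rw [PiLp.smul_apply, smul_eq_mul]
      ring
    simp only [e]
  have hmaps : MapsTo (fun y : E n => b • y) {y | ∑ i, y i ^ 2 < sn √(-κ) r ^ 2}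
      {y | ∑ i, y i ^ 2 < Real.sinh (b * r) ^ 2} := fun y hy => (hS y).1 hy
  refine ⟨fun y => φ (b • y), fun k => ?_, ?_, ?_, ?_⟩
  · exact (h1 k).comp (contDiff_const_smul b).contDiffOn hmaps
  · intro x hx y hy hxy
    have h5 := h2 (hmaps hx) (hmaps hy) hxy
    exact smul_right_injective _ hb.ne' h5
  · rw [← h3]
    ext z
    constructor
    · rintro ⟨y, hy, rfl⟩
      exact ⟨b • y, hmaps hy, rfl⟩
    · rintro ⟨y, hy, rfl⟩
      refine ⟨b⁻¹ • y, ?_, ?_⟩
      · have hy' : ∑ i, y i ^ 2 < Real.sinh (b * r) ^ 2 := hy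
        change ∑ i, (b⁻¹ • y) i ^ 2 < sn √(-κ) r ^ 2
        rw [hS, smul_inv_smul₀ hb.ne']
        exact hy'
      · simp only
        rw [smul_inv_smul₀ hb.ne']
  · intro y hy i j
    have h5 := h4 (b • y) (hmaps hy) i j
    have h6 : ∑ k, ∑ l, M.g (φ (b • y)) k l * pd i (fun z => φ (b • z) k) y *
        pd j (fun z => φ (b • z) l) y =
        ∑ k, ∑ l, (scale M (-κ) (neg_pos.2 hκ)).g (φ (b • y)) k l *
          pd i (fun z => φ z k) (b • y) * pd j (fun z => φ z l) (b • y) := by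
      refine Finset.sum_congr rfl fun k _ => Finset.sum_congr rfl fun l _ => ?_
      rw [rcc_pd_comp_smul b (fun z => φ z k), rcc_pd_comp_smul b (fun z => φ z l),
        scale_g_apply, hb2]
      ring
    rw [h6, h5]
    congr 1
    have e : ∑ m, (b • y) m ^ 2 = b ^ 2 * ∑ m, y m ^ 2 := by
      rw [Finset.mul_sum]
      refine Finset.sum_congr rfl fun i _ => ?_
      rw [PiLp.smul_apply, smul_eq_mul]
      ring
    have e2 : κ = -b ^ 2 := by linarith
    rw [e, e2, PiLp.smul_apply, PiLp.smul_apply, smul_eq_mul, smul_eq_mul]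
    congr 1 <;> ring

theorem rcc_ball_eq {n : ℕ} {r : ℝ} (hr : 0 < r) :
    {x : E n | ∑ i, x i ^ 2 < r ^ 2} = ball 0 r := by
  ext x
  rw [mem_ball, dist_zero_right, EuclideanSpace.norm_eq, Real.sqrt_lt' hr]
  simp

/-- Radius zero. -/
theorem rcc_radius_zero {n : ℕ} {κ : ℝ} (M : RiemMetric n) (D : SmoothDomain n)
    (hV : riemVol M D.carrier = ENNReal.ofReal (modelVol n κ 0)) :
    IsometricToBallK M κ D 0 := by
  obtain ⟨e, he⟩ := CH.exists_triangularFrame (old M)
  have hsn : sn √(-κ) 0 = 0 := by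
    unfold sn
    split_ifs <;> simp
  have hempty : {x : E n | ∑ i, x i ^ 2 < sn √(-κ) 0 ^ 2} = ∅ := by
    rw [hsn]
    ext x
    simp only [mem_ofPred_eq, mem_empty_iff_false, iff_false, not_lt]
    have : 0 ≤ ∑ i, x i ^ 2 := Finset.sum_nonneg fun i _ => sq_nonneg _
    simpa using this
  have hcar : D.carrier = ∅ := by
    rw [← modelVol_old, modelVol_zero, ENNReal.ofReal_zero, ← riemVol_old] at hV
    unfold Vale.Agent.P219.riemVol at hV
    have hopen : IsOpen D.carrier := isOpen_lt D.smooth.continuous continuous_const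
    rw [lintegral_eq_zero_iff] at hV
    · by_contra hne
      have hpos : 0 < volume D.carrier := hopen.measure_pos _ (nonempty_iff_ne_empty.2 hne)
      have h1 : ∀ᵐ x ∂(volume.restrict D.carrier), False := by
        filter_upwards [hV] with x hx
        have h2 := volDensity_gt (old M) e he x
        simp only [Pi.zero_apply, ENNReal.ofReal_eq_zero] at hx
        linarith
      rw [Filter.eventually_false_iff_eq_bot, ae_eq_bot, Measure.restrict_eq_zero] at h1
      exact hpos.ne' h1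
    · exact (volDensity_smooth (old M) e he).continuous.measurable.ennreal_ofReal
  refine ⟨id, fun k => ?_, ?_, ?_, ?_⟩
  · exact (EuclideanSpace.proj k : E n →L[ℝ] ℝ).contDiff.contDiffOn
  · rw [hempty]; exact Set.injOn_empty _
  · rw [hempty, image_empty, hcar]
  · intro x hx
    have : x ∈ {x : E n | ∑ i, x i ^ 2 < sn √(-κ) 0 ^ 2} := hx
    rw [hempty] at this
    exact this.elim

theorem rcc_pull {n : ℕ} (M : RiemMetric n) {φ : E n → E n} {x : E n}
    (hd : DifferentiableAt ℝ φ x) (i j : Fin n) :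
    ∑ k, ∑ l, M.g (φ x) k l * pd i (fun y => φ y k) x * pd j (fun y => φ y l) x =
      (old M).g (φ x) (fderiv ℝ φ x (basisVec i)) (fderiv ℝ φ x (basisVec j)) := by
  have hpd : ∀ (i k : Fin n), pd i (fun y => φ y k) x = (fderiv ℝ φ x (basisVec i)) k := by
    intro i k
    have h6 : HasFDerivAt (fun y => φ y k)
        ((EuclideanSpace.proj k : E n →L[ℝ] ℝ).comp (fderiv ℝ φ x)) x :=
      (EuclideanSpace.proj k : E n →L[ℝ] ℝ).hasFDerivAt.comp x hd.hasFDerivAt
    rw [pd_eq h6.differentiableAt, h6.fderiv]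
    rfl
  rw [old_apply]
  simp only [hpd, dotProduct, Matrix.mulVec, Finset.mul_sum]
  refine Finset.sum_congr rfl fun k _ => Finset.sum_congr rfl fun l _ => ?_
  ring

/-- Equality case, `K = 0`. -/
theorem equality_center_flat {n : ℕ} (hn : 2 ≤ n) (hC : CH.CenterFlat n) (M : RiemMetric n)
    (hc : GeodesicallyComplete M) (hs : SecLE M 0) (D : SmoothDomain n) (r : ℝ) (hr : 0 ≤ r)
    (hV : riemVol M D.carrier = ENNReal.ofReal (modelVol n 0 r))
    (hA : riemArea M D = ENNReal.ofReal (modelArea n 0 r)) : IsometricToBallK M 0 D r := by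
  obtain ⟨e, he⟩ := CH.exists_triangularFrame (old M)
  rcases hr.eq_or_lt with rfl | hr0
  · exact rcc_radius_zero M D hV
  · have hV' : Vale.Agent.P219.riemVol (old M) (oldDomain D).carrier =
        ENNReal.ofReal (Vale.Agent.P219.modelVol n 0 r) := by
      rw [riemVol_old, modelVol_old]
      exact hV
    have hA' : Vale.Agent.P219.riemArea (old M) (oldDomain D) ≤
        ENNReal.ofReal (Vale.Agent.P219.modelArea n 0 r) := by
      rw [riemArea_old (frame_of_old he), modelArea_old]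
      exact hA.le
    have hs' := secLE_old_of_frame ⟨e, he⟩ hs
    obtain ⟨F⟩ := CH.exists_gflow (CH.isMetricOn (old M)) (geoComplete_old hc)
    obtain ⟨c, hfr⟩ := hC (old M) e he hs' F (oldDomain D) r hr0 hV' hA'
    obtain ⟨φ, h1, h2, h3, h4⟩ := CH.rig_center_flat hn (old M) e he hs' F (oldDomain D) hr0 c
      hfr hV'
    have hsn : sn √(-0) r = r := by
      unfold sn
      rw [neg_zero, Real.sqrt_zero, if_pos rfl]
    have hball : {y : E n | ∑ i, y i ^ 2 < sn √(-0) r ^ 2} = ball 0 r := by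
      rw [hsn, rcc_ball_eq hr0]
    refine ⟨φ, fun k => ?_, ?_, ?_, ?_⟩
    · exact ((EuclideanSpace.proj k : E n →L[ℝ] ℝ).contDiff.comp h1).contDiffOn
    · rw [hball]; exact h2
    · rw [hball]; exact h3
    · intro x hx i j
      have hx' : x ∈ ball (0 : E n) r := by rw [← hball]; exact hx
      rw [rcc_pull M (h1.differentiable (by simp) x), h4 x hx']
      simp [basisVec, EuclideanSpace.inner_single_left, PiLp.single_apply]

/-- Equality case, `K = -1`. -/
theorem equality_center_one {n : ℕ} (hn : 2 ≤ n) (hC : CH.CenterHyp n) (M : RiemMetric n)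
    (hc : GeodesicallyComplete M) (hs : SecLE M (-1)) (D : SmoothDomain n) (r : ℝ) (hr : 0 ≤ r)
    (hV : riemVol M D.carrier = ENNReal.ofReal (modelVol n (-1) r))
    (hA : riemArea M D = ENNReal.ofReal (modelArea n (-1) r)) :
    IsometricToBallK M (-1) D r := by
  obtain ⟨e, he⟩ := CH.exists_triangularFrame (old M)
  rcases hr.eq_or_lt with rfl | hr0
  · exact rcc_radius_zero M D hV
  · have hV' : Vale.Agent.P219.riemVol (old M) (oldDomain D).carrier =
        ENNReal.ofReal (Vale.Agent.P219.modelVol n (-1) r) := by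
      rw [riemVol_old, modelVol_old]
      exact hV
    have hA' : Vale.Agent.P219.riemArea (old M) (oldDomain D) ≤
        ENNReal.ofReal (Vale.Agent.P219.modelArea n (-1) r) := by
      rw [riemArea_old (frame_of_old he), modelArea_old]
      exact hA.le
    have hs' := secLE_old_of_frame ⟨e, he⟩ hs
    obtain ⟨F⟩ := CH.exists_gflow (CH.isMetricOn (old M)) (geoComplete_old hc)
    obtain ⟨c, hfr⟩ := hC (old M) e he hs' F (oldDomain D) r hr0 hV' hA'
    obtain ⟨φ, h1, h2, h3, h4⟩ := CH.rig_center_hyp hn (old M) e he hs' F (oldDomain D) hr0 c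
      hfr hV'
    have hsr : 0 < Real.sinh r := Real.sinh_pos_iff.2 hr0
    have hball : {y : E n | ∑ i, y i ^ 2 < sn √(-(-1)) r ^ 2} = ball 0 (Real.sinh r) := by
      rw [scale_sn_one, rcc_ball_eq hsr]
    refine ⟨φ, fun k => ?_, ?_, ?_, ?_⟩
    · rw [hball]
      exact (EuclideanSpace.proj k : E n →L[ℝ] ℝ).contDiff.comp_contDiffOn h1
    · rw [hball]; exact h2
    · rw [hball]; exact h3
    · intro x hx i j
      have hx' : x ∈ ball (0 : E n) (Real.sinh r) := by rw [← hball]; exact hx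
      have hd : DifferentiableAt ℝ φ x :=
        (h1.contDiffAt (isOpen_ball.mem_nhds hx')).differentiableAt (by simp)
      rw [rcc_pull M hd, h4 x hx']
      have hn2 : ‖x‖ ^ 2 = ∑ m, x m ^ 2 := by
        rw [EuclideanSpace.norm_sq_eq]
        exact Finset.sum_congr rfl fun m _ => by rw [Real.norm_eq_abs, sq_abs]
      have hij : inner ℝ (basisVec i) (basisVec j) = (if i = j then 1 else 0 : ℝ) := by
        rcases eq_or_ne i j with rfl | hij
        · simp [basisVec, EuclideanSpace.inner_single_right]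
        · simp [basisVec, EuclideanSpace.inner_single_right, hij, hij.symm]
      have hx1 : ∀ k, inner ℝ x (basisVec k) = x k := by
        intro k
        simp [basisVec, EuclideanSpace.inner_single_right]
      rw [hn2, hij, hx1, hx1]
      ring

/-- Equality case, all `κ ≤ 0`, from the geodesic sphere statements. -/
theorem equality_center {n : ℕ} (hn : 2 ≤ n) (h0 : CH.CenterFlat n) (h1 : CH.CenterHyp n)
    (M : RiemMetric n) (hc : GeodesicallyComplete M) {κ : ℝ} (hκ : κ ≤ 0) (hs : SecLE M κ)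
    (D : SmoothDomain n) (r : ℝ) (hr : 0 ≤ r)
    (hV : riemVol M D.carrier = ENNReal.ofReal (modelVol n κ r))
    (hA : riemArea M D = ENNReal.ofReal (modelArea n κ r)) : IsometricToBallK M κ D r := by
  rcases hκ.eq_or_lt with rfl | hκ
  · exact equality_center_flat hn h0 M hc hs D r hr hV hA
  · obtain ⟨b, hb0, hb, hb2⟩ : ∃ b : ℝ, √(-κ) = b ∧ 0 < b ∧ -κ = b ^ 2 :=
      ⟨√(-κ), rfl, Real.sqrt_pos.2 (neg_pos.2 hκ), (Real.sq_sqrt (neg_pos.2 hκ).le).symm⟩
    apply rcc_of_scale hκ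
    apply equality_center_one hn h1 _ (scale_complete _ hc) (scale_sec hκ hs) D
    · (clear * - hr; positivity)
    · rw [hb0, scale_riemVol hb _ hb2, scale_modelVol (by omega) hb hb2, hV,
        ENNReal.ofReal_mul (pow_nonneg hb.le n)]
    · rw [hb0, scale_riemArea (by omega) hb _ hb2, scale_modelArea hb hb2, hA,
        ENNReal.ofReal_mul (pow_nonneg hb.le (n - 1))]

end Vale.Agent.P219.Co
end

section

/-! # Equality case: the cut-offs of an extremal domain are a minimising sequence -/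

open MeasureTheory Set Metric Filter Topology
open scoped ENNReal NNReal ContDiff

noncomputable section

namespace Vale.Agent.P219.SA

open Vale.Agent.P219.TP Vale.Agent.P219.TPH

/-- Equality case on the limit: if the mass of the limit is the model area, then the limit sits
on a geodesic sphere. -/
def LimRig (n : ℕ) (k : ℝ) : Prop :=
  ∀ G : Geo n, MonoSn G k → ∀ (o : E n) (ρ : ℝ) (I : ℝ → ℝ) (R : ℝ) (U : Ultrafilter ℕ)
    (h : ℕ → E n → ℝ) (V : Measure (E n × E n)), 0 < ρ → 0 < R → (U : Filter ℕ) ≤ atTop →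
    MonotoneOn I (Ici 0) → ContinuousOn I (Ici 0) → (∀ V, 0 ≤ V → 0 ≤ I V) → I 0 = 0 →
    (∀ R, 0 ≤ R → I (VR n k R) = AR n k R) → HasStrictDerivAt I (H0 n k R) (VR n k R) →
    MinSeq G o ρ I 0 (VR n k R) U h → IsLim G o ρ U h V → 0 < V.real univ →
    V.real univ ≤ AR n k R → ∃ c, ∀ᵐ z ∂V, ‖G.lg c z.1‖ = R

end Vale.Agent.P219.SA

namespace Vale.Agent.P219.CH

variable {n : ℕ}

theorem rs_V1_le_vp (G : TP.Geo n) (hn : 2 ≤ n) {h : E n → ℝ} (hh1 : ContDiff ℝ 1 h)
    (hcs : HasCompactSupport h) (h01 : ∀ x, 0 ≤ h x ∧ h x ≤ 1) : TPH.V1 G h ≤ G.vp h := by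
  have hp0 : (0 : ℝ) < (n : ℝ) / (n - 1) := by
    have : (2 : ℝ) ≤ n := by exact_mod_cast hn
    exact div_pos (by linarith) (by linarith)
  have hm1 : MeasurableSet {x | h x = 1} :=
    (isClosed_eq hh1.continuous continuous_const).measurableSet
  have hK : G.vol (tsupport h) < ⊤ := G.vol_compact_lt_top hcs.isCompact
  have hf1 : G.vol {x | h x = 1} ≠ ⊤ := by
    refine ((measure_mono fun x hx => ?_).trans_lt hK).ne
    refine subset_tsupport h ?_
    have : h x = 1 := hx
    rw [Function.mem_support, this]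
    exact one_ne_zero
  have hi1 : Integrable ({x | h x = 1}.indicator (1 : E n → ℝ)) G.vol :=
    (integrable_indicator_iff hm1).2 (integrableOn_const hf1)
  have hlow : ∀ x, {x | h x = 1}.indicator (1 : E n → ℝ) x ≤ h x ^ ((n : ℝ) / ((n : ℝ) - 1)) := by
    intro x
    by_cases hx : x ∈ {x | h x = 1}
    · have h1 : h x = 1 := hx
      rw [indicator_of_mem hx, h1, Real.one_rpow]
      rfl
    · rw [indicator_of_notMem hx]
      exact Real.rpow_nonneg (h01 x).1 _
  have hc : Continuous fun x => h x ^ ((n : ℝ) / ((n : ℝ) - 1)) :=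
    hh1.continuous.rpow_const fun x => Or.inr hp0.le
  have hcs' : HasCompactSupport fun x => h x ^ ((n : ℝ) / ((n : ℝ) - 1)) := by
    refine hcs.mono fun x hx => ?_
    rw [Function.mem_support] at hx ⊢
    intro h0
    apply hx
    rw [h0, Real.zero_rpow hp0.ne']
  have : IsFiniteMeasureOnCompacts G.vol := ⟨fun K hK => G.vol_compact_lt_top hK⟩
  have hi : Integrable (fun x => h x ^ ((n : ℝ) / ((n : ℝ) - 1))) G.vol :=
    hc.integrable_of_hasCompactSupport hcs'
  unfold TPH.V1 TP.Geo.vp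
  rw [← integral_indicator_one hm1]
  exact integral_mono hi1 hi hlow

theorem rs_V1 (M : RiemMetric n) (e : Fin n → E n → E n) (he : TriangularFrame M e)
    (hs : SecLE M 0) (F : GFlow M.g) (hn : 2 ≤ n) (D : SmoothDomain n) {V : ℝ} (hV0 : 0 ≤ V)
    (hV : riemVol M D.carrier = ENNReal.ofReal V) :
    Tendsto (fun k : ℕ => TPH.V1 (toGeo M e he hs F) (Feps D (1 / (k + 1)))) atTop (𝓝 V) ∧
    Tendsto (fun k : ℕ => (toGeo M e he hs F).vol.real
      {x | 0 < Feps D (1 / (k + 1)) x ∧ Feps D (1 / (k + 1)) x < 1}) atTop (𝓝 0) := by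
  obtain ⟨hvp, hlay⟩ := feps_vol M e he hs F hn D hV0 hV
  set G := toGeo M e he hs F with hG
  have hε : ∀ k : ℕ, 0 < 1 / ((k : ℝ) + 1) := fun k => by positivity
  have hb1 : ∀ k : ℕ, TPH.V1 G (Feps D (1 / (k + 1))) ≤ G.vp (Feps D (1 / (k + 1))) := fun k =>
    rs_V1_le_vp G hn ((Feps_smooth D _).of_le (by simp)) (Feps_compact D (hε k))
      fun x => ⟨Feps_nonneg D _ x, Feps_le_one D _ x⟩
  have hb2 : ∀ k : ℕ, G.vp (Feps D (1 / (k + 1))) ≤ TPH.V1 G (Feps D (1 / (k + 1))) +
        G.vol.real {x | 0 < Feps D (1 / (k + 1)) x ∧ Feps D (1 / (k + 1)) x < 1} := fun k =>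
    gl_vp_le G hn ((Feps_smooth D _).of_le (by simp)) (Feps_compact D (hε k))
      fun x => ⟨Feps_nonneg D _ x, Feps_le_one D _ x⟩
  have hlay0 : Tendsto (fun k : ℕ => G.vol.real
      {x | 0 < Feps D (1 / (k + 1)) x ∧ Feps D (1 / (k + 1)) x < 1}) atTop (𝓝 0) := by
    rw [Metric.tendsto_atTop]
    intro δ hδ
    obtain ⟨N, hN⟩ := eventually_atTop.1 (hlay δ hδ)
    refine ⟨N, fun k hk => ?_⟩
    rw [Real.dist_eq, sub_zero, abs_of_nonneg measureReal_nonneg]
    exact hN k hk
  refine ⟨?_, hlay0⟩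
  refine tendsto_of_tendsto_of_tendsto_of_le_of_le (f := fun k : ℕ =>
    TPH.V1 G (Feps D (1 / (k + 1)))) (g := fun k : ℕ => G.vp (Feps D (1 / (k + 1))) - G.vol.real
      {x | 0 < Feps D (1 / (k + 1)) x ∧ Feps D (1 / (k + 1)) x < 1})
    (h := fun k : ℕ => G.vp (Feps D (1 / (k + 1)))) ?_ hvp ?_ ?_
  · simpa using hvp.sub hlay0
  · intro k
    have := hb2 k
    simp only
    linarith only [this]
  · intro k
    exact hb1 k

/-- The boundary of an extremal domain is a geodesic sphere. -/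
theorem center_of_limRig (hn : 2 ≤ n) {k κ : ℝ} (hk : 0 ≤ k)
    (hVM : ∀ r, modelVol n κ r = TPH.VR n k r) (hAM : ∀ r, modelArea n κ r = TPH.AR n k r)
    (FI : TPH.FuncIso n k) (LR : SA.LimRig n k) (M : RiemMetric n) (e : Fin n → E n → E n)
    (he : TriangularFrame M e) (hs0 : SecLE M 0) (F : GFlow M.g)
    (hcurv : TPH.MonoSn (toGeo M e he hs0 F) k) (D : SmoothDomain n) {r : ℝ} (hr : 0 < r)
    (hV : riemVol M D.carrier = ENNReal.ofReal (modelVol n κ r))
    (hA : riemArea M D ≤ ENNReal.ofReal (modelArea n κ r)) :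
    ∃ c, ∀ q ∈ frontier D.carrier, ‖(toGeo M e he hs0 F).lg c q‖ = r := by
  have hn1 : 1 ≤ n := by omega
  have hVpos : 0 < TPH.VR n k r := by
    have h1 := TPH.VR_strictMonoOn (k := k) hn1 hk (mem_Ici.2 le_rfl) (mem_Ici.2 hr.le) hr
    rwa [TPH.VR_zero] at h1
  have hApos : 0 < TPH.AR n k r := TPH.AR_pos hn1 hk hr
  rw [hVM] at hV
  rw [hAM] at hA
  have hper := feps_per M e he hs0 F hn D hApos.le hA
  obtain ⟨hv1, hlay⟩ := rs_V1 M e he hs0 F hn D hVpos.le hV
  set G := toGeo M e he hs0 F with hG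
  obtain ⟨I, hImono, hIcont, hI0, hIz, hIR, hId⟩ := TPH.exists_profile (n := n) (k := k) hn hk
  have hlg : Continuous fun x => ‖G.lg 0 x‖ :=
    (G.lg_smooth.continuous.comp (continuous_const.prodMk continuous_id)).norm
  have hcomp : IsCompact (closure D.carrier) := D.bdd.isCompact_closure
  obtain ⟨B, hB⟩ := (hcomp.image hlg).isBounded.subset_closedBall 0
  have hB' : ∀ x ∈ D.carrier, ‖G.lg 0 x‖ ≤ max B 1 := by
    intro x hx
    have h1 := hB ⟨x, subset_closure hx, rfl⟩
    rw [mem_closedBall, dist_zero_right, Real.norm_eq_abs, abs_of_nonneg (norm_nonneg _)] at h1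
    exact h1.trans (le_max_left _ _)
  have hρ₀ : 0 < max B 1 := lt_of_lt_of_le one_pos (le_max_right _ _)
  have heps : ∀ k : ℕ, (0 : ℝ) < 1 / ((k : ℝ) + 1) := fun k => by (clear * -; positivity)
  have hcls : ∀ k : ℕ, G.Cls 0 (max B 1) (Feps D (1 / ((k : ℝ) + 1))) := by
    intro k
    refine ⟨(Feps_smooth D _).of_le (by simp), Feps_nonneg D _, Feps_le_one D _, ?_⟩
    intro x hx
    apply hB'
    by_contra hx'
    exact hx (Feps_eq_zero D (heps k) hx')
  have hinf : ∀ g, G.Cls 0 (max B 1) g → 0 ≤ G.per g - I (TPH.V1 G g) := by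
    intro g hg
    obtain ⟨R', hR', hVR⟩ := TPH.exists_VR (n := n) (k := k) hn1 hk (TPH.sliceh_V1_nonneg G g)
    have h1 := FI G hcurv g hg.smooth (TP.slice_hcs G hg) (fun x => ⟨hg.nonneg x, hg.le_one x⟩) R'
      hR' hVR.le
    rw [← hVR, hIR R' hR']
    linarith only [h1]
  set h : ℕ → E n → ℝ := fun j => Feps D (1 / ((j : ℝ) + 1)) with hh
  have hIV : Tendsto (fun j => I (TPH.V1 G (h j))) atTop (𝓝 (TPH.AR n k r)) := by
    rw [← hIR r hr.le]
    have h3 : Tendsto (fun j => TPH.V1 G (h j)) atTop (𝓝[Ici 0] (TPH.VR n k r)) :=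
      tendsto_nhdsWithin_iff.2 ⟨hv1, Eventually.of_forall fun j => TPH.sliceh_V1_nonneg G (h j)⟩
    exact (hIcont (TPH.VR n k r) hVpos.le).tendsto.comp h3
  have hpl : Tendsto (fun j => G.per (h j)) atTop (𝓝 (TPH.AR n k r)) := by
    rw [Metric.tendsto_atTop]
    intro δ hδ
    have h1 := hper (δ / 2) (by (clear * - hδ; positivity))
    have h2 := hIV.eventually (lt_mem_nhds (show TPH.AR n k r - δ < TPH.AR n k r by linarith only [hδ]))
    obtain ⟨N, hN⟩ := eventually_atTop.1 (h1.and h2)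
    refine ⟨N, fun j hj => ?_⟩
    obtain ⟨h3, h4⟩ := hN j hj
    have h5 := hinf (h j) (hcls j)
    rw [Real.dist_eq, abs_lt]
    constructor
    · linarith only [h5, h4]
    · have : G.per (h j) ≤ TPH.AR n k r + δ / 2 := h3
      linarith only [hδ, this]
  obtain ⟨C, hC⟩ := hpl.bddAbove_range
  have hC' : ∀ j, G.per (h j) ≤ C := fun j => hC ⟨j, rfl⟩
  set U : Ultrafilter ℕ := Ultrafilter.of atTop with hUdef
  have hU : (U : Filter ℕ) ≤ atTop := Ultrafilter.of_le atTop
  have hlim0 : Tendsto (fun j => G.per (h j) - I (TPH.V1 G (h j))) U (𝓝 0) := by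
    have h1 := hpl.sub hIV
    rw [sub_self] at h1
    exact h1.mono_left hU
  have hm : SA.MinSeq G 0 (max B 1) I 0 (TPH.VR n k r) U h :=
    ⟨hcls, hinf, hlim0, hlay.mono_left hU, hv1.mono_left hU⟩
  obtain ⟨V, hVl⟩ := SA.exists_isLim G hcls hC' U
  have hmass : V.real univ = TPH.AR n k r := by
    have h1 := SA.mass_eq G hIcont hVpos.le hm hVl
    rw [h1, hIR r hr.le, zero_add]
  obtain ⟨c, hc⟩ := LR G hcurv 0 (max B 1) I r U h V hρ₀ hr hU hImono hIcont hI0 hIz hIR
    (hId r hr) hm hVl (by rw [hmass]; exact hApos) hmass.le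
  refine ⟨c, ?_⟩
  have hlgc : Continuous fun x => ‖G.lg c x‖ :=
    (G.lg_smooth.continuous.comp (continuous_const.prodMk continuous_id)).norm
  have hφ : Continuous fun z : E n × E n => (‖G.lg c z.1‖ - r) ^ 2 :=
    ((hlgc.comp continuous_fst).sub continuous_const).pow 2
  have hl := hVl.lim (fun z => (‖G.lg c z.1‖ - r) ^ 2) hφ.continuousOn
  have hz : ∫ z, (‖G.lg c z.1‖ - r) ^ 2 ∂V = 0 := by
    rw [integral_congr_ae (g := fun _ => (0 : ℝ))]
    · simp
    · filter_upwards [hc] with z hz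
      rw [hz]
      ring
  rw [hz] at hl
  exact frontier_sphere_of_lim G hn1 D c r hU hl

theorem rs_sn_one (r : ℝ) : sn √(-(-1)) r = TPH.sn 1 r := by
  unfold sn TPH.sn
  rw [neg_neg, Real.sqrt_one]

theorem rs_sn_zero (r : ℝ) : sn √(-0) r = TPH.sn 0 r := by
  unfold sn TPH.sn
  rw [neg_zero, Real.sqrt_zero]

/-- `K = 0`. -/
theorem centerFlat_of_limRig (hn : 2 ≤ n) (FI : TPH.FuncIso n 0) (LR : SA.LimRig n 0) :
    CenterFlat n := by
  intro M e he hs F D r hr hV hA
  have hn1 : 1 ≤ n := by omega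
  refine center_of_limRig hn le_rfl (fun r => rcm_vol0 hn1 r) (fun r => ?_) FI LR M e he hs F
    (TPH.MonoSn.zero _) D hr hV hA
  unfold modelArea TPH.AR
  rw [TP.sig_eq hn1, om_eq, rs_sn_zero]

/-- `K = -1`. -/
theorem centerHyp_of_limRig (hn : 2 ≤ n) (FI : TPH.FuncIso n 1) (LR : SA.LimRig n 1) :
    CenterHyp n := by
  intro M e he hs F D r hr hV hA
  have hn1 : 1 ≤ n := by omega
  refine center_of_limRig hn zero_le_one (fun r => rcm_vol1 hn1 r) (fun r => ?_) FI LR M e he
    (secLE_zero hs) F (TPH.curv_of_geoH (toGeoH M e he hs F hn)).monoSn D hr hV hA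
  unfold modelArea TPH.AR
  rw [TP.sig_eq hn1, om_eq, rs_sn_one]

end Vale.Agent.P219.CH

namespace Vale.Agent.P219.Co

/-- The isoperimetric inequality with equality case, for `Sec ≤ κ`, all `κ ≤ 0`. -/
theorem equality_limRig {n : ℕ} (hn : 2 ≤ n) (FI : ∀ k : ℝ, 0 ≤ k → TPH.FuncIso n k)
    (LR : ∀ k : ℝ, 0 ≤ k → SA.LimRig n k) (M : RiemMetric n) (hc : GeodesicallyComplete M)
    {κ : ℝ} (hκ : κ ≤ 0) (hs : SecLE M κ) (D : SmoothDomain n) (r : ℝ) (hr : 0 ≤ r)
    (hV : riemVol M D.carrier = ENNReal.ofReal (modelVol n κ r))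
    (hA : riemArea M D = ENNReal.ofReal (modelArea n κ r)) : IsometricToBallK M κ D r :=
  equality_center hn (CH.centerFlat_of_limRig hn (FI 0 le_rfl) (LR 0 le_rfl))
    (CH.centerHyp_of_limRig hn (FI 1 zero_le_one) (LR 1 zero_le_one)) M hc hκ hs D r hr hV hA

end Vale.Agent.P219.Co
end
end

section

/-! # `n = 2`: upper bound of the pair integral -/

open MeasureTheory Set Metric
open scoped ENNReal ContDiff

namespace Vale.Agent.P219.N2

open Vale.Agent.P219.TP Vale.Agent.P219.TPH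

variable {G : Geo 2} {k : ℝ}

/-- The pointwise inequality. -/
theorem point_le {ct s r j : ℝ} (hk : 0 ≤ k) (hct : k ≤ ct) (hs : s ≤ 1)
    (hj : _root_.Vale.Agent.P219.TPH.sn k r ≤ j) : s * (k * j + 1 + Real.exp (-(k * r))) ≤
      ct * j + (s * (1 + _root_.Vale.Agent.P219.TPH.cs k r) - ct * _root_.Vale.Agent.P219.TPH.sn k r) := by
  have h1 := cs_sub_sn k r
  have h2 : s * k ≤ ct := by linarith only [hct, mul_nonneg (sub_nonneg.2 hk) (sub_nonneg.2 hs)]
  have h3 : ct * j + (s * (1 + _root_.Vale.Agent.P219.TPH.cs k r) - ct * _root_.Vale.Agent.P219.TPH.sn k r) -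
      s * (k * j + 1 + Real.exp (-(k * r))) = (ct - s * k) * (j - _root_.Vale.Agent.P219.TPH.sn k r) := by
    rw [← h1]
    ring
  have h4 : 0 ≤ (ct - s * k) * (j - _root_.Vale.Agent.P219.TPH.sn k r) := mul_nonneg (by linarith) (by linarith)
  linarith only [h3, h4]

theorem Fq_ray {h : _root_.Vale.Agent.P219.TP.E 2 → ℝ} (x : _root_.Vale.Agent.P219.TP.E 2) {u : _root_.Vale.Agent.P219.TP.E 2} (hu : ‖u‖ = 1) {r : ℝ} (hr : 0 < r) :
    ENNReal.ofReal (r ^ (2 - 1)) * Fq G k h (x, r • u) =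
      ENNReal.ofReal (if h x < h (G.ex x (r • u)) then max 0 (inner ℝ (G.D h x) u) *
        (k * jJ G x u r + 1 + Real.exp (-(k * r))) else 0) := by
  have hn1 : ‖r • u‖ = r := by rw [norm_smul, hu, mul_one, Real.norm_eq_abs, abs_of_pos hr]
  unfold Fq
  rw [← ENNReal.ofReal_mul (by positivity)]
  congr 1
  simp only [hn1, smul_smul, inv_mul_cancel₀ hr.ne', one_smul, Nat.add_one_sub_one, pow_one]
  split_ifs with h1
  · unfold jJ
    rw [← mul_assoc, mul_inv_cancel₀ hr.ne', one_mul]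
  · rw [mul_zero]

theorem pair_upper (hk : 0 ≤ k) (hG : MonoSn G k) {ct C : ℝ} {f : ℝ → ℝ} (hct : k ≤ ct)
    (hS1 : ∀ s ∈ Icc (0 : ℝ) 1, ∫⁻ r in Ioi (0 : ℝ),
      ENNReal.ofReal (s * (1 + _root_.Vale.Agent.P219.TPH.cs k r) - ct * _root_.Vale.Agent.P219.TPH.sn k r) ≤ ENNReal.ofReal (2 * (s * f s)))
    (hf : Continuous f) (hf0 : ∀ s ∈ Icc (0 : ℝ) 1, 0 ≤ f s)
    (hC : ∀ e : _root_.Vale.Agent.P219.TP.E 2, ‖e‖ = 1 → ∫ u : sphere (0 : _root_.Vale.Agent.P219.TP.E 2) 1,
      max 0 (inner ℝ e (u : _root_.Vale.Agent.P219.TP.E 2)) * f (max 0 (inner ℝ e (u : _root_.Vale.Agent.P219.TP.E 2)))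
        ∂((volume : Measure (_root_.Vale.Agent.P219.TP.E 2)).toSphere) ≤ C)
    {h : _root_.Vale.Agent.P219.TP.E 2 → ℝ} (hh : ContDiff ℝ 1 h) (x : _root_.Vale.Agent.P219.TP.E 2) :
    ∫⁻ v, Fq G k h (x, v) ≤ ENNReal.ofReal ‖G.D h x‖ *
      (ENNReal.ofReal ct * G.vol {y | h x < h y} + ENNReal.ofReal (2 * C)) := by
  have hct0 : 0 ≤ ct := hk.trans hct
  have hm : Measurable fun v : _root_.Vale.Agent.P219.TP.E 2 => Fq G k h (x, v) :=
    (measurable_Fq hh).comp (measurable_const.prodMk measurable_id)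
  rw [polar (n := 2) (by norm_num) hm]
  have hcg : ∀ u : sphere (0 : _root_.Vale.Agent.P219.TP.E 2) 1,
      ∫⁻ r in Ioi (0 : ℝ), ENNReal.ofReal (r ^ (2 - 1)) * Fq G k h (x, r • (u : _root_.Vale.Agent.P219.TP.E 2)) =
      ∫⁻ r in Ioi (0 : ℝ), ENNReal.ofReal (if h x < h (G.ex x (r • (u : _root_.Vale.Agent.P219.TP.E 2))) then
        max 0 (inner ℝ (G.D h x) (u : _root_.Vale.Agent.P219.TP.E 2)) *
        (k * jJ G x u r + 1 + Real.exp (-(k * r))) else 0) := fun u =>
    setLIntegral_congr_fun measurableSet_Ioi fun r hr => Fq_ray x (by simp) hr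
  simp only [hcg]
  rcases eq_or_ne (G.D h x) 0 with hD | hD
  · simp [hD]
  set d : ℝ := ‖G.D h x‖ with hd
  have hd0 : 0 < d := norm_pos_iff.2 hD
  set e : _root_.Vale.Agent.P219.TP.E 2 := d⁻¹ • G.D h x with he
  have he1 : ‖e‖ = 1 := by
    rw [he, norm_smul, norm_inv, Real.norm_eq_abs, abs_of_pos hd0, ← hd, inv_mul_cancel₀ hd0.ne']
  have hDe : G.D h x = d • e := by rw [he, smul_smul, mul_inv_cancel₀ hd0.ne', one_smul]
  set S : _root_.Vale.Agent.P219.TP.E 2 → ℝ := fun u => max 0 (inner ℝ e u) with hS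
  have hSd : ∀ u : _root_.Vale.Agent.P219.TP.E 2, max 0 (inner ℝ (G.D h x) u) = d * S u := by
    intro u
    rw [hDe, real_inner_smul_left]
    show max 0 (d * inner ℝ e u) = d * max 0 (inner ℝ e u)
    rw [mul_max_of_nonneg _ _ hd0.le, mul_zero]
  have hS01 : ∀ u : sphere (0 : _root_.Vale.Agent.P219.TP.E 2) 1, S u ∈ Icc (0 : ℝ) 1 := by
    intro u
    refine ⟨le_max_left _ _, max_le zero_le_one ?_⟩
    have := real_inner_le_norm e (u : _root_.Vale.Agent.P219.TP.E 2)
    rw [he1] at this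
    simpa using this
  have hU : MeasurableSet {y | h x < h y} := (isOpen_lt continuous_const hh.continuous).measurableSet
  set U : Set (_root_.Vale.Agent.P219.TP.E 2) := {y | h x < h y} with hUdef
  have hjc : ∀ u : _root_.Vale.Agent.P219.TP.E 2, Continuous (jJ G x u) := fun u => (jJ_contDiff G x u).continuous
  have hexc : ∀ u : _root_.Vale.Agent.P219.TP.E 2, Continuous fun r : ℝ => G.ex x (r • u) := fun u =>
    G.ex_smooth.continuous.comp (continuous_const.prodMk (continuous_id.smul continuous_const))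
  -- the bound on a ray
  have hray : ∀ u : sphere (0 : _root_.Vale.Agent.P219.TP.E 2) 1,
      ∫⁻ r in Ioi (0 : ℝ), ENNReal.ofReal (if h x < h (G.ex x (r • (u : _root_.Vale.Agent.P219.TP.E 2))) then
        max 0 (inner ℝ (G.D h x) (u : _root_.Vale.Agent.P219.TP.E 2)) *
        (k * jJ G x u r + 1 + Real.exp (-(k * r))) else 0) ≤
      ENNReal.ofReal d * (ENNReal.ofReal ct * (∫⁻ r in Ioi (0 : ℝ),
        ENNReal.ofReal (jJ G x u r) * U.indicator (fun _ => 1) (G.ex x (r • (u : _root_.Vale.Agent.P219.TP.E 2)))) +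
        ENNReal.ofReal (2 * (S u * f (S u)))) := by
    intro u
    have hu : ‖(u : _root_.Vale.Agent.P219.TP.E 2)‖ = 1 := by simp
    have h1 : ∀ r ∈ Ioi (0 : ℝ), ENNReal.ofReal (if h x < h (G.ex x (r • (u : _root_.Vale.Agent.P219.TP.E 2))) then
        max 0 (inner ℝ (G.D h x) (u : _root_.Vale.Agent.P219.TP.E 2)) *
        (k * jJ G x u r + 1 + Real.exp (-(k * r))) else 0) ≤
        ENNReal.ofReal d * (ENNReal.ofReal ct *
          (ENNReal.ofReal (jJ G x u r) * U.indicator (fun _ => 1) (G.ex x (r • (u : _root_.Vale.Agent.P219.TP.E 2)))) +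
          ENNReal.ofReal (S u * (1 + _root_.Vale.Agent.P219.TPH.cs k r) - ct * _root_.Vale.Agent.P219.TPH.sn k r)) := by
      intro r hr
      have hr0 : (0 : ℝ) < r := hr
      have hj := jJ_ge hk hG x hu hr0
      have hj0 : 0 ≤ jJ G x u r := (_root_.Vale.Agent.P219.TPH.sn_pos hk hr0).le.trans hj
      split_ifs with hlt
      · have hmem : G.ex x (r • (u : _root_.Vale.Agent.P219.TP.E 2)) ∈ U := hlt
        rw [indicator_of_mem hmem, mul_one, hSd, mul_assoc, ENNReal.ofReal_mul hd0.le]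
        gcongr
        rw [← ENNReal.ofReal_mul hct0]
        refine (ENNReal.ofReal_le_ofReal (point_le hk hct (hS01 u).2 hj)).trans ?_
        exact ENNReal.ofReal_add_le
      · rw [ENNReal.ofReal_zero]
        exact zero_le
    refine (setLIntegral_mono' measurableSet_Ioi h1).trans ?_
    have hm1 : Measurable fun r : ℝ => ENNReal.ofReal (jJ G x u r) *
        U.indicator (fun _ => (1 : ℝ≥0∞)) (G.ex x (r • (u : _root_.Vale.Agent.P219.TP.E 2))) :=
      (hjc u).measurable.ennreal_ofReal.mul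
        ((measurable_const.indicator hU).comp (hexc u).measurable)
    rw [lintegral_const_mul' _ _ ENNReal.ofReal_ne_top, lintegral_add_left (hm1.const_mul _),
      lintegral_const_mul' _ _ ENNReal.ofReal_ne_top]
    gcongr
    exact hS1 _ (hS01 u)
  refine (lintegral_mono hray).trans ?_
  have hm2 : Measurable fun u : sphere (0 : _root_.Vale.Agent.P219.TP.E 2) 1 => ENNReal.ofReal (2 * (S u * f (S u))) := by
    have hSc : Continuous fun u : sphere (0 : _root_.Vale.Agent.P219.TP.E 2) 1 => S u := by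
      simp only [hS]
      fun_prop
    exact (by fun_prop : Continuous fun u : sphere (0 : E 2) 1 =>
      2 * (S u * f (S u))).measurable.ennreal_ofReal
  rw [lintegral_const_mul' _ _ ENNReal.ofReal_ne_top, lintegral_add_right _ hm2,
    lintegral_const_mul' _ _ ENNReal.ofReal_ne_top, ← polar_area G x
      (F := U.indicator fun _ => 1) (measurable_const.indicator hU),
    lintegral_indicator_const hU, one_mul]
  gcongr
  have hSc : Continuous fun u : sphere (0 : _root_.Vale.Agent.P219.TP.E 2) 1 => S u := by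
    simp only [hS]
    fun_prop
  have hSf : Continuous fun u : sphere (0 : _root_.Vale.Agent.P219.TP.E 2) 1 => 2 * (S u * f (S u)) := by fun_prop
  rw [← ofReal_integral_eq_lintegral_ofReal]
  · rw [integral_const_mul]
    exact ENNReal.ofReal_le_ofReal (mul_le_mul_of_nonneg_left (hC e he1) zero_le_two)
  · exact hSf.integrable_of_hasCompactSupport (HasCompactSupport.of_compactSpace _)
  · exact Filter.Eventually.of_forall fun u => mul_nonneg zero_le_two
      (mul_nonneg (hS01 u).1 (hf0 _ (hS01 u)))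

end Vale.Agent.P219.N2
end

section

/-! # Equality case, from the chord relations at one boundary point -/

open MeasureTheory Set Metric Filter Topology
open scoped ENNReal ContDiff

noncomputable section

namespace Vale.Agent.P219.CH

variable {n : ℕ}

/-- The chord relations at one boundary point, `K = 0`. -/
def HfrFlat (n : ℕ) : Prop :=
  ∀ (M : RiemMetric n) (e : Fin n → E n → E n) (he : TriangularFrame M e) (hs : SecLE M 0)
    (F : GFlow M.g) (D : SmoothDomain n) (r : ℝ), 0 < r →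
    riemVol M D.carrier = ENNReal.ofReal (modelVol n 0 r) →
    riemArea M D ≤ ENNReal.ofReal (modelArea n 0 r) →
    ∃ p N : E n, ‖N‖ = 1 ∧ ∀ q ∈ frontier D.carrier, q ≠ p →
      2 * r * inner ℝ ((toGeo M e he hs F).lg p q) N = ‖(toGeo M e he hs F).lg p q‖ ^ 2 ∧
        |((toGeo M e he hs F).T p ((toGeo M e he hs F).lg p q)).det| = 1

/-- The chord relations at one boundary point, `K = -1`. -/
def HfrHyp (n : ℕ) : Prop :=
  ∀ (M : RiemMetric n) (e : Fin n → E n → E n) (he : TriangularFrame M e) (hs : SecLE M (-1))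
    (F : GFlow M.g) (D : SmoothDomain n) (r : ℝ), 0 < r →
    riemVol M D.carrier = ENNReal.ofReal (modelVol n (-1) r) →
    riemArea M D ≤ ENNReal.ofReal (modelArea n (-1) r) →
    ∃ p N : E n, ‖N‖ = 1 ∧ ∀ q ∈ frontier D.carrier, q ≠ p →
      Real.sinh (‖(toGeo M e he (secLE_zero hs) F).lg p q‖ / 2) * Real.cosh r *
          ‖(toGeo M e he (secLE_zero hs) F).lg p q‖ =
        inner ℝ ((toGeo M e he (secLE_zero hs) F).lg p q) N *
          (Real.cosh (‖(toGeo M e he (secLE_zero hs) F).lg p q‖ / 2) * Real.sinh r) ∧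
      |((toGeo M e he (secLE_zero hs) F).T p ((toGeo M e he (secLE_zero hs) F).lg p q)).det| *
          ‖(toGeo M e he (secLE_zero hs) F).lg p q‖ ^ (n - 1) =
        Real.sinh ‖(toGeo M e he (secLE_zero hs) F).lg p q‖ ^ (n - 1)

theorem hfr_flat_phi (hn : 2 ≤ n) (M : RiemMetric n) (e : Fin n → E n → E n)
    (he : TriangularFrame M e) (hs : SecLE M 0) (F : GFlow M.g) (D : SmoothDomain n) {r : ℝ}
    (hr : 0 < r) {p N : E n} (hN : ‖N‖ = 1)
    (hfr : ∀ q ∈ frontier D.carrier, q ≠ p →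
      2 * r * inner ℝ ((toGeo M e he hs F).lg p q) N = ‖(toGeo M e he hs F).lg p q‖ ^ 2 ∧
        |((toGeo M e he hs F).T p ((toGeo M e he hs F).lg p q)).det| = 1)
    (hV : riemVol M D.carrier = ENNReal.ofReal (modelVol n 0 r)) :
    ∃ φ : E n → E n, ContDiff ℝ ∞ φ ∧ InjOn φ (ball 0 r) ∧ φ '' ball 0 r = D.carrier ∧
      ∀ x ∈ ball (0 : E n) r, ∀ u v,
        M.g (φ x) (fderiv ℝ φ x u) (fderiv ℝ φ x v) = inner ℝ u v := by
  set G := toGeo M e he hs F with hG
  have hn1 : 1 ≤ n := by omega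
  have hopen : IsOpen D.carrier := isOpen_lt D.smooth.continuous continuous_const
  have hVpos : 0 < TPH.VR n 0 r := by
    have h1 := TPH.VR_strictMonoOn (k := 0) hn1 le_rfl (mem_Ici.2 le_rfl) (mem_Ici.2 hr.le) hr
    rwa [TPH.VR_zero] at h1
  rw [rcm_vol0 hn1] at hV
  have hne : D.carrier.Nonempty := rcm_ne M D hVpos hV
  obtain ⟨hball, hT⟩ := TP.flat_ball G hn hopen D.bdd hne hr hN hfr
  set v₀ : E n := r • N with hv₀
  have hexs : ContDiff ℝ ∞ (G.ex p) :=
    G.ex_smooth.comp (contDiff_const.prodMk contDiff_id)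
  have himg : (fun x : E n => x + v₀) '' ball 0 r = ball v₀ r := by
    ext y
    constructor
    · rintro ⟨x, hx, rfl⟩
      rw [mem_ball, dist_eq_norm] at hx ⊢
      simpa using hx
    · intro hy
      refine ⟨y - v₀, ?_, by simp⟩
      rw [mem_ball, dist_eq_norm] at hy ⊢
      simpa using hy
  refine ⟨fun x => G.ex p (x + v₀), hexs.comp (contDiff_id.add contDiff_const), ?_, ?_, ?_⟩
  · intro x _ y _ hxy
    have h1 := congrArg (G.lg p) hxy
    simp only [G.lg_ex] at h1
    exact add_right_cancel h1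
  · rw [hball, ← himg, image_image]
  · intro x hx u v
    have hxv : x + v₀ ∈ ball v₀ r := by
      rw [← himg]
      exact ⟨x, hx, rfl⟩
    have hfd : ∀ u, fderiv ℝ (fun x => G.ex p (x + v₀)) x u =
        frA e (G.ex p (x + v₀)) (G.T p (x + v₀) u) := by
      intro u
      rw [fderiv_comp_add_right]
      exact (G.T_spec p (x + v₀) u).symm
    rw [hfd, hfd]
    have h1 : M.g (G.ex p (x + v₀)) (frA e (G.ex p (x + v₀)) (G.T p (x + v₀) u))
        (frA e (G.ex p (x + v₀)) (G.T p (x + v₀) v)) =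
        inner ℝ (G.T p (x + v₀) u) (G.T p (x + v₀) v) := g_frA he _ _ _
    refine h1.trans ?_
    let L : E n →ₗᵢ[ℝ] E n := ⟨(G.T p (x + v₀)).toLinearMap, hT (x + v₀) hxv⟩
    exact L.inner_map_map u v

theorem hfr_hyp_phi (hn : 2 ≤ n) (M : RiemMetric n) (e : Fin n → E n → E n)
    (he : TriangularFrame M e) (hs : SecLE M (-1)) (F : GFlow M.g) (D : SmoothDomain n) {r : ℝ}
    (hr : 0 < r) {p N : E n} (hN : ‖N‖ = 1)
    (hfr : ∀ q ∈ frontier D.carrier, q ≠ p →
      Real.sinh (‖(toGeo M e he (secLE_zero hs) F).lg p q‖ / 2) * Real.cosh r *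
          ‖(toGeo M e he (secLE_zero hs) F).lg p q‖ =
        inner ℝ ((toGeo M e he (secLE_zero hs) F).lg p q) N *
          (Real.cosh (‖(toGeo M e he (secLE_zero hs) F).lg p q‖ / 2) * Real.sinh r) ∧
      |((toGeo M e he (secLE_zero hs) F).T p ((toGeo M e he (secLE_zero hs) F).lg p q)).det| *
          ‖(toGeo M e he (secLE_zero hs) F).lg p q‖ ^ (n - 1) =
        Real.sinh ‖(toGeo M e he (secLE_zero hs) F).lg p q‖ ^ (n - 1))
    (hV : riemVol M D.carrier = ENNReal.ofReal (modelVol n (-1) r)) :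
    ∃ φ : E n → E n, ContDiffOn ℝ ∞ φ (ball 0 (Real.sinh r)) ∧
      InjOn φ (ball 0 (Real.sinh r)) ∧ φ '' ball 0 (Real.sinh r) = D.carrier ∧
      ∀ y ∈ ball (0 : E n) (Real.sinh r), ∀ u v,
        M.g (φ y) (fderiv ℝ φ y u) (fderiv ℝ φ y v) =
          inner ℝ u v - inner ℝ y u * inner ℝ y v / (1 + ‖y‖ ^ 2) := by
  have hs0 : SecLE M 0 := secLE_zero hs
  have hcurv : TPH.Curv (toGeo M e he hs0 F) 1 := TPH.curv_of_geoH (toGeoH M e he hs F hn)
  set G := toGeo M e he hs0 F with hG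
  have hn1 : 1 ≤ n := by omega
  have hopen : IsOpen D.carrier := isOpen_lt D.smooth.continuous continuous_const
  have hVpos : 0 < TPH.VR n 1 r := by
    have h1 := TPH.VR_strictMonoOn (k := 1) hn1 zero_le_one (mem_Ici.2 le_rfl)
      (mem_Ici.2 hr.le) hr
    rwa [TPH.VR_zero] at h1
  rw [rcm_vol1 hn1] at hV
  have hne : D.carrier.Nonempty := rcm_ne M D hVpos hV
  obtain ⟨hball, hT⟩ := TPH.hyp_ball G hn hcurv hopen D.bdd hne hr hN hfr
  obtain ⟨Ψ, hΨs, hΨi, hΨim, hΨq⟩ := TPH.exists_recenter hN hr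
  have hexs : ContDiff ℝ ∞ (G.ex p) :=
    G.ex_smooth.comp (contDiff_const.prodMk contDiff_id)
  have hinj : Function.Injective (G.ex p) := by
    intro x y hxy
    have h1 := congrArg (G.lg p) hxy
    simpa only [G.lg_ex] using h1
  refine ⟨fun y => G.ex p (Ψ y), hexs.comp_contDiffOn hΨs, ?_, ?_, ?_⟩
  · intro x hx y hy hxy
    exact hΨi hx hy (hinj hxy)
  · have h1 : (fun y => G.ex p (Ψ y)) '' ball 0 (Real.sinh r) =
        G.ex p '' (Ψ '' ball 0 (Real.sinh r)) := by rw [image_image]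
    rw [h1, hΨim, ← hball]
  · intro y hy u v
    have hΨd : DifferentiableAt ℝ Ψ y :=
      (hΨs.contDiffAt (isOpen_ball.mem_nhds hy)).differentiableAt (by simp)
    have hexd : DifferentiableAt ℝ (G.ex p) (Ψ y) := hexs.differentiable (by simp) _
    have hmem : Ψ y ∈ TPH.regH N r := by
      rw [← hΨim]
      exact ⟨y, hy, rfl⟩
    set L : E n →L[ℝ] E n := (G.T p (Ψ y)).comp (fderiv ℝ Ψ y) with hL
    have hfd : ∀ u, fderiv ℝ (fun y => G.ex p (Ψ y)) y u = frA e (G.ex p (Ψ y)) (L u) := by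
      intro u
      have h1 : fderiv ℝ (fun y => G.ex p (Ψ y)) y =
          (fderiv ℝ (G.ex p) (Ψ y)).comp (fderiv ℝ Ψ y) := fderiv_comp y hexd hΨd
      rw [h1, ContinuousLinearMap.comp_apply]
      exact (G.T_spec p (Ψ y) (fderiv ℝ Ψ y u)).symm
    have hn2 : ∀ u, ‖L u‖ ^ 2 = ‖u‖ ^ 2 - inner ℝ y u ^ 2 / (1 + ‖y‖ ^ 2) := by
      intro u
      have h1 := hT (Ψ y) hmem (fderiv ℝ Ψ y u)
      rw [hL, ContinuousLinearMap.comp_apply, h1, hΨq y hy u]
      rfl
    rw [hfd, hfd]
    have h1 : M.g (G.ex p (Ψ y)) (frA e (G.ex p (Ψ y)) (L u)) (frA e (G.ex p (Ψ y)) (L v)) =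
        inner ℝ (L u) (L v) := g_frA he _ _ _
    refine h1.trans ?_
    have h2 := hn2 (u + v)
    rw [map_add, norm_add_sq_real, norm_add_sq_real, hn2 u, hn2 v, inner_add_right] at h2
    have h3 : (1 + ‖y‖ ^ 2) ≠ 0 := by (clear * -; positivity)
    field_simp at h2 ⊢
    linarith

end Vale.Agent.P219.CH

namespace Vale.Agent.P219.Co

/-- Equality case, `K = 0`. -/
theorem equality_hfr_flat {n : ℕ} (hn : 2 ≤ n) (hC : CH.HfrFlat n) (M : RiemMetric n)
    (hc : GeodesicallyComplete M) (hs : SecLE M 0) (D : SmoothDomain n) (r : ℝ) (hr : 0 ≤ r)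
    (hV : riemVol M D.carrier = ENNReal.ofReal (modelVol n 0 r))
    (hA : riemArea M D = ENNReal.ofReal (modelArea n 0 r)) : IsometricToBallK M 0 D r := by
  obtain ⟨e, he⟩ := CH.exists_triangularFrame (old M)
  rcases hr.eq_or_lt with rfl | hr0
  · exact rcc_radius_zero M D hV
  · have hV' : Vale.Agent.P219.riemVol (old M) (oldDomain D).carrier =
        ENNReal.ofReal (Vale.Agent.P219.modelVol n 0 r) := by
      rw [riemVol_old, modelVol_old]
      exact hV
    have hA' : Vale.Agent.P219.riemArea (old M) (oldDomain D) ≤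
        ENNReal.ofReal (Vale.Agent.P219.modelArea n 0 r) := by
      rw [riemArea_old (frame_of_old he), modelArea_old]
      exact hA.le
    have hs' := secLE_old_of_frame ⟨e, he⟩ hs
    obtain ⟨F⟩ := CH.exists_gflow (CH.isMetricOn (old M)) (geoComplete_old hc)
    obtain ⟨p, N, hN, hfr⟩ := hC (old M) e he hs' F (oldDomain D) r hr0 hV' hA'
    obtain ⟨φ, h1, h2, h3, h4⟩ := CH.hfr_flat_phi hn (old M) e he hs' F (oldDomain D) hr0 hN
      hfr hV'
    have hsn : sn √(-0) r = r := by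
      unfold sn
      rw [neg_zero, Real.sqrt_zero, if_pos rfl]
    have hball : {y : E n | ∑ i, y i ^ 2 < sn √(-0) r ^ 2} = ball 0 r := by
      rw [hsn, rcc_ball_eq hr0]
    refine ⟨φ, fun k => ?_, ?_, ?_, ?_⟩
    · exact ((EuclideanSpace.proj k : E n →L[ℝ] ℝ).contDiff.comp h1).contDiffOn
    · rw [hball]; exact h2
    · rw [hball]; exact h3
    · intro x hx i j
      have hx' : x ∈ ball (0 : E n) r := by rw [← hball]; exact hx
      rw [rcc_pull M (h1.differentiable (by simp) x), h4 x hx']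
      simp [basisVec, EuclideanSpace.inner_single_left, PiLp.single_apply]

/-- Equality case, `K = -1`. -/
theorem equality_hfr_one {n : ℕ} (hn : 2 ≤ n) (hC : CH.HfrHyp n) (M : RiemMetric n)
    (hc : GeodesicallyComplete M) (hs : SecLE M (-1)) (D : SmoothDomain n) (r : ℝ) (hr : 0 ≤ r)
    (hV : riemVol M D.carrier = ENNReal.ofReal (modelVol n (-1) r))
    (hA : riemArea M D = ENNReal.ofReal (modelArea n (-1) r)) :
    IsometricToBallK M (-1) D r := by
  obtain ⟨e, he⟩ := CH.exists_triangularFrame (old M)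
  rcases hr.eq_or_lt with rfl | hr0
  · exact rcc_radius_zero M D hV
  · have hV' : Vale.Agent.P219.riemVol (old M) (oldDomain D).carrier =
        ENNReal.ofReal (Vale.Agent.P219.modelVol n (-1) r) := by
      rw [riemVol_old, modelVol_old]
      exact hV
    have hA' : Vale.Agent.P219.riemArea (old M) (oldDomain D) ≤
        ENNReal.ofReal (Vale.Agent.P219.modelArea n (-1) r) := by
      rw [riemArea_old (frame_of_old he), modelArea_old]
      exact hA.le
    have hs' := secLE_old_of_frame ⟨e, he⟩ hs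
    obtain ⟨F⟩ := CH.exists_gflow (CH.isMetricOn (old M)) (geoComplete_old hc)
    obtain ⟨p, N, hN, hfr⟩ := hC (old M) e he hs' F (oldDomain D) r hr0 hV' hA'
    obtain ⟨φ, h1, h2, h3, h4⟩ := CH.hfr_hyp_phi hn (old M) e he hs' F (oldDomain D) hr0 hN
      hfr hV'
    have hsr : 0 < Real.sinh r := Real.sinh_pos_iff.2 hr0
    have hball : {y : E n | ∑ i, y i ^ 2 < sn √(-(-1)) r ^ 2} = ball 0 (Real.sinh r) := by
      rw [scale_sn_one, rcc_ball_eq hsr]
    refine ⟨φ, fun k => ?_, ?_, ?_, ?_⟩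
    · rw [hball]
      exact (EuclideanSpace.proj k : E n →L[ℝ] ℝ).contDiff.comp_contDiffOn h1
    · rw [hball]; exact h2
    · rw [hball]; exact h3
    · intro x hx i j
      have hx' : x ∈ ball (0 : E n) (Real.sinh r) := by rw [← hball]; exact hx
      have hd : DifferentiableAt ℝ φ x :=
        (h1.contDiffAt (isOpen_ball.mem_nhds hx')).differentiableAt (by simp)
      rw [rcc_pull M hd, h4 x hx']
      have hn2 : ‖x‖ ^ 2 = ∑ m, x m ^ 2 := by
        rw [EuclideanSpace.norm_sq_eq]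
        exact Finset.sum_congr rfl fun m _ => by rw [Real.norm_eq_abs, sq_abs]
      have hij : inner ℝ (basisVec i) (basisVec j) = (if i = j then 1 else 0 : ℝ) := by
        rcases eq_or_ne i j with rfl | hij
        · simp [basisVec, EuclideanSpace.inner_single_right]
        · simp [basisVec, EuclideanSpace.inner_single_right, hij, hij.symm]
      have hx1 : ∀ k, inner ℝ x (basisVec k) = x k := by
        intro k
        simp [basisVec, EuclideanSpace.inner_single_right]
      rw [hn2, hij, hx1, hx1]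
      ring

/-- Equality case, all `κ ≤ 0`, from the chord relations at one boundary point. -/
theorem equality_of_hfr {n : ℕ} (hn : 2 ≤ n) (h0 : CH.HfrFlat n) (h1 : CH.HfrHyp n)
    (M : RiemMetric n) (hc : GeodesicallyComplete M) {κ : ℝ} (hκ : κ ≤ 0) (hs : SecLE M κ)
    (D : SmoothDomain n) (r : ℝ) (hr : 0 ≤ r)
    (hV : riemVol M D.carrier = ENNReal.ofReal (modelVol n κ r))
    (hA : riemArea M D = ENNReal.ofReal (modelArea n κ r)) : IsometricToBallK M κ D r := by
  rcases hκ.eq_or_lt with rfl | hκ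
  · exact equality_hfr_flat hn h0 M hc hs D r hr hV hA
  · obtain ⟨b, hb0, hb, hb2⟩ : ∃ b : ℝ, √(-κ) = b ∧ 0 < b ∧ -κ = b ^ 2 :=
      ⟨√(-κ), rfl, Real.sqrt_pos.2 (neg_pos.2 hκ), (Real.sq_sqrt (neg_pos.2 hκ).le).symm⟩
    apply rcc_of_scale hκ
    apply equality_hfr_one hn h1 _ (scale_complete _ hc) (scale_sec hκ hs) D
    · positivity
    · rw [hb0, scale_riemVol hb _ hb2, scale_modelVol (by omega) hb hb2, hV,
        ENNReal.ofReal_mul (pow_nonneg hb.le n)]
    · rw [hb0, scale_riemArea (by omega) hb _ hb2, scale_modelArea hb hb2, hA,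
        ENNReal.ofReal_mul (pow_nonneg hb.le (n - 1))]

end Vale.Agent.P219.Co
end
end
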