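import Mathlib
import Vale.Agent.P219.Bdl.B11
import Vale.Agent.P219.Bdl.B2
import Vale.Agent.P219.Bdl.B10
import Vale.Agent.P219.Bdl.B6
import Vale.Agent.P219.Bdl.B3
import Vale.Agent.P219.Bdl.B7
import Vale.Agent.P219.Bdl.B5

set_option linter.all false

section

/-! # P219, density: half-mass centres -/

open MeasureTheory Set Metric Filter Topology
open scoped ENNReal ContDiff

namespace Vale.Agent.P219.SA

open Vale.Agent.P219.TP Vale.Agent.P219.TPH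
open Vale.Agent.P219.End (KS nrm isCompact_KS)

variable {n : ℕ} (G : Geo n)

theorem pj_eq_pm (h : _root_.Vale.Agent.P219.TP.E n → ℝ) (c : _root_.Vale.Agent.P219.TP.E n) {t : ℝ} (ht : 0 < t) :
    pj G h c t = MPG.pm G t h c := by
  unfold pj MPG.pm gm
  rw [integral_withDensity_eq_integral_toReal_smul (gd_meas t)
    (.of_forall fun v => ENNReal.ofReal_lt_top)]
  congr 1
  funext v
  rw [ENNReal.toReal_ofReal (gd_nonneg ht v), smul_eq_mul, mul_comm]

/-- Density bound for the averages. -/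
theorem pj_half (hn : 1 ≤ n) {o : _root_.Vale.Agent.P219.TP.E n} {ρ : ℝ} {h : _root_.Vale.Agent.P219.TP.E n → ℝ} (hh : G.Cls o ρ h) (c : _root_.Vale.Agent.P219.TP.E n) {t : ℝ}
    (ht : 0 < t) : 4 * (pj G h c t * (1 - pj G h c t)) ≤ Th G h c t +
      (t / Real.pi) ^ ((n : ℝ) / 2) * G.vol.real {x | 0 < h x ∧ h x < 1} := by
  rw [pj_eq_pm G h c ht]
  exact MPG.mp_half G hn ht hh c

/-- At a boundary point of the ball the mass is at most one half. -/
theorem pj_bdry (hn : 1 ≤ n) {o x : _root_.Vale.Agent.P219.TP.E n} {ρ : ℝ} (hx : ‖G.lg o x‖ = ρ) {h : _root_.Vale.Agent.P219.TP.E n → ℝ} (hh : G.Cls o ρ h)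
    {t : ℝ} (ht : 0 < t) : pj G h x t ≤ 1 / 2 := by
  have hb : ∀ y, |h y| ≤ 1 := fun y => by rw [abs_of_nonneg (hh.nonneg y)]; exact hh.le_one y
  have hm : Measurable h := hh.smooth.continuous.measurable
  have i1 := int_pj G hm hb x ht
  have e1 : ∫ v : _root_.Vale.Agent.P219.TP.E n, h (G.ex x (-v)) * gd t v = pj G h x t := by
    unfold pj
    have h1 := integral_neg_eq_self (fun v : _root_.Vale.Agent.P219.TP.E n => h (G.ex x v) * gd t v) volume
    rw [← h1]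
    congr 1
    funext v
    unfold gd
    rw [norm_neg]
  have i2 : Integrable fun v : _root_.Vale.Agent.P219.TP.E n => h (G.ex x (-v)) * gd t v := by
    have h1 := i1.comp_neg
    refine h1.congr (.of_forall fun v => ?_)
    simp only
    unfold gd
    rw [norm_neg]
  have hkey : ∀ v : _root_.Vale.Agent.P219.TP.E n, h (G.ex x v) ≠ 0 → ‖v‖ ^ 2 ≤ 2 * inner ℝ v (G.lg x o) := by
    intro v hv
    have h1 := hh.supp _ hv
    have h2 := G.lg_nonexp x (G.ex x v) o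
    rw [G.lg_ex, G.norm_lg_comm] at h2
    have h3 : ‖v - G.lg x o‖ ≤ ρ := h2.trans h1
    have h4 : ‖v - G.lg x o‖ ^ 2 ≤ ρ ^ 2 := pow_le_pow_left₀ (norm_nonneg _) h3 2
    rw [norm_sub_sq_real, G.norm_lg_comm x o, hx] at h4
    linarith
  have h2 : ∫ v : _root_.Vale.Agent.P219.TP.E n, (h (G.ex x v) * gd t v + h (G.ex x (-v)) * gd t v) ≤ ∫ v : _root_.Vale.Agent.P219.TP.E n, gd t v := by
    refine integral_mono_ae (i1.add i2) (integrable_gd ht) ?_
    have h3 : ∀ᵐ v : _root_.Vale.Agent.P219.TP.E n, v ≠ 0 := by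
      have : Nonempty (Fin n) := ⟨⟨0, by omega⟩⟩
      have : (volume : Measure (_root_.Vale.Agent.P219.TP.E n)) {0} = 0 := measure_singleton 0
      refine (measure_eq_zero_iff_ae_notMem.1 this).mono fun v hv => ?_
      simpa using hv
    filter_upwards [h3] with v hv
    show h (G.ex x v) * gd t v + h (G.ex x (-v)) * gd t v ≤ gd t v
    rw [← add_mul]
    refine mul_le_of_le_one_left (gd_nonneg ht v) ?_
    by_cases a1 : h (G.ex x v) = 0
    · rw [a1, zero_add]; exact hh.le_one _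
    by_cases a2 : h (G.ex x (-v)) = 0
    · rw [a2, add_zero]; exact hh.le_one _
    have b1 := hkey v a1
    have b2 := hkey (-v) a2
    rw [norm_neg, inner_neg_left] at b2
    have b3 : ‖v‖ ^ 2 ≤ 0 := by linarith only [b2, b1]
    have b4 : v = 0 := by
      rw [← norm_eq_zero]
      exact pow_eq_zero_iff (two_ne_zero) |>.1 (le_antisymm b3 (sq_nonneg _))
    exact absurd b4 hv
  rw [integral_add i1 i2, e1, integral_gd ht] at h2
  have h3 : ∫ v, h (G.ex x v) * gd t v = pj G h x t := rfl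
  rw [h3] at h2
  linarith only [h2]

/-- The neighbourhood of `x` in the ball. -/
def nbd (o x : _root_.Vale.Agent.P219.TP.E n) (ρ e : ℝ) : Set (_root_.Vale.Agent.P219.TP.E n) := {c | ‖G.lg o c‖ ≤ ρ ∧ ‖G.lg x c‖ ≤ e}

theorem nbd_compact (o x : _root_.Vale.Agent.P219.TP.E n) (ρ e : ℝ) : IsCompact (nbd G o x ρ e) := by
  refine (gB_compact G o ρ).inter_right (t := {c | ‖G.lg x c‖ ≤ e}) ?_
  exact (gB_compact G x e).isClosed

theorem nbd_preconnected {o x : _root_.Vale.Agent.P219.TP.E n} {ρ e : ℝ} (hx : ‖G.lg o x‖ ≤ ρ) (he : 0 ≤ e) :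
    IsPreconnected (nbd G o x ρ e) := by
  have hxm : x ∈ nbd G o x ρ e := ⟨hx, by rw [G.lg_self, norm_zero]; exact he⟩
  refine isPreconnected_of_forall x fun y hy => ?_
  refine ⟨(fun s : ℝ => G.ex x (s • G.lg x y)) '' Icc 0 1, ?_, ?_, ?_, ?_⟩
  · rintro _ ⟨s, hs, rfl⟩
    refine ⟨G.ball_convex hx hy.1 hs.1 hs.2, ?_⟩
    simp only [G.lg_ex, norm_smul, Real.norm_eq_abs, abs_of_nonneg hs.1]
    exact (mul_le_of_le_one_left (norm_nonneg _) hs.2).trans hy.2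
  · exact ⟨0, ⟨le_rfl, zero_le_one⟩, by simp [G.ex_zero]⟩
  · exact ⟨1, ⟨zero_le_one, le_rfl⟩, by simp [G.ex_lg]⟩
  · refine isPreconnected_Icc.image _ ?_
    have h1 : Continuous fun s : ℝ => G.ex x (s • G.lg x y) :=
      (G.ex_smooth_right x).continuous.comp (by fun_prop)
    exact h1.continuousOn

/-- The limit of the averages. -/
theorem exists_pl {o : _root_.Vale.Agent.P219.TP.E n} {ρ : ℝ} {g : ℕ → _root_.Vale.Agent.P219.TP.E n → ℝ} (hg : ∀ j, G.Cls o ρ (g j))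
    (U : Ultrafilter ℕ) : ∃ p : _root_.Vale.Agent.P219.TP.E n × ℝ → ℝ, Continuous p ∧ ∀ z,
    Tendsto (fun j => pj G (g j) z.1 (Real.exp z.2)) U (𝓝 (p z)) := by
  have h1 : ∀ z : _root_.Vale.Agent.P219.TP.E n × ℝ, ∃ a : ℝ,
      Tendsto (fun j => pj G (g j) z.1 (Real.exp z.2)) U (𝓝 a) := by
    intro z
    have hb : ∀ j, pj G (g j) z.1 (Real.exp z.2) ∈ Icc (0 : ℝ) 1 := fun j =>
      ⟨pj_nonneg G (hg j).nonneg _ (Real.exp_pos _), pj_le_one G (hg j).smooth.continuous.measurable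
        (hg j).nonneg (hg j).le_one _ (Real.exp_pos _)⟩
    obtain ⟨a, -, ha⟩ := isCompact_Icc.ultrafilter_le_nhds'
      (U.map fun j => pj G (g j) z.1 (Real.exp z.2)) (by
        rw [Ultrafilter.mem_map]
        exact Filter.univ_mem' hb)
    exact ⟨a, ha⟩
  choose p hp using h1
  refine ⟨p, ?_, hp⟩
  rw [continuous_iff_continuousAt]
  intro z₀
  rw [ContinuousAt, Metric.tendsto_nhds]
  intro ε hε
  filter_upwards [pj_equi G hg z₀ (show 0 < ε / 2 by positivity)] with z hz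
  rw [Real.dist_eq]
  have h2 : Tendsto (fun j => |pj G (g j) z.1 (Real.exp z.2) - pj G (g j) z₀.1 (Real.exp z₀.2)|) U
      (𝓝 |p z - p z₀|) := ((hp z).sub (hp z₀)).abs
  have h3 := le_of_tendsto' h2 fun j => (hz j).le
  linarith

/-- Gaussian density of the limit. -/
noncomputable def ThV (V : Measure (_root_.Vale.Agent.P219.TP.E n × _root_.Vale.Agent.P219.TP.E n)) (c : _root_.Vale.Agent.P219.TP.E n) (t : ℝ) : ℝ :=
  (t / Real.pi) ^ (((n : ℝ) - 1) / 2) * ∫ z, Real.exp (-t * ‖G.lg c z.1‖ ^ 2) ∂V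

theorem Th_tendsto {o : _root_.Vale.Agent.P219.TP.E n} {ρ : ℝ} {U : Ultrafilter ℕ} {h : ℕ → _root_.Vale.Agent.P219.TP.E n → ℝ}
    {V : Measure (_root_.Vale.Agent.P219.TP.E n × _root_.Vale.Agent.P219.TP.E n)} (hV : IsLim G o ρ U h V) (c : _root_.Vale.Agent.P219.TP.E n) (t : ℝ) :
    Tendsto (fun j => Th G (h j) c t) U (𝓝 (ThV G V c t)) := by
  unfold Th ThV
  refine Tendsto.const_mul _ ?_
  have h1 : Continuous fun z : _root_.Vale.Agent.P219.TP.E n × _root_.Vale.Agent.P219.TP.E n => ‖G.lg c z.1‖ :=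
    (G.lg_smooth.continuous.comp (continuous_const.prodMk continuous_fst)).norm
  have hc : Continuous fun z : _root_.Vale.Agent.P219.TP.E n × _root_.Vale.Agent.P219.TP.E n => Real.exp (-t * ‖G.lg c z.1‖ ^ 2) := by continuity
  exact hV.lim _ hc.continuousOn

theorem pl_ineq (hn : 1 ≤ n) {o : _root_.Vale.Agent.P219.TP.E n} {ρ : ℝ} {I : ℝ → ℝ} {J Vs : ℝ} {U : Ultrafilter ℕ}
    {h : ℕ → _root_.Vale.Agent.P219.TP.E n → ℝ} (hm : MinSeq G o ρ I J Vs U h) {V : Measure (_root_.Vale.Agent.P219.TP.E n × _root_.Vale.Agent.P219.TP.E n)}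
    (hV : IsLim G o ρ U h V) {p : _root_.Vale.Agent.P219.TP.E n × ℝ → ℝ}
    (hp : ∀ z, Tendsto (fun j => pj G (h j) z.1 (Real.exp z.2)) U (𝓝 (p z))) (z : _root_.Vale.Agent.P219.TP.E n × ℝ) :
    4 * (p z * (1 - p z)) ≤ ThV G V z.1 (Real.exp z.2) := by
  have h1 : Tendsto (fun j => 4 * (pj G (h j) z.1 (Real.exp z.2) *
      (1 - pj G (h j) z.1 (Real.exp z.2)))) U (𝓝 (4 * (p z * (1 - p z)))) :=
    ((hp z).mul (tendsto_const_nhds.sub (hp z))).const_mul 4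
  have h2 := (Th_tendsto G hV z.1 (Real.exp z.2)).add
    (hm.thin.const_mul ((Real.exp z.2 / Real.pi) ^ ((n : ℝ) / 2)))
  rw [mul_zero, add_zero] at h2
  exact le_of_tendsto_of_tendsto' h1 h2 fun j => pj_half G hn (hm.cls j) z.1 (Real.exp_pos _)

/-- Dichotomy. -/
theorem pl_sign {p : _root_.Vale.Agent.P219.TP.E n × ℝ → ℝ} (hp : Continuous p) {D : Set (_root_.Vale.Agent.P219.TP.E n × ℝ)} (hD : IsPreconnected D)
    (hne : ∀ z ∈ D, p z ≠ 1 / 2) : (∀ z ∈ D, p z < 1 / 2) ∨ (∀ z ∈ D, 1 / 2 < p z) := by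
  by_contra hcon
  push Not at hcon
  obtain ⟨⟨z₁, h1, h1'⟩, z₂, h2, h2'⟩ := hcon
  obtain ⟨z, hz, hz'⟩ := hD.intermediate_value h2 h1 hp.continuousOn ⟨h2', h1'⟩
  exact hne z hz hz'

end Vale.Agent.P219.SA
end

section

/-! # The hyperbolic law of cosines and the midpoint inequality in a Cartan-Hadamard geometry

`law_cos`: `cosh (k d(p,y)) ≥ cosh kr cosh kR - sinh kr sinh kR cos ∠` for the angle at `c`.
`exists_mid`: the midpoint comparison for `F = (cosh (k r) - 1) / k²`.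
-/

open MeasureTheory Set Metric Filter Topology
open scoped ENNReal ContDiff

namespace Vale.Agent.P219.SA

open Vale.Agent.P219.TP Vale.Agent.P219.TPH
open Vale.Agent.P219.End hiding E D

variable {n : ℕ}

theorem mid_sq {a b : ℝ} (h : a ^ 2 ≤ b ^ 2) (hb : 0 ≤ b) : a ≤ b := by
  by_contra hc
  rw [not_le] at hc
  linarith [mul_pos (sub_pos.2 hc) (sub_pos.2 hc), mul_nonneg (sub_nonneg.2 hb) (le_of_lt (sub_pos.2 hc)), h]

theorem mid_quad {A B C : ℝ} (hA : 0 ≤ A) (hB : 0 ≤ B) (h : C ^ 2 ≤ A * B) :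
    0 ≤ A + B + 2 * C := by
  have h1 : (-(2 * C)) ^ 2 ≤ (A + B) ^ 2 := by linarith only [sq_nonneg (A - B), h]
  have h2 := mid_sq h1 (add_nonneg hA hB)
  linarith

/-- Comparison with `cosh` for a function on a line. -/
theorem mid_ode {f f' : ℝ → ℝ} {lam : ℝ} (hlam : 0 ≤ lam) (hf : ∀ t, HasDerivAt f (f' t) t)
    (h0 : f 0 = 1) (hb : ∀ t, f' t ^ 2 ≤ lam ^ 2 * (f t ^ 2 - 1)) : f 1 ≤ Real.cosh lam := by
  have key : ∀ δ : ℝ, 0 < δ → f 1 ≤ Real.cosh (lam + δ + δ) := by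
    intro δ hδ
    have hB : ∀ x : ℝ, HasDerivAt (fun s : ℝ => Real.cosh ((lam + δ) * s + δ))
        (Real.sinh ((lam + δ) * x + δ) * (lam + δ)) x := by
      intro x
      have h1 : HasDerivAt (fun s : ℝ => (lam + δ) * s + δ) (lam + δ) x := by
        simpa using ((hasDerivAt_id x).const_mul (lam + δ)).add_const δ
      exact h1.cosh
    have hmain := image_le_of_deriv_right_lt_deriv_boundary (f := f) (f' := f') (a := 0) (b := 1)
      (fun x _ => (hf x).continuousAt.continuousWithinAt)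
      (fun x _ => (hf x).hasDerivWithinAt)
      (B := fun s : ℝ => Real.cosh ((lam + δ) * s + δ))
      (B' := fun x => Real.sinh ((lam + δ) * x + δ) * (lam + δ))
      (by rw [h0]; exact Real.one_le_cosh _) hB
      (fun x hx hfx => by
        have hθ : 0 < (lam + δ) * x + δ := by
          have : 0 ≤ (lam + δ) * x := mul_nonneg (by linarith) hx.1
          linarith
        have hs : 0 < Real.sinh ((lam + δ) * x + δ) := Real.sinh_pos_iff.2 hθ
        have h1 := hb x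
        rw [hfx, Real.cosh_sq] at h1
        have h2 : f' x ^ 2 ≤ (lam * Real.sinh ((lam + δ) * x + δ)) ^ 2 := by
          rw [mul_pow]
          linarith
        have h3 : f' x ≤ lam * Real.sinh ((lam + δ) * x + δ) :=
          mid_sq h2 (mul_nonneg hlam hs.le)
        have h4 : lam * Real.sinh ((lam + δ) * x + δ) <
            Real.sinh ((lam + δ) * x + δ) * (lam + δ) := by linarith only [mul_pos (sub_pos.2 hδ) (sub_pos.2 hs)]
        exact h3.trans_lt h4)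
    have h1 := hmain (x := 1) ⟨zero_le_one, le_rfl⟩
    simpa using h1
  have hc : Tendsto (fun δ : ℝ => Real.cosh (lam + δ + δ)) (𝓝[>] 0) (𝓝 (Real.cosh lam)) := by
    have h1 : Continuous fun δ : ℝ => Real.cosh (lam + δ + δ) :=
      Real.continuous_cosh.comp (by fun_prop)
    have h2 := h1.tendsto 0
    simp only [add_zero] at h2
    exact h2.mono_left nhdsWithin_le_nhds
  refine ge_of_tendsto hc ?_
  filter_upwards [self_mem_nhdsWithin] with δ hδ
  exact key δ hδ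

/-- `cosh (k d)` for the points at `a`, `v` in the hyperbolic picture. -/
noncomputable def hyp (k : ℝ) (a v : _root_.Vale.Agent.P219.TP.E n) : ℝ :=
  _root_.Vale.Agent.P219.TPH.cs k ‖a‖ * _root_.Vale.Agent.P219.TPH.cs k ‖v‖ - k ^ 2 * (chi k (‖a‖ ^ 2) * chi k (‖v‖ ^ 2) * inner ℝ a v)

/-- its differential -/
noncomputable def hypD (k : ℝ) (a v z : _root_.Vale.Agent.P219.TP.E n) : ℝ :=
  _root_.Vale.Agent.P219.TPH.cs k ‖a‖ * (k ^ 2 * (chi k (‖v‖ ^ 2) * inner ℝ v z)) -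
    k ^ 2 * (chi k (‖a‖ ^ 2) * (2 * deriv (chi k) (‖v‖ ^ 2) * inner ℝ v z * inner ℝ a v +
      chi k (‖v‖ ^ 2) * inner ℝ a z))

theorem hyp_self (k : ℝ) (a : _root_.Vale.Agent.P219.TP.E n) : hyp k a a = 1 := by
  unfold hyp
  have h1 := cs_sq k ‖a‖
  have h2 := sn_eq_chi k ‖a‖
  rw [h2] at h1
  rw [real_inner_self_eq_norm_sq]
  linear_combination h1

theorem hasDerivAt_hyp (k : ℝ) (a : _root_.Vale.Agent.P219.TP.E n) {v : ℝ → _root_.Vale.Agent.P219.TP.E n} {z : _root_.Vale.Agent.P219.TP.E n} {t : ℝ}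
    (hv : HasDerivAt v z t) :
    HasDerivAt (fun t => hyp k a (v t)) (hypD k a (v t) z) t := by
  have h1 : HasDerivAt (fun t => ‖v t‖ ^ 2) (2 * inner ℝ (v t) z) t := hv.norm_sq
  have h2 : HasDerivAt (fun t => ff k (‖v t‖ ^ 2))
      (chi k (‖v t‖ ^ 2) / 2 * (2 * inner ℝ (v t) z)) t :=
    HasDerivAt.comp (h₂ := ff k) t (hasDerivAt_ff_sq k (sq_nonneg _)) h1
  have h3 : HasDerivAt (chi k) (deriv (chi k) (‖v t‖ ^ 2)) (‖v t‖ ^ 2) :=
    ((chi_smooth k).differentiable (by simp) _).hasDerivAt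
  have h4 : HasDerivAt (fun t => chi k (‖v t‖ ^ 2))
      (deriv (chi k) (‖v t‖ ^ 2) * (2 * inner ℝ (v t) z)) t :=
    HasDerivAt.comp (h₂ := chi k) t h3 h1
  have h5 : HasDerivAt (fun t => inner ℝ a (v t)) (inner ℝ a z) t := by
    have := (hasDerivAt_const t a).inner ℝ hv
    simpa using this
  have h6 : HasDerivAt (fun t => _root_.Vale.Agent.P219.TPH.cs k ‖v t‖)
      (k ^ 2 * (chi k (‖v t‖ ^ 2) / 2 * (2 * inner ℝ (v t) z))) t := by
    have h7 := (h2.const_mul (k ^ 2)).const_add 1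
    have e : (fun t => _root_.Vale.Agent.P219.TPH.cs k ‖v t‖) = fun t => 1 + k ^ 2 * ff k (‖v t‖ ^ 2) := by
      funext t
      exact cs_eq_ff k _
    rw [e]
    exact h7
  have h8 := ((h6.const_mul (_root_.Vale.Agent.P219.TPH.cs k ‖a‖)).fun_sub
    (((h4.fun_mul h5).const_mul (chi k (‖a‖ ^ 2))).const_mul (k ^ 2)))
  have e : (fun t => hyp k a (v t)) = fun t => _root_.Vale.Agent.P219.TPH.cs k ‖a‖ * _root_.Vale.Agent.P219.TPH.cs k ‖v t‖ -
      k ^ 2 * (chi k (‖a‖ ^ 2) * (chi k (‖v t‖ ^ 2) * inner ℝ a (v t))) := by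
    funext t
    unfold hyp
    ring
  rw [e]
  refine h8.congr_deriv ?_
  unfold hypD
  ring

/-- The gradient bound. -/
theorem hypD_sq (G : Geo n) {k : ℝ} (hk : 0 ≤ k) (hS : SnLe G k) (c a v z : _root_.Vale.Agent.P219.TP.E n) :
    hypD k a v z ^ 2 ≤ k ^ 2 * (hyp k a v ^ 2 - 1) * ‖G.T c v z‖ ^ 2 := by
  have hca : _root_.Vale.Agent.P219.TPH.cs k ‖a‖ ^ 2 = 1 + k ^ 2 * (chi k (‖a‖ ^ 2) ^ 2 * ‖a‖ ^ 2) := by
    rw [cs_sq, sn_eq_chi]
    ring
  by_cases hv : v = 0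
  · subst hv
    rw [G.T_zero]
    have h1 : hypD k a 0 z = -(k ^ 2 * (chi k (‖a‖ ^ 2) * inner ℝ a z)) := by
      unfold hypD
      rw [norm_zero, zero_pow two_ne_zero, chi_zero, inner_zero_left, inner_zero_right]
      ring
    have h2 : hyp k a 0 = _root_.Vale.Agent.P219.TPH.cs k ‖a‖ := by
      unfold hyp
      rw [norm_zero, _root_.Vale.Agent.P219.TPH.cs_zero, inner_zero_right]
      ring
    rw [h1, h2, hca]
    have h3 : inner ℝ a z ^ 2 ≤ ‖a‖ ^ 2 * ‖z‖ ^ 2 := by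
      rw [← mul_pow]
      exact sq_le_sq' (by linarith [neg_le_of_abs_le (abs_real_inner_le_norm a z)])
        (real_inner_le_norm a z)
    have h4 : 0 ≤ k ^ 4 * chi k (‖a‖ ^ 2) ^ 2 := by positivity
    linarith only [mul_le_mul_of_nonneg_left h3 h4]
  · have hr : 0 < ‖v‖ := norm_pos_iff.2 hv
    have hr2 : 0 < ‖v‖ ^ 2 := by positivity
    have hcs : _root_.Vale.Agent.P219.TPH.cs k ‖v‖ ^ 2 = 1 + k ^ 2 * _root_.Vale.Agent.P219.TPH.sn k ‖v‖ ^ 2 := cs_sq k _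
    have hsn := sn_eq_chi k ‖v‖
    have hcc := cs_eq_chi k ‖v‖
    have hT := T_lower G hk hS c v z hv
    obtain ⟨χa, hχa⟩ : ∃ χa, χa = chi k (‖a‖ ^ 2) := ⟨_, rfl⟩
    obtain ⟨χ, hχ⟩ : ∃ χ, χ = chi k (‖v‖ ^ 2) := ⟨_, rfl⟩
    obtain ⟨χ', hχ'⟩ : ∃ χ', χ' = deriv (chi k) (‖v‖ ^ 2) := ⟨_, rfl⟩
    -- orthogonal parts
    obtain ⟨b, hb⟩ : ∃ b : ℝ, b = inner ℝ v z := ⟨_, rfl⟩
    obtain ⟨α, hα⟩ : ∃ α : ℝ, α = χa * inner ℝ a v := ⟨_, rfl⟩
    obtain ⟨β, hβ⟩ : ∃ β : ℝ, β = χa * inner ℝ a z := ⟨_, rfl⟩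
    have hg : (β - α * b / ‖v‖ ^ 2) ^ 2 ≤
        (χa ^ 2 * ‖a‖ ^ 2 - α ^ 2 / ‖v‖ ^ 2) * (‖z‖ ^ 2 - b ^ 2 / ‖v‖ ^ 2) := by
      have e1 : inner ℝ (χa • a - (α / ‖v‖ ^ 2) • v) (z - (b / ‖v‖ ^ 2) • v) =
          β - α * b / ‖v‖ ^ 2 := by
        rw [inner_sub_left, inner_sub_right, inner_sub_right]
        simp only [real_inner_smul_left, real_inner_smul_right]
        rw [real_inner_self_eq_norm_sq, ← hb, hα, hβ]
        field_simp
        ring
      have e2 : ‖χa • a - (α / ‖v‖ ^ 2) • v‖ ^ 2 = χa ^ 2 * ‖a‖ ^ 2 - α ^ 2 / ‖v‖ ^ 2 := by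
        rw [norm_sub_sq_real, norm_smul, norm_smul]
        simp only [real_inner_smul_left, real_inner_smul_right]
        rw [mul_pow, mul_pow, Real.norm_eq_abs, Real.norm_eq_abs, sq_abs, sq_abs, hα]
        field_simp
        ring
      have e3 : ‖z - (b / ‖v‖ ^ 2) • v‖ ^ 2 = ‖z‖ ^ 2 - b ^ 2 / ‖v‖ ^ 2 := by
        rw [norm_sub_sq_real, norm_smul]
        simp only [real_inner_smul_right]
        rw [mul_pow, Real.norm_eq_abs, sq_abs, real_inner_comm v z, ← hb]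
        field_simp
        ring
      rw [← e1, ← e2, ← e3, ← mul_pow]
      exact sq_le_sq' (by linarith only [neg_le_of_abs_le (abs_real_inner_le_norm (χa • a - (α / ‖v‖ ^ 2) • v) (z - (b / ‖v‖ ^ 2) • v))]) (real_inner_le_norm _ _)
    obtain ⟨γ, hγ⟩ : ∃ γ, γ = β - α * b / ‖v‖ ^ 2 := ⟨_, rfl⟩
    obtain ⟨w2, hw2⟩ : ∃ w2, w2 = χa ^ 2 * ‖a‖ ^ 2 - α ^ 2 / ‖v‖ ^ 2 := ⟨_, rfl⟩
    obtain ⟨ζ2, hζ2⟩ : ∃ ζ2, ζ2 = ‖z‖ ^ 2 - b ^ 2 / ‖v‖ ^ 2 := ⟨_, rfl⟩
    have hw0 : 0 ≤ w2 := by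
      rw [hw2, sub_nonneg, div_le_iff₀ hr2, hα, mul_pow, mul_assoc, ← mul_pow ‖a‖]
      exact mul_le_mul_of_nonneg_left (sq_le_sq'
        (by linarith [neg_le_of_abs_le (abs_real_inner_le_norm a v)]) (real_inner_le_norm a v))
        (sq_nonneg _)
    have hζ0 : 0 ≤ ζ2 := by
      rw [hζ2, sub_nonneg, div_le_iff₀ hr2, hb, ← mul_pow, mul_comm ‖z‖]
      exact sq_le_sq' (by linarith [neg_le_of_abs_le (abs_real_inner_le_norm v z)])
        (real_inner_le_norm v z)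
    rw [← hγ, ← hw2, ← hζ2] at hg
    obtain ⟨P, hP⟩ : ∃ P, P = _root_.Vale.Agent.P219.TPH.cs k ‖a‖ * (‖v‖ * χ) - α / ‖v‖ * _root_.Vale.Agent.P219.TPH.cs k ‖v‖ := ⟨_, rfl⟩
    have hD : hypD k a v z = k ^ 2 * (b / ‖v‖ * P - χ * γ) := by
      unfold hypD
      rw [hP, hγ, hcc, ← hχ, ← hχ', ← hχa, ← hb, hα, hβ]
      field_simp
      ring
    have hH : k ^ 2 * (P ^ 2 + w2) = hyp k a v ^ 2 - 1 := by
      have e1 : hyp k a v = _root_.Vale.Agent.P219.TPH.cs k ‖a‖ * _root_.Vale.Agent.P219.TPH.cs k ‖v‖ - k ^ 2 * (‖v‖ * χ) * (α / ‖v‖) := by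
        unfold hyp
        rw [← hχ, ← hχa, hα]
        field_simp
      have e2 : w2 = χa ^ 2 * ‖a‖ ^ 2 - (α / ‖v‖) ^ 2 := by rw [hw2, div_pow]
      rw [hsn, ← hχ] at hcs
      rw [← hχa] at hca
      rw [e1, e2, hP]
      linear_combination (-(_root_.Vale.Agent.P219.TPH.cs k ‖a‖ ^ 2) + k ^ 2 * (α / ‖v‖) ^ 2) * hcs - hca
    have hC : (b / ‖v‖ * P - χ * γ) ^ 2 ≤ (P ^ 2 + w2) * ((b / ‖v‖) ^ 2 + χ ^ 2 * ζ2) := by
      have h1 := mid_quad (A := P ^ 2 * χ ^ 2 * ζ2) (B := w2 * (b / ‖v‖) ^ 2)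
        (C := b / ‖v‖ * P * χ * γ) (by positivity) (by positivity) (by
          have h2 : 0 ≤ (b / ‖v‖) ^ 2 * P ^ 2 * χ ^ 2 := by positivity
          have h3 := mul_le_mul_of_nonneg_left hg h2
          calc (b / ‖v‖ * P * χ * γ) ^ 2 = (b / ‖v‖) ^ 2 * P ^ 2 * χ ^ 2 * γ ^ 2 := by ring
            _ ≤ (b / ‖v‖) ^ 2 * P ^ 2 * χ ^ 2 * (w2 * ζ2) := h3
            _ = _ := by ring)
      have h4 : 0 ≤ χ ^ 2 * (w2 * ζ2 - γ ^ 2) := mul_nonneg (sq_nonneg _) (by linarith only [hg])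
      linarith only [h4, h1]
    have hT' : (b / ‖v‖) ^ 2 + χ ^ 2 * ζ2 ≤ ‖G.T c v z‖ ^ 2 := by
      rw [← hb, ← hχ, ← hζ2] at hT
      rw [div_pow]
      exact hT
    have hH0 : 0 ≤ hyp k a v ^ 2 - 1 := by
      rw [← hH]
      positivity
    calc hypD k a v z ^ 2 = k ^ 2 * (k ^ 2 * (b / ‖v‖ * P - χ * γ) ^ 2) := by rw [hD]; ring
      _ ≤ k ^ 2 * (k ^ 2 * ((P ^ 2 + w2) * ((b / ‖v‖) ^ 2 + χ ^ 2 * ζ2))) := by gcongr
      _ = k ^ 2 * (hyp k a v ^ 2 - 1) * ((b / ‖v‖) ^ 2 + χ ^ 2 * ζ2) := by rw [← hH]; ring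
      _ ≤ _ := mul_le_mul_of_nonneg_left hT' (by positivity)

/-- The hyperbolic law of cosines is an inequality in curvature at most `-k²`. -/
theorem law_cos (G : Geo n) {k : ℝ} (hk : 0 ≤ k) (hS : SnLe G k) (c p y : _root_.Vale.Agent.P219.TP.E n) :
    hyp k (G.lg c p) (G.lg c y) ≤ _root_.Vale.Agent.P219.TPH.cs k ‖G.lg p y‖ := by
  have hv : ∀ t : ℝ, HasDerivAt (fun s : ℝ => G.lg c (G.ex p (s • G.lg p y)))
      (fderiv ℝ (G.lg c) (G.ex p (t • G.lg p y))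
        (G.A (G.ex p (t • G.lg p y)) (G.V t p (G.lg p y)))) t := by
    intro t
    exact (G.differentiable_lg c (G.ex p (t • G.lg p y))).hasFDerivAt.comp_hasDerivAt t
      (G.ex_deriv t p (G.lg p y))
  have hT : ∀ t : ℝ, ‖G.T c (G.lg c (G.ex p (t • G.lg p y)))
      (fderiv ℝ (G.lg c) (G.ex p (t • G.lg p y))
        (G.A (G.ex p (t • G.lg p y)) (G.V t p (G.lg p y))))‖ = ‖G.lg p y‖ := by
    intro t
    obtain ⟨ζ, hζ⟩ := G.T_surjective c (G.lg c (G.ex p (t • G.lg p y))) (G.V t p (G.lg p y))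
    rw [← hζ, G.fderiv_lg_T, hζ, G.norm_V]
  have h := mid_ode (f := fun t => hyp k (G.lg c p) (G.lg c (G.ex p (t • G.lg p y))))
    (lam := k * ‖G.lg p y‖) (mul_nonneg hk (norm_nonneg _))
    (fun t => hasDerivAt_hyp k (G.lg c p) (hv t))
    (by
      simp only [zero_smul, G.ex_zero]
      exact hyp_self k _)
    (fun t => by
      have h1 := hypD_sq G hk hS c (G.lg c p) (G.lg c (G.ex p (t • G.lg p y)))
        (fderiv ℝ (G.lg c) (G.ex p (t • G.lg p y))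
          (G.A (G.ex p (t • G.lg p y)) (G.V t p (G.lg p y))))
      rw [hT t] at h1
      calc _ ≤ _ := h1
        _ = _ := by ring)
  simp only [one_smul, G.ex_lg] at h
  exact h

/-- Midpoint comparison. -/
theorem exists_mid (G : Geo n) {k : ℝ} (hk : 0 ≤ k) (hS : SnLe G k) {o p x : _root_.Vale.Agent.P219.TP.E n} {ρ : ℝ}
    (hp : ‖G.lg o p‖ ≤ ρ) (hx : ‖G.lg o x‖ ≤ ρ) : ∃ c, ‖G.lg o c‖ ≤ ρ ∧ ∀ y,
    √(1 + k ^ 2 * FG G k p x / 2) * FG G k c y +
        FG G k p x / (2 * (√(1 + k ^ 2 * FG G k p x / 2) + 1)) ≤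
      (FG G k p y + FG G k x y) / 2 := by
  obtain ⟨c, hc⟩ : ∃ c, c = G.ex p ((1 / 2 : ℝ) • G.lg p x) := ⟨_, rfl⟩
  obtain ⟨v, hv⟩ : ∃ v, v = (1 / 2 : ℝ) • G.V (1 / 2) p (G.lg p x) := ⟨_, rfl⟩
  have hcρ : ‖G.lg o c‖ ≤ ρ := by
    rw [hc]
    exact G.ball_convex hp hx (by norm_num) (by norm_num)
  have e1 : G.lg c p = -v := by
    have h := G.ex_flow (1 / 2) (-(1 / 2)) p (G.lg p x)
    rw [add_neg_cancel, zero_smul, G.ex_zero, ← hc] at h
    have h' := G.lg_ex c ((-(1 / 2 : ℝ)) • G.V (1 / 2) p (G.lg p x))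
    rw [h] at h'
    rw [h', neg_smul, hv]
  have e2 : G.lg c x = v := by
    have h := G.ex_flow (1 / 2) (1 / 2) p (G.lg p x)
    rw [add_halves, one_smul, G.ex_lg, ← hc] at h
    have h' := G.lg_ex c ((1 / 2 : ℝ) • G.V (1 / 2) p (G.lg p x))
    rw [h] at h'
    rw [h', hv]
  have hn : ‖v‖ = ‖G.lg p x‖ / 2 := by
    rw [hv, norm_smul, G.norm_V]
    norm_num
    ring
  have hF : FG G k p x = 2 * _root_.Vale.Agent.P219.TPH.sn k ‖v‖ ^ 2 := by
    unfold FG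
    rw [ff_sq, hn]
  have hsq : √(1 + k ^ 2 * FG G k p x / 2) = _root_.Vale.Agent.P219.TPH.cs k ‖v‖ := by
    have e : 1 + k ^ 2 * FG G k p x / 2 = _root_.Vale.Agent.P219.TPH.cs k ‖v‖ ^ 2 := by
      rw [hF, cs_sq]
      ring
    rw [e]
    exact Real.sqrt_sq (zero_le_one.trans (one_le_cs k _))
  refine ⟨c, hcρ, fun y => ?_⟩
  rw [hsq]
  have hC1 := one_le_cs k ‖v‖
  rcases hk.eq_or_lt with h0 | h0
  · subst h0
    have hf : ∀ a b : _root_.Vale.Agent.P219.TP.E n, FG G 0 a b = ‖G.lg a b‖ ^ 2 / 2 := by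
      intro a b
      unfold FG
      rw [ff_sq, h1_sn_z]
      ring
    have hcs1 : _root_.Vale.Agent.P219.TPH.cs 0 ‖v‖ = 1 := by simp [_root_.Vale.Agent.P219.TPH.cs]
    have n1 := G.lg_nonexp c p y
    have n2 := G.lg_nonexp c x y
    rw [e1] at n1
    rw [e2] at n2
    have m1 := pow_le_pow_left₀ (norm_nonneg _) n1 2
    have m2 := pow_le_pow_left₀ (norm_nonneg _) n2 2
    rw [norm_sub_sq_real] at m1 m2
    rw [norm_neg, inner_neg_left] at m1
    rw [hcs1, hf, hf, hf, hf]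
    have h3 : ‖G.lg p x‖ = 2 * ‖v‖ := by rw [hn]; ring
    rw [h3]
    linarith only [m2, m1]
  · have h1 := law_cos G hk hS c p y
    have h2 := law_cos G hk hS c x y
    rw [e1] at h1
    rw [e2] at h2
    unfold hyp at h1 h2
    rw [norm_neg, inner_neg_left] at h1
    have hcF : ∀ a b : _root_.Vale.Agent.P219.TP.E n, _root_.Vale.Agent.P219.TPH.cs k ‖G.lg a b‖ = 1 + k ^ 2 * FG G k a b := fun a b => cs_eq_ff k _
    rw [hcF, hcF] at h1 h2
    have h3 : _root_.Vale.Agent.P219.TPH.cs k ‖v‖ * (1 + k ^ 2 * FG G k c y) ≤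
        1 + k ^ 2 * ((FG G k p y + FG G k x y) / 2) := by
      linarith
    have h4 : k ^ 2 * (FG G k p x / (2 * (_root_.Vale.Agent.P219.TPH.cs k ‖v‖ + 1))) = _root_.Vale.Agent.P219.TPH.cs k ‖v‖ - 1 := by
      have h5 := cs_sq k ‖v‖
      rw [hF]
      field_simp
      linear_combination (-1 : ℝ) * h5
    have hk2 : 0 < k ^ 2 := by positivity
    refine le_of_mul_le_mul_left ?_ hk2
    calc k ^ 2 * (_root_.Vale.Agent.P219.TPH.cs k ‖v‖ * FG G k c y + FG G k p x / (2 * (_root_.Vale.Agent.P219.TPH.cs k ‖v‖ + 1)))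
        = _root_.Vale.Agent.P219.TPH.cs k ‖v‖ * (k ^ 2 * FG G k c y) + k ^ 2 * (FG G k p x / (2 * (_root_.Vale.Agent.P219.TPH.cs k ‖v‖ + 1))) := by ring
      _ = _root_.Vale.Agent.P219.TPH.cs k ‖v‖ * (1 + k ^ 2 * FG G k c y) - 1 := by rw [h4]; ring
      _ ≤ k ^ 2 * ((FG G k p y + FG G k x y) / 2) := by linarith

end Vale.Agent.P219.SA
end

section

/-!
# P219 / End : the equality case for surfaces (`m = 2`, dimension `n = 3`)

In the equality case every point `p` of the support satisfies `n_p = (H₀/2) F_p` and `D_p = 0`, so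
`g = 2 - h² F_p` and `g = h² F_p` are, up to constants, eigenfunctions: `∫ ⟨∇φ, ∇g⟩ = 2h² ∫ φ (g - 1)`
and `|∇g|² = h² g (2 - g)`. Moments of `g` give Archimedes' theorem and a reproducing property.
-/

open MeasureTheory Set Metric Filter
open scoped ENNReal ContDiff Topology

namespace Vale.Agent.P219.End

namespace Dim3

variable {n : ℕ}

/-- The fields of `Lim` used for surfaces, `m = 2`. -/
structure L2 (H0 k2 : ℝ) (A : E n → E n →L[ℝ] E n) (F : E n → E n → ℝ) (K : Set (E n))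
    (V : Measure (E n × E n)) : Prop where
  fin : IsFiniteMeasure V
  k2_nonneg : 0 ≤ k2
  A_cont : Continuous A
  F_smooth : ∀ c, ContDiff ℝ ∞ (F c)
  F_nonneg : ∀ c x, 0 ≤ F c x
  F_self : ∀ c, F c c = 0
  F_comm : ∀ c x, F c x = F x c
  F_pos : ∀ c x, c ≠ x → 0 < F c x
  grad : ∀ c x, ‖D A (F c) x‖ ^ 2 = 2 * F c x + k2 * F c x ^ 2
  K_compact : IsCompact K
  V_supp : ∀ᵐ z ∂V, z.1 ∈ K ∧ ‖z.2‖ = 1
  V_ne : V ≠ 0
  stat : ∀ c ∈ K, ∀ ψ : E n → ℝ, ContDiff ℝ ∞ ψ → (∀ x, 0 ≤ ψ x) →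
    0 ≤ ∫ z, (H0 * ψ z.1 * inner ℝ (D A (F c) z.1) z.2 -
      2 * (1 + k2 * F c z.1) * ψ z.1 - Gam A ψ (F c) z) ∂V
  dens : ∀ p, (∀ e > 0, 0 < V {z | F p z.1 < e}) → ∀ e > 0, ∃ ε₀ > 0, ∀ ε, 0 < ε → ε < ε₀ →
    sg 2 - e ≤ ∫ z, bub k2 (F p) ε z.1 ^ (2 : ℝ) ∂V

/-- A function whose level structure is that of a height function on a sphere. -/
structure Ax (A : E n → E n →L[ℝ] E n) (V : Measure (E n × E n)) (h2 : ℝ) (g : E n → ℝ) :
    Prop where
  smooth : ContDiff ℝ ∞ g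
  weak : ∀ φ : E n → ℝ, ContDiff ℝ ∞ φ →
    ∫ z, Gam A φ g z ∂V = 2 * h2 * ∫ z, φ z.1 * (g z.1 - 1) ∂V
  sq : ∀ᵐ z ∂V, Gam A g g z = h2 * (g z.1 * (2 - g z.1))

namespace L2

variable {H0 k2 : ℝ} {A : E n → E n →L[ℝ] E n} {F : E n → E n → ℝ} {K : Set (E n)}
  {V : Measure (E n × E n)}

theorem int_cont (L : L2 H0 k2 A F K V) {f : E n × E n → ℝ} (hf : Continuous f) :
    Integrable f V :=
  haveI := L.fin
  integrable_of_cont' L.K_compact L.V_supp hf

theorem F_cont (L : L2 H0 k2 A F K V) (c : E n) : Continuous (F c) := (L.F_smooth c).continuous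

theorem F1 (L : L2 H0 k2 A F K V) (c : E n) : ContDiff ℝ 1 (F c) :=
  (L.F_smooth c).of_le (by exact_mod_cast le_top)

theorem Fz_cont (L : L2 H0 k2 A F K V) (c : E n) : Continuous fun z : E n × E n => F c z.1 :=
  (L.F_cont c).comp continuous_fst

theorem n_cont (L : L2 H0 k2 A F K V) (c : E n) :
    Continuous fun z : E n × E n => (inner ℝ (D A (F c) z.1) z.2 : ℝ) :=
  ((D_continuous L.A_cont (L.F1 c)).comp continuous_fst).inner continuous_snd

theorem gam_cont (L : L2 H0 k2 A F K V) {u v : E n → ℝ} (hu : ContDiff ℝ 1 u)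
    (hv : ContDiff ℝ 1 v) : Continuous (Gam A u v) := Gam_continuous L.A_cont hu hv

theorem integrand_cont (L : L2 H0 k2 A F K V) (c : E n) {ψ : E n → ℝ} (hψ : ContDiff ℝ 1 ψ) :
    Continuous fun z : E n × E n => H0 * ψ z.1 * inner ℝ (D A (F c) z.1) z.2 -
      2 * (1 + k2 * F c z.1) * ψ z.1 - Gam A ψ (F c) z := by
  have h1 := L.n_cont c
  have h2 := L.gam_cont hψ (L.F1 c)
  have h3 : Continuous fun z : E n × E n => ψ z.1 := hψ.continuous.comp continuous_fst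
  have h4 := L.Fz_cont c
  exact (((continuous_const.mul h3).mul h1).sub
    ((continuous_const.mul (continuous_const.add (continuous_const.mul h4))).mul h3)).sub h2

/-- the identity behind the inequality -/
theorem pointwise (L : L2 H0 k2 A F K V) (c : E n) {ε : ℝ} (hε : 0 < ε) (hkε : k2 * ε < 2)
    (z : E n × E n) :
    (H0 * (F c z.1 + ε)⁻¹ * inner ℝ (D A (F c) z.1) z.2 -
      2 * (1 + k2 * F c z.1) * (F c z.1 + ε)⁻¹ - Gam A (fun x => (F c x + ε)⁻¹) (F c) z) +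
      (H0 / 2 - (F c z.1 + ε)⁻¹ * inner ℝ (D A (F c) z.1) z.2) ^ 2 =
    (H0 ^ 2 / 4 - k2) - bub k2 (F c) ε z.1 ^ (2 : ℝ) := by
  have hpos : ∀ x, 0 < F c x + ε := fun x => by linarith [L.F_nonneg c x]
  have hFd : ∀ x, DifferentiableAt ℝ (F c) x := fun x =>
    (L.F_smooth c).differentiable (by simp) x
  have hD : ∀ x, D A (fun x => (F c x + ε)⁻¹) x = (-((F c x + ε)⁻¹) ^ 2) • D A (F c) x := by
    intro x
    have h1 : HasDerivAt (fun t : ℝ => (t + ε)⁻¹) (-(F c x + ε)⁻¹ ^ 2) (F c x) := by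
      have h2 := ((hasDerivAt_id (F c x)).add_const ε).inv (hpos x).ne'
      refine h2.congr_deriv ?_
      rw [id_eq, inv_pow, neg_div, one_div]
    exact D_comp h1 (hFd x)
  have hG : Gam A (fun x => (F c x + ε)⁻¹) (F c) z =
      -((F c z.1 + ε)⁻¹) ^ 2 * (2 * F c z.1 + k2 * F c z.1 ^ 2 -
        inner ℝ (D A (F c) z.1) z.2 ^ 2) := by
    rw [Gam_eq, hD, gv_smul_left, gv_self, L.grad]
  have hb : bub k2 (F c) ε z.1 ^ (2 : ℝ) = ε * (2 - k2 * ε) * ((F c z.1 + ε)⁻¹) ^ 2 := by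
    unfold bub
    rw [Real.rpow_two, div_pow, Real.sq_sqrt (mul_nonneg hε.le (by linarith))]
    field_simp
  rw [hb, hG]
  have hinv : (F c z.1 + ε)⁻¹ * (F c z.1 + ε) = 1 := inv_mul_cancel₀ (hpos z.1).ne'
  set y := (F c z.1 + ε)⁻¹
  set f := F c z.1
  set ν : ℝ := inner ℝ (D A (F c) z.1) z.2
  have key : ε * (2 - k2 * ε) * y ^ 2 =
      2 * (1 + k2 * f) * y - y ^ 2 * (2 * f + k2 * f ^ 2) - k2 := by
    have hε' : ε * y = 1 - f * y := by linarith
    have e1 : ε * (2 - k2 * ε) * y ^ 2 = 2 * (ε * y) * y - k2 * (ε * y) ^ 2 := by ring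
    rw [e1, hε']
    ring
  rw [key]
  ring

/-- the positive functional -/
noncomputable def Dp (H0 k2 : ℝ) (A : E n → E n →L[ℝ] E n) (F : E n → E n → ℝ)
    (V : Measure (E n × E n)) (c : E n) (ψ : E n → ℝ) : ℝ :=
  ∫ z, (H0 * ψ z.1 * inner ℝ (D A (F c) z.1) z.2 -
      2 * (1 + k2 * F c z.1) * ψ z.1 - Gam A ψ (F c) z) ∂V

theorem inv_smooth (L : L2 H0 k2 A F K V) (c : E n) {ε : ℝ} (hε : 0 < ε) :
    ContDiff ℝ ∞ fun x => (F c x + ε)⁻¹ :=
  ContDiff.inv ((L.F_smooth c).add contDiff_const)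
    (fun x => by have := L.F_nonneg c x; positivity)

theorem Dp_lin (L : L2 H0 k2 A F K V) (c : E n) (a b : ℝ) {ψ φ : E n → ℝ}
    (hψ : ContDiff ℝ 1 ψ) (hφ : ContDiff ℝ 1 φ) :
    Dp H0 k2 A F V c (fun x => a * ψ x + b * φ x) =
      a * Dp H0 k2 A F V c ψ + b * Dp H0 k2 A F V c φ := by
  unfold Dp
  rw [← integral_const_mul, ← integral_const_mul, ← integral_add
    ((L.int_cont (L.integrand_cont c hψ)).const_mul a)
    ((L.int_cont (L.integrand_cont c hφ)).const_mul b)]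
  refine integral_congr_ae (Eventually.of_forall fun z => ?_)
  have hd : DifferentiableAt ℝ ψ z.1 := hψ.differentiable (by norm_num) _
  have hd' : DifferentiableAt ℝ φ z.1 := hφ.differentiable (by norm_num) _
  have e : Gam A (fun x => a * ψ x + b * φ x) (F c) z =
      a * Gam A ψ (F c) z + b * Gam A φ (F c) z := by
    show gv _ _ _ = a * gv _ _ _ + b * gv _ _ _
    rw [D_add (hd.const_mul a) (hd'.const_mul b), D_const_mul a hd, D_const_mul b hd',
      gv_add_left, gv_smul_left, gv_smul_left]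
  simp only [e]
  ring

theorem Dp_nonneg (L : L2 H0 k2 A F K V) {c : E n} (hc : c ∈ K) {ψ : E n → ℝ}
    (hψ : ContDiff ℝ ∞ ψ) (h0 : ∀ x, 0 ≤ ψ x) : 0 ≤ Dp H0 k2 A F V c ψ := L.stat c hc ψ hψ h0

/-- the support -/
def Sup (F : E n → E n → ℝ) (V : Measure (E n × E n)) (p : E n) : Prop :=
  ∀ e > 0, 0 < V {z | F p z.1 < e}

/-- points off `K` are not in the support -/
theorem sup_mem (L : L2 H0 k2 A F K V) {p : E n} (hp : Sup F V p) : p ∈ K := by
  by_contra hpK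
  by_cases hne : K.Nonempty
  · obtain ⟨x, hx, hmin⟩ := L.K_compact.exists_isMinOn hne (L.F_cont p).continuousOn
    have hpos : 0 < F p x := L.F_pos p x (fun h => hpK (h ▸ hx))
    have h0 := hp (F p x) hpos
    have h1 : V {z : E n × E n | F p z.1 < F p x} = 0 := by
      refine measure_mono_null (t := {z : E n × E n | ¬ (z.1 ∈ K ∧ ‖z.2‖ = 1)}) ?_
        (ae_iff.1 L.V_supp)
      intro z hz hzK
      have h2 : F p x ≤ F p z.1 := hmin hzK.1
      have h3 : F p z.1 < F p x := hz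
      linarith
    exact h0.ne' h1
  · rw [not_nonempty_iff_eq_empty] at hne
    refine L.V_ne (Measure.measure_univ_eq_zero.1 ?_)
    refine measure_mono_null (t := {z : E n × E n | ¬ (z.1 ∈ K ∧ ‖z.2‖ = 1)}) ?_
      (ae_iff.1 L.V_supp)
    intro z _ hzK
    rw [hne] at hzK
    exact hzK.1

/-- near `p`, in `K`, a small value of `F p` forces closeness -/
theorem close (L : L2 H0 k2 A F K V) (p : E n) {u : E n → ℝ} (hu : Continuous u) {δ : ℝ}
    (hδ : 0 < δ) : ∃ e > 0, ∀ x ∈ K, F p x < e → |u x - u p| < δ := by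
  set C : Set (E n) := K ∩ {x | δ ≤ |u x - u p|} with hC
  have hCc : IsCompact C := L.K_compact.inter_right
    (isClosed_le continuous_const ((hu.sub continuous_const).abs))
  by_cases hne : C.Nonempty
  · obtain ⟨x, hx, hmin⟩ := hCc.exists_isMinOn hne (L.F_cont p).continuousOn
    have hxp : p ≠ x := by
      rintro rfl
      have h1 : δ ≤ |u p - u p| := hx.2
      rw [sub_self, abs_zero] at h1
      linarith
    refine ⟨F p x, L.F_pos p x hxp, fun y hy hlt => ?_⟩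
    by_contra hcon
    have h1 : F p x ≤ F p y := hmin ⟨hy, not_lt.1 hcon⟩
    linarith
  · refine ⟨1, one_pos, fun y hy _ => ?_⟩
    by_contra hcon
    exact hne ⟨y, hy, not_lt.1 hcon⟩

/-- the two defects -/
theorem defect (L : L2 H0 k2 A F K V) (c : E n) {ε : ℝ} (hε : 0 < ε) (hkε : k2 * ε < 2) :
    Dp H0 k2 A F V c (fun x => (F c x + ε)⁻¹) +
      ∫ z, (H0 / 2 - (F c z.1 + ε)⁻¹ * inner ℝ (D A (F c) z.1) z.2) ^ 2 ∂V =
    (H0 ^ 2 / 4 - k2) * V.real univ - ∫ z, bub k2 (F c) ε z.1 ^ (2 : ℝ) ∂V := by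
  have := L.fin
  have hi : Continuous fun z : E n × E n => (F c z.1 + ε)⁻¹ :=
    (L.inv_smooth c hε).continuous.comp continuous_fst
  have hc1 := L.integrand_cont c ((L.inv_smooth c hε).of_le (by exact_mod_cast le_top) :
    ContDiff ℝ 1 _)
  have hc2 : Continuous fun z : E n × E n =>
      (H0 / 2 - (F c z.1 + ε)⁻¹ * inner ℝ (D A (F c) z.1) z.2) ^ 2 :=
    (continuous_const.sub (hi.mul (L.n_cont c))).pow 2
  have hcb : Continuous fun z : E n × E n => bub k2 (F c) ε z.1 ^ (2 : ℝ) := by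
    have : Continuous (bub k2 (F c) ε) := by
      unfold bub
      exact continuous_const.div ((L.F_cont c).add continuous_const)
        (fun x => by have := L.F_nonneg c x; positivity)
    exact (this.comp continuous_fst).rpow_const (fun z => Or.inr (by norm_num))
  unfold Dp
  rw [← integral_add (L.int_cont hc1) (L.int_cont hc2)]
  have e1 : ∀ z : E n × E n, _ := fun z => L.pointwise c hε hkε z
  rw [integral_congr_ae (Eventually.of_forall e1), integral_sub (integrable_const _)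
    (L.int_cont hcb), integral_const, smul_eq_mul, mul_comm]

/-- in the equality case the defects at a support point vanish in the limit -/
theorem small (L : L2 H0 k2 A F K V) (heq : (H0 ^ 2 / 4 - k2) * V.real univ ≤ 4 * Real.pi)
    {p : E n} (hp : Sup F V p) {e : ℝ} (he : 0 < e) : ∃ ε₀ > 0, ∀ ε, 0 < ε → ε < ε₀ →
      Dp H0 k2 A F V p (fun x => (F p x + ε)⁻¹) ≤ e ∧
      ∫ z, (H0 / 2 - (F p z.1 + ε)⁻¹ * inner ℝ (D A (F p) z.1) z.2) ^ 2 ∂V ≤ e := by
  obtain ⟨ε₀, hε₀, h⟩ := L.dens p hp e he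
  have hk1 : 0 < k2 + 1 := by linarith [L.k2_nonneg]
  refine ⟨min ε₀ (1 / (k2 + 1)), lt_min hε₀ (by positivity), fun ε h0 h1 => ?_⟩
  have hkε : k2 * ε < 2 := by
    have h2 : k2 * ε ≤ k2 * (1 / (k2 + 1)) :=
      mul_le_mul_of_nonneg_left (h1.le.trans (min_le_right _ _)) L.k2_nonneg
    have h3 : k2 * (1 / (k2 + 1)) < 2 := by
      rw [mul_one_div, div_lt_iff₀ hk1]
      linarith
    linarith only [h3, h2]
  have h2 := h ε h0 (h1.trans_le (min_le_left _ _))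
  rw [sg_two] at h2
  have h3 := L.defect p h0 hkε
  have h4 := L.Dp_nonneg (L.sup_mem hp) (L.inv_smooth p h0)
    (fun x => by have := L.F_nonneg p x; positivity)
  have h5 : 0 ≤ ∫ z, (H0 / 2 - (F p z.1 + ε)⁻¹ * inner ℝ (D A (F p) z.1) z.2) ^ 2 ∂V :=
    integral_nonneg fun z => sq_nonneg _
  constructor <;> linarith

/-- the functional vanishes at support points -/
theorem Dp_zero (L : L2 H0 k2 A F K V) (heq : (H0 ^ 2 / 4 - k2) * V.real univ ≤ 4 * Real.pi)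
    {p : E n} (hp : Sup F V p) {φ : E n → ℝ} (hφ : ContDiff ℝ ∞ φ) :
    Dp H0 k2 A F V p φ = 0 := by
  obtain ⟨r, hr⟩ := L.K_compact.isBounded.subset_closedBall (0 : E n)
  let χ : ContDiffBump (0 : E n) := ⟨max r 0 + 1, max r 0 + 2, by positivity, by linarith⟩
  have hχs : ContDiff ℝ ∞ (χ : E n → ℝ) := χ.contDiff
  have hKb : ∀ x ∈ K, x ∈ ball (0 : E n) χ.rIn := by
    intro x hx
    have h1 : dist x 0 ≤ r := hr hx
    show dist x 0 < max r 0 + 1
    linarith [le_max_left r 0]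
  set φ' : E n → ℝ := fun x => φ x * χ x with hφ'
  have hs' : ContDiff ℝ ∞ φ' := hφ.mul hχs
  have hEq : Dp H0 k2 A F V p φ = Dp H0 k2 A F V p φ' := by
    unfold Dp
    refine integral_congr_ae ?_
    filter_upwards [L.V_supp] with z hz
    have h1 : φ' =ᶠ[nhds z.1] φ := by
      filter_upwards [χ.eventuallyEq_one_of_mem_ball (hKb z.1 hz.1)] with x hx
      simp only [hφ', hx, Pi.one_apply, mul_one]
    have h2 : Gam A φ' (F p) z = Gam A φ (F p) z := by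
      show gv _ _ _ = gv _ _ _
      rw [D_congr h1]
    rw [h2, h1.eq_of_nhds]
  rw [hEq]
  obtain ⟨C, hC⟩ : ∃ C, ∀ x, ‖φ' x * (F p x + 1)‖ ≤ C := by
    refine Continuous.bounded_above_of_compact_support
      (hs'.continuous.mul ((L.F_cont p).add continuous_const)) ?_
    exact (χ.hasCompactSupport.mul_left (f := φ)).mul_right
  have hC0 : 0 ≤ C := (norm_nonneg _).trans (hC 0)
  have hle : ∀ ε, 0 < ε → ε ≤ 1 → ∀ x, |φ' x| ≤ C * (F p x + ε)⁻¹ := by
    intro ε h0 h1 x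
    have hF := L.F_nonneg p x
    have h2 := hC x
    rw [Real.norm_eq_abs, abs_mul, abs_of_pos (by linarith only [hF] : 0 < F p x + 1)] at h2
    rw [← div_eq_mul_inv, le_div_iff₀ (by linarith)]
    calc |φ' x| * (F p x + ε) ≤ |φ' x| * (F p x + 1) :=
          mul_le_mul_of_nonneg_left (by linarith) (abs_nonneg _)
      _ ≤ C := h2
  have habs : ∀ e > 0, |Dp H0 k2 A F V p φ'| ≤ C * e := by
    intro e he
    obtain ⟨ε₀, hε₀, h⟩ := L.small heq hp he
    set ε := min (ε₀ / 2) 1 with hε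
    have h0 : 0 < ε := lt_min (by linarith only [hε₀]) one_pos
    have h1 : ε < ε₀ := (min_le_left _ _).trans_lt (by linarith only [hε₀])
    have h2 := (h ε h0 h1).1
    have hi := L.inv_smooth p h0
    have hi1 : ContDiff ℝ 1 (fun x => (F p x + ε)⁻¹) := hi.of_le (by exact_mod_cast le_top)
    have hs1 : ContDiff ℝ 1 φ' := hs'.of_le (by exact_mod_cast le_top)
    have hle' := hle ε h0 (min_le_right _ _)
    have h3 := L.Dp_nonneg (L.sup_mem hp)
      ((contDiff_const (c := C)).mul hi |>.add ((contDiff_const (c := (-1 : ℝ))).mul hs'))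
      (fun x => by have := abs_le.1 (hle' x); linarith only [this.2])
    have h4 := L.Dp_nonneg (L.sup_mem hp)
      ((contDiff_const (c := C)).mul hi |>.add ((contDiff_const (c := (1 : ℝ))).mul hs'))
      (fun x => by have := abs_le.1 (hle' x); linarith only [this.1])
    rw [L.Dp_lin p _ _ hi1 hs1] at h3 h4
    have h5 : C * Dp H0 k2 A F V p (fun x => (F p x + ε)⁻¹) ≤ C * e :=
      mul_le_mul_of_nonneg_left h2 hC0
    rw [abs_le]
    constructor <;> linarith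
  have : |Dp H0 k2 A F V p φ'| ≤ 0 := by
    refine le_of_forall_pos_le_add fun e he => ?_
    have h1 := habs (e / (C + 1)) (by positivity)
    have h2 : C * (e / (C + 1)) ≤ e := by
      rw [mul_div_assoc', div_le_iff₀ (by positivity)]
      linarith only [he]
    linarith
  exact abs_eq_zero.1 (le_antisymm this (abs_nonneg _))

/-- the normal component of `∇F_p` at support points `p` -/
theorem normal (L : L2 H0 k2 A F K V) (heq : (H0 ^ 2 / 4 - k2) * V.real univ ≤ 4 * Real.pi)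
    {p : E n} (hp : Sup F V p) :
    ∀ᵐ z ∂V, inner ℝ (D A (F p) z.1) z.2 = H0 / 2 * F p z.1 := by
  have := L.fin
  obtain ⟨B, hB⟩ : ∃ B, ∀ x ∈ K, ‖F p x‖ ≤ B :=
    L.K_compact.exists_bound_of_continuousOn (L.F_cont p).continuousOn
  have hBK : ∀ x ∈ K, F p x ≤ B := fun x hx => (le_abs_self _).trans (hB x hx)
  have hB0 : 0 ≤ B := (norm_nonneg _).trans (hB p (L.sup_mem hp))
  have hn := L.n_cont p
  have hF := L.Fz_cont p
  set M := V.real univ
  have hM : 0 ≤ M := measureReal_nonneg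
  have hint : Integrable (fun z : E n × E n =>
      (H0 / 2 * F p z.1 - inner ℝ (D A (F p) z.1) z.2) ^ 2) V :=
    L.int_cont (((continuous_const.mul hF).sub hn).pow 2)
  have hzero : ∫ z, (H0 / 2 * F p z.1 - inner ℝ (D A (F p) z.1) z.2) ^ 2 ∂V ≤ 0 := by
    refine le_of_forall_pos_le_add fun e he => ?_
    rw [zero_add]
    set Q := 2 * (B + 1) ^ 2 + H0 ^ 2 / 2 * M with hQ
    have hQ0 : 0 < Q := by positivity
    obtain ⟨ε₀, hε₀, h⟩ := L.small heq hp (e := e / Q) (by positivity)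
    set ε := min (ε₀ / 2) (min 1 (e / Q)) with hε
    have h0 : 0 < ε := lt_min (by linarith only [hε₀]) (lt_min one_pos (by positivity))
    have h1 : ε < ε₀ := (min_le_left _ _).trans_lt (by linarith only [hε₀])
    have h1' : ε ≤ 1 := (min_le_right _ _).trans (min_le_left _ _)
    have h1'' : ε ≤ e / Q := (min_le_right _ _).trans (min_le_right _ _)
    have h2 := (h ε h0 h1).2
    have hi : Continuous fun z : E n × E n => (F p z.1 + ε)⁻¹ :=
      (L.inv_smooth p h0).continuous.comp continuous_fst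
    have hint2 : Integrable (fun z : E n × E n =>
        (H0 / 2 - (F p z.1 + ε)⁻¹ * inner ℝ (D A (F p) z.1) z.2) ^ 2) V :=
      L.int_cont ((continuous_const.sub (hi.mul hn)).pow 2)
    have h3 : ∫ z, (H0 / 2 * F p z.1 - inner ℝ (D A (F p) z.1) z.2) ^ 2 ∂V ≤
        ∫ z, (2 * (B + 1) ^ 2 *
          (H0 / 2 - (F p z.1 + ε)⁻¹ * inner ℝ (D A (F p) z.1) z.2) ^ 2 +
          H0 ^ 2 / 2 * ε ^ 2) ∂V := by
      refine integral_mono_ae hint ((hint2.const_mul _).add (integrable_const _)) ?_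
      filter_upwards [L.V_supp] with z hz
      have hFz := L.F_nonneg p z.1
      have hFB := hBK z.1 hz.1
      set f := F p z.1
      set ν : ℝ := inner ℝ (D A (F p) z.1) z.2
      have hpos : 0 < f + ε := by linarith only [hFz, h0]
      have e1 : H0 / 2 * f - ν = (f + ε) * (H0 / 2 - (f + ε)⁻¹ * ν) - H0 / 2 * ε := by
        field_simp
        ring
      rw [e1]
      set y := H0 / 2 - (f + ε)⁻¹ * ν
      have e2 : (f + ε) ^ 2 ≤ (B + 1) ^ 2 := by
        apply pow_le_pow_left₀ hpos.le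
        linarith only [hFB, h1']
      have e3 : ((f + ε) * y) ^ 2 ≤ (B + 1) ^ 2 * y ^ 2 := by
        rw [mul_pow]
        exact mul_le_mul_of_nonneg_right e2 (sq_nonneg _)
      linarith only [sq_nonneg ((f + ε) * y + H0 / 2 * ε), e3]
    rw [integral_add (hint2.const_mul _) (integrable_const _), integral_const_mul,
      integral_const, smul_eq_mul] at h3
    have h4 : ε ^ 2 ≤ e / Q := by (by_contra nlg; linarith only [nlg, mul_nonneg (sub_nonneg.2 h1') (sub_nonneg.2 h1''), mul_nonneg (le_of_lt (sub_pos.2 h0)) (sub_nonneg.2 h1''), mul_nonneg (le_of_lt (sub_pos.2 h0)) (sub_nonneg.2 h1'), mul_nonneg (le_of_lt (sub_pos.2 (not_le.1 nlg))) (sub_nonneg.2 h1'), mul_pos (sub_pos.2 (not_le.1 nlg)) (sub_pos.2 h0)])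
    have h5 : 2 * (B + 1) ^ 2 *
        ∫ z, (H0 / 2 - (F p z.1 + ε)⁻¹ * inner ℝ (D A (F p) z.1) z.2) ^ 2 ∂V ≤
        2 * (B + 1) ^ 2 * (e / Q) := mul_le_mul_of_nonneg_left h2 (by positivity)
    have h6 : M * (H0 ^ 2 / 2 * ε ^ 2) ≤ M * (H0 ^ 2 / 2 * (e / Q)) :=
      mul_le_mul_of_nonneg_left (mul_le_mul_of_nonneg_left h4 (by positivity)) hM
    have h7 : 2 * (B + 1) ^ 2 * (e / Q) + M * (H0 ^ 2 / 2 * (e / Q)) = e := by
      have : 2 * (B + 1) ^ 2 * (e / Q) + M * (H0 ^ 2 / 2 * (e / Q)) = Q * (e / Q) := by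
        rw [hQ]
        ring
      rw [this, mul_div_cancel₀ _ hQ0.ne']
    linarith only [h7, h6, h5, h3]
  have hz := (integral_eq_zero_iff_of_nonneg (fun z => sq_nonneg _) hint).1
    (le_antisymm hzero (integral_nonneg fun z => sq_nonneg _))
  filter_upwards [hz] with z hz
  have h1 : (H0 / 2 * F p z.1 - inner ℝ (D A (F p) z.1) z.2) ^ 2 = 0 := hz
  have h2 := pow_eq_zero_iff (two_ne_zero) |>.1 h1
  linarith

/-- the weak equation of `F p`, `p` in the support -/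
theorem eig (L : L2 H0 k2 A F K V) (heq : (H0 ^ 2 / 4 - k2) * V.real univ ≤ 4 * Real.pi)
    {p : E n} (hp : Sup F V p) {φ : E n → ℝ} (hφ : ContDiff ℝ ∞ φ) :
    ∫ z, Gam A φ (F p) z ∂V =
      ∫ z, φ z.1 * (2 * (H0 ^ 2 / 4 - k2) * F p z.1 - 2) ∂V := by
  have h1 := L.Dp_zero heq hp hφ
  unfold Dp at h1
  have hφ1 : ContDiff ℝ 1 φ := hφ.of_le (by exact_mod_cast le_top)
  have hφc : Continuous fun z : E n × E n => φ z.1 := hφ.continuous.comp continuous_fst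
  have hF := L.Fz_cont p
  have hG := L.gam_cont hφ1 (L.F1 p)
  have hc : Continuous fun z : E n × E n => φ z.1 * (2 * (H0 ^ 2 / 4 - k2) * F p z.1 - 2) :=
    hφc.mul ((continuous_const.mul hF).sub continuous_const)
  have h2 : ∫ z, (H0 * φ z.1 * inner ℝ (D A (F p) z.1) z.2 -
      2 * (1 + k2 * F p z.1) * φ z.1 - Gam A φ (F p) z) ∂V =
      ∫ z, (φ z.1 * (2 * (H0 ^ 2 / 4 - k2) * F p z.1 - 2) - Gam A φ (F p) z) ∂V := by
    refine integral_congr_ae ?_
    filter_upwards [L.normal heq hp] with z hz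
    rw [hz]
    ring
  rw [h2, integral_sub (L.int_cont hc) (L.int_cont hG)] at h1
  linarith

theorem gamFF (L : L2 H0 k2 A F K V) (heq : (H0 ^ 2 / 4 - k2) * V.real univ ≤ 4 * Real.pi)
    {p : E n} (hp : Sup F V p) :
    ∀ᵐ z ∂V, Gam A (F p) (F p) z = 2 * F p z.1 - (H0 ^ 2 / 4 - k2) * F p z.1 ^ 2 := by
  filter_upwards [L.normal heq hp] with z hz
  rw [Gam_eq, gv_self, hz, L.grad]
  ring

theorem Gam_affine (L : L2 H0 k2 A F K V) (p : E n) (a b : ℝ) (φ : E n → ℝ) (z : E n × E n) :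
    Gam A φ (fun x => a + b * F p x) z = b * Gam A φ (F p) z := by
  have h1 : D A (fun x => a + b * F p x) z.1 = b • D A (F p) z.1 := by
    have hd : DifferentiableAt ℝ (F p) z.1 := (L.F1 p).differentiable (by norm_num) _
    have h2 : HasDerivAt (fun t : ℝ => a + b * t) b (F p z.1) := by
      simpa using ((hasDerivAt_id (F p z.1)).const_mul b).const_add a
    exact D_comp h2 hd
  rw [Gam_eq, Gam_eq, h1, gv_smul_right]

theorem ax (L : L2 H0 k2 A F K V) (heq : (H0 ^ 2 / 4 - k2) * V.real univ ≤ 4 * Real.pi)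
    {p : E n} (hp : Sup F V p) {a b : ℝ}
    (hab : (a = 0 ∧ b = H0 ^ 2 / 4 - k2) ∨ (a = 2 ∧ b = -(H0 ^ 2 / 4 - k2))) :
    Ax A V (H0 ^ 2 / 4 - k2) (fun x => a + b * F p x) := by
  refine ⟨contDiff_const.add (contDiff_const.mul (L.F_smooth p)), fun φ hφ => ?_, ?_⟩
  · have h1 : ∫ z, Gam A φ (fun x => a + b * F p x) z ∂V = b * ∫ z, Gam A φ (F p) z ∂V := by
      rw [← integral_const_mul]
      exact integral_congr_ae (Eventually.of_forall fun z => L.Gam_affine p a b φ z)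
    rw [h1, L.eig heq hp hφ, ← integral_const_mul, ← integral_const_mul]
    refine integral_congr_ae (Eventually.of_forall fun z => ?_)
    simp only
    rcases hab with ⟨rfl, rfl⟩ | ⟨rfl, rfl⟩ <;> ring
  · filter_upwards [L.gamFF heq hp] with z hz
    rw [L.Gam_affine, Gam_eq, gv_comm, ← Gam_eq, L.Gam_affine, hz]
    rcases hab with ⟨rfl, rfl⟩ | ⟨rfl, rfl⟩ <;> ring

theorem Gam_pow {g u : E n → ℝ} (hg : ContDiff ℝ ∞ g) (j : ℕ) (z : E n × E n) :
    Gam A (fun x => g x ^ j) u z = j * g z.1 ^ (j - 1) * Gam A g u z := by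
  have hd : DifferentiableAt ℝ g z.1 := hg.differentiable (by simp) _
  have h1 : D A (fun x => g x ^ j) z.1 = (j * g z.1 ^ (j - 1)) • D A g z.1 :=
    D_comp (hasDerivAt_pow j (g z.1)) hd
  rw [Gam_eq, Gam_eq, h1, gv_smul_left]

/-- the recursion for the moments -/
theorem N_rec (L : L2 H0 k2 A F K V) {h2 : ℝ} (hh : 0 < h2) {g : E n → ℝ} (hg : Ax A V h2 g)
    (j : ℕ) : ((j : ℝ) + 2) * ∫ z, g z.1 ^ (j + 1) ∂V = 2 * ((j : ℝ) + 1) * ∫ z, g z.1 ^ j ∂V := by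
  have hgc : Continuous fun z : E n × E n => g z.1 := hg.smooth.continuous.comp continuous_fst
  have hi : ∀ i : ℕ, Integrable (fun z : E n × E n => g z.1 ^ i) V := fun i =>
    L.int_cont (hgc.pow i)
  have h1 := hg.weak (fun x => g x ^ j) (hg.smooth.pow j)
  have e1 : ∫ z, Gam A (fun x => g x ^ j) g z ∂V =
      h2 * j * (2 * ∫ z, g z.1 ^ j ∂V - ∫ z, g z.1 ^ (j + 1) ∂V) := by
    rw [← integral_const_mul, ← integral_sub ((hi j).const_mul 2) (hi (j + 1)),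
      ← integral_const_mul]
    refine integral_congr_ae ?_
    filter_upwards [hg.sq] with z hz
    rw [Gam_pow hg.smooth, hz]
    rcases j with _ | j
    · simp
    · rw [Nat.add_sub_cancel]
      ring
  have e2 : ∫ z, g z.1 ^ j * (g z.1 - 1) ∂V = ∫ z, g z.1 ^ (j + 1) ∂V - ∫ z, g z.1 ^ j ∂V := by
    rw [← integral_sub (hi (j + 1)) (hi j)]
    refine integral_congr_ae (Eventually.of_forall fun z => ?_)
    simp only
    ring
  rw [e1, e2] at h1
  have h3 : (j : ℝ) * (2 * ∫ z, g z.1 ^ j ∂V - ∫ z, g z.1 ^ (j + 1) ∂V) =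
      2 * (∫ z, g z.1 ^ (j + 1) ∂V - ∫ z, g z.1 ^ j ∂V) := by
    apply mul_left_cancel₀ hh.ne'
    linarith
  linarith

/-- Archimedes -/
theorem N_eq (L : L2 H0 k2 A F K V) {h2 : ℝ} (hh : 0 < h2) {g : E n → ℝ} (hg : Ax A V h2 g)
    (j : ℕ) : ((j : ℝ) + 1) * ∫ z, g z.1 ^ j ∂V = 2 ^ j * V.real univ := by
  have := L.fin
  induction j with
  | zero => simp
  | succ j ih =>
    have h := L.N_rec hh hg j
    push_cast
    rw [pow_succ]
    have e : ((j : ℝ) + 1 + 1) * ∫ z, g z.1 ^ (j + 1) ∂V =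
        ((j : ℝ) + 2) * ∫ z, g z.1 ^ (j + 1) ∂V := by ring
    rw [e, h]
    linarith

/-- the recursion for the mixed moments -/
theorem W_rec (L : L2 H0 k2 A F K V) {h2 : ℝ} (hh : 0 < h2) {g g' : E n → ℝ}
    (hg : Ax A V h2 g) (hg' : Ax A V h2 g') (j : ℕ) :
    (j : ℝ) * ((j : ℝ) + 3) * ∫ z, g z.1 ^ (j + 1) * (g' z.1 - 1) ∂V =
      2 * ((j : ℝ) + 1) ^ 2 * ∫ z, g z.1 ^ j * (g' z.1 - 1) ∂V := by
  have hgc : Continuous fun z : E n × E n => g z.1 := hg.smooth.continuous.comp continuous_fst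
  have hgc' : Continuous fun z : E n × E n => g' z.1 :=
    hg'.smooth.continuous.comp continuous_fst
  have hi : ∀ i : ℕ, Integrable (fun z : E n × E n => g z.1 ^ i * (g' z.1 - 1)) V := fun i =>
    L.int_cont ((hgc.pow i).mul (hgc'.sub continuous_const))
  have hg1 : ContDiff ℝ 1 g := hg.smooth.of_le (by exact_mod_cast le_top)
  have hg1' : ContDiff ℝ 1 g' := hg'.smooth.of_le (by exact_mod_cast le_top)
  have hGi : Integrable (fun z : E n × E n => g z.1 ^ j * Gam A g g' z) V :=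
    L.int_cont ((hgc.pow j).mul (L.gam_cont hg1 hg1'))
  have ha := hg'.weak (fun x => g x ^ (j + 1)) (hg.smooth.pow (j + 1))
  have hb := hg.weak (fun x => g x ^ j * (g' x - 1))
    ((hg.smooth.pow j).mul (hg'.smooth.sub contDiff_const))
  set W0 := ∫ z, g z.1 ^ j * (g' z.1 - 1) ∂V with hW0
  set W1 := ∫ z, g z.1 ^ (j + 1) * (g' z.1 - 1) ∂V with hW1
  set X := ∫ z, g z.1 ^ j * Gam A g g' z ∂V with hX
  have ea : ∫ z, Gam A (fun x => g x ^ (j + 1)) g' z ∂V = ((j : ℝ) + 1) * X := by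
    rw [hX, ← integral_const_mul]
    refine integral_congr_ae (Eventually.of_forall fun z => ?_)
    simp only
    rw [Gam_pow hg.smooth, Nat.add_sub_cancel]
    push_cast
    ring
  have eb : ∫ z, Gam A (fun x => g x ^ j * (g' x - 1)) g z ∂V =
      h2 * j * (2 * W0 - W1) + X := by
    have hQ : Integrable (fun z : E n × E n => h2 * j * (2 * (g z.1 ^ j * (g' z.1 - 1)) -
        g z.1 ^ (j + 1) * (g' z.1 - 1))) V :=
      (((hi j).const_mul 2).sub (hi (j + 1))).const_mul _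
    rw [hX, hW0, hW1, ← integral_const_mul 2, ← integral_sub ((hi j).const_mul 2) (hi (j + 1)),
      ← integral_const_mul, ← integral_add hQ hGi]
    refine integral_congr_ae ?_
    filter_upwards [hg.sq] with z hz
    have hd : DifferentiableAt ℝ g z.1 := hg1.differentiable (by norm_num) _
    have hd' : DifferentiableAt ℝ g' z.1 := hg1'.differentiable (by norm_num) _
    have e3 : D A (fun x => g x ^ j * (g' x - 1)) z.1 =
        (g z.1 ^ j) • D A g' z.1 + (g' z.1 - 1) • D A (fun x => g x ^ j) z.1 := by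
      have h4 : D A (fun x => g' x - 1) z.1 = D A g' z.1 := by
        have h5 := D_sub (A := A) (u := g') (v := fun _ => (1 : ℝ)) hd' (differentiableAt_const 1)
        rw [h5, D_const, sub_zero]
      have h6 := D_mul (A := A) (u := fun x => g x ^ j) (v := fun x => g' x - 1) (x := z.1)
        (hd.pow j) (hd'.sub_const 1)
      rw [h6, h4]
    have e4 : Gam A (fun x => g x ^ j * (g' x - 1)) g z =
        g z.1 ^ j * Gam A g' g z + (g' z.1 - 1) * Gam A (fun x => g x ^ j) g z := by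
      rw [Gam_eq, Gam_eq, Gam_eq, e3, gv_add_left, gv_smul_left, gv_smul_left]
    have e5 : Gam A g' g z = Gam A g g' z := gv_comm _ _ _
    rw [e4, Gam_pow hg.smooth, hz, e5]
    rcases j with _ | j
    · simp
    · rw [Nat.add_sub_cancel]
      ring
  have ec : ∫ z, g z.1 ^ j * (g' z.1 - 1) * (g z.1 - 1) ∂V = W1 - W0 := by
    rw [hW0, hW1, ← integral_sub (hi (j + 1)) (hi j)]
    refine integral_congr_ae (Eventually.of_forall fun z => ?_)
    simp only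
    ring
  rw [ea] at ha
  rw [eb, ec] at hb
  have h3 : ((j : ℝ) + 1) * (j * (2 * W0 - W1)) = 2 * ((j : ℝ) + 1) * (W1 - W0) - 2 * W1 := by
    apply mul_left_cancel₀ hh.ne'
    have h4 : ((j : ℝ) + 1) * (h2 * j * (2 * W0 - W1) + X) =
      ((j : ℝ) + 1) * (2 * h2 * (W1 - W0)) := by rw [hb]
    linarith
  linarith

theorem W_eq (L : L2 H0 k2 A F K V) {h2 : ℝ} (hh : 0 < h2) {g g' : E n → ℝ}
    (hg : Ax A V h2 g) (hg' : Ax A V h2 g') (j : ℕ) :
    ((j : ℝ) + 1 + 1) * ((j : ℝ) + 1 + 2) * ∫ z, g z.1 ^ (j + 1) * (g' z.1 - 1) ∂V =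
      3 * ((j : ℝ) + 1) * 2 ^ (j + 1) * ∫ z, g z.1 ^ 1 * (g' z.1 - 1) ∂V := by
  induction j with
  | zero => norm_num
  | succ j ih =>
    have h := L.W_rec hh hg hg' (j + 1)
    push_cast at h ⊢
    set Wa := ∫ z, g z.1 ^ (j + 1) * (g' z.1 - 1) ∂V
    set Wb := ∫ z, g z.1 ^ (j + 1 + 1) * (g' z.1 - 1) ∂V
    set W1 := ∫ z, g z.1 ^ 1 * (g' z.1 - 1) ∂V
    have hj : (0 : ℝ) < (j : ℝ) + 1 := by positivity
    apply mul_left_cancel₀ hj.ne'
    have e1 : ((j : ℝ) + 1) * (((j : ℝ) + 1 + 1 + 1) * ((j : ℝ) + 1 + 1 + 2) * Wb) =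
      ((j : ℝ) + 1 + 1 + 1) * (((j : ℝ) + 1) * ((j : ℝ) + 1 + 3) * Wb) := by ring
    rw [e1, h]
    have e2 : ((j : ℝ) + 1 + 1 + 1) * (2 * ((j : ℝ) + 1 + 1) ^ 2 * Wa) =
      2 * ((j : ℝ) + 1 + 1) * ((((j : ℝ) + 1 + 1) * ((j : ℝ) + 1 + 2)) * Wa) := by ring
    rw [e2, ih]
    ring

theorem W_eq' (L : L2 H0 k2 A F K V) {h2 : ℝ} (hh : 0 < h2) {g g' : E n → ℝ}
    (hg : Ax A V h2 g) (hg' : Ax A V h2 g') (k : ℕ) :
    ((k : ℝ) + 1) * ((k : ℝ) + 2) * ∫ z, g z.1 ^ k * (g' z.1 - 1) ∂V =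
      3 * (k : ℝ) * 2 ^ k * ∫ z, g z.1 ^ 1 * (g' z.1 - 1) ∂V := by
  rcases k with _ | k
  · have h := L.W_rec hh hg hg' 0
    norm_num at h ⊢
    linarith
  · have h := L.W_eq hh hg hg' k
    push_cast
    exact h

theorem M_pos (L : L2 H0 k2 A F K V) : 0 < V.real univ := by
  have := L.fin
  exact ENNReal.toReal_pos (fun h => L.V_ne (Measure.measure_univ_eq_zero.1 h))
    (measure_ne_top V univ)

theorem ax_nonneg (L : L2 H0 k2 A F K V) {h2 : ℝ} (hh : 0 < h2) {g : E n → ℝ}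
    (hg : Ax A V h2 g) : ∀ᵐ z ∂V, 0 ≤ g z.1 ∧ g z.1 ≤ 2 := by
  filter_upwards [hg.sq, L.V_supp] with z hz hz'
  have h1 : 0 ≤ Gam A g g z := gv_self_nonneg hz'.2.le _
  rw [hz] at h1
  have h3 : 0 ≤ g z.1 * (2 - g z.1) := nonneg_of_mul_nonneg_right h1 hh
  constructor
  · by_contra hcon
    push Not at hcon
    linarith only [mul_pos (sub_pos.2 hcon) (sub_pos.2 hcon), hcon, h3]
  · by_contra hcon
    push Not at hcon
    linarith only [mul_pos (sub_pos.2 hcon) (sub_pos.2 hcon), hcon, h3]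

/-- the reproducing property -/
theorem repro (L : L2 H0 k2 A F K V) (heq : (H0 ^ 2 / 4 - k2) * V.real univ ≤ 4 * Real.pi)
    (hh : 0 < H0 ^ 2 / 4 - k2) {p q : E n} (hp : Sup F V p) (hq : Sup F V q) :
    3 * ∫ z, (1 - (H0 ^ 2 / 4 - k2) * F p z.1) * (1 - (H0 ^ 2 / 4 - k2) * F q z.1) ∂V =
      V.real univ * (1 - (H0 ^ 2 / 4 - k2) * F p q) := by
  have hfin := L.fin
  set h2 := H0 ^ 2 / 4 - k2 with hh2
  have hg := L.ax heq hp (a := 2) (b := -h2) (Or.inr ⟨rfl, rfl⟩)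
  have hg' := L.ax heq hq (a := 2) (b := -h2) (Or.inr ⟨rfl, rfl⟩)
  rw [← hh2] at hg hg'
  set g : E n → ℝ := fun x => 2 + -h2 * F p x with hgd
  set g' : E n → ℝ := fun x => 2 + -h2 * F q x with hgd'
  set M := V.real univ with hMd
  have hM : 0 < M := L.M_pos
  have hgc : Continuous fun z : E n × E n => g z.1 := hg.smooth.continuous.comp continuous_fst
  have hgc' : Continuous fun z : E n × E n => g' z.1 :=
    hg'.smooth.continuous.comp continuous_fst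
  set u : E n → ℝ := fun x => g' x - 1 with hu
  have huc : Continuous u := hg'.smooth.continuous.sub continuous_const
  set W1 := ∫ z, g z.1 ^ 1 * (g' z.1 - 1) ∂V with hW1
  -- the limit
  have hlim : 3 * W1 = M * u p := by
    have key : ∀ δ > 0, |3 * W1 - M * u p| ≤ δ * M := by
      intro δ hδ
      obtain ⟨e1, he1, hcl⟩ := L.close p huc hδ
      set e := min e1 (1 / h2) with he
      have he0 : 0 < e := lt_min he1 (by positivity)
      have hee : h2 * e ≤ 1 := by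
        have : h2 * e ≤ h2 * (1 / h2) := mul_le_mul_of_nonneg_left (min_le_right _ _) hh.le
        rwa [mul_one_div, div_self hh.ne'] at this
      obtain ⟨B, hB⟩ : ∃ B, ∀ x ∈ K, ‖u x - u p‖ ≤ B :=
        L.K_compact.exists_bound_of_continuousOn (huc.sub continuous_const).continuousOn
      have hB0 : 0 ≤ B := (norm_nonneg _).trans (hB p (L.sup_mem hp))
      set r := 2 - h2 * e with hr
      have hr0 : 0 ≤ r := by linarith only [hee]
      have hr2 : r < 2 := by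
        have := mul_pos hh he0
        linarith
      have hk : ∀ k : ℕ, |3 * ((k : ℝ) / ((k : ℝ) + 2)) * W1 - M * u p| ≤
          δ * M + B * M * (((k : ℝ) + 1) * (r / 2) ^ k) := by
        intro k
        have hi1 : Integrable (fun z : E n × E n => g z.1 ^ k) V := L.int_cont (hgc.pow k)
        have hi2 : Integrable (fun z : E n × E n => g z.1 ^ k * (g' z.1 - 1)) V :=
          L.int_cont ((hgc.pow k).mul (hgc'.sub continuous_const))
        have h1 : |∫ z, g z.1 ^ k * (g' z.1 - 1) ∂V - u p * ∫ z, g z.1 ^ k ∂V| ≤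
            δ * ∫ z, g z.1 ^ k ∂V + M * (B * r ^ k) := by
          have e1 : ∫ z, g z.1 ^ k * (g' z.1 - 1) ∂V - u p * ∫ z, g z.1 ^ k ∂V =
              ∫ z, (g z.1 ^ k * (g' z.1 - 1) - u p * g z.1 ^ k) ∂V := by
            rw [← integral_const_mul, ← integral_sub hi2 (hi1.const_mul _)]
          have e2 : δ * ∫ z, g z.1 ^ k ∂V + M * (B * r ^ k) =
              ∫ z, (δ * g z.1 ^ k + B * r ^ k) ∂V := by
            rw [integral_add (hi1.const_mul _) (integrable_const _), integral_const_mul,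
              integral_const, smul_eq_mul]
          rw [e1, e2]
          refine (abs_integral_le_integral_abs).trans ?_
          refine integral_mono_ae (hi2.sub (hi1.const_mul _)).abs
            ((hi1.const_mul _).add (integrable_const _)) ?_
          filter_upwards [L.V_supp, L.ax_nonneg hh hg] with z hz hz'
          have e3 : g z.1 ^ k * (g' z.1 - 1) - u p * g z.1 ^ k =
              g z.1 ^ k * (u z.1 - u p) := by
            simp only [hu]
            ring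
          have hgk : 0 ≤ g z.1 ^ k := pow_nonneg hz'.1 k
          rw [e3, abs_mul, abs_of_nonneg hgk]
          by_cases hlt : F p z.1 < e
          · have h4 := hcl z.1 hz.1 (hlt.trans_le (min_le_left _ _))
            have h5 : g z.1 ^ k * |u z.1 - u p| ≤ g z.1 ^ k * δ :=
              mul_le_mul_of_nonneg_left h4.le hgk
            have h6 : 0 ≤ B * r ^ k := by positivity
            linarith only [h6, h5]
          · have h4 := hB z.1 hz.1
            rw [Real.norm_eq_abs] at h4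
            have h5 : g z.1 ≤ r := by
              have : h2 * e ≤ h2 * F p z.1 := mul_le_mul_of_nonneg_left (not_lt.1 hlt) hh.le
              simp only [hgd, hr]
              linarith only [this]
            have h6 : g z.1 ^ k ≤ r ^ k := pow_le_pow_left₀ hz'.1 h5 k
            have h7 : g z.1 ^ k * |u z.1 - u p| ≤ r ^ k * B :=
              mul_le_mul h6 h4 (abs_nonneg _) (by positivity)
            have h8 : 0 ≤ δ * g z.1 ^ k := by positivity
            linarith only [h8, h7]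
        have hN := L.N_eq hh hg k
        have hW := L.W_eq' hh hg hg' k
        set N := ∫ z, g z.1 ^ k ∂V
        set W := ∫ z, g z.1 ^ k * (g' z.1 - 1) ∂V
        have h2k : (0 : ℝ) < 2 ^ k := by positivity
        have hk1 : (0 : ℝ) < (k : ℝ) + 1 := by positivity
        have hk2 : (0 : ℝ) < (k : ℝ) + 2 := by positivity
        have e4 : 3 * ((k : ℝ) / ((k : ℝ) + 2)) * W1 - M * u p =
            ((k : ℝ) + 1) / 2 ^ k * (W - u p * N) := by
          have e5 : 3 * ((k : ℝ) / ((k : ℝ) + 2)) * W1 = ((k : ℝ) + 1) / 2 ^ k * W := by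
            field_simp
            linarith
          have e6 : M = ((k : ℝ) + 1) / 2 ^ k * N := by
            field_simp
            linarith
          rw [e5]
          nth_rw 1 [e6]
          ring
        have e7 : δ * M + B * M * (((k : ℝ) + 1) * (r / 2) ^ k) =
            ((k : ℝ) + 1) / 2 ^ k * (δ * N + M * (B * r ^ k)) := by
          have e6 : ((k : ℝ) + 1) / 2 ^ k * N = M := by
            field_simp
            linarith
          have e8 : ((k : ℝ) + 1) / 2 ^ k * (δ * N + M * (B * r ^ k)) =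
            δ * (((k : ℝ) + 1) / 2 ^ k * N) + ((k : ℝ) + 1) / 2 ^ k * (M * (B * r ^ k)) := by ring
          rw [e8, e6, div_pow]
          field_simp
        rw [e4, e7, abs_mul, abs_of_pos (by positivity : 0 < ((k : ℝ) + 1) / 2 ^ k)]
        exact mul_le_mul_of_nonneg_left h1 (by positivity)
      have ht1 : Tendsto (fun k : ℕ => |3 * ((k : ℝ) / ((k : ℝ) + 2)) * W1 - M * u p|) atTop
          (𝓝 |3 * 1 * W1 - M * u p|) :=
        (((tendsto_natCast_div_add_atTop (2 : ℝ)).const_mul 3 |>.mul_const W1).sub_const _).abs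
      have hρ0 : 0 ≤ r / 2 := by positivity
      have hρ1 : r / 2 < 1 := by linarith only [hr2]
      have ht2 : Tendsto (fun k : ℕ => δ * M + B * M * (((k : ℝ) + 1) * (r / 2) ^ k)) atTop
          (𝓝 (δ * M + B * M * (0 + 0))) := by
        refine tendsto_const_nhds.add (Tendsto.const_mul _ ?_)
        have ht3 := (tendsto_self_mul_const_pow_of_lt_one hρ0 hρ1).add
          (tendsto_pow_atTop_nhds_zero_of_lt_one hρ0 hρ1)
        refine ht3.congr fun k => ?_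
        ring
      have h9 := le_of_tendsto_of_tendsto' ht1 ht2 hk
      rw [mul_one, add_zero, mul_zero, add_zero] at h9
      exact h9
    have h0 : |3 * W1 - M * u p| ≤ 0 := by
      refine le_of_forall_pos_le_add fun e he => ?_
      have h1 := key (e / M) (by positivity)
      rw [div_mul_cancel₀ _ hM.ne'] at h1
      linarith
    have h1 := abs_eq_zero.1 (le_antisymm h0 (abs_nonneg _))
    linarith
  have hup : u p = 1 - h2 * F p q := by
    simp only [hu, hgd']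
    rw [L.F_comm q p]
    ring
  rw [← hup, ← hlim, hW1]
  congr 1
  -- `∫ (g' - 1) = 0`
  have h0 := L.W_eq' hh hg hg' 0
  have h0' : ∫ z, g z.1 ^ 0 * (g' z.1 - 1) ∂V = 0 := by
    norm_num at h0 ⊢
    exact h0
  have hi1 : Integrable (fun z : E n × E n => g z.1 ^ 0 * (g' z.1 - 1)) V :=
    L.int_cont ((hgc.pow 0).mul (hgc'.sub continuous_const))
  have hi2 : Integrable (fun z : E n × E n => (1 - h2 * F p z.1) * (1 - h2 * F q z.1)) V :=
    L.int_cont ((continuous_const.sub (continuous_const.mul (L.Fz_cont p))).mul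
      (continuous_const.sub (continuous_const.mul (L.Fz_cont q))))
  have e1 : ∫ z, g z.1 ^ 1 * (g' z.1 - 1) ∂V =
      ∫ z, ((1 - h2 * F p z.1) * (1 - h2 * F q z.1) + g z.1 ^ 0 * (g' z.1 - 1)) ∂V := by
    refine integral_congr_ae (Eventually.of_forall fun z => ?_)
    simp only [hgd, hgd']
    ring
  rw [e1, integral_add hi2 hi1, h0', add_zero]

/-- every support point has an antipode -/
theorem antipode (L : L2 H0 k2 A F K V) (heq : (H0 ^ 2 / 4 - k2) * V.real univ ≤ 4 * Real.pi)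
    (hh : 0 < H0 ^ 2 / 4 - k2) {p : E n} (hp : Sup F V p) :
    ∃ q, Sup F V q ∧ 2 ≤ (H0 ^ 2 / 4 - k2) * F p q := by
  have hfin := L.fin
  set h2 := H0 ^ 2 / 4 - k2 with hh2
  by_contra hcon
  push Not at hcon
  have hv := L.ax heq hp (a := 0) (b := h2) (Or.inl ⟨rfl, rfl⟩)
  rw [← hh2] at hv
  set C : Set (E n) := K ∩ {x | 2 ≤ h2 * F p x} with hC
  have hCc : IsCompact C := L.K_compact.inter_right
    (isClosed_le continuous_const (continuous_const.mul (L.F_cont p)))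
  have hex : ∀ x ∈ C, ∃ e > 0, V {z | F x z.1 < e} = 0 := by
    intro x hx
    by_contra h
    push Not at h
    have hs : Sup F V x := fun e he => pos_iff_ne_zero.2 (h e he)
    have h1 := hcon x hs
    have h3 : 2 ≤ h2 * F p x := hx.2
    linarith
  choose! e he0 he using hex
  obtain ⟨t, ht, hcov⟩ := hCc.elim_nhds_subcover (fun x => {y | F x y < e x}) (by
    intro x hx
    refine IsOpen.mem_nhds (isOpen_lt (L.F_cont x) continuous_const) ?_
    show F x x < e x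
    rw [L.F_self x]
    exact he0 x hx)
  set U : Set (E n) := ⋃ x ∈ t, {y | F x y < e x} with hU
  have hUo : IsOpen U := isOpen_biUnion fun x _ => isOpen_lt (L.F_cont x) continuous_const
  have hU0 : V {z | z.1 ∈ U} = 0 := by
    have h1 : V (⋃ x ∈ t, {z : E n × E n | F x z.1 < e x}) = 0 :=
      (measure_biUnion_null_iff t.countable_toSet).2 fun x hx => he x (ht x hx)
    refine measure_mono_null ?_ h1
    intro z hz
    have hz' : z.1 ∈ U := hz
    simp only [hU, mem_iUnion, mem_ofPred_eq] at hz' ⊢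
    exact hz'
  have hUae : ∀ᵐ z ∂V, z.1 ∉ U := by
    rw [ae_iff]
    simpa using hU0
  set K' : Set (E n) := K \ U with hK'
  have hK'c : IsCompact K' := L.K_compact.diff hUo
  have hne : K'.Nonempty := by
    by_contra hcon'
    rw [not_nonempty_iff_eq_empty] at hcon'
    refine L.V_ne (ae_eq_bot.1 (Filter.eventually_false_iff_eq_bot.1 ?_))
    filter_upwards [hUae, L.V_supp] with z hz hz'
    have : z.1 ∈ K' := ⟨hz'.1, hz⟩
    rw [hcon'] at this
    exact this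
  obtain ⟨y, hy, hmax⟩ := hK'c.exists_isMaxOn hne
    (continuous_const.mul (L.F_cont p) : Continuous fun x => h2 * F p x).continuousOn
  set s := h2 * F p y with hs
  have hs0 : 0 ≤ s := mul_nonneg hh.le (L.F_nonneg p y)
  have hs2 : s < 2 := by
    by_contra h
    exact hy.2 (hcov ⟨hy.1, not_lt.1 h⟩)
  have hle : ∀ k : ℕ, (1 : ℝ) ≤ ((k : ℝ) + 1) * (s / 2) ^ k := by
    intro k
    have h1 := L.N_eq hh hv k
    have hc : Continuous fun z : E n × E n => 0 + h2 * F p z.1 :=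
      continuous_const.add (continuous_const.mul (L.Fz_cont p))
    have h3 : ∫ z, (0 + h2 * F p z.1) ^ k ∂V ≤ V.real univ * s ^ k := by
      have e1 : V.real univ * s ^ k = ∫ _z : E n × E n, s ^ k ∂V := by
        rw [integral_const, smul_eq_mul]
      rw [e1]
      refine integral_mono_ae (L.int_cont (hc.pow k)) (integrable_const _) ?_
      filter_upwards [hUae, L.V_supp] with z hz hz'
      have h4 : h2 * F p z.1 ≤ s := hmax (⟨hz'.1, hz⟩ : z.1 ∈ K')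
      have h5 : 0 ≤ h2 * F p z.1 := mul_nonneg hh.le (L.F_nonneg p z.1)
      show (0 + h2 * F p z.1) ^ k ≤ s ^ k
      rw [zero_add]
      exact pow_le_pow_left₀ h5 h4 k
    have hM := L.M_pos
    have h4 : 2 ^ k * V.real univ ≤ ((k : ℝ) + 1) * (V.real univ * s ^ k) := by
      rw [← h1]
      exact mul_le_mul_of_nonneg_left h3 (by positivity)
    rw [div_pow, mul_div_assoc', le_div_iff₀ (by positivity), one_mul]
    have h5 : V.real univ * 2 ^ k ≤ V.real univ * (((k : ℝ) + 1) * s ^ k) := by linarith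
    exact le_of_mul_le_mul_left h5 hM
  have hρ0 : 0 ≤ s / 2 := by positivity
  have hρ1 : s / 2 < 1 := by linarith only [hs2]
  have ht3 : Tendsto (fun k : ℕ => ((k : ℝ) + 1) * (s / 2) ^ k) atTop (𝓝 (0 + 0)) := by
    have ht4 := (tendsto_self_mul_const_pow_of_lt_one hρ0 hρ1).add
      (tendsto_pow_atTop_nhds_zero_of_lt_one hρ0 hρ1)
    refine ht4.congr fun k => ?_
    ring
  have h9 := ge_of_tendsto' ht3 hle
  linarith

/-- a centre of the sphere, provided midpoints satisfy the comparison inequality -/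
theorem rigid2 (L : L2 H0 k2 A F K V)
    (mid : ∀ p ∈ K, ∀ q ∈ K, ∃ c ∈ K, ∀ x, √(1 + k2 * F p q / 2) * F c x +
      F p q / (2 * (√(1 + k2 * F p q / 2) + 1)) ≤ (F p x + F q x) / 2)
    (heq : (H0 ^ 2 / 4 - k2) * V.real univ ≤ 4 * Real.pi) :
    ∃ c ∈ K, ∀ᵐ z ∂V, 2 * F c z.1 + k2 * F c z.1 ^ 2 = (H0 ^ 2 / 4 - k2)⁻¹ := by
  have hfin := L.fin
  have hM := L.M_pos
  have hge := main2 L.k2_nonneg L.A_cont L.F_smooth L.F_nonneg L.F_self L.grad L.K_compact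
    L.V_supp L.V_ne L.stat L.dens
  set h2 := H0 ^ 2 / 4 - k2 with hh2
  have hh : 0 < h2 := by
    by_contra hcon
    have h1 : h2 * V.real univ ≤ 0 := mul_nonpos_of_nonpos_of_nonneg (not_lt.1 hcon) hM.le
    linarith only [Real.pi_pos, h1, hge]
  obtain ⟨p, _, hp⟩ := exists_supp (fun c => L.F_cont c) L.F_self L.K_compact L.V_supp L.V_ne
  obtain ⟨q, hq, hpq⟩ := L.antipode heq hh hp
  rw [← hh2] at hpq
  -- `G_p + G_q = 0`
  have hGp : Continuous fun z : E n × E n => 1 - h2 * F p z.1 :=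
    continuous_const.sub (continuous_const.mul (L.Fz_cont p))
  have hGq : Continuous fun z : E n × E n => 1 - h2 * F q z.1 :=
    continuous_const.sub (continuous_const.mul (L.Fz_cont q))
  have hint : Integrable (fun z : E n × E n =>
      ((1 - h2 * F p z.1) + (1 - h2 * F q z.1)) ^ 2) V := L.int_cont ((hGp.add hGq).pow 2)
  have hpp := L.repro heq hh hp hp
  have hqq := L.repro heq hh hq hq
  have hpq' := L.repro heq hh hp hq
  rw [← hh2, L.F_self] at hpp hqq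
  rw [← hh2] at hpq'
  have hsum : ∫ z, ((1 - h2 * F p z.1) + (1 - h2 * F q z.1)) ^ 2 ∂V =
      ∫ z, (1 - h2 * F p z.1) * (1 - h2 * F p z.1) ∂V +
        ∫ z, (1 - h2 * F q z.1) * (1 - h2 * F q z.1) ∂V +
      2 * ∫ z, (1 - h2 * F p z.1) * (1 - h2 * F q z.1) ∂V := by
    have i1 : Integrable (fun z : E n × E n => (1 - h2 * F p z.1) * (1 - h2 * F p z.1)) V :=
      L.int_cont (hGp.mul hGp)
    have i2 : Integrable (fun z : E n × E n => (1 - h2 * F q z.1) * (1 - h2 * F q z.1)) V :=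
      L.int_cont (hGq.mul hGq)
    have i3 : Integrable (fun z : E n × E n => (1 - h2 * F p z.1) * (1 - h2 * F q z.1)) V :=
      L.int_cont (hGp.mul hGq)
    have i12 : Integrable (fun z : E n × E n => (1 - h2 * F p z.1) * (1 - h2 * F p z.1) +
      (1 - h2 * F q z.1) * (1 - h2 * F q z.1)) V := i1.add i2
    rw [← integral_const_mul, ← integral_add i1 i2, ← integral_add i12 (i3.const_mul 2)]
    refine integral_congr_ae (Eventually.of_forall fun z => ?_)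
    simp only
    ring
  have hnn : 0 ≤ ∫ z, ((1 - h2 * F p z.1) + (1 - h2 * F q z.1)) ^ 2 ∂V :=
    integral_nonneg fun z => sq_nonneg _
  have hval : 3 * ∫ z, ((1 - h2 * F p z.1) + (1 - h2 * F q z.1)) ^ 2 ∂V =
      V.real univ * (2 * (2 - h2 * F p q)) := by
    rw [hsum]
    linarith
  have hpq2 : h2 * F p q = 2 := by
    have h1 : 0 ≤ V.real univ * (2 * (2 - h2 * F p q)) := by
      rw [← hval]
      positivity
    have h3 := nonneg_of_mul_nonneg_right h1 hM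
    linarith
  have hz0 : ∫ z, ((1 - h2 * F p z.1) + (1 - h2 * F q z.1)) ^ 2 ∂V = 0 := by
    rw [hpq2] at hval
    linarith
  have hz := (integral_eq_zero_iff_of_nonneg (fun z => sq_nonneg _) hint).1 hz0
  have hae : ∀ᵐ z ∂V, F p z.1 + F q z.1 = 2 / h2 := by
    filter_upwards [hz] with z hz
    have h1 : ((1 - h2 * F p z.1) + (1 - h2 * F q z.1)) ^ 2 = 0 := hz
    have h3 := pow_eq_zero_iff (two_ne_zero) |>.1 h1
    rw [eq_div_iff hh.ne']
    linarith
  obtain ⟨c, hc, hmid⟩ := mid p (L.sup_mem hp) q (L.sup_mem hq)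
  refine ⟨c, hc, ?_⟩
  have hFpq : F p q = 2 / h2 := by
    rw [eq_div_iff hh.ne']
    linarith
  set S := √(1 + k2 * F p q / 2) with hS
  have hk := L.k2_nonneg
  have hS2 : S ^ 2 = 1 + k2 / h2 := by
    rw [hS, Real.sq_sqrt (by have := L.F_nonneg p q; positivity), hFpq]
    field_simp
  have hS0 : 0 ≤ S := Real.sqrt_nonneg _
  have hS1 : 1 ≤ S := by
    rw [hS, Real.one_le_sqrt]
    have := L.F_nonneg p q
    have : 0 ≤ k2 * F p q / 2 := by positivity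
    linarith only [this]
  set a := 1 / (h2 * (S + 1)) with ha
  have ha0 : 0 < a := by positivity
  have hcomp : ∀ᵐ z ∂V, F c z.1 ≤ a := by
    filter_upwards [hae] with z hz
    have h1 := hmid z.1
    rw [hz, hFpq] at h1
    have h3 : S * F c z.1 ≤ S * a := by
      have e1 : S * a = 2 / h2 / 2 - 2 / h2 / (2 * (S + 1)) := by
        rw [ha]
        field_simp
        ring
      rw [e1]
      linarith only [h1]
    exact le_of_mul_le_mul_left h3 (by linarith only [hS1])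
  have ha2 : h2 * (2 * a + k2 * a ^ 2) = 1 := by
    have e1 : k2 = h2 * (S ^ 2 - 1) := by
      rw [hS2]
      field_simp
      ring
    rw [e1, ha]
    field_simp
    ring
  -- stationarity at `c`
  have hst := L.stat c hc (fun _ => 1) contDiff_const (fun _ => zero_le_one)
  have hint2 : Integrable (fun z : E n × E n =>
      2 * (1 + k2 * F c z.1) - H0 * inner ℝ (D A (F c) z.1) z.2) V :=
    L.int_cont ((continuous_const.mul (continuous_const.add
      (continuous_const.mul (L.Fz_cont c)))).sub (continuous_const.mul (L.n_cont c)))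
  have hle0 : ∫ z, (2 * (1 + k2 * F c z.1) - H0 * inner ℝ (D A (F c) z.1) z.2) ∂V ≤ 0 := by
    have e1 : ∫ z, (H0 * (1 : ℝ) * inner ℝ (D A (F c) z.1) z.2 -
        2 * (1 + k2 * F c z.1) * 1 - Gam A (fun _ => (1 : ℝ)) (F c) z) ∂V =
        - ∫ z, (2 * (1 + k2 * F c z.1) - H0 * inner ℝ (D A (F c) z.1) z.2) ∂V := by
      rw [← integral_neg]
      refine integral_congr_ae (Eventually.of_forall fun z => ?_)
      have e2 : Gam A (fun _ => (1 : ℝ)) (F c) z = 0 := by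
        rw [Gam_eq, D_const, gv_zero_left]
      simp only [e2]
      ring
    rw [e1] at hst
    linarith only [hst]
  have hpt : ∀ᵐ z ∂V, 0 ≤ 2 * (1 + k2 * F c z.1) - H0 * inner ℝ (D A (F c) z.1) z.2 ∧
      (2 * (1 + k2 * F c z.1) - H0 * inner ℝ (D A (F c) z.1) z.2 = 0 →
        2 * F c z.1 + k2 * F c z.1 ^ 2 = h2⁻¹) := by
    filter_upwards [hcomp, L.V_supp] with z hz hz'
    have hf0 := L.F_nonneg c z.1
    have hν : (inner ℝ (D A (F c) z.1) z.2 : ℝ) ^ 2 ≤ 2 * F c z.1 + k2 * F c z.1 ^ 2 := by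
      rw [← L.grad]
      have h1 := gv_self_nonneg hz'.2.le (D A (F c) z.1)
      rw [gv_self] at h1
      linarith only [h1]
    set f := F c z.1
    set ν : ℝ := inner ℝ (D A (F c) z.1) z.2
    have h1 : h2 * (2 * f + k2 * f ^ 2) ≤ 1 := by
      rw [← ha2]
      apply mul_le_mul_of_nonneg_left _ hh.le
      have : k2 * f ^ 2 ≤ k2 * a ^ 2 :=
        mul_le_mul_of_nonneg_left (pow_le_pow_left₀ hf0 hz 2) hk
      linarith only [this, hz]
    -- `(H0/2)² ν² ≤ (1 + k2 f)²`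
    have h3 : (H0 / 2 * ν) ^ 2 ≤ (1 + k2 * f) ^ 2 - (1 - h2 * (2 * f + k2 * f ^ 2)) := by
      have e1 : (H0 / 2) ^ 2 = h2 + k2 := by
        rw [hh2]
        ring
      rw [mul_pow, e1]
      have h4 : (h2 + k2) * ν ^ 2 ≤ (h2 + k2) * (2 * f + k2 * f ^ 2) :=
        mul_le_mul_of_nonneg_left hν (by linarith only [hk, hh])
      linarith only [h4]
    have hpos : 0 < 1 + k2 * f := by positivity
    have h5 : H0 / 2 * ν ≤ 1 + k2 * f := by
      apply le_of_sq_le_sq _ hpos.le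
      linarith only [h3, h1]
    refine ⟨by linarith only [h5], fun h0 => ?_⟩
    have h6 : H0 / 2 * ν = 1 + k2 * f := by linarith
    rw [h6] at h3
    have h7 : h2 * (2 * f + k2 * f ^ 2) = 1 := by linarith
    apply eq_inv_of_mul_eq_one_left
    linarith
  have hzz := (integral_eq_zero_iff_of_nonneg_ae (by filter_upwards [hpt] with z hz using hz.1)
    hint2).1 (le_antisymm hle0 (integral_nonneg_of_ae (by
      filter_upwards [hpt] with z hz using hz.1)))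
  filter_upwards [hpt, hzz] with z hz hz'
  exact hz.2 hz'

end L2

end Dim3

end Vale.Agent.P219.End
end

section

/-!
# P219 / End : the exact identity and the monotonicity of the defect, in terms of the scale `s`
(`ε = s² / 2`)
-/

open MeasureTheory Set Metric
open scoped ENNReal ContDiff Topology

namespace Vale.Agent.P219.End

variable {n : ℕ}

namespace Lim

variable (L : Lim n)

theorem Ad.eps_pos {L : Lim n} {s : ℝ} (hs : L.Ad s) : 0 < s ^ 2 / 2 := by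
  have := hs.1
  positivity

theorem Ad.k2_lt {L : Lim n} {s : ℝ} (hs : L.Ad s) : L.k2 * (s ^ 2 / 2) < 2 := by
  have := hs.2.2
  linarith

/-- B2b monotonicity of the defect -/
theorem def_mono {s : ℝ} (hs : L.Ad s) {c : E n} (hc : c ∈ L.K) {u : E n → ℝ} (hu : SP u)
    {θ : ℝ → ℝ} (hθ : ContDiff ℝ ∞ θ) (h1 : ∀ t, 0 ≤ deriv θ t ∧ deriv θ t ≤ 1)
    (h2 : ∀ t, 0 ≤ t → 0 ≤ θ t ∧ θ t ≤ t) :
    L.Def c (s ^ 2 / 2) (fun x => θ (L.gs c s u x) * L.ws c s x ^ ((L.m - 2) / 2)) ≤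
      L.Def c (s ^ 2 / 2) u :=
  L.Def_tr_le hc hs.eps_pos hs.k2_lt hu.1 hu.2 hθ
    (fun t _ => abs_le.2 ⟨by linarith [(h1 t).1], (h1 t).2⟩) (fun t ht => h2 t ht.le)

/-! ## the consequences, in terms of the scale -/

theorem def_nonneg {s : ℝ} (hs : L.Ad s) {c : E n} (hc : c ∈ L.K) {u : E n → ℝ}
    (hu : ContDiff ℝ ∞ u) : 0 ≤ L.Def c (s ^ 2 / 2) u :=
  L.Def_nonneg hc hs.eps_pos hs.k2_lt hu

/-- `∫ w^{m-2} |∇g|² ≤ (m (m-2) / 4) Def` -/
theorem def_ge1 {s : ℝ} (hs : L.Ad s) {c : E n} (hc : c ∈ L.K) {u : E n → ℝ}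
    (hu : ContDiff ℝ ∞ u) :
    ∫ z, L.ws c s z.1 ^ (L.m - 2) * L.G (L.gs c s u) (L.gs c s u) z ∂L.V ≤
      L.m * (L.m - 2) / 4 * L.Def c (s ^ 2 / 2) u :=
  L.d1_le hc hs.eps_pos hs.k2_lt hu

/-- `∫ u² (H₀/m - n_c/(F+ε))² ≤ Def` -/
theorem def_ge2 {s : ℝ} (hs : L.Ad s) {c : E n} (hc : c ∈ L.K) {u : E n → ℝ}
    (hu : ContDiff ℝ ∞ u) :
    ∫ z, u z.1 ^ 2 * (L.H0 / L.m - L.nc c z / (L.F c z.1 + s ^ 2 / 2)) ^ 2 ∂L.V ≤
      L.Def c (s ^ 2 / 2) u :=
  L.d2_le hc hs.eps_pos hs.k2_lt hu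

/-- `Dl[u²/(F+ε)] ≤ (m/2) Def` -/
theorem def_ge3 {s : ℝ} (hs : L.Ad s) {c : E n} (hc : c ∈ L.K) {u : E n → ℝ}
    (hu : ContDiff ℝ ∞ u) :
    L.Dl c (fun x => u x ^ 2 / (L.F c x + s ^ 2 / 2)) ≤ L.m / 2 * L.Def c (s ^ 2 / 2) u :=
  L.d3_le hc hs.eps_pos hs.k2_lt hu

end Lim

end Vale.Agent.P219.End
end

section

/-!
# P219 / End : the end game, the integral estimates
-/

open MeasureTheory Set Metric
open scoped ENNReal ContDiff Topology

namespace Vale.Agent.P219.End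

variable {n : ℕ}

theorem eg_sg_pos {m : ℝ} (hm : 0 < m) : 0 < sg m := by
  unfold sg
  have h1 := Real.Gamma_pos_of_pos hm
  have h2 := Real.Gamma_pos_of_pos (half_pos hm)
  have h3 := Real.pi_pos
  positivity

namespace Lim

variable (L : Lim n)

theorem eg_ps_gt : 2 < L.ps := by
  unfold ps
  have := L.m_sub_pos
  rw [lt_div_iff₀ this]
  linarith

/-- the weak Sobolev inequality with constant `C` -/
def HW (C : ℝ) : Prop := ∀ v : E n → ℝ, ContDiff ℝ ∞ v → (∀ x, 0 ≤ v x) →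
  (∫ z, v z.1 ^ L.ps ∂L.V) ^ (2 / L.ps) ≤
    C * ((∫ z, L.G v v z ∂L.V) + ∫ z, v z.1 ^ 2 ∂L.V)

theorem eg_grad (u : E n → ℝ) : ∫ z, L.G u u z ∂L.V ≤
    L.m * (L.m - 2) / 4 * (L.En u + L.k2 * ∫ z, u z.1 ^ 2 ∂L.V) := by
  have hm := L.m_pos
  have hm2 := L.m_sub_pos
  have hR : 0 ≤ ∫ z, u z.1 ^ 2 ∂L.V := integral_nonneg fun z => sq_nonneg _
  unfold En
  have e : L.m * (L.m - 2) / 4 * (4 / (L.m * (L.m - 2)) * (∫ z, L.G u u z ∂L.V) +
      (L.H0 ^ 2 / L.m ^ 2 - L.k2) * (∫ z, u z.1 ^ 2 ∂L.V) + L.k2 * ∫ z, u z.1 ^ 2 ∂L.V) =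
      (∫ z, L.G u u z ∂L.V) + L.m * (L.m - 2) / 4 * (L.H0 ^ 2 / L.m ^ 2) *
        ∫ z, u z.1 ^ 2 ∂L.V := by
    field_simp
    ring
  rw [e]
  have : 0 ≤ L.m * (L.m - 2) / 4 * (L.H0 ^ 2 / L.m ^ 2) * ∫ z, u z.1 ^ 2 ∂L.V := by positivity
  linarith only [this]

theorem eg_memLp {f : E n × E n → ℝ} (hf : Continuous f) (p : ℝ≥0∞) : MemLp f p L.V := by
  have hK : IsCompact (L.K ×ˢ sphere (0 : E n) 1) := L.K_compact.prod (isCompact_sphere 0 1)
  obtain ⟨C, hC⟩ := hK.exists_bound_of_continuousOn hf.continuousOn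
  refine MemLp.of_bound hf.aestronglyMeasurable C ?_
  filter_upwards [L.V_supp] with z hz
  exact hC z ⟨hz.1, by simpa using hz.2⟩

/-- lower bound of `∫ u² w²`, upper bound of the scale -/
theorem eg_low {C : ℝ} (hC : 0 < C) (hW : L.HW C) : ∃ c0 > 0, ∃ d0 > 0, ∀ c : E n, ∀ ε : ℝ,
    0 < ε → L.k2 * ε < 2 → ∀ u : E n → ℝ, SP u → ∫ z, u z.1 ^ L.ps ∂L.V = 1 → ∀ δ : ℝ, 0 < δ →
    δ ≤ d0 → L.Def c ε u ≤ δ → (∫ z, u z.1 ^ 2 ∂L.V) ≤ δ →
    c0 ≤ (∫ z, u z.1 ^ 2 * L.w c ε z.1 ^ 2 ∂L.V) ∧ ε ≤ 2 * δ / c0 := by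
  have hm := L.m_pos
  have hm2 := L.m_sub_pos
  have hk := L.k2_nonneg
  set κ : ℝ := L.m * (L.m - 2) / 4 with hκ
  have hκ0 : 0 < κ := by positivity
  refine ⟨1 / (2 * C * κ), by positivity, 1 / (2 * C * (κ * (1 + L.k2) + 1)), by positivity, ?_⟩
  intro c ε hε hkε u hu h1 δ hδ hδ0 hD hR
  have hR0 : 0 ≤ ∫ z, u z.1 ^ 2 ∂L.V := integral_nonneg fun z => sq_nonneg _
  have h2 := hW u hu.1 fun x => (hu.2 x).le
  rw [h1, Real.one_rpow] at h2
  have h3 := L.eg_grad u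
  rw [← hκ] at h3
  set E2 : ℝ := ∫ z, u z.1 ^ 2 * L.w c ε z.1 ^ 2 ∂L.V with hE2
  have hEn : L.En u ≤ δ + E2 := by
    have : L.Def c ε u = L.En u - E2 := rfl
    linarith only [this, hD]
  have h4 : 1 ≤ C * (κ * (δ + E2 + L.k2 * δ) + δ) := by
    refine h2.trans ?_
    have h5 : (∫ z, L.G u u z ∂L.V) ≤ κ * (δ + E2 + L.k2 * δ) := by
      refine h3.trans ?_
      gcongr
    gcongr
  have h6 : δ * (2 * C * (κ * (1 + L.k2) + 1)) ≤ 1 := by
    rwa [le_div_iff₀ (by positivity)] at hδ0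
  have h7 : 1 / (2 * C * κ) ≤ E2 := by
    rw [div_le_iff₀ (by positivity)]
    linarith only [h6, h4]
  refine ⟨h7, ?_⟩
  have h8 : E2 ≤ 2 / ε * ∫ z, u z.1 ^ 2 ∂L.V := by
    rw [hE2, ← integral_const_mul]
    have cu : Continuous fun z : E n × E n => u z.1 := hu.1.continuous.comp continuous_fst
    have cw : Continuous fun z : E n × E n => L.w c ε z.1 :=
      (L.w_smooth hε).continuous.comp continuous_fst
    refine L.integral_mono_of ((cu.pow 2).mul (cw.pow 2)) (continuous_const.mul (cu.pow 2))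
      fun z _ _ => ?_
    have h9 : L.w c ε z.1 ^ 2 ≤ 2 / ε := by
      rw [L.w_sq hε hkε]
      have hF := L.F_nonneg c z.1
      rw [div_le_div_iff₀ (by positivity) hε]
      have e1 : ε ^ 2 ≤ (L.F c z.1 + ε) ^ 2 := by gcongr; linarith only [hF]
      have e2 : 0 ≤ L.k2 * ε * ε ^ 2 := by positivity
      linarith only [e2, e1]
    calc u z.1 ^ 2 * L.w c ε z.1 ^ 2 ≤ u z.1 ^ 2 * (2 / ε) := by gcongr
      _ = 2 / ε * u z.1 ^ 2 := by ring
  have h10 : E2 ≤ 2 / ε * δ := h8.trans (by gcongr)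
  have h11 : 1 / (2 * C * κ) ≤ 2 / ε * δ := h7.trans h10
  rw [le_div_iff₀ (by positivity)]
  have h12 : 1 / (2 * C * κ) * ε ≤ 2 / ε * δ * ε := by gcongr
  have h13 : 2 / ε * δ * ε = 2 * δ := by field_simp
  linarith only [h13, h12]

theorem eg_ws_pos {s : ℝ} (hs : L.Ad s) (c x : E n) : 0 < L.ws c s x :=
  L.w_pos hs.eps_pos hs.k2_lt x

theorem eg_ws_smooth {s : ℝ} (hs : L.Ad s) (c : E n) : ContDiff ℝ ∞ (L.ws c s) :=
  L.w_smooth hs.eps_pos

theorem eg_ws_rpow_smooth {s : ℝ} (hs : L.Ad s) (c : E n) (r : ℝ) :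
    ContDiff ℝ ∞ fun x => L.ws c s x ^ r := L.w_rpow_smooth hs.eps_pos hs.k2_lt r

theorem eg_gs_smooth {s : ℝ} (hs : L.Ad s) (c : E n) {u : E n → ℝ} (hu : SP u) :
    ContDiff ℝ ∞ (L.gs c s u) :=
  hu.1.div (L.eg_ws_rpow_smooth hs c _)
    fun x => (Real.rpow_pos_of_pos (L.eg_ws_pos hs c x) _).ne'

theorem eg_gs_pos {s : ℝ} (hs : L.Ad s) (c : E n) {u : E n → ℝ} (hu : SP u) (x : E n) :
    0 < L.gs c s u x := div_pos (hu.2 x) (Real.rpow_pos_of_pos (L.eg_ws_pos hs c x) _)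

/-- `g w^((m-2)/2) = u` -/
theorem eg_gs_mul {s : ℝ} (hs : L.Ad s) (c : E n) (u : E n → ℝ) (x : E n) :
    L.gs c s u x * L.ws c s x ^ ((L.m - 2) / 2) = u x :=
  div_mul_cancel₀ _ (Real.rpow_pos_of_pos (L.eg_ws_pos hs c x) _).ne'

/-- `t² w^m = (t w^((m-2)/2))² w²` -/
theorem eg_sq_w {s : ℝ} (hs : L.Ad s) (c x : E n) (t : ℝ) :
    t ^ 2 * L.ws c s x ^ L.m = (t * L.ws c s x ^ ((L.m - 2) / 2)) ^ 2 * L.ws c s x ^ 2 := by
  have hw := L.eg_ws_pos hs c x
  have e1 : (L.ws c s x ^ ((L.m - 2) / 2)) ^ 2 = L.ws c s x ^ (L.m - 2) := by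
    rw [← Real.rpow_natCast, ← Real.rpow_mul hw.le]
    congr 1
    push_cast
    ring
  have e2 : L.ws c s x ^ L.m = L.ws c s x ^ (L.m - 2) * L.ws c s x ^ 2 := by
    rw [← Real.rpow_natCast (L.ws c s x) 2, ← Real.rpow_add hw]
    congr 1
    push_cast
    ring
  rw [mul_pow, e1, e2]
  ring

/-- `g² w^m = u² w²` -/
theorem eg_g2w {s : ℝ} (hs : L.Ad s) (c : E n) (u : E n → ℝ) (x : E n) :
    L.gs c s u x ^ 2 * L.ws c s x ^ L.m = u x ^ 2 * L.ws c s x ^ 2 := by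
  rw [L.eg_sq_w hs, L.eg_gs_mul hs]

theorem eg_ws_le {s : ℝ} (hs : L.Ad s) (c x : E n) : L.ws c s x ≤ 2 / s := by
  have hs0 := hs.1
  have hF := L.F_nonneg c x
  have hk := L.k2_nonneg
  have h1 : L.ws c s x ^ 2 ≤ (2 / s) ^ 2 := by
    have e : L.ws c s x ^ 2 = s ^ 2 / 2 * (2 - L.k2 * (s ^ 2 / 2)) / (L.F c x + s ^ 2 / 2) ^ 2 :=
      L.w_sq hs.eps_pos hs.k2_lt x
    rw [e, div_pow, div_le_div_iff₀ (by positivity) (by positivity)]
    have e1 : (s ^ 2 / 2) ^ 2 ≤ (L.F c x + s ^ 2 / 2) ^ 2 := by gcongr; linarith only [hF]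
    have e2 : 0 ≤ L.k2 * (s ^ 2 / 2) * (s ^ 2 / 2) * s ^ 2 := by positivity
    linarith only [e2, e1]
  exact le_of_sq_le_sq h1 (by positivity)

/-- the tail estimate: `∫ θ(g)² w^m` -/
theorem eg_tail {C : ℝ} (hC : 0 < C) {s : ℝ} (hs : L.Ad s) (c : E n) {u : E n → ℝ} (hu : SP u)
    (h1 : ∫ z, u z.1 ^ L.ps ∂L.V = 1) {θ : ℝ → ℝ} (hθc : Continuous θ) {a : ℝ} (ha : 0 ≤ a)
    (hθ : ∀ t, 0 ≤ θ t ∧ θ t ≤ max 0 (t - a)) {N : ℝ} (hN : 1 ≤ N)
    (hT : ∫ z in {z | N * s < L.ds c z.1}, L.ws c s z.1 ^ L.m ∂L.V ≤ C * N ^ (-L.m)) :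
    ∫ z, θ (L.gs c s u z.1) ^ 2 * L.ws c s z.1 ^ L.m ∂L.V ≤
      2 ^ L.m / sg L.m * s ^ (-L.m) * (∫ z in {z | L.ds c z.1 ≤ N * s},
        max 0 (sg L.m * L.gs c s u z.1 ^ 2 - sg L.m * a ^ 2) ∂L.V) +
      (C * N ^ (-L.m)) ^ (2 / L.m) := by
  have hm := L.m_pos
  have hm2 := L.m_sub_pos
  have hs0 := hs.1
  have hsg := eg_sg_pos hm
  have cu : Continuous fun z : E n × E n => u z.1 := hu.1.continuous.comp continuous_fst
  have cw : Continuous fun z : E n × E n => L.ws c s z.1 :=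
    (L.eg_ws_smooth hs c).continuous.comp continuous_fst
  have cwm : Continuous fun z : E n × E n => L.ws c s z.1 ^ L.m :=
    (L.eg_ws_rpow_smooth hs c _).continuous.comp continuous_fst
  have cg : Continuous fun z : E n × E n => L.gs c s u z.1 :=
    (L.eg_gs_smooth hs c hu).continuous.comp continuous_fst
  have cF : Continuous fun z : E n × E n => L.F c z.1 := (L.Fc_cont c).comp continuous_fst
  have cd : Continuous fun z : E n × E n => L.ds c z.1 := by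
    unfold ds
    fun_prop
  set S : Set (E n × E n) := {z | L.ds c z.1 ≤ N * s} with hS
  have hSm : MeasurableSet S := (isClosed_le cd continuous_const).measurableSet
  have hSc : Sᶜ = {z | N * s < L.ds c z.1} := by
    ext z
    simp [hS]
  have cf : Continuous fun z : E n × E n => θ (L.gs c s u z.1) ^ 2 * L.ws c s z.1 ^ L.m :=
    ((hθc.comp cg).pow 2).mul cwm
  have cmx : Continuous fun z : E n × E n =>
      max 0 (sg L.m * L.gs c s u z.1 ^ 2 - sg L.m * a ^ 2) := by fun_prop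
  rw [← integral_add_compl hSm (L.integrable_of_cont cf)]
  refine add_le_add ?_ ?_
  · rw [← integral_const_mul]
    refine setIntegral_mono (L.integrable_of_cont cf).integrableOn
      ((L.integrable_of_cont cmx).integrableOn.const_mul _) fun z => ?_
    have hw := L.eg_ws_pos hs c z.1
    have hw2 : L.ws c s z.1 ^ L.m ≤ 2 ^ L.m * s ^ (-L.m) := by
      have e1 : L.ws c s z.1 ^ L.m ≤ (2 / s) ^ L.m :=
        Real.rpow_le_rpow hw.le (L.eg_ws_le hs c z.1) hm.le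
      rw [Real.div_rpow (by norm_num) hs0.le] at e1
      rw [Real.rpow_neg hs0.le]
      exact e1
    have hg := L.eg_gs_pos hs c hu z.1
    set g := L.gs c s u z.1 with hgdef
    have hth : θ g ^ 2 ≤ 1 / sg L.m * max 0 (sg L.m * g ^ 2 - sg L.m * a ^ 2) := by
      rcases le_total g a with hga | hga
      · have h3 : θ g = 0 := by
          have h4 := hθ g
          rw [max_eq_left (by linarith)] at h4
          linarith [h4.1, h4.2]
        rw [h3, zero_pow two_ne_zero]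
        have : 0 ≤ max 0 (sg L.m * g ^ 2 - sg L.m * a ^ 2) := le_max_left _ _
        exact mul_nonneg (by positivity) this
      · have h4 := hθ g
        rw [max_eq_right (by linarith)] at h4
        have h5 : θ g ^ 2 ≤ (g - a) ^ 2 := pow_le_pow_left₀ h4.1 h4.2 2
        have h6 : (g - a) ^ 2 ≤ g ^ 2 - a ^ 2 := by (by_contra nlg; linarith only [nlg, mul_pos (sub_pos.2 (not_le.1 nlg)) (sub_pos.2 hg), mul_nonneg (sq_nonneg (a : ℝ)) (sub_nonneg.2 hga), mul_nonneg (sq_nonneg (g - a : ℝ)) (sub_nonneg.2 ha)])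
        have h7 : sg L.m * g ^ 2 - sg L.m * a ^ 2 ≤
          max 0 (sg L.m * g ^ 2 - sg L.m * a ^ 2) := le_max_right _ _
        have h8 : g ^ 2 - a ^ 2 = 1 / sg L.m * (sg L.m * g ^ 2 - sg L.m * a ^ 2) := by
          field_simp
        calc θ g ^ 2 ≤ g ^ 2 - a ^ 2 := h5.trans h6
          _ = 1 / sg L.m * (sg L.m * g ^ 2 - sg L.m * a ^ 2) := h8
          _ ≤ _ := by gcongr
    calc θ g ^ 2 * L.ws c s z.1 ^ L.m ≤
        (1 / sg L.m * max 0 (sg L.m * g ^ 2 - sg L.m * a ^ 2)) * (2 ^ L.m * s ^ (-L.m)) :=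
          mul_le_mul hth hw2 (Real.rpow_nonneg hw.le _) ((sq_nonneg _).trans hth)
      _ = 2 ^ L.m / sg L.m * s ^ (-L.m) * max 0 (sg L.m * g ^ 2 - sg L.m * a ^ 2) := by ring
  · rw [hSc]
    set S' : Set (E n × E n) := {z | N * s < L.ds c z.1} with hS'
    have cu2 : Continuous fun z : E n × E n => u z.1 ^ 2 := cu.pow 2
    have cw2 : Continuous fun z : E n × E n => L.ws c s z.1 ^ 2 := cw.pow 2
    have hle : ∫ z in S', θ (L.gs c s u z.1) ^ 2 * L.ws c s z.1 ^ L.m ∂L.V ≤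
        ∫ z in S', u z.1 ^ 2 * L.ws c s z.1 ^ 2 ∂L.V := by
      refine setIntegral_mono (L.integrable_of_cont cf).integrableOn
        (L.integrable_of_cont (cu2.mul cw2)).integrableOn fun z => ?_
      show θ (L.gs c s u z.1) ^ 2 * L.ws c s z.1 ^ L.m ≤ u z.1 ^ 2 * L.ws c s z.1 ^ 2
      rw [← L.eg_g2w hs]
      have hw := L.eg_ws_pos hs c z.1
      have hg := L.eg_gs_pos hs c hu z.1
      have h4 := hθ (L.gs c s u z.1)
      have h5 : θ (L.gs c s u z.1) ≤ L.gs c s u z.1 := by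
        refine h4.2.trans (max_le hg.le ?_)
        linarith
      have h6 := h4.1
      gcongr
    refine hle.trans ?_
    have hpq : (L.m / (L.m - 2)).HolderConjugate (L.m / 2) := by
      rw [Real.holderConjugate_iff]
      constructor
      · rw [lt_div_iff₀ hm2]; linarith
      · field_simp
        ring
    have hH := integral_mul_le_Lp_mul_Lq_of_nonneg (μ := L.V.restrict S') hpq
      (f := fun z : E n × E n => u z.1 ^ 2) (g := fun z : E n × E n => L.ws c s z.1 ^ 2)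
      (Filter.Eventually.of_forall fun z => sq_nonneg _)
      (Filter.Eventually.of_forall fun z => sq_nonneg _)
      ((L.eg_memLp cu2 _).restrict _) ((L.eg_memLp cw2 _).restrict _)
    refine hH.trans ?_
    have e1 : ∀ z : E n × E n, (u z.1 ^ 2) ^ (L.m / (L.m - 2)) = u z.1 ^ L.ps := by
      intro z
      rw [← Real.rpow_natCast, ← Real.rpow_mul (hu.2 z.1).le]
      congr 1
      unfold ps
      push_cast
      ring
    have e2 : ∀ z : E n × E n, (L.ws c s z.1 ^ 2) ^ (L.m / 2) = L.ws c s z.1 ^ L.m := by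
      intro z
      rw [← Real.rpow_natCast, ← Real.rpow_mul (L.eg_ws_pos hs c z.1).le]
      congr 1
      push_cast
      ring
    simp only [e1, e2]
    have cups : Continuous fun z : E n × E n => u z.1 ^ L.ps :=
      cu.rpow_const fun z => Or.inl (hu.2 z.1).ne'
    have h7 : ∫ z in S', u z.1 ^ L.ps ∂L.V ≤ 1 := by
      rw [← h1]
      exact setIntegral_le_integral (L.integrable_of_cont cups)
        (Filter.Eventually.of_forall fun z => Real.rpow_nonneg (hu.2 z.1).le _)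
    have h8 : 0 ≤ ∫ z in S', u z.1 ^ L.ps ∂L.V :=
      integral_nonneg fun z => Real.rpow_nonneg (hu.2 z.1).le _
    have h9 : (∫ z in S', u z.1 ^ L.ps ∂L.V) ^ (1 / (L.m / (L.m - 2))) ≤ 1 :=
      Real.rpow_le_one h8 h7 (by positivity)
    have h10 : 0 ≤ ∫ z in S', L.ws c s z.1 ^ L.m ∂L.V :=
      integral_nonneg fun z => Real.rpow_nonneg (L.eg_ws_pos hs c z.1).le _
    have h11 : (∫ z in S', L.ws c s z.1 ^ L.m ∂L.V) ^ (1 / (L.m / 2)) ≤
        (C * N ^ (-L.m)) ^ (2 / L.m) := by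
      rw [show 1 / (L.m / 2) = 2 / L.m by field_simp]
      exact Real.rpow_le_rpow h10 hT (by positivity)
    calc (∫ z in S', u z.1 ^ L.ps ∂L.V) ^ (1 / (L.m / (L.m - 2))) *
        (∫ z in S', L.ws c s z.1 ^ L.m ∂L.V) ^ (1 / (L.m / 2)) ≤
        1 * (C * N ^ (-L.m)) ^ (2 / L.m) := by
          gcongr
      _ = _ := one_mul _

/-- the Sobolev step for the truncated function -/
theorem eg_sob {C : ℝ} (hC : 0 < C) (hW : L.HW C) {s : ℝ} (hs : L.Ad s) {c : E n} (hc : c ∈ L.K)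
    {u : E n → ℝ} (hu : SP u) {θ : ℝ → ℝ} (hθs : ContDiff ℝ ∞ θ)
    (hθd : ∀ t, 0 ≤ deriv θ t ∧ deriv θ t ≤ 1) (hθ : ∀ t, 0 ≤ t → 0 ≤ θ t ∧ θ t ≤ t)
    {δ κ₁ : ℝ} (hD : L.Def c (s ^ 2 / 2) u ≤ δ) (hR : (∫ z, u z.1 ^ 2 ∂L.V) ≤ δ)
    (hκ : ∫ z, θ (L.gs c s u z.1) ^ 2 * L.ws c s z.1 ^ L.m ∂L.V ≤ κ₁) :
    (∫ z, (θ (L.gs c s u z.1) * L.ws c s z.1 ^ ((L.m - 2) / 2)) ^ L.ps ∂L.V) ^ (2 / L.ps) ≤
      C * (L.m * (L.m - 2) / 4 * (δ + κ₁ + L.k2 * δ) + δ) := by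
  have hm := L.m_pos
  have hm2 := L.m_sub_pos
  have hk := L.k2_nonneg
  set v : E n → ℝ := fun x => θ (L.gs c s u x) * L.ws c s x ^ ((L.m - 2) / 2) with hv
  have hvs : ContDiff ℝ ∞ v := (hθs.comp (L.eg_gs_smooth hs c hu)).mul (L.eg_ws_rpow_smooth hs c _)
  have hv0 : ∀ x, 0 ≤ v x := fun x =>
    mul_nonneg (hθ _ (L.eg_gs_pos hs c hu x).le).1 (Real.rpow_nonneg (L.eg_ws_pos hs c x).le _)
  have hvu : ∀ x, v x ≤ u x := by
    intro x
    have h1 := (hθ _ (L.eg_gs_pos hs c hu x).le).2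
    calc v x ≤ L.gs c s u x * L.ws c s x ^ ((L.m - 2) / 2) :=
          mul_le_mul_of_nonneg_right h1 (Real.rpow_nonneg (L.eg_ws_pos hs c x).le _)
      _ = u x := L.eg_gs_mul hs c u x
  have hDv : L.Def c (s ^ 2 / 2) v ≤ δ := (L.def_mono hs hc hu hθs hθd hθ).trans hD
  have hRv : (∫ z, v z.1 ^ 2 ∂L.V) ≤ δ := by
    refine le_trans ?_ hR
    have cv : Continuous fun z : E n × E n => v z.1 := hvs.continuous.comp continuous_fst
    have cu : Continuous fun z : E n × E n => u z.1 := hu.1.continuous.comp continuous_fst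
    refine L.integral_mono_of (cv.pow 2) (cu.pow 2) fun z _ _ => ?_
    exact pow_le_pow_left₀ (hv0 _) (hvu _) 2
  have hRv0 : 0 ≤ ∫ z, v z.1 ^ 2 ∂L.V := integral_nonneg fun z => sq_nonneg _
  have hEn : L.En v ≤ δ + κ₁ := by
    have e1 : L.Def c (s ^ 2 / 2) v = L.En v - ∫ z, v z.1 ^ 2 * L.ws c s z.1 ^ 2 ∂L.V := rfl
    have e2 : ∫ z, v z.1 ^ 2 * L.ws c s z.1 ^ 2 ∂L.V =
        ∫ z, θ (L.gs c s u z.1) ^ 2 * L.ws c s z.1 ^ L.m ∂L.V :=
      integral_congr_ae (Filter.Eventually.of_forall fun z => (L.eg_sq_w hs c z.1 _).symm)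
    rw [e2] at e1
    linarith only [e1, hDv, hκ]
  refine (hW v hvs hv0).trans ?_
  have h3 := L.eg_grad v
  have h4 : (∫ z, L.G v v z ∂L.V) ≤ L.m * (L.m - 2) / 4 * (δ + κ₁ + L.k2 * δ) := by
    refine h3.trans ?_
    gcongr
  gcongr

end Lim

end Vale.Agent.P219.End
end

section

/-!
# P219 / End : the end game, from the weak Sobolev inequality, the tail of the bubble and the
averaged upper bound (given as hypotheses)
-/

open MeasureTheory Set Metric Filter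
open scoped ENNReal ContDiff Topology

namespace Vale.Agent.P219.End

variable {n : ℕ}

namespace Lim

variable (L : Lim n)

/-- Minkowski inequality for continuous nonnegative functions -/
theorem eg_minkowski {f g : E n × E n → ℝ} (hf : Continuous f) (hg : Continuous g)
    (hf0 : ∀ z, 0 ≤ f z) (hg0 : ∀ z, 0 ≤ g z) {p : ℝ} (hp : 1 ≤ p) :
    (∫ z, (f z + g z) ^ p ∂L.V) ^ (1 / p) ≤
      (∫ z, f z ^ p ∂L.V) ^ (1 / p) + (∫ z, g z ^ p ∂L.V) ^ (1 / p) := by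
  have hp0 : 0 < p := by linarith
  have h1 : (1 : ℝ≥0∞) ≤ ENNReal.ofReal p := by
    rw [← ENNReal.ofReal_one]
    exact ENNReal.ofReal_le_ofReal hp
  have h0 : ENNReal.ofReal p ≠ 0 := by
    intro h
    rw [h] at h1
    simp at h1
  have e : ∀ k : E n × E n → ℝ, Continuous k → (∀ z, 0 ≤ k z) →
      eLpNorm k (ENNReal.ofReal p) L.V = ENNReal.ofReal ((∫ z, k z ^ p ∂L.V) ^ (1 / p)) := by
    intro k hk hk0
    rw [(L.eg_memLp hk _).eLpNorm_eq_integral_rpow_norm h0 ENNReal.ofReal_ne_top,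
      ENNReal.toReal_ofReal hp0.le, one_div]
    congr 2
    refine integral_congr_ae (Eventually.of_forall fun z => ?_)
    simp only [Real.norm_eq_abs, abs_of_nonneg (hk0 z)]
  have h2 := eLpNorm_add_le (μ := L.V) hf.aestronglyMeasurable hg.aestronglyMeasurable h1
  have h3 : eLpNorm (fun z => f z + g z) (ENNReal.ofReal p) L.V ≤
    eLpNorm f (ENNReal.ofReal p) L.V + eLpNorm g (ENNReal.ofReal p) L.V := h2
  clear h2
  have h2 := h3
  rw [e (fun z => f z + g z) (hf.add hg) (fun z => add_nonneg (hf0 z) (hg0 z)), e f hf hf0,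
    e g hg hg0,
    ← ENNReal.ofReal_add (Real.rpow_nonneg (integral_nonneg fun z => Real.rpow_nonneg (hf0 z) _) _)
      (Real.rpow_nonneg (integral_nonneg fun z => Real.rpow_nonneg (hg0 z) _) _)] at h2
  exact (ENNReal.ofReal_le_ofReal_iff (add_nonneg
    (Real.rpow_nonneg (integral_nonneg fun z => Real.rpow_nonneg (hf0 z) _) _)
    (Real.rpow_nonneg (integral_nonneg fun z => Real.rpow_nonneg (hg0 z) _) _))).1 h2

theorem eg_mink {s : ℝ} (hs : L.Ad s) (c : E n) {u : E n → ℝ} (hu : SP u)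
    (h1 : ∫ z, u z.1 ^ L.ps ∂L.V = 1) {θ : ℝ → ℝ} (hθc : Continuous θ) {a τ : ℝ} (ha : 0 ≤ a)
    (hτ : 0 < τ) (hθ : ∀ t, max 0 (t - a - τ) ≤ θ t ∧ θ t ≤ max 0 (t - a)) :
    1 ≤ ((a + τ) ^ (L.ps - 2) * ∫ z, u z.1 ^ 2 * L.ws c s z.1 ^ 2 ∂L.V) ^ (1 / L.ps) +
      (∫ z, (θ (L.gs c s u z.1) * L.ws c s z.1 ^ ((L.m - 2) / 2)) ^ L.ps ∂L.V) ^ (1 / L.ps) := by
  have hm := L.m_pos
  have hm2 := L.m_sub_pos
  have hps := L.eg_ps_gt
  have cwm : Continuous fun z : E n × E n => L.ws c s z.1 ^ ((L.m - 2) / 2) :=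
    (L.eg_ws_rpow_smooth hs c _).continuous.comp continuous_fst
  have cg : Continuous fun z : E n × E n => L.gs c s u z.1 :=
    (L.eg_gs_smooth hs c hu).continuous.comp continuous_fst
  have cu : Continuous fun z : E n × E n => u z.1 := hu.1.continuous.comp continuous_fst
  have cw : Continuous fun z : E n × E n => L.ws c s z.1 :=
    (L.eg_ws_smooth hs c).continuous.comp continuous_fst
  set f : E n × E n → ℝ := fun z =>
    (L.gs c s u z.1 - θ (L.gs c s u z.1)) * L.ws c s z.1 ^ ((L.m - 2) / 2) with hf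
  set g : E n × E n → ℝ := fun z =>
    θ (L.gs c s u z.1) * L.ws c s z.1 ^ ((L.m - 2) / 2) with hg
  have hth0 : ∀ t, 0 ≤ θ t := fun t => (le_max_left _ _).trans (hθ t).1
  have hthle : ∀ t, 0 ≤ t → θ t ≤ t := fun t ht =>
    (hθ t).2.trans (max_le ht (by linarith))
  have hthge : ∀ t, t - θ t ≤ a + τ := fun t => by
    have := (le_max_right _ _).trans (hθ t).1
    linarith
  have cf : Continuous f := (cg.sub (hθc.comp cg)).mul cwm
  have cgg : Continuous g := (hθc.comp cg).mul cwm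
  have hf0 : ∀ z, 0 ≤ f z := fun z => mul_nonneg
    (sub_nonneg.2 (hthle _ (L.eg_gs_pos hs c hu z.1).le)) (Real.rpow_nonneg (L.eg_ws_pos hs c z.1).le _)
  have hg0 : ∀ z, 0 ≤ g z := fun z =>
    mul_nonneg (hth0 _) (Real.rpow_nonneg (L.eg_ws_pos hs c z.1).le _)
  have h2 := L.eg_minkowski cf cgg hf0 hg0 (p := L.ps) (by linarith)
  have e1 : ∀ z, f z + g z = u z.1 := by
    intro z
    rw [hf, hg]
    show (L.gs c s u z.1 - θ (L.gs c s u z.1)) * L.ws c s z.1 ^ ((L.m - 2) / 2) +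
      θ (L.gs c s u z.1) * L.ws c s z.1 ^ ((L.m - 2) / 2) = u z.1
    rw [← add_mul, sub_add_cancel]
    exact L.eg_gs_mul hs c u z.1
  simp only [e1] at h2
  rw [h1, Real.one_rpow] at h2
  refine h2.trans (add_le_add ?_ le_rfl)
  refine Real.rpow_le_rpow (integral_nonneg fun z => Real.rpow_nonneg (hf0 z) _) ?_ (by positivity)
  rw [← integral_const_mul]
  have cfp : Continuous fun z => f z ^ L.ps := cf.rpow_const fun z => Or.inr (by linarith)
  refine L.integral_mono_of cfp (continuous_const.mul ((cu.pow 2).mul (cw.pow 2))) fun z _ _ => ?_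
  have hw := L.eg_ws_pos hs c z.1
  have hgp := L.eg_gs_pos hs c hu z.1
  set t : ℝ := L.gs c s u z.1 - θ (L.gs c s u z.1) with ht
  have ht0 : 0 ≤ t := sub_nonneg.2 (hthle _ hgp.le)
  have ht1 : t ≤ a + τ := hthge _
  have ht2 : t ≤ L.gs c s u z.1 := by
    have := hth0 (L.gs c s u z.1)
    rw [ht]
    linarith
  have e2 : f z ^ L.ps = t ^ L.ps * L.ws c s z.1 ^ L.m := by
    show (t * L.ws c s z.1 ^ ((L.m - 2) / 2)) ^ L.ps = _
    rw [Real.mul_rpow ht0 (Real.rpow_nonneg hw.le _), ← Real.rpow_mul hw.le]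
    congr 2
    unfold ps
    field_simp
  have e3 : t ^ L.ps = t ^ (L.ps - 2) * t ^ 2 := by
    rw [← Real.rpow_natCast t 2, ← Real.rpow_add_of_nonneg ht0 (by linarith only [hps]) (by norm_num)]
    congr 1
    push_cast
    ring
  rw [e2, e3]
  calc t ^ (L.ps - 2) * t ^ 2 * L.ws c s z.1 ^ L.m ≤
      (a + τ) ^ (L.ps - 2) * L.gs c s u z.1 ^ 2 * L.ws c s z.1 ^ L.m := by
        have h3 : t ^ (L.ps - 2) ≤ (a + τ) ^ (L.ps - 2) :=
          Real.rpow_le_rpow ht0 ht1 (by linarith only [hps])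
        have h4 : t ^ 2 ≤ L.gs c s u z.1 ^ 2 := pow_le_pow_left₀ ht0 ht2 2
        have h5 : 0 ≤ L.ws c s z.1 ^ L.m := Real.rpow_nonneg hw.le _
        gcongr
    _ = (a + τ) ^ (L.ps - 2) * (L.gs c s u z.1 ^ 2 * L.ws c s z.1 ^ L.m) := by ring
    _ = (a + τ) ^ (L.ps - 2) * (u z.1 ^ 2 * L.ws c s z.1 ^ 2) := by rw [L.eg_g2w hs]

/-- the choice of the parameter `t` -/
theorem eg_param {σ m q e0 : ℝ} (hσ : 0 < σ) (hm : 2 < m) (hq : q = 2 * m / (m - 2))
    (he : 0 < e0) (he1 : e0 < σ ^ (2 / m)) : ∃ t : ℝ, 0 < t ∧ t ≤ 1 ∧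
      (√((1 + t) * e0 / σ) + t) ^ (q - 2) * e0 < 1 := by
  have hm0 : 0 < m := by linarith
  have hm2 : 0 < m - 2 := by linarith
  have hq2 : q - 2 = 4 / (m - 2) := by
    rw [hq]
    field_simp
    ring
  have hq0 : 0 < q - 2 := by rw [hq2]; positivity
  have hcont : Continuous fun t : ℝ => (√((1 + t) * e0 / σ) + t) ^ (q - 2) * e0 := by
    have h1 : Continuous fun t : ℝ => √((1 + t) * e0 / σ) + t := by fun_prop
    exact (h1.rpow_const fun t => Or.inr hq0.le).mul continuous_const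
  have h0 : (√((1 + 0) * e0 / σ) + 0) ^ (q - 2) * e0 < 1 := by
    rw [add_zero, add_zero, one_mul, Real.sqrt_eq_rpow, ← Real.rpow_mul (by positivity)]
    have hexp : 1 / 2 * (q - 2) = 2 / (m - 2) := by
      rw [hq2]
      field_simp
      norm_num
    rw [hexp]
    have h1 : (e0 / σ) ^ (2 / (m - 2)) * e0 < (σ ^ (2 / m) / σ) ^ (2 / (m - 2)) * σ ^ (2 / m) := by
      have h2 : (e0 / σ) ^ (2 / (m - 2)) < (σ ^ (2 / m) / σ) ^ (2 / (m - 2)) := by
        refine Real.rpow_lt_rpow (by positivity) ?_ (by positivity)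
        gcongr
      have h3 : 0 ≤ (e0 / σ) ^ (2 / (m - 2)) := by positivity
      exact mul_lt_mul'' h2 he1 h3 he.le
    refine h1.trans_le (le_of_eq ?_)
    have h4 : σ ^ (2 / m) / σ = σ ^ (2 / m - 1) := by
      rw [Real.rpow_sub hσ, Real.rpow_one]
    rw [h4, ← Real.rpow_mul hσ.le, ← Real.rpow_add hσ]
    have h5 : (2 / m - 1) * (2 / (m - 2)) + 2 / m = 0 := by
      field_simp
      ring
    rw [h5, Real.rpow_zero]
  have hev : ∀ᶠ t in 𝓝 (0 : ℝ), (√((1 + t) * e0 / σ) + t) ^ (q - 2) * e0 < 1 :=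
    hcont.continuousAt.eventually (gt_mem_nhds h0)
  obtain ⟨ε, hε, hball⟩ := Metric.eventually_nhds_iff.1 hev
  refine ⟨min (ε / 2) 1, by positivity, min_le_right _ _, hball ?_⟩
  rw [Real.dist_eq, sub_zero, abs_of_pos (by positivity)]
  exact (min_le_left _ _).trans_lt (by linarith)

/-- the tail of the bubble -/
def HTail (C : ℝ) : Prop := ∀ c ∈ L.K, ∀ s : ℝ, L.Ad s → ∀ N ≥ 1,
    ∫ z in {z | N * s < L.ds c z.1}, L.ws c s z.1 ^ L.m ∂L.V ≤ C * N ^ (-L.m)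

/-- the averaged upper bound -/
def HSup : Prop := ∀ N η B : ℝ, 1 ≤ N → 0 < η → ∃ C > 0, ∃ s₀ > 0, ∀ c ∈ L.K,
    ∀ s : ℝ, 0 < s → s ≤ s₀ →
    ∀ u : E n → ℝ, SP u → ∀ δ : ℝ, 0 < δ → δ ≤ 1 → L.Def c (s ^ 2 / 2) u ≤ δ →
    (∫ z, u z.1 ^ 2 ∂L.V) ≤ δ → (∫ z, u z.1 ^ 2 * L.ws c s z.1 ^ 2 ∂L.V) ≤ B →
    ∫ z in {z | L.ds c z.1 ≤ N * s},
      max 0 (sg L.m * L.gs c s u z.1 ^ 2 -
        (1 + η) * ∫ y, u y.1 ^ 2 * L.ws c s y.1 ^ 2 ∂L.V) ∂L.V ≤ C * √δ * s ^ L.m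

/-- the core inequality, with all parameters -/
theorem eg_core {CW CT CS : ℝ} (hCW : 0 < CW) (hW : L.HW CW) (hCT : 0 < CT) {s : ℝ} (hAd : L.Ad s)
    {c : E n} (hc : c ∈ L.K) {u : E n → ℝ} (hu : SP u) (h1 : ∫ z, u z.1 ^ L.ps ∂L.V = 1) {δ : ℝ}
    (hD : L.Def c (s ^ 2 / 2) u ≤ δ) (hR : (∫ z, u z.1 ^ 2 ∂L.V) ≤ δ) {t e0 N : ℝ} (ht0 : 0 < t)
    (he : 0 < e0) (hN1 : 1 ≤ N)
    (hT : ∫ z in {z | N * s < L.ds c z.1}, L.ws c s z.1 ^ L.m ∂L.V ≤ CT * N ^ (-L.m))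
    (hE : ∫ z, u z.1 ^ 2 * L.ws c s z.1 ^ 2 ∂L.V ≤ e0)
    (hS : ∫ z in {z | L.ds c z.1 ≤ N * s}, max 0 (sg L.m * L.gs c s u z.1 ^ 2 -
      (1 + t) * ∫ y, u y.1 ^ 2 * L.ws c s y.1 ^ 2 ∂L.V) ∂L.V ≤ CS * √δ * s ^ L.m) :
    1 ≤ ((√((1 + t) * e0 / sg L.m) + t) ^ (L.ps - 2) * e0) ^ (1 / L.ps) +
      √(CW * (L.m * (L.m - 2) / 4 * (δ + (2 ^ L.m / sg L.m * (CS * √δ) +
        (CT * N ^ (-L.m)) ^ (2 / L.m)) + L.k2 * δ) + δ)) := by
  have hm := L.m_pos
  have hps := L.eg_ps_gt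
  have hσ := eg_sg_pos hm
  have hspos := hAd.1
  set E2 : ℝ := ∫ z, u z.1 ^ 2 * L.ws c s z.1 ^ 2 ∂L.V with hE2def
  have hE20 : 0 ≤ E2 := integral_nonneg fun z => mul_nonneg (sq_nonneg _) (sq_nonneg _)
  set a : ℝ := √((1 + t) * E2 / sg L.m) with ha
  have ha0 : 0 ≤ a := Real.sqrt_nonneg _
  have ha2 : sg L.m * a ^ 2 = (1 + t) * E2 := by
    rw [ha, Real.sq_sqrt (by positivity)]
    field_simp
  obtain ⟨θ, hθs, hθd, -, hθ⟩ := exists_trunc a t ht0
  have hθ0 : ∀ x, 0 ≤ θ x := fun x => (le_max_left _ _).trans (hθ x).1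
  have htail := L.eg_tail hCT hAd c hu h1 hθs.continuous ha0
    (fun x => ⟨hθ0 x, (hθ x).2⟩) hN1 hT
  rw [ha2] at htail
  have hκ1 : ∫ z, θ (L.gs c s u z.1) ^ 2 * L.ws c s z.1 ^ L.m ∂L.V ≤
      2 ^ L.m / sg L.m * (CS * √δ) + (CT * N ^ (-L.m)) ^ (2 / L.m) := by
    refine htail.trans (add_le_add ?_ le_rfl)
    have e1 : s ^ (-L.m) * s ^ L.m = 1 := by
      rw [← Real.rpow_add hspos]
      simp
    calc 2 ^ L.m / sg L.m * s ^ (-L.m) * (∫ z in {z | L.ds c z.1 ≤ N * s},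
        max 0 (sg L.m * L.gs c s u z.1 ^ 2 - (1 + t) * E2) ∂L.V) ≤
        2 ^ L.m / sg L.m * s ^ (-L.m) * (CS * √δ * s ^ L.m) :=
          mul_le_mul_of_nonneg_left hS (by positivity)
      _ = 2 ^ L.m / sg L.m * (CS * √δ) * (s ^ (-L.m) * s ^ L.m) := by ring
      _ = 2 ^ L.m / sg L.m * (CS * √δ) := by rw [e1, mul_one]
  have hsob := L.eg_sob hCW hW hAd hc hu hθs hθd
    (fun x hx => ⟨hθ0 x, (hθ x).2.trans (max_le hx (by linarith only [ha0]))⟩) hD hR hκ1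
  set X : ℝ := ∫ z, (θ (L.gs c s u z.1) * L.ws c s z.1 ^ ((L.m - 2) / 2)) ^ L.ps ∂L.V with hX
  have hX0 : 0 ≤ X := integral_nonneg fun z => Real.rpow_nonneg
    (mul_nonneg (hθ0 _) (Real.rpow_nonneg (L.eg_ws_pos hAd c z.1).le _)) _
  have hmk := L.eg_mink hAd c hu h1 hθs.continuous ha0 ht0 hθ
  rw [← hX] at hmk
  refine hmk.trans (add_le_add ?_ ?_)
  · refine Real.rpow_le_rpow (by positivity) ?_ (by positivity)
    have h2 : a ≤ √((1 + t) * e0 / sg L.m) := by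
      rw [ha]
      refine Real.sqrt_le_sqrt ?_
      gcongr
    have h3 : (a + t) ^ (L.ps - 2) ≤ (√((1 + t) * e0 / sg L.m) + t) ^ (L.ps - 2) :=
      Real.rpow_le_rpow (by positivity) (by linarith only [h2]) (by linarith only [hps])
    exact mul_le_mul h3 hE hE20 (by positivity)
  · refine Real.le_sqrt_of_sq_le ?_
    have e1 : (X ^ (1 / L.ps)) ^ 2 = X ^ (2 / L.ps) := by
      rw [← Real.rpow_natCast, ← Real.rpow_mul hX0]
      congr 1
      push_cast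
      ring
    rw [e1]
    exact hsob

/-- the choice of `δ` for the numerical inequality -/
theorem eg_delta {CW κ k2 D T β : ℝ} (hCW : 0 < CW) (hκ : 0 < κ) (hk : 0 ≤ k2) (hD : 0 < D)
    (hβ : 0 < β) (hT : CW * κ * T < β ^ 2 / 4) : ∃ δ₀ > 0, δ₀ ≤ 1 ∧ ∀ δ, 0 < δ → δ ≤ δ₀ →
      CW * (κ * (δ + (D * √δ + T) + k2 * δ) + δ) < β ^ 2 := by
  set M : ℝ := CW * (κ * (1 + k2) + 1) + CW * κ * D with hM
  have hM0 : 0 < M := by positivity
  refine ⟨min 1 ((β ^ 2 / (2 * M)) ^ 2), by positivity, min_le_left _ _, fun δ hδ0 hδ => ?_⟩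
  have hδ1 : δ ≤ 1 := hδ.trans (min_le_left _ _)
  have hδM : δ ≤ (β ^ 2 / (2 * M)) ^ 2 := hδ.trans (min_le_right _ _)
  have hsqrt : √δ ≤ β ^ 2 / (2 * M) := by
    rw [show β ^ 2 / (2 * M) = √((β ^ 2 / (2 * M)) ^ 2) from (Real.sqrt_sq (by positivity)).symm]
    exact Real.sqrt_le_sqrt hδM
  have hδsqrt : δ ≤ √δ := by
    have h2 : √δ * √δ = δ := Real.mul_self_sqrt hδ0.le
    have h3 : √δ ≤ 1 := by
      rw [← Real.sqrt_one]
      exact Real.sqrt_le_sqrt hδ1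
    (by_contra nlg; linarith only [nlg, mul_eq_zero_of_left (sub_eq_zero.2 h2) (√δ - (0)), mul_eq_zero_of_left (sub_eq_zero.2 h2) (1 - (√δ)), mul_nonneg (le_of_lt (sub_pos.2 hδ0)) (sub_nonneg.2 hδ1), mul_nonneg (le_of_lt (sub_pos.2 (not_le.1 nlg))) (sub_nonneg.2 (Real.sqrt_nonneg δ)), mul_pos (sub_pos.2 (not_le.1 nlg)) (sub_pos.2 hδ0)])
  have hM2 : M * √δ ≤ β ^ 2 / 2 := by
    calc M * √δ ≤ M * (β ^ 2 / (2 * M)) := by gcongr
      _ = β ^ 2 / 2 := by field_simp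
  calc CW * (κ * (δ + (D * √δ + T) + k2 * δ) + δ) =
        CW * (κ * (1 + k2) + 1) * δ + CW * κ * D * √δ + CW * κ * T := by ring
    _ ≤ CW * (κ * (1 + k2) + 1) * √δ + CW * κ * D * √δ + CW * κ * T := by gcongr
    _ = M * √δ + CW * κ * T := by rw [hM]; ring
    _ < β ^ 2 := by
        have : 0 < β ^ 2 := by positivity
        linarith only [this, hM2, hT]

/-- the choice of `N` -/
theorem eg_N {CW κ CT m β : ℝ} (hm : 0 < m) (hβ : 0 < β) : ∃ N : ℝ, 1 ≤ N ∧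
    CW * κ * (CT * N ^ (-m)) ^ (2 / m) < β ^ 2 / 4 := by
  have hNlim : Tendsto (fun N : ℝ => CW * κ * (CT * N ^ (-m)) ^ (2 / m)) atTop (𝓝 0) := by
    have h1 : Tendsto (fun N : ℝ => CT * N ^ (-m)) atTop (𝓝 (CT * 0)) :=
      (tendsto_rpow_neg_atTop hm).const_mul CT
    rw [mul_zero] at h1
    have h2 : Tendsto (fun N : ℝ => (CT * N ^ (-m)) ^ (2 / m)) atTop (𝓝 (0 ^ (2 / m))) :=
      h1.rpow_const (Or.inr (by positivity))
    rw [Real.zero_rpow (by positivity)] at h2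
    simpa using h2.const_mul (CW * κ)
  have h1 := hNlim.eventually (gt_mem_nhds (show (0 : ℝ) < β ^ 2 / 4 by positivity))
  obtain ⟨N, h2, h3⟩ := (h1.and (eventually_ge_atTop 1)).exists
  exact ⟨N, h3, h2⟩

/-- the scale `s = √(2 ε)` is small -/
theorem eg_scale {ε c0 δ s0 : ℝ} (hε : 0 < ε) (hc0 : 0 < c0) (hs0 : 0 < s0)
    (hsc : ε ≤ 2 * δ / c0) (hδ : δ ≤ c0 / 4 * min (s0 ^ 2) (min 1 (1 / (L.k2 + 1)))) :
    ∃ s, L.Ad s ∧ s ≤ s0 ∧ s ^ 2 / 2 = ε := by
  have hk := L.k2_nonneg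
  have hspos : 0 < √(2 * ε) := Real.sqrt_pos.2 (by positivity)
  have hs2 : √(2 * ε) ^ 2 = 2 * ε := Real.sq_sqrt (by positivity)
  set s : ℝ := √(2 * ε) with hs
  have hs2le : s ^ 2 ≤ min (s0 ^ 2) (min 1 (1 / (L.k2 + 1))) := by
    rw [hs2]
    have h2 : ε * c0 ≤ 2 * δ := by rwa [le_div_iff₀ hc0] at hsc
    set μ := min (s0 ^ 2) (min 1 (1 / (L.k2 + 1)))
    have h3 : c0 * (2 * ε) ≤ c0 * μ := by linarith only [hδ, h2]
    exact le_of_mul_le_mul_left h3 hc0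
  have hsk : L.k2 * s ^ 2 ≤ 1 := by
    have h2 : s ^ 2 ≤ 1 / (L.k2 + 1) := hs2le.trans ((min_le_right _ _).trans (min_le_right _ _))
    rw [le_div_iff₀ (by positivity)] at h2
    have e : s ^ 2 * (L.k2 + 1) = L.k2 * s ^ 2 + s ^ 2 := by ring
    rw [e] at h2
    linarith only [h2, hs2, hε]
  have hs_1 : s ≤ 1 := by
    have : s ^ 2 ≤ 1 ^ 2 := by
      rw [one_pow]
      exact hs2le.trans ((min_le_right _ _).trans (min_le_left _ _))
    exact le_of_sq_le_sq this one_pos.le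
  refine ⟨s, ⟨hspos, hs_1, hsk⟩, le_of_sq_le_sq (hs2le.trans (min_le_left _ _)) hs0.le, ?_⟩
  rw [hs2]
  ring

/-- B5c, the end game -/
theorem end_game_of {CW CT : ℝ} (hCW : 0 < CW) (hW : L.HW CW) (hCT : 0 < CT) (hT : L.HTail CT)
    (hS : L.HSup) (η : ℝ) (hη : 0 < η) : ∃ δ > 0, ∀ c ∈ L.K, ∀ ε : ℝ, 0 < ε → L.k2 * ε < 2 →
    ∀ u : E n → ℝ, SP u → ∫ z, u z.1 ^ L.ps ∂L.V = 1 → L.Def c ε u ≤ δ →
    (∫ z, u z.1 ^ 2 ∂L.V) ≤ δ → sg L.m ^ (2 / L.m) - η ≤ L.En u := by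
  have hm := L.m_pos
  have hm2 := L.m_sub_pos
  have hk := L.k2_nonneg
  have hps := L.eg_ps_gt
  have hσ := eg_sg_pos hm
  rcases le_or_gt (sg L.m ^ (2 / L.m) - η) 0 with he | he
  · refine ⟨1, one_pos, fun c hc ε hε hkε u hu _ _ _ =>
      he.trans (le_trans ?_ (L.w_le_En hc hε hkε hu.1))⟩
    exact integral_nonneg fun z => mul_nonneg (sq_nonneg _) (sq_nonneg _)
  obtain ⟨t, ht0, ht1, htf⟩ := eg_param (q := L.ps) hσ (by linarith : 2 < L.m) rfl he
    (by linarith)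
  set e0 : ℝ := sg L.m ^ (2 / L.m) - η with he0
  set ft : ℝ := (√((1 + t) * e0 / sg L.m) + t) ^ (L.ps - 2) * e0 with hft
  have hft0 : 0 ≤ ft := by positivity
  have hβ0 : 0 < 1 - ft ^ (1 / L.ps) := by
    have : ft ^ (1 / L.ps) < 1 := Real.rpow_lt_one hft0 htf (by positivity)
    linarith
  set β : ℝ := 1 - ft ^ (1 / L.ps) with hβ
  have hκ0 : 0 < L.m * (L.m - 2) / 4 := by positivity
  obtain ⟨N, hN1, hNβ⟩ := eg_N (CW := CW) (κ := L.m * (L.m - 2) / 4) (CT := CT) hm hβ0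
  obtain ⟨CS, hCS, s0, hs0, hSb⟩ := hS N t e0 hN1 ht0
  obtain ⟨c0, hc0, d0, hd0, hlow⟩ := L.eg_low hCW hW
  obtain ⟨δ₁, hδ₁, hδ₁1, hδb⟩ := eg_delta (D := 2 ^ L.m / sg L.m * CS) hCW hκ0 hk
    (by positivity) hβ0 hNβ
  refine ⟨min (min δ₁ d0) (c0 / 4 * min (s0 ^ 2) (min 1 (1 / (L.k2 + 1)))), by positivity, ?_⟩
  intro c hc ε hε hkε u hu h1 hD hR
  set δ : ℝ := min (min δ₁ d0) (c0 / 4 * min (s0 ^ 2) (min 1 (1 / (L.k2 + 1)))) with hδ
  have hδ0 : 0 < δ := by positivity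
  have hδ1 : δ ≤ δ₁ := (min_le_left _ _).trans (min_le_left _ _)
  have hδd : δ ≤ d0 := (min_le_left _ _).trans (min_le_right _ _)
  by_contra hcon
  rw [not_le] at hcon
  obtain ⟨hlo, hsc⟩ := hlow c ε hε hkε u hu h1 δ hδ0 hδd hD hR
  obtain ⟨s, hAd, hss0, hse⟩ := L.eg_scale hε hc0 hs0 hsc (min_le_right _ _)
  subst hse
  have hE2e : ∫ z, u z.1 ^ 2 * L.ws c s z.1 ^ 2 ∂L.V ≤ e0 :=
    (L.w_le_En hc hε hkε hu.1).trans hcon.le
  have hsup := hSb c hc s hAd.1 hss0 u hu δ hδ0 (hδ1.trans hδ₁1) hD hR hE2e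
  have hcore := L.eg_core hCW hW hCT hAd hc hu h1 hD hR ht0 he hN1 (hT c hc s hAd N hN1) hE2e hsup
  have h2 := hδb δ hδ0 hδ1
  have h3 : √(CW * (L.m * (L.m - 2) / 4 * (δ + (2 ^ L.m / sg L.m * (CS * √δ) +
      (CT * N ^ (-L.m)) ^ (2 / L.m)) + L.k2 * δ) + δ)) < β := by
    rw [Real.sqrt_lt' hβ0]
    refine lt_of_eq_of_lt ?_ h2
    ring
  rw [← hft] at hcore
  linarith only [h3, hcore]

end Lim

end Vale.Agent.P219.End
end

section

/-!
# P219 / End : near a frame of small defect, `J_{g²}` is almost constant in the scale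
-/

open MeasureTheory Set Metric
open scoped ENNReal ContDiff Topology

namespace Vale.Agent.P219.End

variable {n : ℕ}

namespace Lim

variable (L : Lim n)

theorem derivJ_g : L.DerivJ_g := by
  intro c Φ hΦ ε h0 hk
  have h1 := L.hasDerivAt_J (c := c) h0 hk hΦ.continuous
  rw [L.dJ_int h0 hk (hΦ.of_le (by exact_mod_cast le_top))] at h1
  refine h1.congr_deriv ?_
  have cw : Continuous fun z : E n × E n => L.w c ε z.1 ^ L.m :=
    (L.w_rpow_smoothB_g c h0 hk L.m).continuous.comp continuous_fst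
  have cΦ : Continuous fun z : E n × E n => Φ z.1 := hΦ.continuous.comp continuous_fst
  have cF : Continuous fun z : E n × E n => L.F c z.1 := (L.Fc_cont c).comp continuous_fst
  have cn := L.nc_cont c
  have i1 : Integrable (fun z : E n × E n => L.m * (Φ z.1 * L.w c ε z.1 ^ L.m * L.nc c z ^ 2 /
      (L.F c z.1 + ε))) L.V :=
    L.integrable_of_cont (continuous_const.mul ((((cΦ.mul cw).mul (cn.pow 2))).div
      (cF.add continuous_const) fun z => (L.Fe_pos_g c z.1 h0).ne'))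
  have i2 : Integrable (fun z : E n × E n => L.H0 * (Φ z.1 * L.w c ε z.1 ^ L.m * L.nc c z)) L.V :=
    L.integrable_of_cont (continuous_const.mul ((cΦ.mul cw).mul cn))
  have e : ∫ z, Φ z.1 * L.w c ε z.1 ^ L.m *
      (L.m * L.nc c z ^ 2 / (L.F c z.1 + ε) - L.H0 * L.nc c z) ∂L.V =
      L.m * (∫ z, Φ z.1 * L.w c ε z.1 ^ L.m * L.nc c z ^ 2 / (L.F c z.1 + ε) ∂L.V) -
      L.H0 * ∫ z, Φ z.1 * L.w c ε z.1 ^ L.m * L.nc c z ∂L.V := by
    rw [← integral_const_mul, ← integral_const_mul, ← integral_sub i1 i2]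
    refine integral_congr_ae (Filter.Eventually.of_forall fun z => ?_)
    simp only
    ring
  rw [e]
  ring

theorem gq_g_eq (c : E n) {s : ℝ} (hs : 0 < s) (h4 : L.k2 * (s ^ 2 / 2) < 2) (u : E n → ℝ) :
    L.gq_g c (s ^ 2 / 2) u = L.gs c s u := by
  funext x
  unfold gq_g gs
  rw [Real.rpow_neg (L.w_posB_g c x (by positivity) h4).le, div_eq_mul_inv]
  rfl

/-- B5a [Cone.lean] near a frame of small defect `J_{g²}` is almost constant in the scale -/
theorem cone (Λ B : ℝ) (hΛ : 1 ≤ Λ) : ∃ C > 0, ∀ c ∈ L.K, ∀ s : ℝ, 0 < s → L.Ad (Λ * s) →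
    ∀ u : E n → ℝ, SP u → ∀ δ : ℝ, 0 < δ → δ ≤ 1 → L.Def c (s ^ 2 / 2) u ≤ δ →
    (∫ z, u z.1 ^ 2 ∂L.V) ≤ δ → (∫ z, u z.1 ^ 2 * L.ws c s z.1 ^ 2 ∂L.V) ≤ B →
    L.Js (fun x => L.gs c s u x ^ 2) c (Λ * s) ≤
      L.Js (fun x => L.gs c s u x ^ 2) c s + C * √δ := by
  obtain ⟨C, hC, h⟩ := L.revmono_g L.derivJ_g (Λ := Λ ^ 2) (E₂ := max B 0)
    (by nlinarith) (le_max_right _ _)
  refine ⟨C, hC, ?_⟩
  intro c hc s hs hAd u hu δ hδ0 hδ1 hDef hR hB
  have hsΛ : s ≤ Λ * s := le_mul_of_one_le_left hs.le hΛ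
  have hk2 := L.k2_nonneg
  have hsq : s ^ 2 ≤ (Λ * s) ^ 2 := by
    apply pow_le_pow_left₀ hs.le hsΛ
  have hAs : L.Ad s := ⟨hs, hsΛ.trans hAd.2.1,
    (mul_le_mul_of_nonneg_left hsq hk2).trans hAd.2.2⟩
  have hk : L.k2 * (s ^ 2 / 2) < 2 := hAs.k2_lt
  have hm := L.m_pos
  have hm2 := L.m_sub_pos
  have hε : 0 < s ^ 2 / 2 := hAs.eps_pos
  have hDef0 := L.def_nonneg hAs hc hu.1
  have e1 := L.gq_g_eq c hs hk u
  have key := h c hc (s ^ 2 / 2) hε (by
      have : L.k2 * (Λ ^ 2 * (s ^ 2 / 2)) = L.k2 * (Λ * s) ^ 2 / 2 := by ring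
      rw [this]
      linarith [hAd.2.2]) u hu.1 hu.2 δ hδ0 hδ1
  rw [e1] at key
  have g1 := L.def_ge1 hAs hc hu.1
  have g2 := L.def_ge2 hAs hc hu.1
  have g3 := L.def_ge3 hAs hc hu.1
  have key2 := key (by
      have h1 : 4 / (L.m * (L.m - 2)) * ∫ z, L.w c (s ^ 2 / 2) z.1 ^ (L.m - 2) *
          L.G (L.gs c s u) (L.gs c s u) z ∂L.V ≤
          4 / (L.m * (L.m - 2)) * (L.m * (L.m - 2) / 4 * L.Def c (s ^ 2 / 2) u) :=
        mul_le_mul_of_nonneg_left g1 (by positivity)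
      refine h1.trans (le_of_eq_of_le ?_ hDef)
      field_simp) (g2.trans hDef) (by
      have h1 : 2 / L.m * L.Dl c (fun x => u x ^ 2 / (L.F c x + s ^ 2 / 2)) ≤
          2 / L.m * (L.m / 2 * L.Def c (s ^ 2 / 2) u) :=
        mul_le_mul_of_nonneg_left g3 (by positivity)
      refine h1.trans (le_of_eq_of_le ?_ hDef)
      field_simp) hR (hB.trans (le_max_left _ _))
  have e2 : L.Js (fun x => L.gs c s u x ^ 2) c (Λ * s) =
      L.J (fun x => L.gs c s u x ^ 2) c (Λ ^ 2 * (s ^ 2 / 2)) := by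
    rw [Js_eq]
    congr 1
    ring
  rw [e2, Js_eq]
  exact key2

end Lim

end Vale.Agent.P219.End
end

section

/-!
# P219 / End : averaged upper bound of `g²` near the centre of a frame of small defect
-/

open MeasureTheory Set Metric
open scoped ENNReal ContDiff Topology

namespace Vale.Agent.P219.End

variable {n : ℕ}

namespace Lim

variable (L : Lim n)

/-- the error of the potential estimate for `Φ = g²`, at `p` -/
noncomputable def errS (c : E n) (s S : ℝ) (u : E n → ℝ) (p : E n × E n) : ℝ :=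
  ∫ z, (L.gs c s u z.1 ^ 2 * L.ds p.1 z.1 +
    √(L.G (fun x => L.gs c s u x ^ 2) (fun x => L.gs c s u x ^ 2) z)) *
      L.kS S (L.ds p.1 z.1) ∂L.V

theorem kS_nonneg_g {S d : ℝ} (hS : 0 ≤ S) (hd : 0 ≤ d) : 0 ≤ L.kS S d :=
  mul_nonneg (Real.rpow_nonneg (by positivity) _) (Real.rpow_nonneg hd _)

theorem errS_nonneg (c : E n) {s S : ℝ} (hS : 0 ≤ S) (u : E n → ℝ) (p : E n × E n) :
    0 ≤ L.errS c s S u p := by
  refine integral_nonneg fun z => ?_
  have h1 := L.kS_nonneg_g hS (L.ds_nonneg p.1 z.1)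
  have h2 := L.ds_nonneg p.1 z.1
  exact mul_nonneg (add_nonneg (mul_nonneg (sq_nonneg _) h2) (Real.sqrt_nonneg _)) h1

/-- B5b, from the other leaves -/
theorem sup_bound_of
    (centre : ∀ N η : ℝ, 1 ≤ N → 0 < η → ∃ Λ₀ ≥ (1 : ℝ), ∀ Λ ≥ Λ₀, ∀ c ∈ L.K, ∀ p ∈ L.K,
      ∀ s : ℝ, 0 < s → L.Ad (Λ * s) → L.ds c p ≤ N * s → ∀ x ∈ L.K,
      L.ws p (Λ * s) x ≤ (1 + η) * L.ws c (Λ * s) x)
    (upper : ∃ C > 0, (∀ c ∈ L.K, ∀ s : ℝ, 0 < s →
      L.V.real {z | L.ds c z.1 ≤ s} ≤ C * s ^ L.m))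
    (pot : ∃ C > 0, ∀ᵐ z₀ ∂L.V, ∀ Φ : E n → ℝ, ContDiff ℝ ∞ Φ → (∀ x, 0 ≤ Φ x) →
      ∀ S, L.Ad S → sg L.m * Φ z₀.1 ≤ L.Js Φ z₀.1 S +
        C * ∫ z, (Φ z.1 * L.ds z₀.1 z.1 + √(L.G Φ Φ z)) * L.kS S (L.ds z₀.1 z.1) ∂L.V)
    (sup_err : ∀ N Λ B : ℝ, 1 ≤ N → 1 ≤ Λ → ∃ C > 0, ∀ c ∈ L.K, ∀ s : ℝ, 0 < s →
      L.Ad (Λ * s) → ∀ u : E n → ℝ, SP u → ∀ δ : ℝ, 0 < δ → δ ≤ 1 →
      L.Def c (s ^ 2 / 2) u ≤ δ → (∫ z, u z.1 ^ 2 ∂L.V) ≤ δ →
      (∫ z, u z.1 ^ 2 * L.ws c s z.1 ^ 2 ∂L.V) ≤ B →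
      IntegrableOn (L.errS c s (Λ * s) u) {p | L.ds c p.1 ≤ N * s} L.V ∧
      ∫ p in {p | L.ds c p.1 ≤ N * s}, L.errS c s (Λ * s) u p ∂L.V ≤ C * √δ * s ^ L.m)
    (N η B : ℝ) (hN : 1 ≤ N) (hη : 0 < η) : ∃ C > 0, ∃ s₀ > 0, ∀ c ∈ L.K,
    ∀ s : ℝ, 0 < s → s ≤ s₀ →
    ∀ u : E n → ℝ, SP u → ∀ δ : ℝ, 0 < δ → δ ≤ 1 → L.Def c (s ^ 2 / 2) u ≤ δ →
    (∫ z, u z.1 ^ 2 ∂L.V) ≤ δ → (∫ z, u z.1 ^ 2 * L.ws c s z.1 ^ 2 ∂L.V) ≤ B →
    ∫ z in {z | L.ds c z.1 ≤ N * s},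
      max 0 (sg L.m * L.gs c s u z.1 ^ 2 -
        (1 + η) * ∫ y, u y.1 ^ 2 * L.ws c s y.1 ^ 2 ∂L.V) ∂L.V ≤ C * √δ * s ^ L.m := by
  have hm := L.m_pos
  have hk2 := L.k2_nonneg
  -- choice of the parameters
  obtain ⟨η', hη', hηm⟩ : ∃ η' > 0, (1 + η') ^ L.m ≤ 1 + η := by
    refine ⟨(1 + η) ^ (1 / L.m) - 1, ?_, ?_⟩
    · have : (1 : ℝ) < (1 + η) ^ (1 / L.m) :=
        Real.one_lt_rpow (by linarith) (by positivity)
      linarith
    · rw [add_sub_cancel, ← Real.rpow_mul (by linarith), one_div, inv_mul_cancel₀ hm.ne',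
        Real.rpow_one]
  obtain ⟨Λ, hΛ, hcen⟩ := centre N η' hN hη'
  obtain ⟨Cc, hCc, hcone⟩ := L.cone Λ B hΛ
  obtain ⟨Cu, hCu, hup⟩ := upper
  obtain ⟨Cp, hCp, hpot⟩ := pot
  obtain ⟨Ce, hCe, herr⟩ := sup_err N Λ B hN hΛ
  have hN0 : 0 < N := by linarith
  have hΛ0 : 0 < Λ := lt_of_lt_of_le one_pos hΛ
  refine ⟨(1 + η) * Cc * (Cu * N ^ L.m) + Cp * Ce, by positivity, 1 / (Λ * (1 + L.k2)),
    by positivity, ?_⟩
  intro c hc s hs hs0 u hu δ hδ0 hδ1 hDef hR hB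
  have hAd : L.Ad (Λ * s) := by
    have h1 : Λ * s ≤ 1 / (1 + L.k2) := by
      calc Λ * s ≤ Λ * (1 / (Λ * (1 + L.k2))) := by gcongr
        _ = 1 / (1 + L.k2) := by field_simp
    have h2 : 1 / (1 + L.k2) ≤ 1 := by
      rw [div_le_one (by positivity)]; linarith
    refine ⟨by positivity, h1.trans h2, ?_⟩
    have h3 : (Λ * s) ^ 2 ≤ 1 / (1 + L.k2) := by
      calc (Λ * s) ^ 2 = (Λ * s) * (Λ * s) := by ring
        _ ≤ 1 * (1 / (1 + L.k2)) := by
            apply mul_le_mul (h1.trans h2) h1 (by positivity) (by positivity)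
        _ = _ := one_mul _
    calc L.k2 * (Λ * s) ^ 2 ≤ L.k2 * (1 / (1 + L.k2)) := by gcongr
      _ ≤ 1 := by
          rw [mul_one_div, div_le_one (by positivity)]; linarith
  have hAs : L.Ad s := Ad.mono hAd hs (le_mul_of_one_le_left hs.le hΛ)
  have hgs : ContDiff ℝ ∞ (L.gs c s u) := L.gs_smooth hs (Ad.lt4 hAs) c hu.1
  have hΦ : ContDiff ℝ ∞ (fun x => L.gs c s u x ^ 2) := hgs.pow 2
  obtain ⟨hei, hee⟩ := herr c hc s hs hAd u hu δ hδ0 hδ1 hDef hR hB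
  have hco := hcone c hc s hs hAd u hu δ hδ0 hδ1 hDef hR hB
  set E₂ := ∫ y, u y.1 ^ 2 * L.ws c s y.1 ^ 2 ∂L.V with hE₂
  have hJs : L.Js (fun x => L.gs c s u x ^ 2) c s = E₂ := by
    rw [hE₂]
    unfold Js
    refine integral_congr_ae (Filter.Eventually.of_forall fun z => ?_)
    exact L.gs_sq_mul_m hs (Ad.lt4 hAs) c u z.1
  have hE₂0 : 0 ≤ E₂ := by
    rw [hE₂]
    exact integral_nonneg fun z => by positivity
  set A : Set (E n × E n) := {z | L.ds c z.1 ≤ N * s} with hA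
  have hAm : MeasurableSet A :=
    (isClosed_le ((L.ds_cont c).comp continuous_fst) continuous_const).measurableSet
  -- pointwise bound
  have hpt : ∀ᵐ z ∂(L.V.restrict A), max 0 (sg L.m * L.gs c s u z.1 ^ 2 - (1 + η) * E₂) ≤
      (1 + η) * Cc * √δ + Cp * L.errS c s (Λ * s) u z := by
    have h1 : ∀ᵐ z ∂(L.V.restrict A), z.1 ∈ L.K ∧ ‖z.2‖ = 1 := ae_restrict_of_ae L.V_supp
    have h2 := ae_restrict_of_ae (s := A) hpot
    filter_upwards [h1, h2, ae_restrict_mem hAm] with z hz hp hzA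
    have e0 := L.errS_nonneg c (s := s) (S := Λ * s) hAd.1.le u z
    refine max_le (by positivity) ?_
    have h3 := hp _ hΦ (fun x => sq_nonneg _) (Λ * s) hAd
    have h4 : L.Js (fun x => L.gs c s u x ^ 2) z.1 (Λ * s) ≤
        (1 + η) * L.Js (fun x => L.gs c s u x ^ 2) c (Λ * s) := by
      unfold Js
      rw [← integral_const_mul]
      have kg : Continuous fun z : E n × E n => L.gs c s u z.1 :=
        hgs.continuous.comp continuous_fst
      have kw : ∀ c' : E n, Continuous fun z : E n × E n => L.ws c' (Λ * s) z.1 ^ L.m :=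
        fun c' => (L.ws_smooth hAd c' L.m).continuous.comp continuous_fst
      have kw1 := kw z.1
      have kw2 := kw c
      refine L.integral_mono_of (by fun_prop) (by fun_prop) fun y hy _ => ?_
      have h5 := hcen Λ le_rfl c hc z.1 hz.1 s hs hAd hzA y.1 hy
      have h6 := L.ws_nonneg (s := Λ * s) hAd.1 z.1 y.1
      have h7 : L.ws z.1 (Λ * s) y.1 ^ L.m ≤ (1 + η) * L.ws c (Λ * s) y.1 ^ L.m := by
        calc L.ws z.1 (Λ * s) y.1 ^ L.m ≤ ((1 + η') * L.ws c (Λ * s) y.1) ^ L.m :=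
              Real.rpow_le_rpow h6 h5 hm.le
          _ = (1 + η') ^ L.m * L.ws c (Λ * s) y.1 ^ L.m :=
              Real.mul_rpow (by positivity) (L.ws_nonneg (s := Λ * s) hAd.1 c y.1)
          _ ≤ _ := mul_le_mul_of_nonneg_right hηm
              (Real.rpow_nonneg (L.ws_nonneg (s := Λ * s) hAd.1 c y.1) _)
      calc L.gs c s u y.1 ^ 2 * L.ws z.1 (Λ * s) y.1 ^ L.m
          ≤ L.gs c s u y.1 ^ 2 * ((1 + η) * L.ws c (Λ * s) y.1 ^ L.m) :=
            mul_le_mul_of_nonneg_left h7 (sq_nonneg _)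
        _ = _ := by ring
    have h8 : (1 + η) * L.Js (fun x => L.gs c s u x ^ 2) c (Λ * s) ≤
        (1 + η) * (E₂ + Cc * √δ) := by
      rw [hJs] at hco
      exact mul_le_mul_of_nonneg_left hco (by positivity)
    have h9 : L.errS c s (Λ * s) u z = ∫ y, (L.gs c s u y.1 ^ 2 * L.ds z.1 y.1 +
      √(L.G (fun x => L.gs c s u x ^ 2) (fun x => L.gs c s u x ^ 2) y)) *
      L.kS (Λ * s) (L.ds z.1 y.1) ∂L.V := rfl
    rw [h9]
    linarith
  -- integration
  have hint : Integrable (fun z : E n × E n => max 0 (sg L.m * L.gs c s u z.1 ^ 2 -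
      (1 + η) * E₂)) L.V := by
    have kg : Continuous fun z : E n × E n => L.gs c s u z.1 :=
      hgs.continuous.comp continuous_fst
    exact L.integrable_of_cont (by fun_prop)
  have hmeas : L.V.real A ≤ Cu * (N * s) ^ L.m := hup c hc (N * s) (by positivity)
  calc ∫ z in A, max 0 (sg L.m * L.gs c s u z.1 ^ 2 - (1 + η) * E₂) ∂L.V
      ≤ ∫ z in A, ((1 + η) * Cc * √δ + Cp * L.errS c s (Λ * s) u z) ∂L.V := by
        refine integral_mono_ae hint.integrableOn ?_ hpt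
        exact (integrable_const _).add (hei.const_mul Cp)
    _ = (1 + η) * Cc * √δ * L.V.real A + Cp * ∫ z in A, L.errS c s (Λ * s) u z ∂L.V := by
        rw [integral_add (integrable_const _) (hei.const_mul Cp), integral_const,
          integral_const_mul, smul_eq_mul, measureReal_restrict_apply_univ]
        ring
    _ ≤ (1 + η) * Cc * √δ * (Cu * (N * s) ^ L.m) + Cp * (Ce * √δ * s ^ L.m) := by
        gcongr
    _ = _ := by
        rw [Real.mul_rpow hN0.le hs.le]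
        ring

end Lim

end Vale.Agent.P219.End
end

section

/-!
# P219 / End : the averaged upper bound, without hypotheses (`Lim.wsob` is in `LimSob.lean`)
-/

open MeasureTheory Set Metric
open scoped ENNReal ContDiff Topology

namespace Vale.Agent.P219.End

variable {n : ℕ}

namespace Lim

variable (L : Lim n)

theorem kInt : L.KInt := fun _ hc _ hS => L.potF_kS_integrable hc hS

theorem kAvg : L.KAvg := fun N Λ hN hΛ => L.kS_avg L.upper_density N Λ hN hΛ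

theorem Ad.of_mul {L : Lim n} {Λ s : ℝ} (hΛ : 1 ≤ Λ) (hs : 0 < s) (h : L.Ad (Λ * s)) : L.Ad s := by
  have h1 : s ≤ Λ * s := by nlinarith
  refine ⟨hs, h1.trans h.2.1, ?_⟩
  have h2 : s ^ 2 ≤ (Λ * s) ^ 2 := pow_le_pow_left₀ hs.le h1 2
  exact (mul_le_mul_of_nonneg_left h2 L.k2_nonneg).trans h.2.2

/-- B5b -/
theorem sup_bound (N η B : ℝ) (hN : 1 ≤ N) (hη : 0 < η) : ∃ C > 0, ∃ s₀ > 0, ∀ c ∈ L.K,
    ∀ s : ℝ, 0 < s → s ≤ s₀ →
    ∀ u : E n → ℝ, SP u → ∀ δ : ℝ, 0 < δ → δ ≤ 1 → L.Def c (s ^ 2 / 2) u ≤ δ →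
    (∫ z, u z.1 ^ 2 ∂L.V) ≤ δ → (∫ z, u z.1 ^ 2 * L.ws c s z.1 ^ 2 ∂L.V) ≤ B →
    ∫ z in {z | L.ds c z.1 ≤ N * s},
      max 0 (sg L.m * L.gs c s u z.1 ^ 2 -
        (1 + η) * ∫ y, u y.1 ^ 2 * L.ws c s y.1 ^ 2 ∂L.V) ∂L.V ≤ C * √δ * s ^ L.m := by
  refine L.sup_bound_of (fun N η hN hη => L.centre hN hη) ?_ L.pot ?_ N η B hN hη
  · obtain ⟨C, hC, h, -⟩ := L.upper_density
    exact ⟨C, hC, h⟩
  · intro N Λ B hN hΛ
    obtain ⟨C, hC, h⟩ := L.sup_err L.kInt L.kAvg N Λ B hN hΛ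
    exact ⟨C, hC, fun c hc s hs hAd u hu δ hδ hδ1 hD hR hB =>
      h c hc s hs hAd (hAd.of_mul hΛ hs) u hu δ hδ hδ1 hD hR hB⟩

end Lim

end Vale.Agent.P219.End
end
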