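import Mathlib
import Vale.Agent.P219.Bdl.B12
import Vale.Agent.P219.Bdl.B10
import Vale.Agent.P219.Bdl.B6
import Vale.Agent.P219.Bdl.B13
import Vale.Agent.P219.Bdl.B8
import Vale.Agent.P219.Bdl.B4
import Vale.Agent.P219.Bdl.B11
import Vale.Agent.P219.Bdl.B5
import Vale.Agent.P219.Bdl.B1
import Vale.Agent.P219.Bdl.B7
import Vale.Agent.P219.Bdl.B9
import Vale.Agent.P219.Bdl.B14
import Vale.Agent.P219.Bdl.B3

set_option linter.all false

section

/-! # First variation with uniform second order bounds (task H9) -/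

open MeasureTheory Set Metric
open scoped ENNReal ContDiff

namespace Vale.Agent.P219.TPH

open Vale.Agent.P219.TP

variable {n : ℕ} (G : Geo n) {k : ℝ}

end Vale.Agent.P219.TPH
end

section

/-! # The line theorem for a geodesic (task H13) -/

set_option linter.all false

open MeasureTheory Set Metric
open scoped ENNReal ContDiff

namespace Vale.Agent.P219.TPH

open Vale.Agent.P219.TP

variable {n : ℕ} {G : Geo n} {k : ℝ}

/-- The bonus term. -/
noncomputable def ryB (G : Geo n) (k : ℝ) (Φ : ℝ × ℝ → ℝ) (p q : _root_.Vale.Agent.P219.TP.E n) (r a b : ℝ) : ℝ :=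
  (Φ (r ^ 2, r * a) * b ^ 2 * rtau G k p (G.lg p q) +
    Φ (r ^ 2, r * b) * a ^ 2 * rtau G k q (G.lg q p)) / 2

end Vale.Agent.P219.TPH
end

section

/-! # The pair integral in polar coordinates (task H14) -/

open MeasureTheory Set Metric
open scoped ENNReal ContDiff

namespace Vale.Agent.P219.TPH

open Vale.Agent.P219.TP

variable {n : ℕ} (G : Geo n)

end Vale.Agent.P219.TPH
end

section

/-! # From lines to the pair integral (task H15) -/

open MeasureTheory Set Metric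
open scoped ENNReal ContDiff

namespace Vale.Agent.P219.TPH

open Vale.Agent.P219.TP

variable {n : ℕ} (G : Geo n)

/-! ### Times in the ball -/

theorem wh_compactSupport {o : _root_.Vale.Agent.P219.TP.E n} {ρ : ℝ} {h : _root_.Vale.Agent.P219.TP.E n → ℝ} (hh : G.Cls o ρ h) :
    HasCompactSupport h := by
  apply HasCompactSupport.of_support_subset_isCompact (G.isCompact_gball o ρ)
  intro x hx
  exact hh.supp x hx

/-! ### The pair integrand on the unit sphere bundle -/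

end Vale.Agent.P219.TPH
end

section

/-! # The two-point inequality for the exact kernel -/

open MeasureTheory Set Metric
open scoped ENNReal ContDiff

namespace Vale.Agent.P219.TPH

open Vale.Agent.P219.TP

variable {n : ℕ} (G : Geo n) {k : ℝ}

end Vale.Agent.P219.TPH
end

section

/-! # The isoperimetric inequality from certificates -/

open MeasureTheory Set Metric
open scoped ENNReal ContDiff

namespace Vale.Agent.P219.TPH

open Vale.Agent.P219.TP

variable {n : ℕ} {k : ℝ}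

theorem H0_nonneg (hn : 2 ≤ n) (hk : 0 ≤ k) {R : ℝ} (hR : 0 < R) : 0 ≤ H0 n k R := by
  have h1 := sn_pos hk hR
  have h2 := one_le_cs k R
  have h3 : (2 : ℝ) ≤ n := by exact_mod_cast hn
  have h4 : (0 : ℝ) ≤ (n : ℝ) - 1 := by linarith
  unfold H0
  positivity

end Vale.Agent.P219.TPH
end

section

/-!
The isoperimetric inequality from a certificate, in coordinates.
-/

namespace Vale.Agent.P219.Co

end Vale.Agent.P219.Co
end

section

/-! # Dimension at least four: from the limit object to the theorem, with the equality case -/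

open MeasureTheory Set Metric Filter Topology
open scoped ENNReal NNReal ContDiff

noncomputable section

namespace Vale.Agent.P219.SA

open Vale.Agent.P219.TP Vale.Agent.P219.TPH

variable {n : ℕ} {k : ℝ}

/-- The limit object attached to a minimising sequence. -/
def LimMk (n : ℕ) (k : ℝ) : Prop :=
  ∀ G : Geo n, MonoSn G k → ∀ (o : E n) (ρ : ℝ) (I : ℝ → ℝ) (J R : ℝ) (U : Ultrafilter ℕ)
    (h : ℕ → E n → ℝ) (V : Measure (E n × E n)), 0 < ρ → 0 < R → (U : Filter ℕ) ≤ atTop →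
    MonotoneOn I (Ici 0) → ContinuousOn I (Ici 0) → (∀ V, 0 ≤ V → 0 ≤ I V) → I 0 = 0 →
    (∀ R, 0 ≤ R → I (VR n k R) = AR n k R) → HasStrictDerivAt I (H0 n k R) (VR n k R) →
    MinSeq G o ρ I J (VR n k R) U h → IsLim G o ρ U h V → 0 < V.real univ →
    ∃ L : End.Lim n, L.V = V ∧ L.m = (n : ℝ) - 1 ∧ L.k2 = k ^ 2 ∧ L.H0 = H0 n k R ∧
      ∀ c x, 2 * L.F c x + k ^ 2 * L.F c x ^ 2 = TPH.sn k ‖G.lg c x‖ ^ 2

/-- The sharp Sobolev inequality on the limit object. -/
def LimSob (n : ℕ) : Prop :=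
  ∀ L : End.Lim n, ∀ u : E n → ℝ, ContDiff ℝ ∞ u → (∀ x, 0 < u x) →
    End.sg L.m ^ (2 / L.m) * (∫ z, u z.1 ^ L.ps ∂L.V) ^ (2 / L.ps) ≤ L.En u

theorem rm_H0 (hk : 0 ≤ k) (hn : 2 ≤ n) {R : ℝ} (hR : 0 < R) :
    H0 n k R ^ 2 / ((n : ℝ) - 1) ^ 2 - k ^ 2 = (TPH.sn k R ^ 2)⁻¹ := by
  have hsn : 0 < TPH.sn k R := TPH.sn_pos hk hR
  have hn2 : (2 : ℝ) ≤ n := by exact_mod_cast hn
  have hm : 0 < (n : ℝ) - 1 := by linarith only [hn2]
  have e1 : TPH.cs k R ^ 2 - k ^ 2 * TPH.sn k R ^ 2 = 1 := by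
    unfold TPH.cs TPH.sn
    split_ifs with hk0
    · rw [hk0]; simp
    · have := Real.cosh_sq (k * R)
      rw [div_pow]
      field_simp
      linarith
  unfold H0
  rw [eq_comm, inv_eq_iff_eq_inv, eq_comm, inv_eq_iff_eq_inv]
  field_simp
  linarith

/-- The sharp Sobolev inequality with `u = 1`. -/
theorem rm_main (sob : LimSob n) (L : End.Lim n) :
    End.sg L.m ^ (2 / L.m) ≤
      (L.H0 ^ 2 / L.m ^ 2 - L.k2) * L.V.real univ ^ (2 / L.m) := by
  have hV := L.rg_mass_pos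
  have hm := L.m_pos
  have hm2 := L.m_sub_pos
  have h1 := sob L (fun _ => 1) contDiff_const (fun _ => one_pos)
  rw [L.rg_En_one] at h1
  have h2 : ∫ z : E n × E n, (fun _ : E n => (1 : ℝ)) z.1 ^ L.ps ∂L.V = L.V.real univ := by
    simp
  rw [h2] at h1
  have h3 : 2 / L.m + 2 / L.ps = 1 := by
    unfold End.Lim.ps
    field_simp
    ring
  have h4 : L.V.real univ = L.V.real univ ^ (2 / L.m) * L.V.real univ ^ (2 / L.ps) := by
    rw [← Real.rpow_add hV, h3, Real.rpow_one]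
  have h5 : 0 < L.V.real univ ^ (2 / L.ps) := Real.rpow_pos_of_pos hV _
  have h6 : End.sg L.m ^ (2 / L.m) * L.V.real univ ^ (2 / L.ps) ≤
      (L.H0 ^ 2 / L.m ^ 2 - L.k2) * L.V.real univ ^ (2 / L.m) * L.V.real univ ^ (2 / L.ps) := by
    calc End.sg L.m ^ (2 / L.m) * L.V.real univ ^ (2 / L.ps)
        ≤ (L.H0 ^ 2 / L.m ^ 2 - L.k2) * L.V.real univ := h1
      _ = (L.H0 ^ 2 / L.m ^ 2 - L.k2) *
          (L.V.real univ ^ (2 / L.m) * L.V.real univ ^ (2 / L.ps)) := by rw [← h4]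
      _ = _ := by ring
  exact le_of_mul_le_mul_right h6 h5

/-- The functional isoperimetric inequality, `n ≥ 4`. -/
theorem funcIso_of_mk (hn : 2 ≤ n) (hk : 0 ≤ k) (hsg : End.sg ((n : ℝ) - 1) = sig n)
    (mk : LimMk n k) (sob : LimSob n) : FuncIso n k := by
  intro G hG h hh hcs h01 R hR hV
  have hn1 : 1 ≤ n := by omega
  obtain ⟨I, hImono, hIcont, hI0, hIz, hIR, hId⟩ := exists_profile (n := n) (k := k) hn hk
  by_contra hlt
  rw [not_le] at hlt
  have hlg : Continuous fun x => ‖G.lg 0 x‖ :=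
    (G.lg_smooth.continuous.comp (continuous_const.prodMk continuous_id)).norm
  obtain ⟨B, hB⟩ := (hcs.isCompact.image hlg).isBounded.subset_closedBall 0
  have hcls : G.Cls 0 (max B 1) h := by
    refine ⟨hh, fun x => (h01 x).1, fun x => (h01 x).2, fun x hx => ?_⟩
    have h1 := hB ⟨x, subset_tsupport h hx, rfl⟩
    rw [mem_closedBall, dist_zero_right, Real.norm_eq_abs, abs_of_nonneg (norm_nonneg _)] at h1
    exact h1.trans (le_max_left _ _)
  have hρ₀ : 0 < max B 1 := lt_of_lt_of_le one_pos (le_max_right _ _)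
  have hVR0 : 0 ≤ VR n k R := modelH_VR_nonneg hn1 hk hR
  have hneg : G.per h - I (V1 G h) < 0 := by
    have h1 : I (VR n k R) ≤ I (V1 G h) := hImono hVR0 (hVR0.trans hV) hV
    rw [hIR R hR] at h1
    linarith only [h1, hlt]
  have hU : ((Ultrafilter.of atTop : Ultrafilter ℕ) : Filter ℕ) ≤ atTop := Ultrafilter.of_le atTop
  obtain ⟨J, Rs, hRs, hVRs, g, V, hm, hVl, hVp, hVlt⟩ := exists_lim_of_neg G hn hk hImono hIcont hI0
    hIz hIR 0 (max B 1) hcls hneg hU
  obtain ⟨L, h1, h2, h3, h4, -⟩ := mk G hG 0 (max B 1) I J Rs _ g V hρ₀ hRs hU hImono hIcont hI0 hIz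
    hIR (hId Rs hRs) hm hVl hVp
  have h5 := rm_main sob L
  rw [h1, h2, h3, h4] at h5
  exact absurd (AR_le_of_main hn hk hRs hVp.le hsg h5) (not_le.2 hVlt)

theorem rm_sn_inj (hk : 0 ≤ k) {a b : ℝ} (ha : 0 ≤ a) (hb : 0 ≤ b) (h : TPH.sn k a ^ 2 = TPH.sn k b ^ 2) :
    a = b := by
  have h1 := modelH_sn_nonneg hk ha
  have h2 := modelH_sn_nonneg hk hb
  exact (TPH.sn_strictMono hk).injective ((pow_left_inj₀ h1 h2 two_ne_zero).1 h)

/-- The equality case on the limit, `n ≥ 4`. -/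
theorem limRig_of_mk (hn : 2 ≤ n) (hk : 0 ≤ k) (hsg : End.sg ((n : ℝ) - 1) = sig n)
    (mk : LimMk n k) (sob : LimSob n) : LimRig n k := by
  intro G hG o ρ I R U h V hρ hR hU hImono hIcont hI0 hIz hIR hId hm hVl hVp hVle
  have hn1 : 1 ≤ n := by omega
  have hn2 : (2 : ℝ) ≤ n := by exact_mod_cast hn
  have hm0 : 0 < (n : ℝ) - 1 := by linarith only [hn2]
  have hsn : 0 < TPH.sn k R := TPH.sn_pos hk hR
  have hsig : 0 < sig n := sig_pos hn1
  obtain ⟨L, h1, h2, h3, h4, hF⟩ := mk G hG o ρ I 0 R U h V hρ hR hU hImono hIcont hI0 hIz hIR hId hm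
    hVl hVp
  have heq : (L.H0 ^ 2 / L.m ^ 2 - L.k2) * L.V.real univ ^ (2 / L.m) ≤
      End.sg L.m ^ (2 / L.m) := by
    rw [h1, h2, h3, h4, rm_H0 hk hn hR, hsg]
    have h5 : AR n k R ^ (2 / ((n : ℝ) - 1)) = sig n ^ (2 / ((n : ℝ) - 1)) * TPH.sn k R ^ 2 := by
      unfold AR
      rw [Real.mul_rpow hsig.le (by positivity), ← Real.rpow_natCast (TPH.sn k R) (n - 1),
        ← Real.rpow_mul hsn.le, Nat.cast_sub (by omega : 1 ≤ n)]
      congr 1
      rw [Nat.cast_one, mul_div_cancel₀ _ hm0.ne', ← Real.rpow_natCast]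
      norm_num
    have h6 : V.real univ ^ (2 / ((n : ℝ) - 1)) ≤ AR n k R ^ (2 / ((n : ℝ) - 1)) :=
      Real.rpow_le_rpow hVp.le hVle (by (clear * - hm0; positivity))
    rw [h5] at h6
    calc (TPH.sn k R ^ 2)⁻¹ * V.real univ ^ (2 / ((n : ℝ) - 1))
        ≤ (TPH.sn k R ^ 2)⁻¹ * (sig n ^ (2 / ((n : ℝ) - 1)) * TPH.sn k R ^ 2) :=
          mul_le_mul_of_nonneg_left h6 (by positivity)
      _ = sig n ^ (2 / ((n : ℝ) - 1)) := by field_simp
  obtain ⟨-, c, -, a, -, ha, hae⟩ := L.rigid (sob L) heq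
  refine ⟨c, ?_⟩
  rw [h1] at hae
  filter_upwards [hae] with z hz
  refine rm_sn_inj hk (norm_nonneg _) hR.le ?_
  rw [← hF c z.1, hz, ← h3, ha, h2, h3, h4, rm_H0 hk hn hR, inv_inv]

end Vale.Agent.P219.SA
end
end

section

/-! # P219, density: the two cases -/

open MeasureTheory Set Metric Filter Topology
open scoped ENNReal ContDiff

namespace Vale.Agent.P219.SA

open Vale.Agent.P219.TP Vale.Agent.P219.TPH
open Vale.Agent.P219.End (KS nrm isCompact_KS)

variable {n : ℕ} (G : Geo n)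

theorem lg_norm_cont (o : _root_.Vale.Agent.P219.TP.E n) : Continuous fun y => ‖G.lg o y‖ :=
  (G.lg_smooth.continuous.comp (continuous_const.prodMk continuous_id)).norm

/-- Thin layers of the ball have small volume. -/
theorem layer_small (hn : 1 ≤ n) (o : _root_.Vale.Agent.P219.TP.E n) (ρ : ℝ) {η : ℝ} (hη : 0 < η) :
    ∃ δ₀ > 0, G.vol {y | ρ - δ₀ < ‖G.lg o y‖ ∧ ‖G.lg o y‖ ≤ ρ} ≤ ENNReal.ofReal η := by
  have hc := lg_norm_cont G o
  set L : ℕ → Set (_root_.Vale.Agent.P219.TP.E n) := fun k => {y | ρ - 1 / ((k : ℝ) + 1) < ‖G.lg o y‖ ∧ ‖G.lg o y‖ ≤ ρ}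
    with hL
  have hLm : ∀ k, MeasurableSet (L k) := fun k =>
    (measurableSet_lt measurable_const hc.measurable).inter
      (measurableSet_le hc.measurable measurable_const)
  have hanti : Antitone L := by
    intro k l hkl y hy
    refine ⟨lt_of_le_of_lt ?_ hy.1, hy.2⟩
    have : 1 / ((l : ℝ) + 1) ≤ 1 / ((k : ℝ) + 1) := by
      apply one_div_le_one_div_of_le (by positivity)
      have : (k : ℝ) ≤ l := by exact_mod_cast hkl
      linarith only [this]
    linarith only [this]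
  have hfin : ∃ k, G.vol (L k) ≠ ⊤ := by
    refine ⟨0, ne_top_of_le_ne_top (vol_gB_lt G o ρ).ne (measure_mono fun y hy => hy.2)⟩
  have h1 := tendsto_measure_iInter_atTop (μ := G.vol) (fun k => (hLm k).nullMeasurableSet)
    hanti hfin
  have h2 : G.vol (⋂ k, L k) = 0 := by
    have hsub : (⋂ k, L k) ⊆ {y | ‖G.lg o y‖ = ρ} := by
      intro y hy
      rw [mem_iInter] at hy
      refine le_antisymm (hy 0).2 ?_
      refine le_of_forall_pos_lt_add fun ε hε => ?_
      obtain ⟨k, hk⟩ := exists_nat_one_div_lt hε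
      have := (hy k).1
      linarith only [hk, this]
    refine measure_mono_null hsub ?_
    have hm : MeasurableSet {y | ‖G.lg o y‖ = ρ} := measurableSet_eq_fun hc.measurable
      measurable_const
    rw [← lintegral_indicator_one hm, G.lintegral_vol_ex o (measurable_one.indicator hm)]
    have h3 : (volume : Measure (_root_.Vale.Agent.P219.TP.E n)) (sphere 0 ρ) = 0 := by
      have : Nonempty (Fin n) := ⟨⟨0, by omega⟩⟩
      exact Measure.addHaar_sphere _ _ _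
    have h4 : ∀ᵐ v : _root_.Vale.Agent.P219.TP.E n, v ∉ sphere (0 : _root_.Vale.Agent.P219.TP.E n) ρ := measure_eq_zero_iff_ae_notMem.1 h3
    rw [lintegral_eq_zero_iff' ?_]
    · filter_upwards [h4] with v hv
      have : G.ex o v ∉ {y | ‖G.lg o y‖ = ρ} := by
        intro h5
        rw [mem_ofPred_eq, G.lg_ex] at h5
        exact hv (by simpa using h5)
      rw [indicator_of_notMem this, mul_zero]
      rfl
    · refine AEMeasurable.mul ?_ ?_
      · have : Continuous fun v => |(G.T o v).det| :=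
          (det_cont G).comp (continuous_const.prodMk continuous_id)
        exact this.measurable.ennreal_ofReal.aemeasurable
      · exact ((measurable_one.indicator hm).comp
          (G.ex_smooth_right o).continuous.measurable).aemeasurable
  rw [h2] at h1
  have h5 : (0 : ℝ≥0∞) < ENNReal.ofReal η := ENNReal.ofReal_pos.2 hη
  obtain ⟨k, hk⟩ := (h1.eventually (gt_mem_nhds h5)).exists
  exact ⟨1 / ((k : ℝ) + 1), by positivity, hk.le⟩

theorem tendsto_zero_of {U : Filter ℕ} {f : ℕ → _root_.Vale.Agent.P219.TP.E n → ℝ} (hfm : ∀ j, Measurable (f j))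
    (hf0 : ∀ j x, 0 ≤ f j x) {B : Set (_root_.Vale.Agent.P219.TP.E n)}
    (h : ∀ η > 0, ∀ᶠ j in U, ∫⁻ y in B, ENNReal.ofReal (f j y) ∂G.vol ≤ ENNReal.ofReal η) :
    Tendsto (fun j => ∫ y in B, f j y ∂G.vol) U (𝓝 0) := by
  rw [Metric.tendsto_nhds]
  intro ε hε
  filter_upwards [h (ε / 2) (by positivity)] with j hj
  rw [Real.dist_eq, sub_zero, integral_eq_lintegral_of_nonneg_ae (.of_forall fun y => hf0 j y)
    (hfm j).aestronglyMeasurable, abs_of_nonneg ENNReal.toReal_nonneg]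
  have h1 := ENNReal.toReal_mono ENNReal.ofReal_ne_top hj
  rw [ENNReal.toReal_ofReal (by positivity)] at h1
  linarith

/-- The total variations are bounded. -/
theorem per_bdd {o : _root_.Vale.Agent.P219.TP.E n} {ρ : ℝ} {U : Ultrafilter ℕ} {h : ℕ → _root_.Vale.Agent.P219.TP.E n → ℝ}
    {V : Measure (_root_.Vale.Agent.P219.TP.E n × _root_.Vale.Agent.P219.TP.E n)} (hV : IsLim G o ρ U h V) :
    ∀ᶠ j in (U : Filter ℕ), G.per (h j) ≤ V.real univ + 1 :=
  (hV.mass.eventually (gt_mem_nhds (lt_add_one _))).mono fun j hj => hj.le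

/-- Case A: the mass near `x` tends to zero. -/
theorem caseA (hn : 1 ≤ n) {o : _root_.Vale.Agent.P219.TP.E n} {ρ : ℝ} {I : ℝ → ℝ} {J Vs : ℝ} {U : Ultrafilter ℕ}
    {h : ℕ → _root_.Vale.Agent.P219.TP.E n → ℝ} (hm : MinSeq G o ρ I J Vs U h) {V : Measure (_root_.Vale.Agent.P219.TP.E n × _root_.Vale.Agent.P219.TP.E n)}
    (hV : IsLim G o ρ U h V) {x : _root_.Vale.Agent.P219.TP.E n} {e : ℝ} (he : 0 < e) {T : ℝ}
    (hlow : ∀ c ∈ nbd G o x ρ e, ∀ t ≥ T, ∀ ε > 0, ∀ᶠ j in (U : Filter ℕ),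
      pj G (h j) c t < 1 / 2 + ε) :
    Tendsto (fun j => ∫ y in {y | ‖G.lg x y‖ ≤ e / 2}, h j y ∂G.vol) U (𝓝 0) := by
  have hpi := Real.pi_pos
  have hmeas : ∀ j, Measurable (h j) := fun j => (hm.cls j).smooth.continuous.measurable
  refine tendsto_zero_of G hmeas (fun j => (hm.cls j).nonneg) fun η hη => ?_
  obtain ⟨δ₀, hδ₀, hlay⟩ := layer_small G hn o ρ (show 0 < η / 2 by positivity)
  have hco := lg_norm_cont G o
  have hcx := lg_norm_cont G x
  set S' : Set (_root_.Vale.Agent.P219.TP.E n) := {y | ‖G.lg x y‖ ≤ e / 2 ∧ ‖G.lg o y‖ ≤ ρ - δ₀} with hS'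
  have hS'm : MeasurableSet S' := (measurableSet_le hcx.measurable measurable_const).inter
    (measurableSet_le hco.measurable measurable_const)
  have hLm : MeasurableSet {y | ρ - δ₀ < ‖G.lg o y‖ ∧ ‖G.lg o y‖ ≤ ρ} :=
    (measurableSet_lt measurable_const hco.measurable).inter
      (measurableSet_le hco.measurable measurable_const)
  have hBm : MeasurableSet {y | ‖G.lg x y‖ ≤ e / 2} :=
    measurableSet_le hcx.measurable measurable_const
  have hmz := mass_zero G (U := U) (A := V.real univ + 1) (b := fun t j =>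
      (t / Real.pi) ^ ((n : ℝ) / 2) * G.vol.real {x | 0 < h j x ∧ h j x < 1} / 4)
    (T₁ := T) (δ := min δ₀ (e / 2)) (S := nbd G o x ρ e) (S' := S') (f := h) hm.cls hmeas
    (fun j => (hm.cls j).nonneg) (fun j => (hm.cls j).le_one) (per_bdd G hV)
    (fun t j ht => by (clear * - ht; positivity))
    (fun t ht => by
      have := (hm.thin.const_mul ((t / Real.pi) ^ ((n : ℝ) / 2))).div_const 4
      simpa using this)
    (lt_min hδ₀ (by positivity)) (nbd_compact G o x ρ e) (fun y hy => hy.1) hS'm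
    (fun y hy w hw => by
      have h1 := lt_min_iff.1 hw
      constructor
      · have := lg_tri G o y w
        linarith only [h1.1, hy.2, this]
      · have := lg_tri G x y w
        linarith only [this, hy.1, h1.2])
    (fun t ht j c _ => by
      have := pj_half G hn (hm.cls j) c ht
      linarith only [this])
    (fun t ht _ c hc ε hε => hlow c hc t ht ε hε)
    (fun t ht c₀ _ ε hε => pj_equi' G hm.cls c₀ ht hε) (show 0 < η / 2 by positivity)
  filter_upwards [hmz] with j hj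
  have h1 : ∫⁻ y in {y | ‖G.lg x y‖ ≤ e / 2}, ENNReal.ofReal (h j y) ∂G.vol ≤
      (∫⁻ y in S', ENNReal.ofReal (h j y) ∂G.vol) +
        ∫⁻ _ in {y | ρ - δ₀ < ‖G.lg o y‖ ∧ ‖G.lg o y‖ ≤ ρ}, 1 ∂G.vol := by
    rw [← lintegral_indicator hBm, ← lintegral_indicator hS'm, ← lintegral_indicator hLm,
      ← lintegral_add_left ((hmeas j).ennreal_ofReal.indicator hS'm)]
    refine lintegral_mono fun y => ?_
    by_cases hyB : y ∈ {y | ‖G.lg x y‖ ≤ e / 2}
    · rw [indicator_of_mem hyB]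
      by_cases hy0 : h j y = 0
      · rw [hy0, ENNReal.ofReal_zero]; exact zero_le
      have hyK := (hm.cls j).supp y hy0
      by_cases hyS : ‖G.lg o y‖ ≤ ρ - δ₀
      · rw [indicator_of_mem (show y ∈ S' from ⟨hyB, hyS⟩)]
        exact le_self_add
      · rw [indicator_of_mem (show y ∈ {y | ρ - δ₀ < ‖G.lg o y‖ ∧ ‖G.lg o y‖ ≤ ρ} from
          ⟨not_le.1 hyS, hyK⟩)]
        refine le_trans ?_ le_add_self
        rw [← ENNReal.ofReal_one]
        exact ENNReal.ofReal_le_ofReal ((hm.cls j).le_one y)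
    · rw [indicator_of_notMem hyB]
      exact zero_le
  refine h1.trans ?_
  rw [setLIntegral_one]
  refine (add_le_add hj hlay).trans ?_
  rw [← ENNReal.ofReal_add (by positivity) (by positivity)]
  exact ENNReal.ofReal_le_ofReal (by linarith only [])

/-- Case B: the complementary mass near an interior point tends to zero. -/
theorem caseB (hn : 1 ≤ n) {o : _root_.Vale.Agent.P219.TP.E n} {ρ : ℝ} {I : ℝ → ℝ} {J Vs : ℝ} {U : Ultrafilter ℕ}
    {h : ℕ → _root_.Vale.Agent.P219.TP.E n → ℝ} (hm : MinSeq G o ρ I J Vs U h) {V : Measure (_root_.Vale.Agent.P219.TP.E n × _root_.Vale.Agent.P219.TP.E n)}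
    (hV : IsLim G o ρ U h V) {x : _root_.Vale.Agent.P219.TP.E n} {e : ℝ} (he : 0 < e)
    (hint : ∀ y, ‖G.lg x y‖ ≤ e → ‖G.lg o y‖ ≤ ρ) {T : ℝ}
    (hup : ∀ c ∈ nbd G o x ρ e, ∀ t ≥ T, ∀ ε > 0, ∀ᶠ j in (U : Filter ℕ),
      1 / 2 - ε < pj G (h j) c t) :
    Tendsto (fun j => ∫ y in {y | ‖G.lg x y‖ ≤ e / 2}, (1 - h j y) ∂G.vol) U (𝓝 0) := by
  have hpi := Real.pi_pos
  have hmeas : ∀ j, Measurable (h j) := fun j => (hm.cls j).smooth.continuous.measurable
  have hb : ∀ j y, |h j y| ≤ 1 := fun j y => by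
    rw [abs_of_nonneg ((hm.cls j).nonneg y)]; exact (hm.cls j).le_one y
  have hmeas' : ∀ j, Measurable fun y => 1 - h j y := fun j => measurable_const.sub (hmeas j)
  refine tendsto_zero_of G hmeas' (fun j y => sub_nonneg.2 ((hm.cls j).le_one y)) fun η hη => ?_
  have hcx := lg_norm_cont G x
  have hBm : MeasurableSet {y | ‖G.lg x y‖ ≤ e / 2} :=
    measurableSet_le hcx.measurable measurable_const
  refine mass_zero G (U := U) (A := V.real univ + 1) (b := fun t j =>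
      (t / Real.pi) ^ ((n : ℝ) / 2) * G.vol.real {x | 0 < h j x ∧ h j x < 1} / 4)
    (T₁ := T) (δ := e / 2) (S := nbd G o x ρ e) (S' := {y | ‖G.lg x y‖ ≤ e / 2})
    (f := fun j y => 1 - h j y) hm.cls hmeas'
    (fun j y => sub_nonneg.2 ((hm.cls j).le_one y))
    (fun j y => by linarith [(hm.cls j).nonneg y]) (per_bdd G hV)
    (fun t j ht => by (clear * - ht; positivity))
    (fun t ht => by
      have := (hm.thin.const_mul ((t / Real.pi) ^ ((n : ℝ) / 2))).div_const 4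
      simpa using this)
    (by positivity) (nbd_compact G o x ρ e) (fun y hy => hy.1) hBm
    (fun y hy w hw => by
      have h1 : ‖G.lg x (G.ex y w)‖ ≤ e := by
        have := lg_tri G x y w
        have h2 : ‖G.lg x y‖ ≤ e / 2 := hy
        linarith only [h2, this, hw]
      exact ⟨hint _ h1, h1⟩)
    (fun t ht j c _ => by
      rw [pj_one_sub G (hmeas j) (hb j) c ht]
      have := pj_half G hn (hm.cls j) c ht
      have e1 : (1 - pj G (h j) c t) * (1 - (1 - pj G (h j) c t)) =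
        pj G (h j) c t * (1 - pj G (h j) c t) := by ring
      rw [e1]
      linarith only [this])
    (fun t ht ht0 c hc ε hε => by
      filter_upwards [hup c hc t ht ε hε] with j hj
      rw [pj_one_sub G (hmeas j) (hb j) c ht0]
      linarith only [hj])
    (fun t ht c₀ _ ε hε => by
      filter_upwards [pj_equi' G hm.cls c₀ ht hε] with c hc j
      rw [pj_one_sub G (hmeas j) (hb j) c ht, pj_one_sub G (hmeas j) (hb j) c₀ ht]
      have e1 : 1 - pj G (h j) c t - (1 - pj G (h j) c₀ t) =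
        -(pj G (h j) c t - pj G (h j) c₀ t) := by ring
      rw [e1, abs_neg]
      exact hc j) hη

end Vale.Agent.P219.SA
end

section

/-! # P219, density at least one near every point of the support -/

open MeasureTheory Set Metric Filter Topology
open scoped ENNReal ContDiff

namespace Vale.Agent.P219.SA

open Vale.Agent.P219.TP Vale.Agent.P219.TPH
open Vale.Agent.P219.End (KS nrm isCompact_KS)

variable {n : ℕ} (G : Geo n)

/-- The final contradiction. -/
theorem cut_contra {o : _root_.Vale.Agent.P219.TP.E n} {ρ : ℝ} {I : ℝ → ℝ} (hIcont : ContinuousOn I (Ici 0))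
    {J Vs : ℝ} {U : Ultrafilter ℕ} {h : ℕ → _root_.Vale.Agent.P219.TP.E n → ℝ}
    (hm : MinSeq G o ρ I J Vs U h) {V : Measure (_root_.Vale.Agent.P219.TP.E n × _root_.Vale.Agent.P219.TP.E n)}
    (hV : IsLim G o ρ U h V) {x : _root_.Vale.Agent.P219.TP.E n} {r : ℝ} (hx : 0 < V {z | ‖G.lg x z.1‖ < r})
    {χ : _root_.Vale.Agent.P219.TP.E n → ℝ} (hχc : Continuous χ) (hχ1 : ∀ y, χ y ≤ 1)
    (hχr : ∀ y, ‖G.lg x y‖ ≤ r → χ y = 0) {C : ℝ} {ι : ℕ → ℝ} (hι : Tendsto ι U (𝓝 0))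
    {h' : ℕ → _root_.Vale.Agent.P219.TP.E n → ℝ} (hc' : ∀ j, G.Cls o ρ (h' j))
    (hp' : ∀ j, G.per (h' j) ≤ ∫ y, χ y * ‖G.D (h j) y‖ ∂G.vol + C * ι j)
    (hI' : ∃ a : ℕ → ℝ, Tendsto a U (𝓝 Vs) ∧ (∀ j, 0 ≤ a j) ∧ ∀ j, I (a j) ≤ I (V1 G (h' j))) :
    False := by
  obtain ⟨a, ha, ha0, haI⟩ := hI'
  have := hV.fin
  have hVs : 0 ≤ Vs := ge_of_tendsto' hm.vol fun j => measureReal_nonneg
  have hcont : ∀ b : ℕ → ℝ, Tendsto b U (𝓝 Vs) → (∀ j, 0 ≤ b j) →
      Tendsto (fun j => I (b j)) U (𝓝 (I Vs)) := by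
    intro b hb hb0
    have h1 : Tendsto b U (𝓝[Ici 0] Vs) :=
      tendsto_nhdsWithin_iff.2 ⟨hb, .of_forall hb0⟩
    exact (hIcont Vs hVs).tendsto.comp h1
  have t1 := hcont a ha ha0
  have t2 := hcont _ hm.vol fun j => measureReal_nonneg
  have t3 : J = V.real univ - I Vs := tendsto_nhds_unique hm.lim (hV.mass.sub t2)
  have hχz : Continuous fun z : _root_.Vale.Agent.P219.TP.E n × _root_.Vale.Agent.P219.TP.E n => χ z.1 := hχc.comp continuous_fst
  have t4 : Tendsto (fun j => ∫ y, χ y * ‖G.D (h j) y‖ ∂G.vol) U (𝓝 (∫ z, χ z.1 ∂V)) :=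
    hV.lim (fun z => χ z.1) hχz.continuousOn
  have t5 : J ≤ (∫ z, χ z.1 ∂V) + C * 0 - I Vs := by
    refine ge_of_tendsto' ((t4.add (hι.const_mul C)).sub t1) fun j => ?_
    have h1 := hm.inf _ (hc' j)
    have h2 := hp' j
    have h3 := haI j
    linarith only [h3, h2, h1]
  rw [mul_zero, add_zero] at t5
  have t6 : V.real univ ≤ ∫ z, χ z.1 ∂V := by linarith
  -- positivity
  have hK := isCompact_KS G o ρ
  have hKm : MeasurableSet (KS G o ρ) := hK.measurableSet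
  have hrest : V.restrict (KS G o ρ) = V := by
    rw [Measure.restrict_eq_self_of_ae_mem]
    exact (measure_eq_zero_iff_ae_notMem.1 hV.supp).mono fun z hz => not_notMem.1 hz
  have i1 : Integrable (fun z : _root_.Vale.Agent.P219.TP.E n × _root_.Vale.Agent.P219.TP.E n => χ z.1) V := by
    rw [← hrest]
    exact hχz.continuousOn.integrableOn_compact hK
  have i2 : Integrable (fun z : _root_.Vale.Agent.P219.TP.E n × _root_.Vale.Agent.P219.TP.E n => 1 - χ z.1) V := (integrable_const 1).sub i1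
  have e1 : ∫ z, (1 - χ z.1) ∂V = V.real univ - ∫ z, χ z.1 ∂V := by
    rw [integral_sub (integrable_const 1) i1]
    simp
  have e2 : ∫ z, (1 - χ z.1) ∂V ≤ 0 := by rw [e1]; linarith
  have e3 : 0 < ∫ z, (1 - χ z.1) ∂V := by
    have i3 : (0 : _root_.Vale.Agent.P219.TP.E n × _root_.Vale.Agent.P219.TP.E n → ℝ) ≤ fun z : _root_.Vale.Agent.P219.TP.E n × _root_.Vale.Agent.P219.TP.E n => 1 - χ z.1 :=
      fun z => sub_nonneg.2 (hχ1 z.1)
    rw [integral_pos_iff_support_of_nonneg i3 i2]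
    refine lt_of_lt_of_le hx (measure_mono fun z hz => ?_)
    rw [Function.mem_support, hχr z.1 (le_of_lt hz)]
    norm_num
  linarith

/-- **Density at least one, in the limit, at points near a point of the support.** -/
theorem dens_lim (hn : 1 ≤ n) {o : _root_.Vale.Agent.P219.TP.E n} {ρ : ℝ} {I : ℝ → ℝ} (hImono : MonotoneOn I (Ici 0))
    (hIcont : ContinuousOn I (Ici 0)) {J Vs : ℝ} {U : Ultrafilter ℕ} {h : ℕ → _root_.Vale.Agent.P219.TP.E n → ℝ}
    (hm : MinSeq G o ρ I J Vs U h) {V : Measure (_root_.Vale.Agent.P219.TP.E n × _root_.Vale.Agent.P219.TP.E n)} (hV : IsLim G o ρ U h V) (x : _root_.Vale.Agent.P219.TP.E n)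
    (hx : ∀ e > 0, 0 < V {z | ‖G.lg x z.1‖ < e}) {e : ℝ} (he : 0 < e) (T : ℝ) :
    ∃ c, ‖G.lg o c‖ ≤ ρ ∧ ‖G.lg x c‖ < e ∧ ∃ t ≥ T, 0 < t ∧
      1 - e ≤ (t / Real.pi) ^ (((n : ℝ) - 1) / 2) * ∫ z, Real.exp (-t * ‖G.lg c z.1‖ ^ 2) ∂V := by
  by_contra hcon
  push Not at hcon
  -- `x` is in the ball
  have hxK : ‖G.lg o x‖ ≤ ρ := by
    by_contra h1
    rw [not_le] at h1
    have h2 := hx (‖G.lg o x‖ - ρ) (by linarith only [h1])
    have h3 : V {z | ‖G.lg x z.1‖ < ‖G.lg o x‖ - ρ} ≤ V (KS G o ρ)ᶜ := by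
      refine measure_mono fun z hz hzK => ?_
      have h4 : ‖G.lg x z.1‖ < ‖G.lg o x‖ - ρ := hz
      have h5 : ‖G.lg o z.1‖ ≤ ρ := hzK.1
      have h6 := G.lg_nonexp o x z.1
      have h7 := norm_sub_norm_le (G.lg o x) (G.lg o z.1)
      linarith only [h7, h6, h5, h4]
    rw [hV.supp] at h3
    exact absurd h2 (not_lt.2 h3)
  obtain ⟨T₁, hT₁⟩ : ∃ T₁, T₁ = max T 1 := ⟨_, rfl⟩
  have hT₁p : 0 < T₁ := by rw [hT₁]; exact lt_of_lt_of_le one_pos (le_max_right _ _)
  have hT₁T : T ≤ T₁ := hT₁ ▸ le_max_left _ _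
  -- radius
  obtain ⟨e', he', hee', hint⟩ : ∃ e' > 0, e' < e ∧ (‖G.lg o x‖ < ρ → ∀ y, ‖G.lg x y‖ ≤ e' →
      ‖G.lg o y‖ ≤ ρ) := by
    by_cases hlt : ‖G.lg o x‖ < ρ
    · refine ⟨min (e / 2) (ρ - ‖G.lg o x‖), lt_min (by positivity) (by linarith only [hlt]),
        (min_le_left _ _).trans_lt (by linarith), fun _ y hy => ?_⟩
      have h1 := lg_tri G o x (G.lg x y)
      rw [G.ex_lg] at h1
      have h2 := hy.trans (min_le_right _ _)
      linarith
    · exact ⟨e / 2, by positivity, by linarith, fun h1 => absurd h1 hlt⟩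
  obtain ⟨p, hpc, hp⟩ := exists_pl G hm.cls U
  have hD : IsPreconnected (nbd G o x ρ e' ×ˢ Ici (Real.log T₁)) :=
    (nbd_preconnected G hxK he'.le).prod isPreconnected_Ici
  have hlog : ∀ t ≥ T₁, Real.log T₁ ≤ Real.log t := fun t ht => Real.log_le_log hT₁p ht
  have hne : ∀ z ∈ nbd G o x ρ e' ×ˢ Ici (Real.log T₁), p z ≠ 1 / 2 := by
    rintro ⟨c, τ⟩ ⟨hc, hτ⟩ h1
    have h2 := pl_ineq G hn hm hV hp (c, τ)
    rw [h1] at h2
    have h3 : T₁ ≤ Real.exp τ := by
      rw [← Real.exp_log hT₁p]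
      exact Real.exp_le_exp.2 hτ
    have h4 := hcon c hc.1 (hc.2.trans_lt hee') (Real.exp τ) (hT₁T.trans h3) (Real.exp_pos _)
    unfold ThV at h2
    simp only at h2
    norm_num at h2
    norm_num at h4
    linarith only [he', hee', h2, h4]
  obtain ⟨χ, hχc, -, hχ1, hχr, C, -, hlow, hup⟩ := cut_exists G o x ρ (show 0 < e' / 2 by positivity)
  have hxr : 0 < V {z | ‖G.lg x z.1‖ < e' / 2 / 2} := hx _ (by positivity)
  rcases pl_sign hpc hD hne with hs | hs
  · -- case A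
    have hA := caseA G hn hm hV he' (T := T₁) (fun c hc t ht ε hε => by
      have ht0 : 0 < t := lt_of_lt_of_le hT₁p ht
      have h1 := hp (c, Real.log t)
      simp only [Real.exp_log ht0] at h1
      have h2 := hs (c, Real.log t) ⟨hc, hlog t ht⟩
      exact h1.eventually (gt_mem_nhds (by linarith only [hε, h2])))
    choose h' hc' hp' hv1 hv2 using fun j => hlow (h j) (hm.cls j)
    refine cut_contra G hIcont hm hV hxr hχc hχ1 hχr (C := C) hA hc' hp'
      ⟨fun j => V1 G (h' j), ?_, fun j => measureReal_nonneg, fun j => le_rfl⟩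
    have h1 := hm.vol.sub hA
    rw [sub_zero] at h1
    exact tendsto_of_tendsto_of_tendsto_of_le_of_le h1 hm.vol hv1 hv2
  · -- case B
    have hlt : ‖G.lg o x‖ < ρ := by
      refine lt_of_le_of_ne hxK fun hxe => ?_
      have h1 := hp (x, Real.log T₁)
      simp only [Real.exp_log hT₁p] at h1
      have h2 : p (x, Real.log T₁) ≤ 1 / 2 :=
        le_of_tendsto' h1 fun j => pj_bdry G hn hxe (hm.cls j) hT₁p
      have h3 := hs (x, Real.log T₁)
        ⟨⟨hxK, by rw [G.lg_self, norm_zero]; exact he'.le⟩, mem_Ici.2 le_rfl⟩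
      linarith only [h2, h3]
    have hB := caseB G hn hm hV he' (hint hlt) (T := T₁) (fun c hc t ht ε hε => by
      have ht0 : 0 < t := lt_of_lt_of_le hT₁p ht
      have h1 := hp (c, Real.log t)
      simp only [Real.exp_log ht0] at h1
      have h2 := hs (c, Real.log t) ⟨hc, hlog t ht⟩
      exact h1.eventually (lt_mem_nhds (by linarith only [h2, hε])))
    choose h' hc' hp' hv1 using fun j => hup (fun y hy => hint hlt y (by linarith)) (h j) (hm.cls j)
    exact cut_contra G hIcont hm hV hxr hχc hχ1 hχr (C := C) hB hc' hp'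
      ⟨fun j => V1 G (h j), hm.vol, fun j => measureReal_nonneg,
        fun j => hImono (mem_Ici.2 measureReal_nonneg) (mem_Ici.2 measureReal_nonneg) (hv1 j)⟩

end Vale.Agent.P219.SA
end

section

/-! # P219: the perimeter integrand for the fields `ψ ∇F_c` -/

open MeasureTheory Set Metric Filter Topology
open scoped ENNReal ContDiff

namespace Vale.Agent.P219.End

open Vale.Agent.P219.TP Vale.Agent.P219.TPH

variable {n : ℕ} (G : Geo n) (k : ℝ)

theorem hasDerivAt_shs_sq {s : ℝ} (hs : 0 < s) :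
    HasDerivAt (fun s => shs (k ^ 2 * s)) ((_root_.Vale.Agent.P219.TPH.cs k (√s) - shs (k ^ 2 * s)) / (2 * s)) s := by
  have h1 : (fun s => shs (k ^ 2 * s)) =ᶠ[nhds s] fun u => _root_.Vale.Agent.P219.TPH.sn k (√u) / √u := by
    filter_upwards [lt_mem_nhds hs] with u hu
    have hu' : √u ≠ 0 := (Real.sqrt_pos.2 hu).ne'
    rw [sn_eq_shs, Real.sq_sqrt hu.le]
    field_simp
  have h2 : HasDerivAt (fun u : ℝ => √u) (1 / (2 * √s)) s := Real.hasDerivAt_sqrt hs.ne'
  have hs' : √s ≠ 0 := (Real.sqrt_pos.2 hs).ne'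
  have h3 : HasDerivAt (fun u : ℝ => _root_.Vale.Agent.P219.TPH.sn k (√u)) (_root_.Vale.Agent.P219.TPH.cs k (√s) * (1 / (2 * √s))) s :=
    (_root_.Vale.Agent.P219.TPH.hasDerivAt_sn k (√s)).comp s h2
  have h4 := h3.div h2 hs'
  refine (h4.congr_of_eventuallyEq h1).congr_deriv ?_
  rw [sn_eq_shs, Real.sq_sqrt hs.le]
  have e1 : √s * √s = s := Real.mul_self_sqrt hs.le
  generalize √s = r at hs' e1 ⊢
  subst e1
  field_simp

theorem st_kap (c : _root_.Vale.Agent.P219.TP.E n) {ψ : _root_.Vale.Agent.P219.TP.E n → ℝ} (hψ : ContDiff ℝ ∞ ψ) {x : _root_.Vale.Agent.P219.TP.E n} (hx : x ≠ c) (N : _root_.Vale.Agent.P219.TP.E n) :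
    kapU G k (fun x => ψ x * shs (k ^ 2 * ‖G.lg c x‖ ^ 2)) c x N =
      ((n : ℝ) - 1) * (1 + k ^ 2 * Fk G k c x) * ψ x * ‖N‖ +
      inner ℝ (G.D ψ x) (G.D (Fk G k c) x) * ‖N‖ -
      inner ℝ (G.D (Fk G k c) x) N * inner ℝ (G.D ψ x) N / ‖N‖ := by
  have hr0 : ‖G.lg c x‖ ≠ 0 := by
    rw [norm_ne_zero_iff, Ne, G.lg_eq_zero]
    exact fun h => hx h.symm
  have hr : 0 < ‖G.lg c x‖ := lt_of_le_of_ne (norm_nonneg _) (Ne.symm hr0)
  have hlg : ContDiff ℝ ∞ (G.lg c) := G.lg_smooth.comp (contDiff_const.prodMk contDiff_id)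
  have hsq : DifferentiableAt ℝ (fun y => ‖G.lg c y‖ ^ 2) x :=
    (((contDiff_norm_sq ℝ).comp hlg : ContDiff ℝ ∞ fun y => ‖G.lg c y‖ ^ 2).differentiable
      (by simp)) x
  have hS : ContDiff ℝ ∞ fun y : _root_.Vale.Agent.P219.TP.E n => shs (k ^ 2 * ‖G.lg c y‖ ^ 2) := by
    have h2 : ContDiff ℝ ∞ fun x : _root_.Vale.Agent.P219.TP.E n => k ^ 2 * ‖G.lg c x‖ ^ 2 :=
      contDiff_const.mul ((contDiff_norm_sq ℝ).comp hlg)
    exact contDiff_shs.comp h2
  have hDS : G.D (fun y => shs (k ^ 2 * ‖G.lg c y‖ ^ 2)) x =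
      ((_root_.Vale.Agent.P219.TPH.cs k ‖G.lg c x‖ - shs (k ^ 2 * ‖G.lg c x‖ ^ 2)) / ‖G.lg c x‖ ^ 2) • (-G.lg x c) := by
    have h1 := st_D_comp_real G (f := fun s => shs (k ^ 2 * s)) (u := fun y => ‖G.lg c y‖ ^ 2)
      (x := x) (hasDerivAt_shs_sq k (by positivity)) hsq
    rw [h1, st_D_normsq, Real.sqrt_sq hr.le, smul_smul, smul_neg, ← neg_smul]
    congr 1
    field_simp
  have hDu := st_D_mul G (hψ.differentiable (by simp) x) (hS.differentiable (by simp) x)
  rw [hDS] at hDu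
  have hna : ‖G.lg x c‖ = ‖G.lg c x‖ := G.norm_lg_comm x c
  have hsnS : _root_.Vale.Agent.P219.TPH.sn k ‖G.lg c x‖ = ‖G.lg c x‖ * shs (k ^ 2 * ‖G.lg c x‖ ^ 2) := sn_eq_shs _ _
  have hS0 : shs (k ^ 2 * ‖G.lg c x‖ ^ 2) ≠ 0 :=
    (one_pos.trans_le (one_le_shs (by (clear * - hr0; positivity)))).ne'
  have hq : shs (k ^ 2 * ‖G.lg c x‖ ^ 2) * qct k ‖G.lg c x‖ = _root_.Vale.Agent.P219.TPH.cs k ‖G.lg c x‖ := by
    rw [qct, hsnS]
    field_simp
  rw [kapU, hDu, D_Fk, one_add_Fk]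
  have haa : inner ℝ (G.lg x c) (G.lg x c) = ‖G.lg c x‖ ^ 2 := by
    rw [real_inner_self_eq_norm_sq, hna]
  simp only [inner_add_left, real_inner_smul_left, inner_neg_left, inner_neg_right, haa,
    real_inner_smul_right]
  generalize inner ℝ (G.D ψ x) (G.lg x c) = p1
  generalize inner ℝ (G.D ψ x) N = p2
  generalize inner ℝ (G.lg x c) N = p3
  generalize shs (k ^ 2 * ‖G.lg c x‖ ^ 2) = S at hS0 hq ⊢
  generalize qct k ‖G.lg c x‖ = q at hq ⊢
  generalize _root_.Vale.Agent.P219.TPH.cs k ‖G.lg c x‖ = C at hq ⊢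
  generalize ψ x = f
  subst hq
  rcases eq_or_ne N 0 with hN | hN
  · simp [hN]
  · have hN0 : ‖N‖ ≠ 0 := norm_ne_zero_iff.2 hN
    field_simp
    ring

end Vale.Agent.P219.End
end

section

/-! # P219: one-sided first variation for the fields `ψ ∇F_c`, and stationarity of the limit -/

open MeasureTheory Set Metric Filter Topology
open scoped ENNReal ContDiff

namespace Vale.Agent.P219.End

open Vale.Agent.P219.TP Vale.Agent.P219.TPH
open Vale.Agent.P219.SA (Var MinSeq IsLim stat_pass)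

variable {n : ℕ} (G : Geo n) (k : ℝ)

/-- The perimeter integrand. -/
noncomputable def stA (c : _root_.Vale.Agent.P219.TP.E n) (ψ : _root_.Vale.Agent.P219.TP.E n → ℝ) (z : _root_.Vale.Agent.P219.TP.E n × _root_.Vale.Agent.P219.TP.E n) : ℝ :=
  ((n : ℝ) - 1) * (1 + k ^ 2 * Fk G k c z.1) * ψ z.1 +
    (inner ℝ (G.D ψ z.1) (G.D (Fk G k c) z.1) -
      inner ℝ (G.D ψ z.1) z.2 * inner ℝ (G.D (Fk G k c) z.1) z.2)

/-- The volume integrand. -/
noncomputable def stB (c : _root_.Vale.Agent.P219.TP.E n) (ψ : _root_.Vale.Agent.P219.TP.E n → ℝ) (z : _root_.Vale.Agent.P219.TP.E n × _root_.Vale.Agent.P219.TP.E n) : ℝ :=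
  ψ z.1 * inner ℝ (G.D (Fk G k c) z.1) z.2

/-- The rate of contraction. -/
noncomputable def stU (c : _root_.Vale.Agent.P219.TP.E n) (ψ : _root_.Vale.Agent.P219.TP.E n → ℝ) (x : _root_.Vale.Agent.P219.TP.E n) : ℝ :=
  ψ x * shs (k ^ 2 * ‖G.lg c x‖ ^ 2)

theorem stU_smooth (c : _root_.Vale.Agent.P219.TP.E n) {ψ : _root_.Vale.Agent.P219.TP.E n → ℝ} (hψ : ContDiff ℝ ∞ ψ) :
    ContDiff ℝ ∞ (stU G k c ψ) := by
  have h1 : ContDiff ℝ ∞ (G.lg c) := G.lg_smooth.comp (contDiff_const.prodMk contDiff_id)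
  have h2 : ContDiff ℝ ∞ fun x : _root_.Vale.Agent.P219.TP.E n => k ^ 2 * ‖G.lg c x‖ ^ 2 :=
    contDiff_const.mul ((contDiff_norm_sq ℝ).comp h1)
  have h3 : ContDiff ℝ ∞ fun x : _root_.Vale.Agent.P219.TP.E n => shs (k ^ 2 * ‖G.lg c x‖ ^ 2) := contDiff_shs.comp h2
  exact hψ.mul h3

theorem stU_nonneg (c : _root_.Vale.Agent.P219.TP.E n) {ψ : _root_.Vale.Agent.P219.TP.E n → ℝ} (hψ : ∀ x, 0 ≤ ψ x) (x : _root_.Vale.Agent.P219.TP.E n) :
    0 ≤ stU G k c ψ x :=
  mul_nonneg (hψ x) (zero_le_one.trans (one_le_shs (by positivity)))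

theorem st_D_cont {u : _root_.Vale.Agent.P219.TP.E n → ℝ} (hu : ContDiff ℝ ∞ u) : Continuous (G.D u) :=
  perc_D_cont G (hu.of_le (by exact_mod_cast le_top))

theorem stA_cont (c : _root_.Vale.Agent.P219.TP.E n) {ψ : _root_.Vale.Agent.P219.TP.E n → ℝ} (hψ : ContDiff ℝ ∞ ψ) : Continuous (stA G k c ψ) := by
  have h1 : Continuous fun z : _root_.Vale.Agent.P219.TP.E n × _root_.Vale.Agent.P219.TP.E n => G.D ψ z.1 := (st_D_cont G hψ).comp continuous_fst
  have h2 : Continuous fun z : _root_.Vale.Agent.P219.TP.E n × _root_.Vale.Agent.P219.TP.E n => G.D (Fk G k c) z.1 :=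
    (st_D_cont G (Fk_smooth' G k c)).comp continuous_fst
  have h3 : Continuous fun z : _root_.Vale.Agent.P219.TP.E n × _root_.Vale.Agent.P219.TP.E n => Fk G k c z.1 :=
    (Fk_smooth' G k c).continuous.comp continuous_fst
  have h4 : Continuous fun z : _root_.Vale.Agent.P219.TP.E n × _root_.Vale.Agent.P219.TP.E n => ψ z.1 := hψ.continuous.comp continuous_fst
  exact ((continuous_const.mul (continuous_const.add (continuous_const.mul h3))).mul h4).add
    ((h1.inner h2).sub ((h1.inner continuous_snd).mul (h2.inner continuous_snd)))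

theorem stB_cont (c : _root_.Vale.Agent.P219.TP.E n) {ψ : _root_.Vale.Agent.P219.TP.E n → ℝ} (hψ : ContDiff ℝ ∞ ψ) : Continuous (stB G k c ψ) := by
  have h2 : Continuous fun z : _root_.Vale.Agent.P219.TP.E n × _root_.Vale.Agent.P219.TP.E n => G.D (Fk G k c) z.1 :=
    (st_D_cont G (Fk_smooth' G k c)).comp continuous_fst
  have h4 : Continuous fun z : _root_.Vale.Agent.P219.TP.E n × _root_.Vale.Agent.P219.TP.E n => ψ z.1 := hψ.continuous.comp continuous_fst
  exact h4.mul (h2.inner continuous_snd)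

theorem stB_eq (c : _root_.Vale.Agent.P219.TP.E n) (ψ h : _root_.Vale.Agent.P219.TP.E n → ℝ) (x : _root_.Vale.Agent.P219.TP.E n) :
    stU G k c ψ x * inner ℝ (G.lg x c) (G.D h x) = stB G k c ψ (x, nrm G h x) * ‖G.D h x‖ := by
  have h1 : inner ℝ (G.lg x c) (G.D h x) = -(‖G.D h x‖ * inner ℝ (G.lg x c) (nrm G h x)) := by
    conv_lhs => rw [D_eq_nrm G h x]
    rw [inner_neg_right, real_inner_smul_right]
  have h2 : inner ℝ (G.D (Fk G k c) x) (nrm G h x) =
      -(shs (k ^ 2 * ‖G.lg c x‖ ^ 2)) * inner ℝ (G.lg x c) (nrm G h x) := by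
    rw [D_Fk, real_inner_smul_left]
  simp only [stB, stU]
  rw [h1, h2]
  ring

theorem stA_eq (c : _root_.Vale.Agent.P219.TP.E n) {ψ : _root_.Vale.Agent.P219.TP.E n → ℝ} (hψ : ContDiff ℝ ∞ ψ) (h : _root_.Vale.Agent.P219.TP.E n → ℝ) {x : _root_.Vale.Agent.P219.TP.E n}
    (hx : x ≠ c) : kapU G k (stU G k c ψ) c x (G.D h x) =
      stA G k c ψ (x, nrm G h x) * ‖G.D h x‖ := by
  have h0 : (stU G k c ψ) = fun x => ψ x * shs (k ^ 2 * ‖G.lg c x‖ ^ 2) := rfl
  rw [h0, st_kap G k c hψ hx]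
  simp only [stA, nrm, inner_neg_right, real_inner_smul_right]
  rcases eq_or_ne (G.D h x) 0 with hN | hN
  · simp [hN]
  · have hN0 : ‖G.D h x‖ ≠ 0 := norm_ne_zero_iff.2 hN
    field_simp
    ring

/-- First variation of perimeter and volume for the contraction `-ψ ∇F_c`. -/
theorem st_var (hn : 2 ≤ n) {k : ℝ} (hk : 0 ≤ k) (hG : MonoSn G k) (o : _root_.Vale.Agent.P219.TP.E n) {ρ : ℝ} {c : _root_.Vale.Agent.P219.TP.E n}
    (hc : ‖G.lg o c‖ ≤ ρ) {ψ : _root_.Vale.Agent.P219.TP.E n → ℝ} (hψ : ContDiff ℝ ∞ ψ) (hψ0 : ∀ x, 0 ≤ ψ x) :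
    Var G o ρ (stA G k c ψ) (stB G k c ψ) := by
  have hu := stU_smooth G k c hψ
  have hu0 := stU_nonneg G k c hψ0
  obtain ⟨C₁, t₁, hC₁, ht₁, h₁⟩ := fv_per G hn hk hG o hc hu hu0
  obtain ⟨C₂, t₂, hC₂, ht₂, h₂⟩ := fv_vol G o ρ hc hu
  obtain ⟨t₃, ht₃, h₃⟩ := st_exists_psi G o ρ hc hu hu0
  refine ⟨C₁ + C₂, min t₁ (min t₂ t₃), by positivity, by positivity, fun h hh t ht0 ht => ?_⟩
  obtain ⟨θ, Ψ, hθ, hΨ, hΨs, hΨs', hcls⟩ :=
    h₃ t ht0 (ht.trans ((min_le_right _ _).trans (min_le_right _ _)))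
  have e1 := h₁ t h ht0 (ht.trans (min_le_left _ _)) hh θ hθ Ψ hΨ hΨs hΨs'
  have e2 := h₂ t h ht0 (ht.trans ((min_le_right _ _).trans (min_le_left _ _))) hh θ hθ Ψ hΨ
    hΨs hΨs'
  have hae : ∀ᵐ x ∂G.vol, x ≠ c := by
    have hac : G.vol ≪ volume := withDensity_absolutelyContinuous _ _
    refine hac.ae_le ?_
    have : Nonempty (Fin n) := ⟨⟨0, by omega⟩⟩
    exact compl_mem_ae_iff.mpr (measure_singleton c)
  have e3 : ∫ x, kapU G k (stU G k c ψ) c x (G.D h x) ∂G.vol =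
      ∫ x, stA G k c ψ (x, nrm G h x) * ‖G.D h x‖ ∂G.vol :=
    integral_congr_ae (hae.mono fun x hx => stA_eq G k c hψ h hx)
  have e4 : ∫ x, stU G k c ψ x * inner ℝ (G.lg x c) (G.D h x) ∂G.vol =
      ∫ x, stB G k c ψ (x, nrm G h x) * ‖G.D h x‖ ∂G.vol :=
    integral_congr_ae (Filter.Eventually.of_forall fun x => stB_eq G k c ψ h x)
  rw [e3] at e1
  rw [e4] at e2
  have hper : 0 ≤ G.per h := integral_nonneg fun _ => norm_nonneg _
  have hvol : 0 ≤ G.vol.real {x | 0 < h x ∧ h x < 1} := measureReal_nonneg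
  refine ⟨h ∘ Ψ.symm, hcls h hh, ?_, ?_⟩
  · have : 0 ≤ C₂ * t ^ 2 * G.per h := by (clear * - hC₂ hper; positivity)
    linarith only [this, e1]
  · have h3 : 0 ≤ C₁ * t * G.vol.real {x | 0 < h x ∧ h x < 1} := by (clear * - hC₁ ht0; positivity)
    have h4 : 0 ≤ C₁ * t ^ 2 := by (clear * - hC₁; positivity)
    linarith only [h4, h3, e2]

theorem st_integrable {o : _root_.Vale.Agent.P219.TP.E n} {ρ : ℝ} {U : Ultrafilter ℕ} {h : ℕ → _root_.Vale.Agent.P219.TP.E n → ℝ}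
    {V : Measure (_root_.Vale.Agent.P219.TP.E n × _root_.Vale.Agent.P219.TP.E n)} (hV : IsLim G o ρ U h V) {f : _root_.Vale.Agent.P219.TP.E n × _root_.Vale.Agent.P219.TP.E n → ℝ} (hf : Continuous f) :
    Integrable f V := by
  have := hV.fin
  obtain ⟨C, hC⟩ := (isCompact_KS G o ρ).exists_bound_of_continuousOn hf.continuousOn
  refine Integrable.of_bound hf.aestronglyMeasurable C ?_
  have h1 : ∀ᵐ z ∂V, z ∈ KS G o ρ := by
    rw [ae_iff]
    exact hV.supp
  exact h1.mono fun z hz => hC z hz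

/-- **Stationarity of the limit** in the form of `Lim.stat`. -/
theorem st_stat (hn : 2 ≤ n) {k : ℝ} (hk : 0 ≤ k) (hG : MonoSn G k) {o : _root_.Vale.Agent.P219.TP.E n} {ρ : ℝ}
    {I : ℝ → ℝ} {J Vs H : ℝ} {U : Ultrafilter ℕ}
    {h : ℕ → _root_.Vale.Agent.P219.TP.E n → ℝ} {V : Measure (_root_.Vale.Agent.P219.TP.E n × _root_.Vale.Agent.P219.TP.E n)} (hImono : MonotoneOn I (Ici 0)) (hVs : 0 < Vs)
    (hH : 0 ≤ H) (hId : HasStrictDerivAt I H Vs) (hm : MinSeq G o ρ I J Vs U h)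
    (hV : IsLim G o ρ U h V) {c : _root_.Vale.Agent.P219.TP.E n}
    (hc : ‖G.lg o c‖ ≤ ρ) {ψ : _root_.Vale.Agent.P219.TP.E n → ℝ} (hψ : ContDiff ℝ ∞ ψ) (hψ0 : ∀ x, 0 ≤ ψ x) :
    0 ≤ ∫ z, (H * ψ z.1 * inner ℝ (G.D (Fk G k c) z.1) z.2 -
      ((n : ℝ) - 1) * (1 + k ^ 2 * Fk G k c z.1) * ψ z.1 -
      (inner ℝ (G.D ψ z.1) (G.D (Fk G k c) z.1) -
        inner ℝ (G.D ψ z.1) z.2 * inner ℝ (G.D (Fk G k c) z.1) z.2)) ∂V := by
  have h1 := stat_pass G hImono hVs hH hId hm hV (stA_cont G k c hψ).continuousOn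
    (stB_cont G k c hψ).continuousOn (st_var G hn hk hG o hc hψ hψ0)
  have i1 := st_integrable G hV (stA_cont G k c hψ)
  have i2 := st_integrable G hV (stB_cont G k c hψ)
  rw [← integral_const_mul, ← integral_sub (i2.const_mul H) i1] at h1
  refine h1.trans (le_of_eq (integral_congr_ae (Filter.Eventually.of_forall fun z => ?_)))
  simp only [stA, stB]
  ring

end Vale.Agent.P219.End
end

section

/-! # P219, all dimensions: the limit object of a minimising sequence; the functional inequality -/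

open MeasureTheory Set Metric Filter Topology
open scoped ENNReal NNReal ContDiff

namespace Vale.Agent.P219.SA

open Vale.Agent.P219.TP Vale.Agent.P219.TPH
open Vale.Agent.P219.End (FG ff sg KS Lim Gam bub)

variable {n : ℕ} (G : Geo n)

theorem stat_FG (hn : 2 ≤ n) {k κ : ℝ} (hκ : 0 ≤ κ) (hG : MonoSn G κ) {o : _root_.Vale.Agent.P219.TP.E n} {ρ : ℝ}
    {I : ℝ → ℝ} {J Vs : ℝ} {U : Ultrafilter ℕ} {R : ℝ} (hk : 0 ≤ k) (hR : 0 < R)
    {h : ℕ → _root_.Vale.Agent.P219.TP.E n → ℝ} {V : Measure (_root_.Vale.Agent.P219.TP.E n × _root_.Vale.Agent.P219.TP.E n)} (hImono : MonotoneOn I (Ici 0)) (hVs : 0 < Vs)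
    (hId : HasStrictDerivAt I (H0 n k R) Vs) (hm : MinSeq G o ρ I J Vs U h)
    (hV : IsLim G o ρ U h V) (c : _root_.Vale.Agent.P219.TP.E n)
    (hc : ‖G.lg o c‖ ≤ ρ) (ψ : _root_.Vale.Agent.P219.TP.E n → ℝ) (hψ : ContDiff ℝ ∞ ψ) (hψ0 : ∀ x, 0 ≤ ψ x) :
    0 ≤ ∫ z, dF G κ (H0 n k R) c ψ z ∂V := by
  have h1 := End.st_stat G hn hκ hG hImono hVs (H0_nonneg hn hk hR) hId hm hV hc hψ hψ0
  rw [End.Fk_eq_FG'] at h1
  exact h1

/-- **The limit object.** -/
theorem exists_Lim (hn : 4 ≤ n) {k : ℝ} (hk : 0 ≤ k) (hG : MonoSn G k) {o : _root_.Vale.Agent.P219.TP.E n} {ρ : ℝ}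
    {I : ℝ → ℝ} {J R : ℝ} {U : Ultrafilter ℕ}
    {h : ℕ → _root_.Vale.Agent.P219.TP.E n → ℝ} {V : Measure (_root_.Vale.Agent.P219.TP.E n × _root_.Vale.Agent.P219.TP.E n)} (hImono : MonotoneOn I (Ici 0)) (hR : 0 < R)
    (hId : HasStrictDerivAt I (H0 n k R) (VR n k R)) (hm : MinSeq G o ρ I J (VR n k R) U h)
    (hV : IsLim G o ρ U h V) (hne : 0 < V.real univ)
    (hdens : ∀ p, (∀ e > 0, 0 < V {z | FG G k p z.1 < e}) → ∀ e > 0, ∃ ε₀ > 0, ∀ ε, 0 < ε →
      ε < ε₀ → sg ((n : ℝ) - 1) - e ≤ ∫ z, bub (k ^ 2) (FG G k p) ε z.1 ^ ((n : ℝ) - 1) ∂V) :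
    ∃ L : Lim n, L.m = (n : ℝ) - 1 ∧ L.k2 = k ^ 2 ∧ L.H0 = H0 n k R ∧ L.V = V ∧
      L.F = FG G k ∧ L.K = {x | ‖G.lg o x‖ ≤ ρ} ∧ L.A = G.A := by
  have hn4 : (4 : ℝ) ≤ n := by exact_mod_cast hn
  have := hV.fin
  have hVR : 0 < VR n k R := by
    have h1 := (VR_strictMonoOn (n := n) (k := k) (by omega) hk) (mem_Ici.2 le_rfl)
      (mem_Ici.2 hR.le) hR
    rwa [VR_zero] at h1
  have hae : ∀ᵐ z ∂V, ‖G.lg o z.1‖ ≤ ρ ∧ ‖z.2‖ = 1 := by
    have h1 : ∀ᵐ z ∂V, z ∈ KS G o ρ := by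
      rw [ae_iff]
      exact hV.supp
    filter_upwards [h1] with z hz
    exact ⟨hz.1, by simpa using hz.2⟩
  have hVne : V ≠ 0 := by
    rintro rfl
    simp at hne
  have hst := stat_FG G (by omega) hk hG hk hR hImono hVR hId hm hV
  refine ⟨{
    m := (n : ℝ) - 1
    k2 := k ^ 2
    H0 := H0 n k R
    A := G.A
    F := FG G k
    K := {x | ‖G.lg o x‖ ≤ ρ}
    V := V
    three_le := by linarith
    k2_nonneg := by positivity
    A_cont := G.A_smooth.continuous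
    F_smooth := End.FG_smooth G k
    F_nonneg := End.FG_nonneg G k
    F_self := End.FG_self G k
    F_comm := End.FG_comm G k
    F_pos := fun c x hcx => End.FG_pos G k hk hcx
    tri := tri_FG G hk
    grad := End.norm_D_FG G k
    K_compact := G.isCompact_gball o ρ
    V_fin := hV.fin
    V_supp := hae
    V_ne := hVne
    stat := hst
    dens := hdens
    bary := End.bary_of_mono G hn hk hG hae hVne hst }, rfl, rfl, rfl, rfl, rfl, rfl, rfl⟩

/-- The density field from the half-mass points (statement of `dens_field_of`). -/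
def DensFieldStmt (n : ℕ) : Prop :=
  ∀ (G : Geo n) {k : ℝ}, 0 ≤ k → ∀ {o : _root_.Vale.Agent.P219.TP.E n} {ρ H : ℝ}, 0 < ρ → 0 ≤ H →
    ∀ {V : Measure (_root_.Vale.Agent.P219.TP.E n × _root_.Vale.Agent.P219.TP.E n)} [IsFiniteMeasure V], V (KS G o ρ)ᶜ = 0 →
    (∀ c, ‖G.lg o c‖ ≤ ρ → ∀ ψ : _root_.Vale.Agent.P219.TP.E n → ℝ, ContDiff ℝ ∞ ψ → (∀ x, 0 ≤ ψ x) →
      0 ≤ ∫ z, dF G 0 H c ψ z ∂V) →
    (∀ x, (∀ e > 0, 0 < V {z | ‖G.lg x z.1‖ < e}) → ∀ e > 0, ∀ T : ℝ, ∃ c, ‖G.lg o c‖ ≤ ρ ∧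
      ‖G.lg x c‖ < e ∧ ∃ t ≥ T, 0 < t ∧ 1 - e ≤ (t / Real.pi) ^ (((n : ℝ) - 1) / 2) *
        ∫ z, Real.exp (-t * ‖G.lg c z.1‖ ^ 2) ∂V) →
    ∀ p, (∀ e > 0, 0 < V {z | FG G k p z.1 < e}) → ∀ e > 0, ∃ ε₀ > 0, ∀ ε, 0 < ε → ε < ε₀ →
      sg ((n : ℝ) - 1) - e ≤ ∫ z, bub (k ^ 2) (FG G k p) ε z.1 ^ ((n : ℝ) - 1) ∂V

/-- **The limit object**, all fields proved. -/
theorem exists_Lim' (hdf : DensFieldStmt n) (hn : 4 ≤ n) {k : ℝ} (hk : 0 ≤ k)
    (hG : MonoSn G k) {o : _root_.Vale.Agent.P219.TP.E n} {ρ : ℝ}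
    (hρ : 0 < ρ) {I : ℝ → ℝ} {J R : ℝ} {U : Ultrafilter ℕ}
    {h : ℕ → _root_.Vale.Agent.P219.TP.E n → ℝ} {V : Measure (_root_.Vale.Agent.P219.TP.E n × _root_.Vale.Agent.P219.TP.E n)} (hImono : MonotoneOn I (Ici 0))
    (hIcont : ContinuousOn I (Ici 0)) (hR : 0 < R)
    (hId : HasStrictDerivAt I (H0 n k R) (VR n k R)) (hm : MinSeq G o ρ I J (VR n k R) U h)
    (hV : IsLim G o ρ U h V) (hne : 0 < V.real univ) :
    ∃ L : Lim n, L.m = (n : ℝ) - 1 ∧ L.k2 = k ^ 2 ∧ L.H0 = H0 n k R ∧ L.V = V ∧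
      L.F = FG G k ∧ L.K = {x | ‖G.lg o x‖ ≤ ρ} ∧ L.A = G.A := by
  have hVR : 0 < VR n k R := by
    have h1 := (VR_strictMonoOn (n := n) (k := k) (by omega) hk) (mem_Ici.2 le_rfl)
      (mem_Ici.2 hR.le) hR
    rwa [VR_zero] at h1
  have := hV.fin
  refine exists_Lim G hn hk hG hImono hR hId hm hV hne
    (hdf G hk hρ (H0_nonneg (by omega) hk hR) hV.supp
      (stat_FG G (by omega) le_rfl (MonoSn.zero G) hk hR hImono hVR hId hm hV) ?_)
  intro x hx e he T
  exact dens_lim G (by omega) hImono hIcont hm hV x hx he T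

end Vale.Agent.P219.SA
end

section

/-! # The functional inequality and the equality case on the limit, dimension at least three -/

open MeasureTheory Set Metric Filter Topology
open scoped ENNReal NNReal ContDiff

noncomputable section

namespace Vale.Agent.P219.SA

open Vale.Agent.P219.TP Vale.Agent.P219.TPH
open Vale.Agent.P219.End (FG KS)

variable {n : ℕ} {k : ℝ}

theorem limMk_of (hdf : DensFieldStmt n) (hn : 4 ≤ n) (hk : 0 ≤ k) : LimMk n k := by
  intro G hG o ρ I J R U h V hρ hR hU hImono hIcont hI0 hIz hIR hId hm hV hVp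
  obtain ⟨L, h1, h2, h3, h4, h5, h6, h7⟩ := exists_Lim' G hdf hn hk hG hρ hImono hIcont hR hId hm hV
    hVp
  refine ⟨L, h4, h1, h2, h3, fun c x => ?_⟩
  rw [h5]
  exact (End.sn_sq_eq_FG G k c x).symm

theorem funcIso_four (hdf : DensFieldStmt n) (hn : 4 ≤ n) (hk : 0 ≤ k) (sob : LimSob n) :
    FuncIso n k :=
  funcIso_of_mk (by omega) hk (sg_eq_sig (by omega)) (limMk_of hdf hn hk) sob

theorem limRig_four (hdf : DensFieldStmt n) (hn : 4 ≤ n) (hk : 0 ≤ k) (sob : LimSob n) :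
    LimRig n k :=
  limRig_of_mk (by omega) hk (sg_eq_sig (by omega)) (limMk_of hdf hn hk) sob

/-- The density field, dimension at least two. -/
theorem dens_FG (G : Geo n) (hdf : DensFieldStmt n) (hn : 2 ≤ n) (hk : 0 ≤ k)
    {o : E n} {ρ : ℝ} (hρ : 0 < ρ) {I : ℝ → ℝ} {J R : ℝ} {U : Ultrafilter ℕ}
    {h : ℕ → E n → ℝ} {V : Measure (E n × E n)} (hImono : MonotoneOn I (Ici 0))
    (hIcont : ContinuousOn I (Ici 0)) (hR : 0 < R)
    (hId : HasStrictDerivAt I (H0 n k R) (VR n k R)) (hm : MinSeq G o ρ I J (VR n k R) U h)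
    (hV : IsLim G o ρ U h V) :
    ∀ p, (∀ e > 0, 0 < V {z | FG G k p z.1 < e}) → ∀ e > 0, ∃ ε₀ > 0, ∀ ε, 0 < ε →
      ε < ε₀ → End.sg ((n : ℝ) - 1) - e ≤
        ∫ z, End.bub (k ^ 2) (FG G k p) ε z.1 ^ ((n : ℝ) - 1) ∂V := by
  have hVR : 0 < VR n k R := by
    have h1 := (VR_strictMonoOn (n := n) (k := k) (by omega) hk) (mem_Ici.2 le_rfl)
      (mem_Ici.2 hR.le) hR
    rwa [VR_zero] at h1
  have := hV.fin
  refine hdf G hk hρ (H0_nonneg (by omega) hk hR) hV.supp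
    (stat_FG G (by omega) le_rfl (MonoSn.zero G) hk hR hImono hVR hId hm hV) ?_
  intro x hx e he T
  exact dens_lim G (by omega) hImono hIcont hm hV x hx he T

/-- Dimension three: the mass of the limit. -/
theorem three_main (G : Geo 3) (hG : MonoSn G k) (hdf : DensFieldStmt 3) (hk : 0 ≤ k)
    {o : E 3} {ρ : ℝ} (hρ : 0 < ρ) {I : ℝ → ℝ} {J R : ℝ} {U : Ultrafilter ℕ}
    {h : ℕ → E 3 → ℝ} {V : Measure (E 3 × E 3)} (hImono : MonotoneOn I (Ici 0))
    (hIcont : ContinuousOn I (Ici 0)) (hR : 0 < R)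
    (hId : HasStrictDerivAt I (H0 3 k R) (VR 3 k R)) (hm : MinSeq G o ρ I J (VR 3 k R) U h)
    (hV : IsLim G o ρ U h V) (hne : 0 < V.real univ) :
    4 * Real.pi ≤ (H0 3 k R ^ 2 / 4 - k ^ 2) * V.real univ := by
  have := hV.fin
  have hVR : 0 < VR 3 k R := by
    have h1 := (VR_strictMonoOn (n := 3) (k := k) (by omega) hk) (mem_Ici.2 le_rfl)
      (mem_Ici.2 hR.le) hR
    rwa [VR_zero] at h1
  have hae : ∀ᵐ z ∂V, ‖G.lg o z.1‖ ≤ ρ ∧ ‖z.2‖ = 1 := by
    have h1 : ∀ᵐ z ∂V, z ∈ KS G o ρ := by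
      rw [ae_iff]
      exact hV.supp
    filter_upwards [h1] with z hz
    exact ⟨hz.1, by simpa using hz.2⟩
  have hVne : V ≠ 0 := by
    rintro rfl
    simp at hne
  have hst := stat_FG G (by omega) hk hG hk hR hImono hVR hId hm hV
  have hde := dens_FG G hdf (by omega) hk hρ hImono hIcont hR hId hm hV
  have h3 : (((3 : ℕ) : ℝ) - 1) = 2 := by norm_num
  rw [h3] at hde
  refine End.Dim3.main2 (A := G.A) (F := FG G k) (K := {x | ‖G.lg o x‖ ≤ ρ}) (by positivity)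
    G.A_smooth.continuous (fun c => End.FG_smooth_right G k c) (End.FG_nonneg G k)
    (End.FG_self G k) (End.norm_D_FG G k) (G.isCompact_gball o ρ) hae hVne ?_ hde
  intro c hc ψ hψ hψ0
  have h4 := hst c hc ψ hψ hψ0
  unfold dF at h4
  rw [h3] at h4
  exact h4

/-- The functional inequality in dimension three. -/
theorem funcIso_three (hdf : DensFieldStmt 3) (hk : 0 ≤ k) : FuncIso 3 k := by
  intro G hG h hh hcs h01 R hR hV
  obtain ⟨I, hImono, hIcont, hI0, hIz, hIR, hId⟩ := exists_profile (n := 3) (k := k) (by omega) hk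
  by_contra hlt
  rw [not_le] at hlt
  obtain ⟨L, hL⟩ := exists_lg_bound G hcs 0
  have hcls : G.Cls 0 (max L 1) h := by
    refine ⟨hh, fun x => (h01 x).1, fun x => (h01 x).2, fun x hx => ?_⟩
    exact (hL x (subset_tsupport h hx)).trans (le_max_left _ _)
  have hρ₀ : 0 < max L 1 := lt_of_lt_of_le one_pos (le_max_right _ _)
  have hVR0 : 0 ≤ VR 3 k R := modelH_VR_nonneg (by omega) hk hR
  have hneg : G.per h - I (V1 G h) < 0 := by
    have h1 : I (VR 3 k R) ≤ I (V1 G h) := hImono hVR0 (hVR0.trans hV) hV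
    rw [hIR R hR] at h1
    linarith
  have hU : ((Ultrafilter.of atTop : Ultrafilter ℕ) : Filter ℕ) ≤ atTop := Ultrafilter.of_le atTop
  obtain ⟨J, Rs, hRs, hVRs, g, V, hm, hVl, hVp, hVlt⟩ := exists_lim_of_neg G (by omega) hk hImono
    hIcont hI0 hIz hIR 0 (max L 1) hcls hneg hU
  have h5 := three_main G hG hdf hk hρ₀ hImono hIcont hRs (hId Rs hRs) hm hVl hVp
  have hsg : 4 * Real.pi = sig 3 := by
    rw [← End.Dim3.sg_two, ← sg_eq_sig (n := 3) (by omega)]
    norm_num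
  refine absurd (AR_le_of_main (n := 3) (by omega) hk hRs hVp.le hsg ?_) (not_le.2 hVlt)
  have h6 : 2 / (((3 : ℕ) : ℝ) - 1) = 1 := by norm_num
  have h7 : (((3 : ℕ) : ℝ) - 1) ^ 2 = 4 := by norm_num
  rw [h6, h7, Real.rpow_one, Real.rpow_one]
  exact h5

end Vale.Agent.P219.SA
end
end

section

/-! # The equality case on the limit, dimension three -/

open MeasureTheory Set Metric Filter Topology
open scoped ENNReal NNReal ContDiff

noncomputable section

namespace Vale.Agent.P219.SA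

open Vale.Agent.P219.TP Vale.Agent.P219.TPH
open Vale.Agent.P219.End (FG KS)

variable {k : ℝ}

/-- The limit object in dimension three. -/
theorem three_lim (G : Geo 3) (hG : MonoSn G k) (hdf : DensFieldStmt 3) (hk : 0 ≤ k)
    {o : E 3} {ρ : ℝ} (hρ : 0 < ρ) {I : ℝ → ℝ} {J R : ℝ} {U : Ultrafilter ℕ}
    {h : ℕ → E 3 → ℝ} {V : Measure (E 3 × E 3)} (hImono : MonotoneOn I (Ici 0))
    (hIcont : ContinuousOn I (Ici 0)) (hR : 0 < R)
    (hId : HasStrictDerivAt I (H0 3 k R) (VR 3 k R)) (hm : MinSeq G o ρ I J (VR 3 k R) U h)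
    (hV : IsLim G o ρ U h V) (hne : 0 < V.real univ) :
    End.Dim3.L2 (H0 3 k R) (k ^ 2) G.A (FG G k) {x | ‖G.lg o x‖ ≤ ρ} V := by
  have := hV.fin
  have hVR : 0 < VR 3 k R := by
    have h1 := (VR_strictMonoOn (n := 3) (k := k) (by omega) hk) (mem_Ici.2 le_rfl)
      (mem_Ici.2 hR.le) hR
    rwa [VR_zero] at h1
  have hae : ∀ᵐ z ∂V, ‖G.lg o z.1‖ ≤ ρ ∧ ‖z.2‖ = 1 := by
    have h1 : ∀ᵐ z ∂V, z ∈ KS G o ρ := by
      rw [ae_iff]
      exact hV.supp
    filter_upwards [h1] with z hz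
    exact ⟨hz.1, by simpa using hz.2⟩
  have hVne : V ≠ 0 := by
    rintro rfl
    simp at hne
  have hst := stat_FG G (by omega) hk hG hk hR hImono hVR hId hm hV
  have hde := dens_FG G hdf (by omega) hk hρ hImono hIcont hR hId hm hV
  have h3 : (((3 : ℕ) : ℝ) - 1) = 2 := by norm_num
  rw [h3] at hde
  refine ⟨this, by positivity, G.A_smooth.continuous, fun c => End.FG_smooth_right G k c,
    End.FG_nonneg G k, End.FG_self G k, End.FG_comm G k, fun c x hcx => End.FG_pos G k hk hcx,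
    End.norm_D_FG G k, G.isCompact_gball o ρ, hae, hVne, ?_, hde⟩
  intro c hc ψ hψ hψ0
  have h4 := hst c hc ψ hψ hψ0
  unfold dF at h4
  rw [h3] at h4
  exact h4

/-- The equality case on the limit in dimension three. -/
theorem limRig_three (hdf : DensFieldStmt 3) (hk : 0 ≤ k) : LimRig 3 k := by
  intro G hG o ρ I R U h V hρ hR hU hImono hIcont hI0 hIz hIR hId hm hVl hVp hVle
  have L := three_lim G hG hdf hk hρ hImono hIcont hR hId hm hVl hVp
  have hH : H0 3 k R ^ 2 / 4 - k ^ 2 = (TPH.sn k R ^ 2)⁻¹ := by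
    have h1 := rm_H0 (n := 3) hk (by omega) hR
    have h2 : (((3 : ℕ) : ℝ) - 1) ^ 2 = 4 := by norm_num
    rwa [h2] at h1
  have hsn : 0 < TPH.sn k R := TPH.sn_pos hk hR
  have hsg : sig 3 = 4 * Real.pi := by
    rw [← End.Dim3.sg_two, ← sg_eq_sig (n := 3) (by omega)]
    norm_num
  have heq : (H0 3 k R ^ 2 / 4 - k ^ 2) * V.real univ ≤ 4 * Real.pi := by
    have h1 : V.real univ ≤ 4 * Real.pi * TPH.sn k R ^ 2 := by
      rw [← hsg]
      exact hVle
    rw [hH]
    calc (TPH.sn k R ^ 2)⁻¹ * V.real univ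
        ≤ (TPH.sn k R ^ 2)⁻¹ * (4 * Real.pi * TPH.sn k R ^ 2) :=
          mul_le_mul_of_nonneg_left h1 (by positivity)
      _ = 4 * Real.pi := by field_simp
  obtain ⟨c, -, hae⟩ := L.rigid2 (fun p hp q hq => by
    obtain ⟨c, hc, h1⟩ := exists_mid G hk (End.snLe_of_monoSn G hG) hp hq
    exact ⟨c, hc, h1⟩) heq
  refine ⟨c, ?_⟩
  filter_upwards [hae] with z hz
  refine rm_sn_inj hk (norm_nonneg _) hR.le ?_
  rw [End.sn_sq_eq_FG G k c z.1, hz, hH, inv_inv]

end Vale.Agent.P219.SA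
end
end

section

/-! # The generalized Cartan-Hadamard conjecture: assembly -/

open MeasureTheory Set Metric Filter Topology
open scoped ENNReal NNReal ContDiff

noncomputable section

namespace Vale.Agent.P219.Co

open Vale.Agent.P219.SA

/-- The inequality and the equality case, from their functional forms. -/
theorem allN_of {n : ℕ} (hn : 2 ≤ n) (FI : ∀ k : ℝ, 0 ≤ k → TPH.FuncIso n k)
    (LR : ∀ k : ℝ, 0 ≤ k → LimRig n k) {K : ℝ} (hK : K ≤ 0) (M : RiemMetric n)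
    (hM : GeodesicallyComplete M) (hs : SecLE M K) : IsoperimetricIneq M K ∧
      ∀ (D : SmoothDomain n) (r : ℝ), 0 ≤ r →
        riemVol M D.carrier = ENNReal.ofReal (modelVol n K r) →
        riemArea M D = ENNReal.ofReal (modelArea n K r) → IsometricToBallK M K D r :=
  ⟨isop_of_func hn FI M hM hK hs, fun D r hr hV hA =>
    equality_limRig hn FI LR M hM hK hs D r hr hV hA⟩

/-- Dimension at least four, from the density field and the sharp Sobolev inequality on the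
limit. -/
theorem allN_four {n : ℕ} (hn : 4 ≤ n) (hdf : DensFieldStmt n) (sob : LimSob n) {K : ℝ}
    (hK : K ≤ 0) (M : RiemMetric n) (hM : GeodesicallyComplete M) (hs : SecLE M K) :
    IsoperimetricIneq M K ∧
      ∀ (D : SmoothDomain n) (r : ℝ), 0 ≤ r →
        riemVol M D.carrier = ENNReal.ofReal (modelVol n K r) →
        riemArea M D = ENNReal.ofReal (modelArea n K r) → IsometricToBallK M K D r :=
  allN_of (by omega) (fun _ hk => funcIso_four hdf hn hk sob)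
    (fun _ hk => limRig_four hdf hn hk sob) hK M hM hs

/-- Dimension three, from the density field. -/
theorem allN_three (hdf : DensFieldStmt 3) {K : ℝ} (hK : K ≤ 0) (M : RiemMetric 3)
    (hM : GeodesicallyComplete M) (hs : SecLE M K) :
    IsoperimetricIneq M K ∧
      ∀ (D : SmoothDomain 3) (r : ℝ), 0 ≤ r →
        riemVol M D.carrier = ENNReal.ofReal (modelVol 3 K r) →
        riemArea M D = ENNReal.ofReal (modelArea 3 K r) → IsometricToBallK M K D r :=
  allN_of (by norm_num) (fun _ hk => funcIso_three hdf hk) (fun _ hk => limRig_three hdf hk) hK M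
    hM hs

/-- Dimension at least three. -/
theorem allN_ge_three {n : ℕ} (hn : 3 ≤ n) (hdf : DensFieldStmt n)
    (sob : 4 ≤ n → LimSob n) {K : ℝ} (hK : K ≤ 0) (M : RiemMetric n)
    (hM : GeodesicallyComplete M) (hs : SecLE M K) :
    IsoperimetricIneq M K ∧
      ∀ (D : SmoothDomain n) (r : ℝ), 0 ≤ r →
        riemVol M D.carrier = ENNReal.ofReal (modelVol n K r) →
        riemArea M D = ENNReal.ofReal (modelArea n K r) → IsometricToBallK M K D r := by
  rcases hn.eq_or_lt with rfl | h4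
  · exact allN_three hdf hK M hM hs
  · exact allN_four h4 hdf (sob h4) hK M hM hs

end Vale.Agent.P219.Co
end
end

section

/-!
# P219 / End : the conclusion, from the end game and the averaging lemma (given as hypotheses)
-/

open MeasureTheory Set Metric
open scoped ENNReal ContDiff Topology

namespace Vale.Agent.P219.End

variable {n : ℕ}

namespace Lim

variable (L : Lim n)

/-- statement of the end game -/
def HEnd : Prop := ∀ η > 0, ∃ δ > 0, ∀ c ∈ L.K, ∀ ε : ℝ, 0 < ε → L.k2 * ε < 2 →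
    ∀ u : E n → ℝ, SP u → ∫ z, u z.1 ^ L.ps ∂L.V = 1 → L.Def c ε u ≤ δ →
    (∫ z, u z.1 ^ 2 ∂L.V) ≤ δ → sg L.m ^ (2 / L.m) - η ≤ L.En u

/-- statement of the averaging lemma -/
def HNear : Prop := ∀ lam > 0, ∀ δ > 0, ∃ τ > 0, ∀ u : E n → ℝ, SP u →
    ∫ z, u z.1 ^ L.ps ∂L.V = 1 →
    (∀ v : E n → ℝ, SP v → ∫ z, v z.1 ^ L.ps ∂L.V = 1 →
      L.En u + lam * (∫ z, u z.1 ^ 2 ∂L.V) ≤ L.En v + lam * (∫ z, v z.1 ^ 2 ∂L.V) + τ) →
    ∃ c ∈ L.K, ∃ ε : ℝ, 0 < ε ∧ L.k2 * ε < 2 ∧ L.Def c ε u ≤ δ ∧ ∫ z, u z.1 ^ 2 ∂L.V ≤ δ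

theorem exists_admissible : ∃ c ∈ L.K, ∃ ε : ℝ, 0 < ε ∧ L.k2 * ε < 2 := by
  obtain ⟨c, hc, ε, h1, h2, -⟩ := L.bary (fun _ => 1) contDiff_const fun _ => one_pos
  exact ⟨c, hc, ε, h1, h2⟩

theorem En_nonneg {u : E n → ℝ} (hu : ContDiff ℝ ∞ u) : 0 ≤ L.En u := by
  obtain ⟨c, hc, ε, h1, h2⟩ := L.exists_admissible
  refine le_trans ?_ (L.w_le_En hc h1 h2 hu)
  exact integral_nonneg fun z => mul_nonneg (sq_nonneg _) (sq_nonneg _)

theorem ps_pos : 0 < L.ps := by
  have h1 := L.m_pos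
  have h2 := L.m_sub_pos
  unfold ps
  positivity

theorem En_const_mul (a : ℝ) {u : E n → ℝ} (hu : ContDiff ℝ ∞ u) :
    L.En (fun x => a * u x) = a ^ 2 * L.En u := by
  have e : ∀ z, L.G (fun x => a * u x) (fun x => a * u x) z = a ^ 2 * L.G u u z := by
    intro z
    show gv _ _ _ = _ * gv _ _ _
    rw [D_const_mul a ((hu.differentiable (by simp)) _), gv_smul_left, gv_smul_right]
    ring
  have e2 : ∀ z : E n × E n, (a * u z.1) ^ 2 = a ^ 2 * u z.1 ^ 2 := fun z => mul_pow _ _ _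
  unfold En
  simp only [e, e2]
  rw [integral_const_mul, integral_const_mul]
  ring

theorem SP.const_mul {u : E n → ℝ} (hu : SP u) {a : ℝ} (ha : 0 < a) : SP fun x => a * u x :=
  ⟨contDiff_const.mul hu.1, fun x => mul_pos ha (hu.2 x)⟩

theorem ups_cont {u : E n → ℝ} (hu : SP u) : Continuous fun z : E n × E n => u z.1 ^ L.ps :=
  (hu.1.continuous.comp continuous_fst).rpow_const fun z => Or.inl (hu.2 z.1).ne'

theorem int_ups_pos {u : E n → ℝ} (hu : SP u) : 0 < ∫ z, u z.1 ^ L.ps ∂L.V := by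
  have h0 : ∀ z : E n × E n, 0 < u z.1 ^ L.ps := fun z => Real.rpow_pos_of_pos (hu.2 _) _
  rw [integral_pos_iff_support_of_nonneg (fun z => (h0 z).le) (L.integrable_of_cont (L.ups_cont hu))]
  have : Function.support (fun z : E n × E n => u z.1 ^ L.ps) = univ := by
    ext z
    simp [(h0 z).ne']
  rw [this]
  exact pos_iff_ne_zero.2 fun h => L.V_ne (Measure.measure_univ_eq_zero.1 h)

theorem int_ups_mul {u : E n → ℝ} (hu : SP u) {a : ℝ} (ha : 0 < a) :
    ∫ z, (a * u z.1) ^ L.ps ∂L.V = a ^ L.ps * ∫ z, u z.1 ^ L.ps ∂L.V := by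
  rw [← integral_const_mul]
  refine integral_congr_ae (Filter.Eventually.of_forall fun z => ?_)
  exact Real.mul_rpow ha.le (hu.2 _).le

/-- the normalised function -/
theorem exists_normalised {u : E n → ℝ} (hu : SP u) : ∃ a > 0,
    ∫ z, (a * u z.1) ^ L.ps ∂L.V = 1 ∧ a ^ 2 * (∫ z, u z.1 ^ L.ps ∂L.V) ^ (2 / L.ps) = 1 := by
  have hI := L.int_ups_pos hu
  have hp := L.ps_pos
  refine ⟨(∫ z, u z.1 ^ L.ps ∂L.V) ^ (-(1 / L.ps)), Real.rpow_pos_of_pos hI _, ?_, ?_⟩
  · rw [L.int_ups_mul hu (Real.rpow_pos_of_pos hI _), ← Real.rpow_mul hI.le,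
      show -(1 / L.ps) * L.ps = -1 by field_simp, Real.rpow_neg_one, inv_mul_cancel₀ hI.ne']
  · rw [← Real.rpow_natCast, ← Real.rpow_mul hI.le, ← Real.rpow_add hI,
      show -(1 / L.ps) * ((2 : ℕ) : ℝ) + 2 / L.ps = 0 by push_cast; ring, Real.rpow_zero]

/-- lower bound for the regularised quotient -/
theorem reg_lower (hE : L.HEnd) (hN : L.HNear) {lam : ℝ} (hlam : 0 < lam) {v : E n → ℝ}
    (hv : SP v) (hv1 : ∫ z, v z.1 ^ L.ps ∂L.V = 1) :
    sg L.m ^ (2 / L.m) ≤ L.En v + lam * ∫ z, v z.1 ^ 2 ∂L.V := by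
  refine le_of_forall_pos_sub_le fun η hη => ?_
  obtain ⟨δ, hδ, hE'⟩ := hE (η / 2) (by positivity)
  obtain ⟨τ, hτ, hN'⟩ := hN lam hlam δ hδ
  set S : Set ℝ := {t | ∃ w : E n → ℝ, SP w ∧ ∫ z, w z.1 ^ L.ps ∂L.V = 1 ∧
    t = L.En w + lam * ∫ z, w z.1 ^ 2 ∂L.V} with hS
  have hb : ∀ t ∈ S, 0 ≤ t := by
    rintro t ⟨w, hw, -, rfl⟩
    have h1 := L.En_nonneg hw.1
    have h2 : 0 ≤ ∫ z, w z.1 ^ 2 ∂L.V := integral_nonneg fun z => sq_nonneg _
    (clear * - h1 hlam; positivity)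
  have hbdd : BddBelow S := ⟨0, hb⟩
  have hvS : L.En v + lam * ∫ z, v z.1 ^ 2 ∂L.V ∈ S := ⟨v, hv, hv1, rfl⟩
  obtain ⟨t, ⟨w, hw, hw1, rfl⟩, ht⟩ := Real.lt_sInf_add_pos ⟨_, hvS⟩
    (ε := min τ (η / 2)) (lt_min hτ (by positivity))
  have hmin : ∀ v' : E n → ℝ, SP v' → ∫ z, v' z.1 ^ L.ps ∂L.V = 1 →
      L.En w + lam * (∫ z, w z.1 ^ 2 ∂L.V) ≤
        L.En v' + lam * (∫ z, v' z.1 ^ 2 ∂L.V) + min τ (η / 2) := by
    intro v' hv' hv1'
    have := csInf_le hbdd (a := L.En v' + lam * ∫ z, v' z.1 ^ 2 ∂L.V) ⟨v', hv', hv1', rfl⟩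
    linarith only [this, ht]
  obtain ⟨c, hc, ε, hε, hk, hD, hR⟩ := hN' w hw hw1 fun v' hv' hv1' =>
    (hmin v' hv' hv1').trans (by linarith only [min_le_left τ (η / 2)])
  have h1 := hE' c hc ε hε hk w hw hw1 hD hR
  have h2 := hmin v hv hv1
  have h3 : 0 ≤ lam * ∫ z, w z.1 ^ 2 ∂L.V :=
    mul_nonneg hlam.le (integral_nonneg fun z => sq_nonneg _)
  linarith only [h1, h2, h3, min_le_right τ (η / 2)]

/-- sharp lower bound, normalised functions -/
theorem norm_lower (hE : L.HEnd) (hN : L.HNear) {v : E n → ℝ}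
    (hv : SP v) (hv1 : ∫ z, v z.1 ^ L.ps ∂L.V = 1) : sg L.m ^ (2 / L.m) ≤ L.En v := by
  have hR : 0 ≤ ∫ z, v z.1 ^ 2 ∂L.V := integral_nonneg fun z => sq_nonneg _
  refine le_of_forall_pos_sub_le fun η hη => ?_
  have h := L.reg_lower hE hN (lam := η / (1 + ∫ z, v z.1 ^ 2 ∂L.V)) (by positivity) hv hv1
  have h2 : η / (1 + ∫ z, v z.1 ^ 2 ∂L.V) * (∫ z, v z.1 ^ 2 ∂L.V) ≤ η := by
    rw [div_mul_eq_mul_div, div_le_iff₀ (by positivity)]
    linarith only [hη]
  linarith only [h2, h]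

/-- sharp Sobolev inequality on `V` -/
theorem sob_of (hE : L.HEnd) (hN : L.HNear) {u : E n → ℝ} (hu : SP u) :
    sg L.m ^ (2 / L.m) * (∫ z, u z.1 ^ L.ps ∂L.V) ^ (2 / L.ps) ≤ L.En u := by
  obtain ⟨a, ha, h1, h2⟩ := L.exists_normalised hu
  have h := L.norm_lower hE hN (SP.const_mul hu ha) h1
  rw [L.En_const_mul a hu.1] at h
  have h3 : 0 ≤ (∫ z, u z.1 ^ L.ps ∂L.V) ^ (2 / L.ps) := Real.rpow_nonneg (L.int_ups_pos hu).le _
  calc sg L.m ^ (2 / L.m) * (∫ z, u z.1 ^ L.ps ∂L.V) ^ (2 / L.ps)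
      ≤ a ^ 2 * L.En u * (∫ z, u z.1 ^ L.ps ∂L.V) ^ (2 / L.ps) := mul_le_mul_of_nonneg_right h h3
    _ = a ^ 2 * (∫ z, u z.1 ^ L.ps ∂L.V) ^ (2 / L.ps) * L.En u := by ring
    _ = L.En u := by rw [h2, one_mul]

end Lim

end Vale.Agent.P219.End
end

section

/-!
# P219 / End : the sharp Sobolev inequality on the limit object, and its consequences
-/

open MeasureTheory Set Metric
open scoped ENNReal ContDiff Topology

namespace Vale.Agent.P219.End

variable {n : ℕ}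

namespace Lim

variable (L : Lim n)

theorem hEnd : L.HEnd := by
  obtain ⟨CW, hCW, hW⟩ := L.wsob
  obtain ⟨CT, hCT, hT⟩ := L.tail
  exact fun η hη => L.end_game_of hCW hW hCT hT L.sup_bound η hη

theorem hNear : L.HNear := fun lam hlam δ hδ => L.near_min lam hlam δ hδ

/-- sharp Sobolev inequality on `V` -/
theorem sob {u : E n → ℝ} (hu : SP u) :
    sg L.m ^ (2 / L.m) * (∫ z, u z.1 ^ L.ps ∂L.V) ^ (2 / L.ps) ≤ L.En u :=
  L.sob_of L.hEnd L.hNear hu

end Lim

end Vale.Agent.P219.End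
end

section

/-! # The generalized Cartan-Hadamard conjecture in all dimensions -/

namespace Vale.Agent.P219.Co

theorem densFieldStmt {n : ℕ} (hn : 2 ≤ n) : SA.DensFieldStmt n := by
  intro G k hk o ρ H hρ hH V _ hV hst hd
  exact SA.dens_field_of G hn hk hρ hH hV hst hd

theorem limSob (n : ℕ) : SA.LimSob n := fun L _ hu h0 => L.sob ⟨hu, h0⟩

/-- The generalized Cartan-Hadamard conjecture, with the equality case. -/
theorem cartanHadamard_all {n : ℕ} (hn : 3 ≤ n) {K : ℝ} (hK : K ≤ 0)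
    (M : RiemMetric n) (hM : GeodesicallyComplete M) (hs : SecLE M K) :
    IsoperimetricIneq M K ∧
      ∀ (D : SmoothDomain n) (r : ℝ), 0 ≤ r →
        riemVol M D.carrier = ENNReal.ofReal (modelVol n K r) →
        riemArea M D = ENNReal.ofReal (modelArea n K r) → IsometricToBallK M K D r :=
  allN_ge_three hn (densFieldStmt (by omega)) (fun _ => limSob n) hK M hM hs

end Vale.Agent.P219.Co
end

section

/-! # `n = 2`: the pair inequality in real form -/

open MeasureTheory Set Metric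
open scoped ENNReal ContDiff

namespace Vale.Agent.P219.N2

open Vale.Agent.P219.TP Vale.Agent.P219.TPH

variable {G : Geo 2} {k : ℝ}

/-- The pair inequality. -/
theorem pair_ineq (hk : 0 ≤ k) (hG : MonoSn G k) {ct C : ℝ} {f : ℝ → ℝ} (hct : k ≤ ct)
    (hS1 : ∀ s ∈ Icc (0 : ℝ) 1, ∫⁻ r in Ioi (0 : ℝ),
      ENNReal.ofReal (s * (1 + _root_.Vale.Agent.P219.TPH.cs k r) - ct * _root_.Vale.Agent.P219.TPH.sn k r) ≤ ENNReal.ofReal (2 * (s * f s)))
    (hf : Continuous f) (hf0 : ∀ s ∈ Icc (0 : ℝ) 1, 0 ≤ f s)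
    (hC : ∀ e : _root_.Vale.Agent.P219.TP.E 2, ‖e‖ = 1 → ∫ u : sphere (0 : _root_.Vale.Agent.P219.TP.E 2) 1,
      max 0 (inner ℝ e (u : _root_.Vale.Agent.P219.TP.E 2)) * f (max 0 (inner ℝ e (u : _root_.Vale.Agent.P219.TP.E 2)))
        ∂((volume : Measure (_root_.Vale.Agent.P219.TP.E 2)).toSphere) ≤ C)
    {h : _root_.Vale.Agent.P219.TP.E 2 → ℝ} (hh : ContDiff ℝ 1 h) (hc : HasCompactSupport h) (h0 : ∀ x, 0 ≤ h x) :
    ∫⁻ x, (ENNReal.ofReal (2 * h x) * (volume : Measure (_root_.Vale.Agent.P219.TP.E 2)).toSphere univ +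
        ENNReal.ofReal (k ^ 2) * ∫⁻ y, ENNReal.ofReal (min (h x) (h y)) ∂G.vol) ∂G.vol ≤
      ∫⁻ x, ENNReal.ofReal ‖G.D h x‖ *
        (ENNReal.ofReal ct * G.vol {y | h x < h y} + ENNReal.ofReal (2 * C)) ∂G.vol := by
  refine (lintegral_mono fun x => pair_lower hk hG hh hc h0 x).trans ?_
  rw [Fp_eq_Fq hh]
  exact lintegral_mono fun x => pair_upper hk hG hct hS1 hf hf0 hC hh x

theorem N2_fin1 {h : _root_.Vale.Agent.P219.TP.E 2 → ℝ} (hc : HasCompactSupport h) : G.vol {x | h x = 1} ≠ ⊤ := by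
  have hfin : G.vol (tsupport h) < ⊤ := G.vol_compact_lt_top hc.isCompact
  refine ((measure_mono fun x hx => ?_).trans_lt hfin).ne
  have : h x = 1 := hx
  refine subset_tsupport h ?_
  rw [Function.mem_support, this]
  exact one_ne_zero

theorem pair_left {h : _root_.Vale.Agent.P219.TP.E 2 → ℝ} (hh : ContDiff ℝ 1 h) (hc : HasCompactSupport h) :
    ENNReal.ofReal (G.vol.real {x | h x = 1} *
        (2 * sig 2 + k ^ 2 * G.vol.real {x | h x = 1})) ≤
      ∫⁻ x, (ENNReal.ofReal (2 * h x) * (volume : Measure (_root_.Vale.Agent.P219.TP.E 2)).toSphere univ +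
        ENNReal.ofReal (k ^ 2) * ∫⁻ y, ENNReal.ofReal (min (h x) (h y)) ∂G.vol) ∂G.vol := by
  have hm1 : MeasurableSet {x | h x = 1} :=
    (isClosed_eq hh.continuous continuous_const).measurableSet
  have hf1 : G.vol {x | h x = 1} ≠ ⊤ := N2_fin1 hc
  have hsph : (volume : Measure (_root_.Vale.Agent.P219.TP.E 2)).toSphere univ ≠ ⊤ := measure_ne_top _ _
  have hl : G.vol {x | h x = 1} * (ENNReal.ofReal 2 * (volume : Measure (_root_.Vale.Agent.P219.TP.E 2)).toSphere univ +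
      ENNReal.ofReal (k ^ 2) * G.vol {x | h x = 1}) ≤
      ∫⁻ x, (ENNReal.ofReal (2 * h x) * (volume : Measure (_root_.Vale.Agent.P219.TP.E 2)).toSphere univ +
        ENNReal.ofReal (k ^ 2) * ∫⁻ y, ENNReal.ofReal (min (h x) (h y)) ∂G.vol) ∂G.vol := by
    refine le_trans ?_ (setLIntegral_le_lintegral {x | h x = 1} _)
    rw [mul_comm, ← setLIntegral_const]
    refine setLIntegral_mono' hm1 fun x hx => ?_
    have hx1 : h x = 1 := hx
    rw [hx1, mul_one]
    gcongr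
    refine le_trans ?_ (setLIntegral_le_lintegral {x | h x = 1} _)
    have : G.vol {x | h x = 1} = ∫⁻ _x in {x | h x = 1}, 1 ∂G.vol := by
      rw [setLIntegral_const, one_mul]
    rw [this]
    refine setLIntegral_mono' hm1 fun y hy => ?_
    have hy1 : h y = 1 := hy
    rw [hy1, min_self, ENNReal.ofReal_one]
  refine le_trans (le_of_eq ?_) hl
  unfold sig
  rw [ENNReal.ofReal_mul measureReal_nonneg, ENNReal.ofReal_add
    (mul_nonneg zero_le_two measureReal_nonneg) (mul_nonneg (sq_nonneg k) measureReal_nonneg),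
    ENNReal.ofReal_mul zero_le_two, ENNReal.ofReal_mul (sq_nonneg k), ofReal_measureReal hf1,
    ofReal_measureReal hsph]

theorem pair_real (hk : 0 ≤ k) (hG : MonoSn G k) {ct C : ℝ} {f : ℝ → ℝ} (hct : k ≤ ct)
    (hS1 : ∀ s ∈ Icc (0 : ℝ) 1, ∫⁻ r in Ioi (0 : ℝ),
      ENNReal.ofReal (s * (1 + _root_.Vale.Agent.P219.TPH.cs k r) - ct * _root_.Vale.Agent.P219.TPH.sn k r) ≤ ENNReal.ofReal (2 * (s * f s)))
    (hf : Continuous f) (hf0 : ∀ s ∈ Icc (0 : ℝ) 1, 0 ≤ f s) (hC0 : 0 ≤ C)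
    (hC : ∀ e : _root_.Vale.Agent.P219.TP.E 2, ‖e‖ = 1 → ∫ u : sphere (0 : _root_.Vale.Agent.P219.TP.E 2) 1,
      max 0 (inner ℝ e (u : _root_.Vale.Agent.P219.TP.E 2)) * f (max 0 (inner ℝ e (u : _root_.Vale.Agent.P219.TP.E 2)))
        ∂((volume : Measure (_root_.Vale.Agent.P219.TP.E 2)).toSphere) ≤ C)
    {h : _root_.Vale.Agent.P219.TP.E 2 → ℝ} (hh : ContDiff ℝ 1 h) (hc : HasCompactSupport h) (h0 : ∀ x, 0 ≤ h x) :
    G.vol.real {x | h x = 1} * (2 * sig 2 + k ^ 2 * G.vol.real {x | h x = 1}) ≤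
      G.per h * (ct * G.vol.real {x | 0 < h x} + 2 * C) := by
  have hct0 : 0 ≤ ct := hk.trans hct
  have hfin : G.vol (tsupport h) < ⊤ := G.vol_compact_lt_top hc.isCompact
  have hf2 : G.vol {x | 0 < h x} ≠ ⊤ := by
    refine ((measure_mono fun x hx => ?_).trans_lt hfin).ne
    have hx' : 0 < h x := hx
    exact subset_tsupport h hx'.ne'
  have key := pair_ineq hk hG hct hS1 hf hf0 hC hh hc h0
  have hr : ∫⁻ x, ENNReal.ofReal ‖G.D h x‖ *
        (ENNReal.ofReal ct * G.vol {y | h x < h y} + ENNReal.ofReal (2 * C)) ∂G.vol ≤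
      ENNReal.ofReal (G.per h) *
        (ENNReal.ofReal ct * G.vol {x | 0 < h x} + ENNReal.ofReal (2 * C)) := by
    have h1 : ∀ x, ENNReal.ofReal ‖G.D h x‖ *
        (ENNReal.ofReal ct * G.vol {y | h x < h y} + ENNReal.ofReal (2 * C)) ≤
        ENNReal.ofReal ‖G.D h x‖ *
        (ENNReal.ofReal ct * G.vol {x | 0 < h x} + ENNReal.ofReal (2 * C)) := by
      intro x
      gcongr with y
      exact h0 x
    refine (lintegral_mono h1).trans ?_
    rw [lintegral_mul_const' _ _ (by finiteness)]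
    unfold Geo.per
    rw [ofReal_integral_eq_lintegral_ofReal (integrable_D G hh hc)
      (Filter.Eventually.of_forall fun x => norm_nonneg _)]
  have hfinal := (pair_left hh hc).trans (key.trans hr)
  have hper : 0 ≤ G.per h := integral_nonneg fun _ => norm_nonneg _
  have e2 : ENNReal.ofReal (G.per h) *
        (ENNReal.ofReal ct * G.vol {x | 0 < h x} + ENNReal.ofReal (2 * C)) =
      ENNReal.ofReal (G.per h * (ct * G.vol.real {x | 0 < h x} + 2 * C)) := by
    rw [ENNReal.ofReal_mul hper, ENNReal.ofReal_add (mul_nonneg hct0 measureReal_nonneg)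
      (by positivity), ENNReal.ofReal_mul hct0, ofReal_measureReal hf2]
  rw [e2] at hfinal
  refine (ENNReal.ofReal_le_ofReal_iff ?_).1 hfinal
  exact mul_nonneg hper (add_nonneg (mul_nonneg hct0 measureReal_nonneg) (by positivity))

end Vale.Agent.P219.N2
end

section

/-! # `n = 2`: the functional isoperimetric inequality from the scalar data -/

open MeasureTheory Set Metric
open scoped ENNReal ContDiff

namespace Vale.Agent.P219.N2

open Vale.Agent.P219.TP Vale.Agent.P219.TPH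

variable {k : ℝ}

/-- The scalar data for the model ball of radius `R`. -/
structure Scal (k R : ℝ) where
  C : ℝ
  f : ℝ → ℝ
  C_nonneg : 0 ≤ C
  f_cont : Continuous f
  f_nonneg : ∀ s ∈ Icc (0 : ℝ) 1, 0 ≤ f s
  s1 : ∀ s ∈ Icc (0 : ℝ) 1, ∫⁻ r in Ioi (0 : ℝ),
    ENNReal.ofReal (s * (1 + _root_.Vale.Agent.P219.TPH.cs k r) - _root_.Vale.Agent.P219.TPH.cs k R / _root_.Vale.Agent.P219.TPH.sn k R * _root_.Vale.Agent.P219.TPH.sn k r) ≤
      ENNReal.ofReal (2 * (s * f s))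
  hC : ∀ e : _root_.Vale.Agent.P219.TP.E 2, ‖e‖ = 1 → ∫ u : sphere (0 : _root_.Vale.Agent.P219.TP.E 2) 1,
    max 0 (inner ℝ e (u : _root_.Vale.Agent.P219.TP.E 2)) * f (max 0 (inner ℝ e (u : _root_.Vale.Agent.P219.TP.E 2)))
      ∂((volume : Measure (_root_.Vale.Agent.P219.TP.E 2)).toSphere) ≤ C
  bal : _root_.Vale.Agent.P219.TPH.cs k R / _root_.Vale.Agent.P219.TPH.sn k R * VR 2 k R + 2 * C ≤ AR 2 k R

theorem cs_sub_one (k R : ℝ) : _root_.Vale.Agent.P219.TPH.cs k R - 1 = k ^ 2 * ∫ r in (0 : ℝ)..R, _root_.Vale.Agent.P219.TPH.sn k r ^ (2 - 1) := by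
  have h : ∫ r in (0 : ℝ)..R, k ^ 2 * _root_.Vale.Agent.P219.TPH.sn k r = _root_.Vale.Agent.P219.TPH.cs k R - _root_.Vale.Agent.P219.TPH.cs k 0 :=
    intervalIntegral.integral_eq_sub_of_hasDerivAt (fun r _ => hasDerivAt_cs k r)
      ((continuous_const.mul (contDiff_sn k).continuous).intervalIntegrable _ _)
  rw [_root_.Vale.Agent.P219.TPH.cs_zero, intervalIntegral.integral_const_mul] at h
  simp only [Nat.add_one_sub_one, pow_one]
  exact h.symm

theorem sn_sq (k R : ℝ) : _root_.Vale.Agent.P219.TPH.sn k R ^ 2 = 2 * (∫ r in (0 : ℝ)..R, _root_.Vale.Agent.P219.TPH.sn k r ^ (2 - 1)) +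
    k ^ 2 * (∫ r in (0 : ℝ)..R, _root_.Vale.Agent.P219.TPH.sn k r ^ (2 - 1)) ^ 2 := by
  rcases eq_or_ne k 0 with hk | hk
  · subst hk
    simp only [h1_sn_z, Nat.add_one_sub_one, pow_one]
    rw [integral_id]
    ring
  · have h1 := cs_sub_one k R
    have h2 := cs_sq k R
    set c := ∫ r in (0 : ℝ)..R, _root_.Vale.Agent.P219.TPH.sn k r ^ (2 - 1) with hc
    have h3 : _root_.Vale.Agent.P219.TPH.cs k R = 1 + k ^ 2 * c := by linarith
    rw [h3] at h2
    have h4 : k ^ 2 * (_root_.Vale.Agent.P219.TPH.sn k R ^ 2) = k ^ 2 * (2 * c + k ^ 2 * c ^ 2) := by linarith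
    exact mul_left_cancel₀ (pow_ne_zero 2 hk) h4

/-- The model ball. -/
theorem AR_sq_sig (k R : ℝ) : AR 2 k R ^ 2 = VR 2 k R * (2 * sig 2 + k ^ 2 * VR 2 k R) := by
  unfold AR VR
  have h := sn_sq k R
  have : (sig 2 * _root_.Vale.Agent.P219.TPH.sn k R ^ (2 - 1)) ^ 2 = sig 2 ^ 2 * _root_.Vale.Agent.P219.TPH.sn k R ^ 2 := by
    simp only [Nat.add_one_sub_one, pow_one]
    ring
  rw [this, h]
  ring

theorem ct_ge (hk : 0 ≤ k) {R : ℝ} (hR : 0 < R) : k ≤ _root_.Vale.Agent.P219.TPH.cs k R / _root_.Vale.Agent.P219.TPH.sn k R := by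
  rw [le_div_iff₀ (_root_.Vale.Agent.P219.TPH.sn_pos hk hR)]
  have := cs_sub_sn k R
  have h2 := Real.exp_pos (-(k * R))
  linarith

theorem ct_AR (hk : 0 ≤ k) {R : ℝ} (hR : 0 < R) :
    _root_.Vale.Agent.P219.TPH.cs k R / _root_.Vale.Agent.P219.TPH.sn k R * AR 2 k R ≤ sig 2 + k * AR 2 k R := by
  have hs := _root_.Vale.Agent.P219.TPH.sn_pos hk hR
  have h0 : 0 < sig 2 := sig_pos (by norm_num)
  have h1 : _root_.Vale.Agent.P219.TPH.cs k R / _root_.Vale.Agent.P219.TPH.sn k R * AR 2 k R = sig 2 * _root_.Vale.Agent.P219.TPH.cs k R := by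
    unfold AR
    simp only [Nat.add_one_sub_one, pow_one]
    field_simp
  have h2 := cs_sub_sn k R
  have h3 : Real.exp (-(k * R)) ≤ 1 := Real.exp_le_one_iff.2 (by linarith only [mul_nonneg (sub_nonneg.2 hk) (le_of_lt (sub_pos.2 hR))])
  have h4 : _root_.Vale.Agent.P219.TPH.cs k R ≤ 1 + k * _root_.Vale.Agent.P219.TPH.sn k R := by linarith
  have h5 := mul_le_mul_of_nonneg_left h4 h0.le
  rw [h1]
  unfold AR
  simp only [Nat.add_one_sub_one, pow_one]
  linarith

theorem vol_pos_le {G : Geo 2} {h : _root_.Vale.Agent.P219.TP.E 2 → ℝ} (hc : HasCompactSupport h)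
    (h01 : ∀ x, 0 ≤ h x ∧ h x ≤ 1) :
    G.vol.real {x | 0 < h x} ≤ V1 G h + G.vol.real {x | 0 < h x ∧ h x < 1} := by
  have hsub : {x | 0 < h x} ⊆ {x | h x = 1} ∪ {x | 0 < h x ∧ h x < 1} := by
    intro x hx
    have hx' : 0 < h x := hx
    rcases (h01 x).2.eq_or_lt with h1 | h1
    · exact Or.inl h1
    · exact Or.inr ⟨hx', h1⟩
  have hfin : G.vol (tsupport h) < ⊤ := G.vol_compact_lt_top hc.isCompact
  have hf2 : G.vol {x | 0 < h x ∧ h x < 1} ≠ ⊤ := by
    refine ((measure_mono fun x hx => ?_).trans_lt hfin).ne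
    exact subset_tsupport h (Function.mem_support.2 hx.1.ne')
  unfold V1
  refine (measureReal_mono hsub ?_).trans (measureReal_union_le _ _)
  rw [← lt_top_iff_ne_top]
  exact (measure_union_le _ _).trans_lt (ENNReal.add_lt_top.2
    ⟨lt_top_iff_ne_top.2 (N2_fin1 hc), lt_top_iff_ne_top.2 hf2⟩)

/-- Arithmetic of the end. -/
theorem arith_end {A a σ k ε p X : ℝ} (ha : 0 < a) (hσ : 0 < σ) (hk : 0 ≤ k) (hε : 0 < ε)
    (h1 : ε ≤ a / 2) (h2 : k * ε ≤ a / 4) (h3 : 8 * (σ * ε) < a ^ 2) (hp : 0 ≤ p)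
    (hpA : p < A - a + ε) (hX : A * X ≤ (σ + k * A) * ε) (h : A ^ 2 ≤ p * (A + X)) : False := by
  have hA : a / 2 < A := by linarith only [h1, hp, hpA]
  have hA0 : 0 < A := by linarith only [hpA, hp, h1, hε]
  have e1 : A ^ 3 ≤ p * (A ^ 2 + A * X) := by (by_contra nlg; linarith only [mul_nonneg (sq_nonneg (A : ℝ)) (sub_nonneg.2 h), mul_pos (sub_pos.2 (not_le.1 nlg)) (sub_pos.2 hε), mul_nonneg (le_of_lt (sub_pos.2 (not_le.1 nlg))) (sub_nonneg.2 h1), mul_nonneg (le_of_lt (sub_pos.2 (not_le.1 nlg))) (sub_nonneg.2 hp), mul_pos (sub_pos.2 (not_le.1 nlg)) (sub_pos.2 hpA)])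
  have e2 : p * (A ^ 2 + A * X) ≤ p * (A ^ 2 + (σ + k * A) * ε) :=
    mul_le_mul_of_nonneg_left (by linarith only [hX]) hp
  have e3 : 0 ≤ (σ + k * A) * ε := by positivity
  have e4 : p * (A ^ 2 + (σ + k * A) * ε) ≤ (A - a / 2) * (A ^ 2 + (σ + k * A) * ε) :=
    mul_le_mul_of_nonneg_right (by linarith only [h1, hpA]) (by positivity)
  have e5 : (A - a / 2) * (A ^ 2 + (σ + k * A) * ε) ≤
      (A - a / 2) * A ^ 2 + A * ((σ + k * A) * ε) := by (by_contra nlg; linarith only [mul_nonneg (sq_nonneg (a : ℝ)) (sub_nonneg.2 e3), mul_pos (sub_pos.2 (not_le.1 nlg)) (sub_pos.2 hε), mul_nonneg (le_of_lt (sub_pos.2 (not_le.1 nlg))) (sub_nonneg.2 h1)])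
  have e6 : a / 2 * A ^ 2 ≤ A * ((σ + k * A) * ε) := by
    have : A ^ 3 = A * A ^ 2 := by ring
    linarith only [e5, e4, e2, e1]
  have e7 : a / 2 * A ≤ (σ + k * A) * ε := by
    have : A * (a / 2 * A) ≤ A * ((σ + k * A) * ε) := by linarith only [e6]
    exact le_of_mul_le_mul_left this hA0
  have e8 : k * A * ε ≤ a / 4 * A := by (by_contra nlg; linarith only [nlg, mul_pos (sub_pos.2 (not_le.1 nlg)) (sub_pos.2 hpA), mul_nonneg (le_of_lt (sub_pos.2 (not_le.1 nlg))) (sub_nonneg.2 hp), mul_nonneg (le_of_lt (sub_pos.2 (not_le.1 nlg))) (sub_nonneg.2 h1), mul_pos (sub_pos.2 (not_le.1 nlg)) (sub_pos.2 hε), mul_nonneg (sq_nonneg (A : ℝ)) (sub_nonneg.2 h2)])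
  have e9 : a / 4 * A ≤ σ * ε := by linarith only [e7, e8]
  linarith only [mul_nonneg (le_of_lt (sub_pos.2 hA0)) (sub_nonneg.2 e9), mul_nonneg (le_of_lt (sub_pos.2 hA)) (sub_nonneg.2 e8), mul_nonneg (le_of_lt (sub_pos.2 hA)) (sub_nonneg.2 e3), mul_pos (sub_pos.2 h3) (sub_pos.2 hA0), mul_nonneg (sub_nonneg.2 h1) (sub_nonneg.2 e9), mul_nonneg (le_of_lt (sub_pos.2 hε)) (sub_nonneg.2 e9)]

/-- **The functional isoperimetric inequality in dimension two**, from the scalar data. -/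
theorem funcIso_two_of (hk : 0 ≤ k) (D : ∀ R : ℝ, 0 < R → Nonempty (Scal k R)) :
    FuncIso 2 k := by
  intro G hG h hh hc h01 R hR hV
  obtain ⟨I, hImono, -, hI0, hIz, hIR, -⟩ := exists_profile (n := 2) (k := k) le_rfl hk
  obtain ⟨L, hL⟩ := exists_lg_bound G hc 0
  have hcls : G.Cls 0 (max L 1) h := by
    refine ⟨hh, fun x => (h01 x).1, fun x => (h01 x).2, fun x hx => ?_⟩
    exact (hL x (subset_tsupport h hx)).trans (le_max_left _ _)
  have hρ : 0 < max L 1 := by positivity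
  set ρ := max L 1 with hρdef
  have h1 : 0 ≤ G.per h - I (V1 G h) := by
    by_contra hneg
    rw [not_le] at hneg
    have hsig : 0 < sig 2 := sig_pos (by norm_num)
    obtain ⟨Cb, hCb⟩ := deficit_bddBelow G hImono 0 ρ
    set S : Set ℝ := {y | ∃ h, G.Cls 0 ρ h ∧ G.per h - I (V1 G h) = y} with hS
    have hSb : BddBelow S := ⟨-Cb, by rintro y ⟨g, hg, rfl⟩; exact hCb g hg⟩
    have hSn : S.Nonempty := ⟨_, h, hcls, rfl⟩
    obtain ⟨J, hJdef⟩ : ∃ J, J = sInf S := ⟨_, rfl⟩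
    have hJ : ∀ g, G.Cls 0 ρ g → J ≤ G.per g - I (V1 G g) :=
      fun g hg => hJdef ▸ csInf_le hSb ⟨g, hg, rfl⟩
    have hJ' : ∀ ε > 0, ∃ g, G.Cls 0 ρ g ∧ G.per g - I (V1 G g) < J + ε := by
      intro ε hε
      obtain ⟨y, ⟨g, hg, rfl⟩, hlt⟩ := exists_lt_of_csInf_lt hSn (lt_add_of_pos_right (sInf S) hε)
      exact ⟨g, hg, hJdef ▸ hlt⟩
    have hJ0 : J < 0 := (hJ h hcls).trans_lt hneg
    have ha : 0 < -J := by linarith
    obtain ⟨ε, hε, hε1, hε2, hε3⟩ : ∃ ε : ℝ, 0 < ε ∧ ε ≤ -J / 2 ∧ k * ε ≤ -J / 4 ∧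
        8 * (sig 2 * ε) < (-J) ^ 2 := by
      refine ⟨min (-J / 2) (min (-J / (4 * (k + 1))) ((-J) ^ 2 / (16 * sig 2))), by (clear * - ha hk hsig; positivity),
        min_le_left _ _, ?_, ?_⟩
      · have e1 := (min_le_right (-J / 2) (min (-J / (4 * (k + 1)))
          ((-J) ^ 2 / (16 * sig 2)))).trans (min_le_left _ _)
        have e2 := mul_le_mul_of_nonneg_left e1 hk
        refine e2.trans ?_
        rw [mul_div_assoc', div_le_div_iff₀ (by positivity) (by norm_num)]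
        linarith only [ha]
      · have e1 := (min_le_right (-J / 2) (min (-J / (4 * (k + 1)))
          ((-J) ^ 2 / (16 * sig 2)))).trans (min_le_right _ _)
        have e2 := mul_le_mul_of_nonneg_left e1 hsig.le
        have e3 : sig 2 * ((-J) ^ 2 / (16 * sig 2)) = (-J) ^ 2 / 16 := by
          field_simp
        have e4 : 0 < (-J) ^ 2 := by positivity
        linarith only [e4, e3, e2]
    obtain ⟨g, hg, hgJ, hglay⟩ := exists_thin_H G hI0 hImono 0 ρ hJ hJ' ε hε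
    have hgc : HasCompactSupport g := wh_compactSupport G hg
    have hVg0 : 0 ≤ V1 G g := measureReal_nonneg
    have hper : 0 ≤ G.per g := integral_nonneg fun _ => norm_nonneg _
    obtain ⟨Rs, hRs0, hRs⟩ := exists_VR (n := 2) (k := k) (by norm_num) hk hVg0
    have hIA : I (V1 G g) = AR 2 k Rs := by rw [← hIR Rs hRs0, hRs]
    have hRsp : 0 < Rs := by
      rcases hRs0.eq_or_lt with h0 | h0
      · exfalso
        rw [← h0, VR_zero] at hRs
        rw [← hRs, hIz] at hgJ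
        linarith only [hper, hgJ, hε1, hε]
      · exact h0
    obtain ⟨T⟩ := D Rs hRsp
    have hct := ct_ge hk hRsp
    have key := pair_real hk hG hct T.s1 T.f_cont T.f_nonneg T.C_nonneg T.hC hg.smooth hgc
      hg.nonneg
    have hV1 : G.vol.real {x | g x = 1} = VR 2 k Rs := hRs.symm
    rw [hV1, ← AR_sq_sig] at key
    have hV0 := vol_pos_le (G := G) hgc fun x => ⟨hg.nonneg x, hg.le_one x⟩
    have hct0 : 0 ≤ _root_.Vale.Agent.P219.TPH.cs k Rs / _root_.Vale.Agent.P219.TPH.sn k Rs := hk.trans hct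
    have h5 : _root_.Vale.Agent.P219.TPH.cs k Rs / _root_.Vale.Agent.P219.TPH.sn k Rs * G.vol.real {x | 0 < g x} + 2 * T.C ≤
        AR 2 k Rs + _root_.Vale.Agent.P219.TPH.cs k Rs / _root_.Vale.Agent.P219.TPH.sn k Rs * ε := by
      have h6 : G.vol.real {x | 0 < g x} ≤ VR 2 k Rs + ε := by
        rw [← hRs] at hV0
        linarith only [hV0, hglay]
      have h7 := mul_le_mul_of_nonneg_left h6 hct0
      have h8 := T.bal
      linarith only [h7, h8]
    refine arith_end (A := AR 2 k Rs) (a := -J) (σ := sig 2) (k := k) (ε := ε) (p := G.per g)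
      (X := _root_.Vale.Agent.P219.TPH.cs k Rs / _root_.Vale.Agent.P219.TPH.sn k Rs * ε) ha hsig hk hε hε1 hε2 hε3 hper ?_ ?_
      (key.trans (mul_le_mul_of_nonneg_left h5 hper))
    · rw [hIA] at hgJ
      linarith only [hgJ]
    · have := mul_le_mul_of_nonneg_right (ct_AR hk hRsp) hε.le
      linarith only [this]
  have hVR0 : 0 ≤ VR 2 k R := by
    have h2 := (VR_strictMonoOn (n := 2) (k := k) (by norm_num) hk).monotoneOn
      (mem_Ici.2 le_rfl) (mem_Ici.2 hR) hR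
    rwa [VR_zero] at h2
  have h3 : I (VR 2 k R) ≤ I (V1 G h) := hImono hVR0 (mem_Ici.2 measureReal_nonneg) hV
  rw [hIR R hR] at h3
  linarith

end Vale.Agent.P219.N2
end

section

/-! # P219, dimension two: the model functions -/

open MeasureTheory Set Metric
open scoped ENNReal ContDiff

namespace Vale.Agent.P219.N2

open Vale.Agent.P219.TP Vale.Agent.P219.TPH

/-- `∫_0^L sn`. -/
noncomputable def cc (k L : ℝ) : ℝ := if k = 0 then L ^ 2 / 2 else (_root_.Vale.Agent.P219.TPH.cs k L - 1) / k ^ 2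

/-- Curvature of the model circle. -/
noncomputable def ct (k R : ℝ) : ℝ := _root_.Vale.Agent.P219.TPH.cs k R / _root_.Vale.Agent.P219.TPH.sn k R

/-- Half the length of the chord with cosine `s`. -/
noncomputable def fR (k R s : ℝ) : ℝ :=
  if k = 0 then R * clip s else Real.artanh (Real.tanh (k * R) * clip s) / k

noncomputable def C2 (k R : ℝ) : ℝ :=
  if k = 0 then Real.pi * R / 2 else Real.pi / k * Real.tanh (k * R / 2)

theorem cc_zero (k : ℝ) : cc k 0 = 0 := by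
  unfold cc
  split_ifs <;> simp [_root_.Vale.Agent.P219.TPH.cs_zero]

theorem hasDerivAt_cc (k L : ℝ) : HasDerivAt (cc k) (_root_.Vale.Agent.P219.TPH.sn k L) L := by
  by_cases hk : k = 0
  · subst hk
    have e : cc 0 = fun L => L ^ 2 / 2 := by funext x; simp [cc]
    rw [e, h1_sn_z]
    have := (hasDerivAt_pow 2 L).div_const 2
    simpa using this
  · have e : cc k = fun L => (_root_.Vale.Agent.P219.TPH.cs k L - 1) / k ^ 2 := by funext x; simp [cc, hk]
    rw [e]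
    have := ((hasDerivAt_cs k L).sub_const 1).div_const (k ^ 2)
    rwa [mul_div_cancel_left₀ _ (pow_ne_zero 2 hk)] at this

theorem integral_sn (k L : ℝ) : ∫ t in (0 : ℝ)..L, _root_.Vale.Agent.P219.TPH.sn k t = cc k L := by
  rw [intervalIntegral.integral_eq_sub_of_hasDerivAt (fun x _ => hasDerivAt_cc k x)
    ((contDiff_sn k).continuous.intervalIntegrable _ _), cc_zero, sub_zero]

theorem ct_pos {k R : ℝ} (hk : 0 ≤ k) (hR : 0 < R) : 0 < ct k R :=
  div_pos (zero_lt_one.trans_le (one_le_cs k R)) (_root_.Vale.Agent.P219.TPH.sn_pos hk hR)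

theorem lt_ct {k R : ℝ} (hk : 0 ≤ k) (hR : 0 < R) : k < ct k R := by
  unfold ct
  rw [lt_div_iff₀ (_root_.Vale.Agent.P219.TPH.sn_pos hk hR), h1_sinh]
  unfold _root_.Vale.Agent.P219.TPH.cs
  exact Real.sinh_lt_cosh _

theorem tanh_pos' {x : ℝ} (hx : 0 < x) : 0 < Real.tanh x := by
  rw [Real.tanh_eq_sinh_div_cosh]
  exact div_pos (Real.sinh_pos_iff.2 hx) (Real.cosh_pos _)

theorem Ts_mem {k R : ℝ} (hk : 0 < k) (hR : 0 < R) {s : ℝ} (h0 : 0 ≤ s) (h1 : s ≤ 1) :
    0 ≤ Real.tanh (k * R) * s ∧ Real.tanh (k * R) * s < 1 := by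
  have hT := tanh_pos' (mul_pos hk hR)
  have hT1 := Real.tanh_lt_one (k * R)
  exact ⟨mul_nonneg hT.le h0, by nlinarith⟩

theorem fR_nonneg {k R : ℝ} (hk : 0 ≤ k) (hR : 0 < R) (s : ℝ) : 0 ≤ fR k R s := by
  unfold fR
  have hc := clip_mem s
  split_ifs with h
  · exact mul_nonneg hR.le hc.1
  · have hk' : 0 < k := lt_of_le_of_ne hk (Ne.symm h)
    exact div_nonneg (Real.artanh_nonneg (Ts_mem hk' hR hc.1 hc.2).1) hk'.le

theorem hasDerivAt_artanh {x : ℝ} (h0 : -1 < x) (h1 : x < 1) :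
    HasDerivAt Real.artanh (1 / (1 - x ^ 2)) x := by
  have hm : Ioo (-1 : ℝ) 1 ∈ nhds x := Ioo_mem_nhds h0 h1
  have e : Real.artanh =ᶠ[nhds x] fun y => 1 / 2 * (Real.log (1 + y) - Real.log (1 - y)) := by
    filter_upwards [hm] with y hy
    rw [Real.artanh_eq_half_log ⟨hy.1.le, hy.2.le⟩, Real.log_div (by linarith [hy.1])
      (by linarith [hy.2])]
  have h2 : HasDerivAt (fun y : ℝ => Real.log (1 + y)) (1 / (1 + x)) x := by
    have := ((hasDerivAt_id x).const_add 1).log (by simp only [id]; linarith)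
    simpa using this
  have h3 : HasDerivAt (fun y : ℝ => Real.log (1 - y)) (-1 / (1 - x)) x := by
    have := ((hasDerivAt_id x).const_sub 1).log (by simp only [id]; linarith)
    simpa using this
  have h4 := ((h2.sub h3).const_mul (1 / 2)).congr_of_eventuallyEq e
  have a1 : (1 + x) ≠ 0 := by linarith
  have a2 : (1 - x) ≠ 0 := by linarith
  have a3 : 1 - x ^ 2 = (1 + x) * (1 - x) := by ring
  have a4 : 1 / 2 * (1 / (1 + x) - -1 / (1 - x)) = 1 / (1 - x ^ 2) := by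
    rw [a3]
    field_simp
    ring
  rw [← a4]
  exact h4

theorem continuous_fR {k R : ℝ} (hk : 0 ≤ k) (hR : 0 < R) : Continuous (fR k R) := by
  by_cases h : k = 0
  · have e : fR k R = fun s => R * clip s := by funext s; simp [fR, h]
    rw [e]
    exact continuous_const.mul continuous_clip
  · have hk' : 0 < k := lt_of_le_of_ne hk (Ne.symm h)
    have e : fR k R = fun s => Real.artanh (Real.tanh (k * R) * clip s) / k := by
      funext s; simp [fR, h]
    rw [e]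
    refine Continuous.div_const ?_ k
    rw [continuous_iff_continuousAt]
    intro s
    have hm := Ts_mem hk' hR (clip_mem s).1 (clip_mem s).2
    have h1 := (hasDerivAt_artanh (x := Real.tanh (k * R) * clip s) (by linarith) hm.2).continuousAt
    exact ContinuousAt.comp (g := Real.artanh) (f := fun s => Real.tanh (k * R) * clip s) h1
      (continuous_const.mul continuous_clip).continuousAt

/-- The defining relation of the half chord. -/
theorem fR_spec {k R s : ℝ} (hk : 0 ≤ k) (hR : 0 < R) (h0 : 0 ≤ s) (h1 : s ≤ 1) :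
    s * _root_.Vale.Agent.P219.TPH.cs k (fR k R s) = ct k R * _root_.Vale.Agent.P219.TPH.sn k (fR k R s) := by
  unfold fR ct
  rw [clip_of_mem h0 h1]
  split_ifs with h
  · subst h
    simp only [h1_sn_z, _root_.Vale.Agent.P219.TPH.cs, zero_mul, Real.cosh_zero]
    field_simp
  · have hk' : 0 < k := lt_of_le_of_ne hk (Ne.symm h)
    have hm := Ts_mem hk' hR h0 h1
    have hT := tanh_pos' (mul_pos hk' hR)
    have ht := Real.tanh_artanh (x := Real.tanh (k * R) * s) ⟨by linarith, hm.2⟩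
    have hc := Real.cosh_pos (Real.artanh (Real.tanh (k * R) * s))
    rw [Real.tanh_eq_sinh_div_cosh, div_eq_iff hc.ne'] at ht
    have hs := Real.sinh_pos_iff.2 (mul_pos hk' hR)
    have hcR := Real.cosh_pos (k * R)
    simp only [h1_sn_nz h, _root_.Vale.Agent.P219.TPH.cs]
    rw [mul_div_cancel₀ _ h, ht, Real.tanh_eq_sinh_div_cosh]
    field_simp

/-- The function of (S1). -/
noncomputable def gg (k R s r : ℝ) : ℝ := s * (1 + _root_.Vale.Agent.P219.TPH.cs k r) - ct k R * _root_.Vale.Agent.P219.TPH.sn k r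

theorem cs_two (k r : ℝ) : 1 + _root_.Vale.Agent.P219.TPH.cs k r = 2 * _root_.Vale.Agent.P219.TPH.cs k (r / 2) ^ 2 := by
  rw [h1_cs_half, cs_sq]
  ring

theorem sn_two (k r : ℝ) : _root_.Vale.Agent.P219.TPH.sn k r = 2 * (_root_.Vale.Agent.P219.TPH.sn k (r / 2) * _root_.Vale.Agent.P219.TPH.cs k (r / 2)) := by
  have h := h1_sub k (r / 2) (-(r / 2))
  have e1 : _root_.Vale.Agent.P219.TPH.sn k (-(r / 2)) = -_root_.Vale.Agent.P219.TPH.sn k (r / 2) := by
    unfold _root_.Vale.Agent.P219.TPH.sn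
    split_ifs
    · rfl
    · rw [mul_neg, Real.sinh_neg, neg_div]
  have e2 : _root_.Vale.Agent.P219.TPH.cs k (-(r / 2)) = _root_.Vale.Agent.P219.TPH.cs k (r / 2) := by
    unfold _root_.Vale.Agent.P219.TPH.cs
    rw [mul_neg, Real.cosh_neg]
  rw [e1, e2, sub_neg_eq_add, add_halves] at h
  rw [h]
  ring

theorem cc_two (k r : ℝ) : cc k r = 2 * _root_.Vale.Agent.P219.TPH.sn k (r / 2) ^ 2 := by
  unfold cc
  split_ifs with h
  · subst h
    simp only [h1_sn_z]
    ring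
  · rw [h1_cs_half]
    field_simp
    ring

theorem gg_eq {k R s : ℝ} (hk : 0 ≤ k) (hR : 0 < R) (h0 : 0 ≤ s) (h1 : s ≤ 1) (r : ℝ) :
    gg k R s r = 2 * _root_.Vale.Agent.P219.TPH.cs k (r / 2) * (ct k R / _root_.Vale.Agent.P219.TPH.cs k (fR k R s) * _root_.Vale.Agent.P219.TPH.sn k (fR k R s - r / 2)) := by
  have hs := fR_spec hk hR h0 h1
  have hc : 0 < _root_.Vale.Agent.P219.TPH.cs k (fR k R s) := zero_lt_one.trans_le (one_le_cs _ _)
  have hs' : s = ct k R * _root_.Vale.Agent.P219.TPH.sn k (fR k R s) / _root_.Vale.Agent.P219.TPH.cs k (fR k R s) := by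
    rw [eq_div_iff hc.ne', hs]
  unfold gg
  rw [cs_two, sn_two, h1_sub]
  set f := fR k R s
  rw [hs']
  field_simp

theorem gg_nonneg {k R s : ℝ} (hk : 0 ≤ k) (hR : 0 < R) (h0 : 0 ≤ s) (h1 : s ≤ 1) {r : ℝ}
    (hr : r ≤ 2 * fR k R s) : 0 ≤ gg k R s r := by
  rw [gg_eq hk hR h0 h1]
  have hc : ∀ x, 0 < _root_.Vale.Agent.P219.TPH.cs k x := fun x => zero_lt_one.trans_le (one_le_cs _ _)
  have h2 : 0 ≤ _root_.Vale.Agent.P219.TPH.sn k (fR k R s - r / 2) := modelH_sn_nonneg hk (by linarith)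
  have := ct_pos hk hR
  have := hc (r / 2)
  have := hc (fR k R s)
  positivity

theorem gg_nonpos {k R s : ℝ} (hk : 0 ≤ k) (hR : 0 < R) (h0 : 0 ≤ s) (h1 : s ≤ 1) {r : ℝ}
    (hr : 2 * fR k R s ≤ r) : gg k R s r ≤ 0 := by
  rw [gg_eq hk hR h0 h1]
  have hc : ∀ x, 0 < _root_.Vale.Agent.P219.TPH.cs k x := fun x => zero_lt_one.trans_le (one_le_cs _ _)
  have h2 : _root_.Vale.Agent.P219.TPH.sn k (fR k R s - r / 2) ≤ 0 := by
    have := (_root_.Vale.Agent.P219.TPH.sn_strictMono hk).monotone (show fR k R s - r / 2 ≤ 0 by linarith)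
    rwa [_root_.Vale.Agent.P219.TPH.sn_zero] at this
  have h3 := ct_pos hk hR
  have h4 := hc (r / 2)
  have h5 := hc (fR k R s)
  have h6 : ct k R / _root_.Vale.Agent.P219.TPH.cs k (fR k R s) * _root_.Vale.Agent.P219.TPH.sn k (fR k R s - r / 2) ≤ 0 :=
    mul_nonpos_of_nonneg_of_nonpos (by positivity) h2
  exact mul_nonpos_of_nonneg_of_nonpos (by positivity) h6

/-- Primitive of `gg`. -/
noncomputable def GG (k R s L : ℝ) : ℝ := s * (L + _root_.Vale.Agent.P219.TPH.sn k L) - ct k R * cc k L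

theorem hasDerivAt_GG (k R s L : ℝ) : HasDerivAt (GG k R s) (gg k R s L) L := by
  unfold GG gg
  exact (((hasDerivAt_id L).add (_root_.Vale.Agent.P219.TPH.hasDerivAt_sn k L)).const_mul s).sub
    ((hasDerivAt_cc k L).const_mul (ct k R))

theorem continuous_gg (k R s : ℝ) : Continuous (gg k R s) := by
  unfold gg
  exact (continuous_const.mul (continuous_const.add (contDiff_cs k).continuous)).sub
    (continuous_const.mul (contDiff_sn k).continuous)

theorem GG_zero (k R s : ℝ) : GG k R s 0 = 0 := by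
  unfold GG
  rw [_root_.Vale.Agent.P219.TPH.sn_zero, cc_zero]
  ring

theorem GG_max {k R s : ℝ} (hk : 0 ≤ k) (hR : 0 < R) (h0 : 0 ≤ s) (h1 : s ≤ 1) :
    GG k R s (2 * fR k R s) = 2 * (s * fR k R s) := by
  have hs := fR_spec hk hR h0 h1
  unfold GG
  rw [sn_two, cc_two, mul_div_cancel_left₀ _ (two_ne_zero)]
  have : ct k R * (2 * _root_.Vale.Agent.P219.TPH.sn k (fR k R s) ^ 2) = 2 * (ct k R * _root_.Vale.Agent.P219.TPH.sn k (fR k R s)) * _root_.Vale.Agent.P219.TPH.sn k (fR k R s) := by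
    ring
  rw [this, ← hs]
  ring

/-- (S1), the integral of the positive part. -/
theorem lintegral_gg {k R s : ℝ} (hk : 0 ≤ k) (hR : 0 < R) (h0 : 0 ≤ s) (h1 : s ≤ 1) :
    ∫⁻ r in Ioi (0 : ℝ), ENNReal.ofReal (gg k R s r) = ENNReal.ofReal (2 * (s * fR k R s)) := by
  have hf := fR_nonneg hk hR s
  have hf2 : 0 ≤ 2 * fR k R s := by positivity
  have e1 : ∫⁻ r in Ioi (0 : ℝ), ENNReal.ofReal (gg k R s r) =
      ∫⁻ r in Ioc 0 (2 * fR k R s), ENNReal.ofReal (gg k R s r) := by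
    rw [← lintegral_indicator measurableSet_Ioi, ← lintegral_indicator measurableSet_Ioc]
    refine lintegral_congr fun r => ?_
    by_cases hr : r ∈ Ioc 0 (2 * fR k R s)
    · rw [indicator_of_mem hr, indicator_of_mem (show r ∈ Ioi (0 : ℝ) from hr.1)]
    · rw [indicator_of_notMem hr]
      by_cases hr0 : r ∈ Ioi (0 : ℝ)
      · rw [indicator_of_mem hr0, ENNReal.ofReal_eq_zero]
        refine gg_nonpos hk hR h0 h1 ?_
        by_contra hlt
        exact hr ⟨hr0, (not_le.1 hlt).le⟩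
      · rw [indicator_of_notMem hr0]
  rw [e1, ← ofReal_integral_eq_lintegral_ofReal, ← intervalIntegral.integral_of_le hf2,
    intervalIntegral.integral_eq_sub_of_hasDerivAt (fun x _ => hasDerivAt_GG k R s x)
    ((continuous_gg k R s).intervalIntegrable _ _), GG_zero, GG_max hk hR h0 h1, sub_zero]
  · exact ((continuous_gg k R s).integrableOn_Icc).mono_set Ioc_subset_Icc_self
  · filter_upwards [self_mem_ae_restrict measurableSet_Ioc] with r hr
    exact gg_nonneg hk hR h0 h1 hr.2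


/-! ### The integral over the directions -/

theorem tanh_half {x : ℝ} (hx : 0 < x) :
    (1 - 1 / Real.cosh x) / Real.tanh x = Real.tanh (x / 2) := by
  have hc := Real.cosh_pos x
  have hs := Real.sinh_pos_iff.2 hx
  have hc2 := Real.cosh_pos (x / 2)
  have hs2 := Real.sinh_pos_iff.2 (half_pos hx)
  have e1 : Real.cosh x = 1 + 2 * Real.sinh (x / 2) ^ 2 := by
    have h := Real.cosh_two_mul (x / 2)
    rw [show 2 * (x / 2) = x by ring, Real.cosh_sq] at h
    linarith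
  have e2 : Real.sinh x = 2 * Real.sinh (x / 2) * Real.cosh (x / 2) := by
    have h := Real.sinh_two_mul (x / 2)
    rwa [show 2 * (x / 2) = x by ring] at h
  rw [Real.tanh_eq_sinh_div_cosh, Real.tanh_eq_sinh_div_cosh]
  have e3 : (1 - 1 / Real.cosh x) / (Real.sinh x / Real.cosh x) =
      (Real.cosh x - 1) / Real.sinh x := by
    field_simp
  rw [e3, div_eq_div_iff hs.ne' hc2.ne', e1, e2]
  ring

theorem key_alg {T q s c : ℝ} (hq : q ^ 2 = 1 - T ^ 2) (hsc : s ^ 2 + c ^ 2 = 1)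
    (hD : 0 < q * c ^ 2 + s ^ 2) (hA : 0 < 1 - (T * c) ^ 2) :
    1 + 1 / (1 + ((1 - q) * (s * c) / (q * c ^ 2 + s ^ 2)) ^ 2) *
      (((1 - q) * (c * c + s * -s) * (q * c ^ 2 + s ^ 2) -
        (1 - q) * (s * c) * (q * (2 * c * -s) + 2 * s * c)) / (q * c ^ 2 + s ^ 2) ^ 2) =
      q / (1 - (T * c) ^ 2) := by
  have hA' : 1 - (T * c) ^ 2 = q ^ 2 * c ^ 2 + s ^ 2 := by
    rw [mul_pow]
    have : T ^ 2 = 1 - q ^ 2 := by linarith
    rw [this]
    linear_combination (-1 : ℝ) * hsc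
  have hE : (q * c ^ 2 + s ^ 2) ^ 2 + ((1 - q) * (s * c)) ^ 2 = q ^ 2 * c ^ 2 + s ^ 2 := by
    have : (q * c ^ 2 + s ^ 2) ^ 2 + ((1 - q) * (s * c)) ^ 2 =
        (q ^ 2 * c ^ 2 + s ^ 2) * (s ^ 2 + c ^ 2) := by ring
    rw [this, hsc, mul_one]
  have hE0 : 0 < q ^ 2 * c ^ 2 + s ^ 2 := by rw [← hA']; exact hA
  have e1 : 1 / (1 + ((1 - q) * (s * c) / (q * c ^ 2 + s ^ 2)) ^ 2) =
      (q * c ^ 2 + s ^ 2) ^ 2 / (q ^ 2 * c ^ 2 + s ^ 2) := by
    rw [← hE, div_pow]
    have hD2 : (q * c ^ 2 + s ^ 2) ^ 2 ≠ 0 := pow_ne_zero 2 hD.ne'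
    have h3 : (q * c ^ 2 + s ^ 2) ^ 2 + ((1 - q) * (s * c)) ^ 2 ≠ 0 := by
      rw [hE]; exact hE0.ne'
    have h4 : 1 + ((1 - q) * (s * c)) ^ 2 / (q * c ^ 2 + s ^ 2) ^ 2 ≠ 0 := by
      (clear * - hD; positivity)
    rw [div_eq_div_iff h4 h3]
    field_simp
  rw [e1, hA', div_mul_div_comm, mul_comm ((q * c ^ 2 + s ^ 2) ^ 2),
    mul_div_mul_right _ _ (pow_ne_zero 2 hD.ne')]
  rw [eq_div_iff hE0.ne', add_mul, div_mul_cancel₀ _ hE0.ne', one_mul]
  have : q ^ 2 * c ^ 2 + s ^ 2 + ((1 - q) * (c * c + s * -s) * (q * c ^ 2 + s ^ 2) -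
      (1 - q) * (s * c) * (q * (2 * c * -s) + 2 * s * c)) =
      q ^ 2 * c ^ 2 + s ^ 2 + (1 - q) * (q * c ^ 2 - s ^ 2) * (s ^ 2 + c ^ 2) := by ring
  rw [this, hsc]
  linear_combination q * hsc

/-- The primitive of `cos θ artanh (T cos θ)`. -/
theorem hasDerivAt_prim {T q : ℝ} (hT0 : 0 < T) (hT1 : T < 1) (hq0 : 0 < q)
    (hq : q ^ 2 = 1 - T ^ 2) (t : ℝ) :
    HasDerivAt (fun t : ℝ => Real.sin t * Real.artanh (T * Real.cos t) +
      (t - q * (t + Real.arctan ((1 - q) * (Real.sin t * Real.cos t) /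
        (q * Real.cos t ^ 2 + Real.sin t ^ 2)))) / T)
      (Real.cos t * Real.artanh (T * Real.cos t)) t := by
  have hsc := Real.sin_sq_add_cos_sq t
  have hD : 0 < q * Real.cos t ^ 2 + Real.sin t ^ 2 := by
    rcases eq_or_ne (Real.cos t) 0 with h | h
    · rw [h] at hsc ⊢
      linarith only [hsc, hT1, hT0]
    · have : 0 < Real.cos t ^ 2 := by positivity
      (clear * - hq0 h; positivity)
  have hc1 := Real.cos_le_one t
  have hc2 := Real.neg_one_le_cos t
  have hTc1 : T * Real.cos t < 1 := by (by_contra nlg; linarith only [mul_nonneg (sub_nonneg.2 (not_lt.1 nlg)) (sub_nonneg.2 hc1), mul_nonneg (sub_nonneg.2 (not_lt.1 nlg)) (sub_nonneg.2 hc2), mul_pos (sub_pos.2 hT0) (sub_pos.2 hT1), mul_nonneg (le_of_lt (sub_pos.2 hT0)) (sub_nonneg.2 hc1), mul_pos (sub_pos.2 hT1) (sub_pos.2 hT1)])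
  have hTc2 : -1 < T * Real.cos t := by (by_contra nlg; linarith only [nlg, mul_pos (sub_pos.2 hT1) (sub_pos.2 hT1), mul_nonneg (le_of_lt (sub_pos.2 hT0)) (sub_nonneg.2 hc2), mul_pos (sub_pos.2 hT0) (sub_pos.2 hT1), mul_nonneg (sub_nonneg.2 (not_lt.1 nlg)) (sub_nonneg.2 hc2), mul_nonneg (sub_nonneg.2 (not_lt.1 nlg)) (sub_nonneg.2 hc1)])
  have hA : 0 < 1 - (T * Real.cos t) ^ 2 := by (by_contra nlg; linarith only [nlg, mul_pos (sub_pos.2 hTc1) (sub_pos.2 hTc2), mul_nonneg (sub_nonneg.2 (not_lt.1 nlg)) (le_of_lt (sub_pos.2 hTc2)), mul_nonneg (sub_nonneg.2 (not_lt.1 nlg)) (le_of_lt (sub_pos.2 hTc1))])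
  have d1 := Real.hasDerivAt_sin t
  have d2 := Real.hasDerivAt_cos t
  have d3 : HasDerivAt (fun t : ℝ => Real.artanh (T * Real.cos t))
      (1 / (1 - (T * Real.cos t) ^ 2) * (T * -Real.sin t)) t :=
    HasDerivAt.comp (h₂ := Real.artanh) (h := fun t : ℝ => T * Real.cos t) t
      (hasDerivAt_artanh hTc2 hTc1) (d2.const_mul T)
  have d4 : HasDerivAt (fun t : ℝ => Real.sin t * Real.artanh (T * Real.cos t))
      (Real.cos t * Real.artanh (T * Real.cos t) +
        Real.sin t * (1 / (1 - (T * Real.cos t) ^ 2) * (T * -Real.sin t))) t := d1.mul d3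
  have dN : HasDerivAt (fun t : ℝ => (1 - q) * (Real.sin t * Real.cos t))
      ((1 - q) * (Real.cos t * Real.cos t + Real.sin t * -Real.sin t)) t :=
    (d1.mul d2).const_mul (1 - q)
  have dD : HasDerivAt (fun t : ℝ => q * Real.cos t ^ 2 + Real.sin t ^ 2)
      (q * (2 * Real.cos t * -Real.sin t) + 2 * Real.sin t * Real.cos t) t := by
    have e1 : HasDerivAt (fun t : ℝ => q * Real.cos t ^ 2) (q * (2 * Real.cos t * -Real.sin t)) t := by
      have := (d2.pow 2).const_mul q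
      simpa using this
    have e2 : HasDerivAt (fun t : ℝ => Real.sin t ^ 2) (2 * Real.sin t * Real.cos t) t := by
      have := d1.fun_pow 2
      simpa using this
    exact e1.add e2
  have dU : HasDerivAt (fun t : ℝ => Real.arctan ((1 - q) * (Real.sin t * Real.cos t) /
        (q * Real.cos t ^ 2 + Real.sin t ^ 2))) _ t := (dN.div dD hD.ne').arctan
  have d5 : HasDerivAt (fun t : ℝ => (t - q * (t + Real.arctan ((1 - q) *
      (Real.sin t * Real.cos t) / (q * Real.cos t ^ 2 + Real.sin t ^ 2)))) / T) _ t :=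
    (((hasDerivAt_id t).sub (((hasDerivAt_id t).add dU).const_mul q)).div_const T)
  have d6 := d4.add d5
  refine d6.congr_deriv ?_
  have key := key_alg hq hsc hD hA
  simp only [Pi.div_apply] at *
  rw [key]
  have hT : T ≠ 0 := hT0.ne'
  have hA' := hA.ne'
  have h1 : q * (q / (1 - (T * Real.cos t) ^ 2)) = (1 - T ^ 2) / (1 - (T * Real.cos t) ^ 2) := by
    rw [← hq]
    ring
  rw [h1]
  have h2 : Real.sin t ^ 2 = 1 - Real.cos t ^ 2 := by linarith
  have h3 : Real.sin t * (1 / (1 - (T * Real.cos t) ^ 2) * (T * -Real.sin t)) =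
      -(T * (1 - Real.cos t ^ 2) / (1 - (T * Real.cos t) ^ 2)) := by
    rw [← h2]
    ring
  rw [h3]
  have h4 : (1 - (1 - T ^ 2) / (1 - (T * Real.cos t) ^ 2)) / T =
      T * (1 - Real.cos t ^ 2) / (1 - (T * Real.cos t) ^ 2) := by
    rw [div_eq_div_iff hT hA', sub_mul, div_mul_cancel₀ _ hA']
    ring
  rw [h4]
  ring

/-- (B): the integral over the directions. -/
theorem integral_fR {k R : ℝ} (hk : 0 ≤ k) (hR : 0 < R) :
    ∫ t in (-(Real.pi / 2))..(Real.pi / 2), Real.cos t * fR k R (Real.cos t) = C2 k R := by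
  have hpi := Real.pi_pos
  have hcl : ∀ t ∈ uIcc (-(Real.pi / 2)) (Real.pi / 2), clip (Real.cos t) = Real.cos t := by
    intro t ht
    rw [uIcc_of_le (by linarith)] at ht
    exact clip_of_mem (Real.cos_nonneg_of_mem_Icc ht) (Real.cos_le_one t)
  unfold C2 fR
  by_cases h : k = 0
  · simp only [if_pos h]
    have e : ∫ t in (-(Real.pi / 2))..(Real.pi / 2), Real.cos t * (R * clip (Real.cos t)) =
        ∫ t in (-(Real.pi / 2))..(Real.pi / 2), R * Real.cos t ^ 2 := by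
      apply intervalIntegral.integral_congr
      intro t ht
      simp only
      rw [hcl t ht]
      ring
    rw [e, intervalIntegral.integral_const_mul, integral_cos_sq]
    simp
    ring
  · simp only [if_neg h]
    have hk' : 0 < k := lt_of_le_of_ne hk (Ne.symm h)
    have hkR : 0 < k * R := mul_pos hk' hR
    set T := Real.tanh (k * R) with hT
    have hT0 : 0 < T := tanh_pos' hkR
    have hT1 : T < 1 := Real.tanh_lt_one _
    set q := 1 / Real.cosh (k * R) with hq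
    have hc := Real.cosh_pos (k * R)
    have hq0 : 0 < q := by positivity
    have hqs : q ^ 2 = 1 - T ^ 2 := by
      rw [hq, hT, Real.tanh_eq_sinh_div_cosh]
      have := Real.cosh_sq (k * R)
      field_simp
      linarith
    have e : ∫ t in (-(Real.pi / 2))..(Real.pi / 2),
        Real.cos t * (Real.artanh (T * clip (Real.cos t)) / k) =
        ∫ t in (-(Real.pi / 2))..(Real.pi / 2),
          Real.cos t * Real.artanh (T * Real.cos t) / k := by
      apply intervalIntegral.integral_congr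
      intro t ht
      simp only
      rw [hcl t ht]
      ring
    rw [e, intervalIntegral.integral_div]
    have hcont : Continuous fun t : ℝ => Real.cos t * Real.artanh (T * Real.cos t) := by
      refine Real.continuous_cos.mul ?_
      rw [continuous_iff_continuousAt]
      intro t
      have hc1 := Real.cos_le_one t
      have hc2 := Real.neg_one_le_cos t
      have h1 := (hasDerivAt_artanh (x := T * Real.cos t) (by (by_contra nlg; linarith only [nlg, mul_pos (sub_pos.2 hT1) (sub_pos.2 hT1), mul_nonneg (le_of_lt (sub_pos.2 hT0)) (sub_nonneg.2 hc2), mul_pos (sub_pos.2 hT0) (sub_pos.2 hT1), mul_nonneg (sub_nonneg.2 (not_lt.1 nlg)) (sub_nonneg.2 hc2), mul_nonneg (sub_nonneg.2 (not_lt.1 nlg)) (sub_nonneg.2 hc1)])) (by (by_contra nlg; linarith only [nlg, mul_pos (sub_pos.2 hT1) (sub_pos.2 hT1), mul_nonneg (le_of_lt (sub_pos.2 hT0)) (sub_nonneg.2 hc1), mul_pos (sub_pos.2 hT0) (sub_pos.2 hT1), mul_nonneg (sub_nonneg.2 (not_lt.1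 nlg)) (sub_nonneg.2 hc2), mul_nonneg (sub_nonneg.2 (not_lt.1 nlg)) (sub_nonneg.2 hc1)]))).continuousAt
      exact ContinuousAt.comp (g := Real.artanh) (f := fun t => T * Real.cos t) h1
        (continuous_const.mul Real.continuous_cos).continuousAt
    rw [intervalIntegral.integral_eq_sub_of_hasDerivAt
      (fun t _ => hasDerivAt_prim hT0 hT1 hq0 hqs t) (hcont.intervalIntegrable _ _)]
    simp only [Real.cos_neg, Real.cos_pi_div_two, Real.sin_neg, Real.sin_pi_div_two, mul_zero,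
      Real.artanh_zero, zero_div, Real.arctan_zero, add_zero, zero_add]
    have h4 := tanh_half hkR
    rw [← hq, ← hT] at h4
    rw [← h4]
    field_simp
    ring

end Vale.Agent.P219.N2
end

section

/-! # P219, dimension two: the model circle -/

open MeasureTheory Set Metric
open scoped ENNReal ContDiff

namespace Vale.Agent.P219.N2

open Vale.Agent.P219.TP Vale.Agent.P219.TPH

theorem C2_eq (k R : ℝ) : C2 k R = Real.pi * _root_.Vale.Agent.P219.TPH.sn k (R / 2) / _root_.Vale.Agent.P219.TPH.cs k (R / 2) := by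
  unfold C2
  split_ifs with h
  · subst h
    simp [h1_sn_z, _root_.Vale.Agent.P219.TPH.cs]
    ring
  · rw [Real.tanh_eq_sinh_div_cosh]
    simp only [h1_sn_nz h, _root_.Vale.Agent.P219.TPH.cs]
    have := Real.cosh_pos (k * (R / 2))
    rw [show k * R / 2 = k * (R / 2) by ring]
    field_simp

/-- The integral over the directions, on the sphere. -/
theorem sphere_fR {k R : ℝ} (hk : 0 ≤ k) (hR : 0 < R) {e : _root_.Vale.Agent.P219.TP.E 2} (he : ‖e‖ = 1) :
    ∫ u : sphere (0 : _root_.Vale.Agent.P219.TP.E 2) 1, max 0 (inner ℝ e (u : _root_.Vale.Agent.P219.TP.E 2)) * fR k R (max 0 (inner ℝ e (u : _root_.Vale.Agent.P219.TP.E 2)))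
      ∂((volume : Measure (_root_.Vale.Agent.P219.TP.E 2)).toSphere) = C2 k R := by
  have hc : Continuous fun s : ℝ => s * fR k R s := continuous_id.mul (continuous_fR hk hR)
  rw [circle hc he, integral_fR hk hR, zero_mul, mul_zero, add_zero]

theorem sphere_fR_lintegral {k R : ℝ} (hk : 0 ≤ k) (hR : 0 < R) {e : _root_.Vale.Agent.P219.TP.E 2} (he : ‖e‖ = 1) :
    ∫⁻ u : sphere (0 : _root_.Vale.Agent.P219.TP.E 2) 1, ENNReal.ofReal (max 0 (inner ℝ e (u : _root_.Vale.Agent.P219.TP.E 2)) *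
      fR k R (max 0 (inner ℝ e (u : _root_.Vale.Agent.P219.TP.E 2)))) ∂((volume : Measure (_root_.Vale.Agent.P219.TP.E 2)).toSphere) =
      ENNReal.ofReal (C2 k R) := by
  rw [← sphere_fR hk hR he, ofReal_integral_eq_lintegral_ofReal]
  · have hc : Continuous fun u : sphere (0 : _root_.Vale.Agent.P219.TP.E 2) 1 => max 0 (inner ℝ e (u : _root_.Vale.Agent.P219.TP.E 2)) *
        fR k R (max 0 (inner ℝ e (u : _root_.Vale.Agent.P219.TP.E 2))) := by
      have h1 : Continuous fun u : sphere (0 : _root_.Vale.Agent.P219.TP.E 2) 1 => max 0 (inner ℝ e (u : _root_.Vale.Agent.P219.TP.E 2)) := by fun_prop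
      exact h1.mul ((continuous_fR hk hR).comp h1)
    exact hc.integrable_of_hasCompactSupport (HasCompactSupport.of_compactSpace _)
  · exact Filter.Eventually.of_forall fun u =>
      mul_nonneg (le_max_left _ _) (fR_nonneg hk hR _)

theorem sig_two : sig 2 = 2 * Real.pi := by
  have h := circle (F := fun _ => (1 : ℝ)) continuous_const
    (e := EuclideanSpace.single (0 : Fin 2) (1 : ℝ)) (by simp)
  simp only [integral_const, smul_eq_mul, mul_one, intervalIntegral.integral_const] at h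
  unfold sig
  rw [h]
  ring

theorem VR_two (k R : ℝ) : VR 2 k R = 2 * Real.pi * cc k R := by
  unfold VR
  rw [sig_two, ← integral_sn]
  simp only [Nat.reduceSub, pow_one]

theorem AR_two (k R : ℝ) : AR 2 k R = 2 * Real.pi * _root_.Vale.Agent.P219.TPH.sn k R := by
  unfold AR
  rw [sig_two]
  simp only [Nat.reduceSub, pow_one]

theorem sig_two_VR (k R : ℝ) : VR 2 k R = 4 * Real.pi * _root_.Vale.Agent.P219.TPH.sn k (R / 2) ^ 2 := by
  rw [VR_two, cc_two]
  ring

/-- `A² = 4 π V + k² V²`. -/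
theorem AR_sq (k R : ℝ) : AR 2 k R ^ 2 = 4 * Real.pi * VR 2 k R + k ^ 2 * VR 2 k R ^ 2 := by
  rw [AR_two, sig_two_VR, sn_two]
  have h := cs_sq k (R / 2)
  have e : (2 * Real.pi * (2 * (_root_.Vale.Agent.P219.TPH.sn k (R / 2) * _root_.Vale.Agent.P219.TPH.cs k (R / 2)))) ^ 2 =
      16 * Real.pi ^ 2 * _root_.Vale.Agent.P219.TPH.sn k (R / 2) ^ 2 * _root_.Vale.Agent.P219.TPH.cs k (R / 2) ^ 2 := by ring
  rw [e, h]
  ring

/-- `ct V + 2 C = A`. -/
theorem ct_VR {k R : ℝ} (hk : 0 ≤ k) (hR : 0 < R) :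
    ct k R * VR 2 k R + 2 * C2 k R = AR 2 k R := by
  have h := cs_sq k (R / 2)
  have hs : 0 < _root_.Vale.Agent.P219.TPH.sn k (R / 2) := _root_.Vale.Agent.P219.TPH.sn_pos hk (half_pos hR)
  have hc : 0 < _root_.Vale.Agent.P219.TPH.cs k (R / 2) := zero_lt_one.trans_le (one_le_cs _ _)
  have h2 : _root_.Vale.Agent.P219.TPH.cs k R = 2 * _root_.Vale.Agent.P219.TPH.cs k (R / 2) ^ 2 - 1 := by
    have := cs_two k R
    linarith
  unfold ct
  rw [AR_two, sig_two_VR, sn_two, h2, C2_eq]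
  field_simp
  have h3 : k ^ 2 * _root_.Vale.Agent.P219.TPH.sn k (R / 2) ^ 2 = _root_.Vale.Agent.P219.TPH.cs k (R / 2) ^ 2 - 1 := by linarith
  ring

/-- `A (ct V + 2 C) = 4 π V + k² V²`. -/
theorem model_id {k R : ℝ} (hk : 0 ≤ k) (hR : 0 < R) :
    AR 2 k R * (ct k R * VR 2 k R + 2 * C2 k R) =
      4 * Real.pi * VR 2 k R + k ^ 2 * VR 2 k R ^ 2 := by
  rw [ct_VR hk hR, ← AR_sq]
  ring

theorem C2_pos {k R : ℝ} (hk : 0 ≤ k) (hR : 0 < R) : 0 < C2 k R := by
  rw [C2_eq]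
  have hs : 0 < _root_.Vale.Agent.P219.TPH.sn k (R / 2) := _root_.Vale.Agent.P219.TPH.sn_pos hk (half_pos hR)
  have hc : 0 < _root_.Vale.Agent.P219.TPH.cs k (R / 2) := zero_lt_one.trans_le (one_le_cs _ _)
  have := Real.pi_pos
  positivity

end Vale.Agent.P219.N2
end

section

/-! # `n = 2`: the functional isoperimetric inequality, all curvatures `≤ -k²` -/

open MeasureTheory Set Metric
open scoped ENNReal ContDiff

namespace Vale.Agent.P219.N2

open Vale.Agent.P219.TP Vale.Agent.P219.TPH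

/-- The scalar data. -/
noncomputable def scal {k R : ℝ} (hk : 0 ≤ k) (hR : 0 < R) : Scal k R where
  C := C2 k R
  f := fR k R
  C_nonneg := (C2_pos hk hR).le
  f_cont := continuous_fR hk hR
  f_nonneg := fun s _ => fR_nonneg hk hR s
  s1 := fun _ hs => (lintegral_gg hk hR hs.1 hs.2).le
  hC := fun _ he => (sphere_fR hk hR he).le
  bal := (ct_VR hk hR).le

end Vale.Agent.P219.N2

namespace Vale.Agent.P219.SA

open Vale.Agent.P219.TP Vale.Agent.P219.TPH

/-- **The isoperimetric inequality in dimension two**, curvature at most `-k²`. -/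
theorem funcIso_two {k : ℝ} (hk : 0 ≤ k) : FuncIso 2 k :=
  N2.funcIso_two_of hk fun _ hR => ⟨N2.scal hk hR⟩

end Vale.Agent.P219.SA
end

section

/-! # `n = 2`, equality case: the deficit vanishes at every boundary point -/

open MeasureTheory Set Metric Filter Topology
open scoped ENNReal ContDiff

noncomputable section

namespace Vale.Agent.P219.N2

open Vale.Agent.P219.TP Vale.Agent.P219.TPH

variable {G : Geo 2} {k ct : ℝ}

/-! ### Continuity in all variables -/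

theorem rcont_rs {X : Type*} [TopologicalSpace X] {a : X} {N v : X → _root_.Vale.Agent.P219.TP.E 2}
    (hN : ContinuousAt N a) (hv : ContinuousAt v a) (h0 : v a ≠ 0) :
    ContinuousAt (fun z => rs (N z) (v z)) a := by
  unfold rs
  exact continuousAt_const.max
    (hN.inner ((hv.norm.inv₀ (norm_ne_zero_iff.2 h0)).smul hv))

theorem rcont_rB {X : Type*} [TopologicalSpace X] {a : X} {N v : X → _root_.Vale.Agent.P219.TP.E 2}
    (hN : ContinuousAt N a) (hv : ContinuousAt v a) (h0 : v a ≠ 0) :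
    ContinuousAt (fun z => rB k ct (N z) (v z)) a := by
  unfold rB
  have h1 : ContinuousAt (fun z => _root_.Vale.Agent.P219.TPH.cs k ‖v z‖) a :=
    ((contDiff_cs k).continuous.continuousAt).comp hv.norm
  have h2 : ContinuousAt (fun z => _root_.Vale.Agent.P219.TPH.sn k ‖v z‖) a :=
    ((contDiff_sn k).continuous.continuousAt).comp hv.norm
  exact ((rcont_rs hN hv h0).mul (continuousAt_const.add h1)).sub (continuousAt_const.mul h2)

theorem rcont_rI {X : Type*} [TopologicalSpace X] {a : X} {N y v : X → _root_.Vale.Agent.P219.TP.E 2}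
    (hN : ContinuousAt N a) (hy : ContinuousAt y a) (hv : ContinuousAt v a) (h0 : v a ≠ 0) :
    ContinuousAt (fun z => rI G k ct (N z) (y z) (v z)) a := by
  have hdet : ContinuousAt (fun z => (G.T (y z) (v z)).det) a :=
    ((detExp_smooth G).continuous.continuousAt).comp (hy.prodMk hv)
  have h1 : ContinuousAt (fun z => ‖v z‖ * (G.T (y z) (v z)).det) a := hv.norm.mul hdet
  unfold rI rW
  refine ((continuousAt_const.mul h1).add (continuousAt_const.max (rcont_rB hN hv h0))).sub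
    ((rcont_rs hN hv h0).mul (((continuousAt_const.mul h1).add continuousAt_const).add ?_))
  exact Real.continuous_exp.continuousAt.comp ((continuousAt_const.mul hv.norm).neg)

/-- At a boundary point. -/
structure RPt (G : Geo 2) (k ct : ℝ) (Ω : Set (_root_.Vale.Agent.P219.TP.E 2)) (N p : _root_.Vale.Agent.P219.TP.E 2) : Prop where
  inside : ∀ v : _root_.Vale.Agent.P219.TP.E 2, v ≠ 0 → G.ex p v ∈ Ω → rI G k ct N p v = 0
  outside : ∀ v : _root_.Vale.Agent.P219.TP.E 2, v ≠ 0 → G.ex p v ∉ closure Ω → max 0 (rB k ct N v) = 0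

/-- From almost everywhere to everywhere. -/
theorem rkey {P : _root_.Vale.Agent.P219.TP.E 2 → Prop} (hae : ∀ᵐ v : _root_.Vale.Agent.P219.TP.E 2, P v) {g : _root_.Vale.Agent.P219.TP.E 2 → ℝ} {O : Set (_root_.Vale.Agent.P219.TP.E 2)}
    (hO : IsOpen O) (hgc : ∀ v ∈ O, ContinuousAt g v) (hg : ∀ v ∈ O, P v → g v = 0) :
    ∀ v ∈ O, g v = 0 := by
  have hae2 : g =ᵐ[volume.restrict O] fun _ => 0 := by
    rw [Filter.EventuallyEq, ae_restrict_iff' hO.measurableSet]
    filter_upwards [hae] with v hv hvO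
    exact hg v hvO hv
  exact Measure.eqOn_open_of_ae_eq hae2 hO (fun v hv => (hgc v hv).continuousWithinAt)
    continuousOn_const

theorem rzero {a b : ℝ} (hb : 0 < b) (ha : 0 ≤ a) {f : ℕ → ℝ≥0∞} {g : ℕ → ℝ}
    (hg : Tendsto g atTop (𝓝 a)) (hf : ∀ᶠ m in atTop, ENNReal.ofReal (b * g m) = f m)
    (hl : liminf f atTop = 0) : a = 0 := by
  have h2 : Tendsto f atTop (𝓝 (ENNReal.ofReal (b * a))) :=
    Tendsto.congr' hf ((ENNReal.continuous_ofReal.tendsto _).comp (hg.const_mul b))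
  rw [h2.liminf_eq, ENNReal.ofReal_eq_zero] at hl
  by_contra hne
  have : 0 < b * a := mul_pos hb (lt_of_le_of_ne ha (Ne.symm hne))
  linarith

theorem rlt_one {h : _root_.Vale.Agent.P219.TP.E 2 → ℝ} (h1 : ∀ x, h x ≤ 1) {y : _root_.Vale.Agent.P219.TP.E 2} (hD : G.D h y ≠ 0) : h y < 1 := by
  refine lt_of_le_of_ne (h1 _) fun heq => hD ?_
  have hmax : IsLocalMax h y :=
    Eventually.of_forall fun x => by
      show h x ≤ h y
      rw [heq]
      exact h1 _
  unfold TP.Geo.D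
  rw [hmax.fderiv_eq_zero, ContinuousLinearMap.zero_comp, map_zero]

/-- Fatou's lemma. -/
theorem rliminf {f : ℕ → _root_.Vale.Agent.P219.TP.E 2 → ℝ≥0∞} (hfm : ∀ m, Measurable (f m))
    (hdd : ∀ m : ℕ, ∫⁻ v, f m v ≤ ENNReal.ofReal (1 / ((m : ℝ) + 1))) :
    ∀ᵐ v : _root_.Vale.Agent.P219.TP.E 2, liminf (fun m => f m v) atTop = 0 := by
  have ht : Tendsto (fun m => ∫⁻ v, f m v) atTop (𝓝 0) := by
    have h2 : Tendsto (fun m : ℕ => ENNReal.ofReal (1 / ((m : ℝ) + 1))) atTop (𝓝 0) := by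
      have := (ENNReal.continuous_ofReal.tendsto 0).comp
        (tendsto_one_div_add_atTop_nhds_zero_nat (𝕜 := ℝ))
      rwa [ENNReal.ofReal_zero] at this
    exact tendsto_of_tendsto_of_tendsto_of_le_of_le tendsto_const_nhds h2
      (fun m => bot_le) hdd
  have h3 := lintegral_liminf_le (u := (atTop : Filter ℕ)) (μ := (volume : Measure (_root_.Vale.Agent.P219.TP.E 2))) hfm
  rw [ht.liminf_eq] at h3
  exact (lintegral_eq_zero_iff (Measurable.liminf hfm)).1 (le_antisymm h3 bot_le)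

/-- Fatou's lemma at a point `p`. -/
theorem rfatou (hk : 0 ≤ k) (hG : MonoSn G k) (hct : k ≤ ct) {Ω : Set (_root_.Vale.Agent.P219.TP.E 2)} (hΩ : IsOpen Ω)
    {h : ℕ → _root_.Vale.Agent.P219.TP.E 2 → ℝ} (hh : ∀ j, ContDiff ℝ 1 (h j))
    (h0 : ∀ j x, 0 ≤ h j x) (h1 : ∀ j x, h j x ≤ 1)
    (hin : ∀ x ∈ Ω, ∀ᶠ z in atTop ×ˢ 𝓝 x, h z.1 z.2 = 1)
    (hout : ∀ x ∉ closure Ω, ∀ᶠ z in atTop ×ˢ 𝓝 x, h z.1 z.2 = 0)
    {N : _root_.Vale.Agent.P219.TP.E 2 → _root_.Vale.Agent.P219.TP.E 2} {p : _root_.Vale.Agent.P219.TP.E 2} (hNp : ContinuousAt N p) (hN1 : ‖N p‖ = 1)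
    {j : ℕ → ℕ} (hj : Tendsto j atTop atTop) {y : ℕ → _root_.Vale.Agent.P219.TP.E 2} (hy : Tendsto y atTop (𝓝 p))
    (hD : ∀ m, G.D (h (j m)) (y m) ≠ 0)
    (hdd : ∀ m : ℕ, rDD G k ct (h (j m)) (N (y m)) (y m) ≤ ENNReal.ofReal (1 / ((m : ℝ) + 1))) :
    RPt G k ct Ω (N p) p := by
  have hyN : Tendsto (fun m => N (y m)) atTop (𝓝 (N p)) := hNp.tendsto.comp hy
  have hlt : ∀ m, h (j m) (y m) < 1 := fun m => rlt_one (h1 _) (hD m)
  have hae := rliminf (f := fun m v => ENNReal.ofReal (rD G k ct (h (j m)) (N (y m)) (y m) v))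
    (fun m => (rmeas_rD (hh _).continuous _ _).ennreal_ofReal) hdd
  have hex : ∀ v : _root_.Vale.Agent.P219.TP.E 2, Tendsto (fun m => G.ex (y m) v) atTop (𝓝 (G.ex p v)) := by
    intro v
    have hc : Continuous fun x : _root_.Vale.Agent.P219.TP.E 2 => G.ex x v :=
      G.ex_smooth.continuous.comp (continuous_id.prodMk continuous_const)
    exact (hc.tendsto p).comp hy
  have hne : IsOpen {v : _root_.Vale.Agent.P219.TP.E 2 | v ≠ 0} := isOpen_ne
  constructor
  · intro v hv hmem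
    refine rkey hae (g := fun v => rI G k ct (N p) p v)
      (O := {v | v ≠ 0} ∩ (fun v => G.ex p v) ⁻¹' Ω) (hne.inter (hΩ.preimage (rcont_ex p)))
      (fun v hv => rcont_rI continuousAt_const continuousAt_const continuousAt_id hv.1)
      (fun v hv hl => ?_) v ⟨hv, hmem⟩
    have hc : ContinuousAt (fun z : _root_.Vale.Agent.P219.TP.E 2 × _root_.Vale.Agent.P219.TP.E 2 => rI G k ct z.1 z.2 v) (N p, p) :=
      rcont_rI continuousAt_fst continuousAt_snd continuousAt_const hv.1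
    refine rzero (inv_pos.2 (norm_pos_iff.2 hv.1)) (rI_nonneg (ct := ct) hk hG hct hN1 p hv.1)
      (hc.tendsto.comp (hyN.prodMk_nhds hy)) ?_ hl
    filter_upwards [(hj.prodMk (hex v)).eventually (hin _ hv.2)] with m hm
    have hm' : h (j m) (G.ex (y m) v) = 1 := hm
    unfold rD
    rw [if_pos (by rw [hm']; exact hlt m)]
    rfl
  · intro v hv hmem
    refine rkey hae (g := fun v => max 0 (rB k ct (N p) v))
      (O := {v | v ≠ 0} ∩ (fun v => G.ex p v) ⁻¹' (closure Ω)ᶜ)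
      (hne.inter (isClosed_closure.isOpen_compl.preimage (rcont_ex p)))
      (fun v hv => continuousAt_const.max (rcont_rB continuousAt_const continuousAt_id hv.1))
      (fun v hv hl => ?_) v ⟨hv, hmem⟩
    have hc : ContinuousAt (fun z : _root_.Vale.Agent.P219.TP.E 2 => max 0 (rB k ct z v)) (N p) :=
      continuousAt_const.max (rcont_rB continuousAt_id continuousAt_const hv.1)
    refine rzero (inv_pos.2 (norm_pos_iff.2 hv.1)) (le_max_left _ _)
      (hc.tendsto.comp hyN) ?_ hl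
    filter_upwards [(hj.prodMk (hex v)).eventually (hout _ hv.2)] with m hm
    have hm' : h (j m) (G.ex (y m) v) = 0 := hm
    unfold rD
    rw [if_neg (by rw [hm']; exact not_lt.2 (h0 _ _))]
    rfl

/-- The relations at a second boundary point. -/
theorem RPt.pair (hk : 0 ≤ k) (hG : MonoSn G k) (hct : k < ct) {Ω : Set (_root_.Vale.Agent.P219.TP.E 2)} {N p : _root_.Vale.Agent.P219.TP.E 2}
    (hN : ‖N‖ = 1) (hR : RPt G k ct Ω N p) {q : _root_.Vale.Agent.P219.TP.E 2} (hq : q ∈ closure Ω)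
    (hq' : q ∈ closure (closure Ω)ᶜ) (hqp : q ≠ p) :
    rB k ct N (G.lg p q) = 0 ∧
      ‖G.lg p q‖ * (G.T p (G.lg p q)).det = _root_.Vale.Agent.P219.TPH.sn k ‖G.lg p q‖ := by
  have hv : G.lg p q ≠ 0 := by
    intro h0
    apply hqp
    have := G.ex_lg p q
    rw [h0, G.ex_zero] at this
    exact this.symm
  have hlgc : Continuous fun x : _root_.Vale.Agent.P219.TP.E 2 => G.lg p x :=
    G.lg_smooth.continuous.comp (continuous_const.prodMk continuous_id)
  have hne : ∀ᶠ x in 𝓝 q, G.lg p x ≠ 0 := hlgc.continuousAt.eventually_ne hv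
  have e1 : rI G k ct N p (G.lg p q) = 0 := by
    have hc : ContinuousAt (fun x => rI G k ct N p (G.lg p x)) q :=
      rcont_rI continuousAt_const continuousAt_const hlgc.continuousAt hv
    have hNe : (𝓝[Ω] q).NeBot := mem_closure_iff_nhdsWithin_neBot.1 hq
    refine tendsto_nhds_unique (hc.tendsto.mono_left (nhdsWithin_le_nhds (s := Ω))) ?_
    refine Tendsto.congr' ?_ tendsto_const_nhds
    filter_upwards [nhdsWithin_le_nhds hne, self_mem_nhdsWithin] with x hx hxΩ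
    exact (hR.inside _ hx (by rwa [G.ex_lg])).symm
  have e2 : max 0 (rB k ct N (G.lg p q)) = 0 := by
    have hc : ContinuousAt (fun x => max 0 (rB k ct N (G.lg p x))) q :=
      continuousAt_const.max (rcont_rB continuousAt_const hlgc.continuousAt hv)
    have hNe : (𝓝[(closure Ω)ᶜ] q).NeBot := mem_closure_iff_nhdsWithin_neBot.1 hq'
    refine tendsto_nhds_unique (hc.tendsto.mono_left (nhdsWithin_le_nhds (s := (closure Ω)ᶜ))) ?_
    refine Tendsto.congr' ?_ tendsto_const_nhds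
    filter_upwards [nhdsWithin_le_nhds hne, self_mem_nhdsWithin] with x hx hxΩ
    exact (hR.outside _ hx (by rw [G.ex_lg]; exact hxΩ)).symm
  have h1 := rI_eq (G := G) (k := k) (ct := ct) N p (G.lg p q)
  rw [e1, e2] at h1
  have h2 := jv_ge hk hG p hv
  have h3 : rs N (G.lg p q) * k ≤ 1 * k := mul_le_mul_of_nonneg_right (rs_le hN _) hk
  have h4 : rB k ct N (G.lg p q) ≤ 0 := max_eq_left_iff.1 e2
  have h5 : 0 ≤ (ct - rs N (G.lg p q) * k) *
      (‖G.lg p q‖ * (G.T p (G.lg p q)).det - _root_.Vale.Agent.P219.TPH.sn k ‖G.lg p q‖) :=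
    mul_nonneg (by linarith) (by linarith)
  constructor
  · linarith
  · have h6 : (ct - rs N (G.lg p q) * k) *
      (‖G.lg p q‖ * (G.T p (G.lg p q)).det - _root_.Vale.Agent.P219.TPH.sn k ‖G.lg p q‖) = 0 := by linarith
    rcases mul_eq_zero.1 h6 with h7 | h7
    · linarith
    · linarith

end Vale.Agent.P219.N2
end
end

section

/-! # `n = 2`, equality case: the constant of the model -/

open MeasureTheory Set Metric Filter Topology
open scoped ENNReal ContDiff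

noncomputable section

namespace Vale.Agent.P219.N2

open Vale.Agent.P219.TP Vale.Agent.P219.TPH

theorem rCC {k R : ℝ} (hk : 0 ≤ k) (hR : 0 < R) {N : _root_.Vale.Agent.P219.TP.E 2} (hN : ‖N‖ = 1) :
    ∫⁻ v, ENNReal.ofReal (‖v‖⁻¹ * max 0 (rB k (ct k R) N v)) ≤ ENNReal.ofReal (2 * C2 k R) := by
  have hm : Measurable fun v => ENNReal.ofReal (‖v‖⁻¹ * max 0 (rB k (ct k R) N v)) :=
    (measurable_norm.inv.mul (measurable_const.max (rmeas_rB N))).ennreal_ofReal
  rw [polar (n := 2) (by norm_num) hm]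
  have h1 : ∀ u : sphere (0 : _root_.Vale.Agent.P219.TP.E 2) 1, ∫⁻ r in Ioi (0 : ℝ), ENNReal.ofReal (r ^ (2 - 1)) *
      ENNReal.ofReal (‖r • (u : _root_.Vale.Agent.P219.TP.E 2)‖⁻¹ * max 0 (rB k (ct k R) N (r • (u : _root_.Vale.Agent.P219.TP.E 2)))) =
      ENNReal.ofReal 2 * ENNReal.ofReal (max 0 (inner ℝ N (u : _root_.Vale.Agent.P219.TP.E 2)) *
        fR k R (max 0 (inner ℝ N (u : _root_.Vale.Agent.P219.TP.E 2)))) := by
    intro u
    have hu : ‖(u : _root_.Vale.Agent.P219.TP.E 2)‖ = 1 := by simp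
    have hs0 : 0 ≤ max 0 (inner ℝ N (u : _root_.Vale.Agent.P219.TP.E 2)) := le_max_left _ _
    have hs1 : max 0 (inner ℝ N (u : _root_.Vale.Agent.P219.TP.E 2)) ≤ 1 := by
      refine max_le zero_le_one ((real_inner_le_norm _ _).trans ?_)
      rw [hN, hu, one_mul]
    rw [← ENNReal.ofReal_mul zero_le_two, ← lintegral_gg hk hR hs0 hs1]
    refine setLIntegral_congr_fun measurableSet_Ioi fun r hr => ?_
    have hr0 : (0 : ℝ) < r := hr
    have hn1 : ‖r • (u : _root_.Vale.Agent.P219.TP.E 2)‖ = r := by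
      rw [norm_smul, hu, mul_one, Real.norm_eq_abs, abs_of_pos hr0]
    have hrs : rs N (r • (u : _root_.Vale.Agent.P219.TP.E 2)) = max 0 (inner ℝ N (u : _root_.Vale.Agent.P219.TP.E 2)) := by
      unfold rs
      rw [hn1, smul_smul, inv_mul_cancel₀ hr0.ne', one_smul]
    have hB : rB k (ct k R) N (r • (u : _root_.Vale.Agent.P219.TP.E 2)) = gg k R (max 0 (inner ℝ N (u : _root_.Vale.Agent.P219.TP.E 2))) r := by
      unfold rB gg
      rw [hrs, hn1]
    show ENNReal.ofReal (r ^ (2 - 1)) * ENNReal.ofReal (‖r • (u : _root_.Vale.Agent.P219.TP.E 2)‖⁻¹ *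
      max 0 (rB k (ct k R) N (r • (u : _root_.Vale.Agent.P219.TP.E 2)))) = _
    rw [hB, hn1, ← ENNReal.ofReal_mul (by positivity)]
    simp only [Nat.add_one_sub_one, pow_one]
    rw [← mul_assoc, mul_inv_cancel₀ hr0.ne', one_mul]
    rcases le_total 0 (gg k R (max 0 (inner ℝ N (u : _root_.Vale.Agent.P219.TP.E 2))) r) with h | h
    · rw [max_eq_right h]
    · rw [max_eq_left h, ENNReal.ofReal_zero, ENNReal.ofReal_of_nonpos h]
  simp only [h1]
  rw [lintegral_const_mul' _ _ ENNReal.ofReal_ne_top, sphere_fR_lintegral hk hR hN,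
    ← ENNReal.ofReal_mul zero_le_two]

/-- The balance of the model. -/
theorem rbal {k R : ℝ} (hk : 0 ≤ k) (hR : 0 < R) :
    AR 2 k R * (ct k R * VR 2 k R + 2 * C2 k R) ≤
      2 * sig 2 * VR 2 k R + k ^ 2 * VR 2 k R ^ 2 := by
  rw [model_id hk hR, sig_two]
  have : 4 * Real.pi * VR 2 k R = 2 * (2 * Real.pi) * VR 2 k R := by ring
  rw [this]

end Vale.Agent.P219.N2
end
end

section

/-! # `n = 2`, equality case: the chord relations at a boundary point -/

open MeasureTheory Set Metric Filter Topology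
open scoped ENNReal ContDiff

noncomputable section

namespace Vale.Agent.P219.CH

theorem r2_in {n : ℕ} (D : SmoothDomain n) {x : E n} (hx : x ∈ D.carrier) :
    ∀ᶠ z in (atTop : Filter ℕ) ×ˢ 𝓝 x, Feps D (1 / ((z.1 : ℝ) + 1)) z.2 = 1 := by
  have hρ : D.ρ x < 0 := hx
  have h1 : ∀ᶠ j : ℕ in atTop, 1 / ((j : ℝ) + 1) < -D.ρ x / 2 :=
    (tendsto_one_div_add_atTop_nhds_zero_nat (𝕜 := ℝ)).eventually
      (gt_mem_nhds (by linarith))
  have h2 : ∀ᶠ y in 𝓝 x, D.ρ y < D.ρ x / 2 :=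
    D.smooth.continuous.continuousAt.eventually (gt_mem_nhds (by linarith only [hρ]))
  filter_upwards [h1.prod_mk h2] with z hz
  have hε : (0 : ℝ) < 1 / ((z.1 : ℝ) + 1) := by positivity
  apply Real.smoothTransition.one_of_one_le
  rw [le_div_iff₀ hε]
  linarith only [hz.2, hz.1]

theorem r2_out {n : ℕ} (D : SmoothDomain n) {x : E n} (hx : x ∉ closure D.carrier) :
    ∀ᶠ z in (atTop : Filter ℕ) ×ˢ 𝓝 x, Feps D (1 / ((z.1 : ℝ) + 1)) z.2 = 0 := by
  have h2 : ∀ᶠ y in 𝓝 x, y ∈ (closure D.carrier)ᶜ :=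
    isClosed_closure.isOpen_compl.mem_nhds hx
  have h1 : ∀ᶠ _j : ℕ in (atTop : Filter ℕ), True := Eventually.of_forall fun _ => trivial
  filter_upwards [h1.prod_mk h2] with z hz
  exact Feps_eq_zero D (by (clear * -; positivity)) fun h => hz.2 (subset_closure h)

/-- A boundary point is a limit of exterior points. -/
theorem r2_ext {n : ℕ} (D : SmoothDomain n) {q : E n} (hq : q ∈ frontier D.carrier) :
    q ∈ closure (closure D.carrier)ᶜ := by
  by_contra hcon
  rw [closure_compl, mem_compl_iff, not_not] at hcon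
  rw [frontier_carrier] at hq
  have h0 : D.ρ q = 0 := hq.1
  have hsub : closure D.carrier ⊆ {x | D.ρ x ≤ 0} :=
    closure_minimal (fun y (hy : D.ρ y < 0) => show D.ρ y ≤ 0 from hy.le)
      (isClosed_le D.smooth.continuous continuous_const)
  have hmax : IsLocalMax D.ρ q := by
    filter_upwards [isOpen_interior.mem_nhds hcon] with x hx
    rw [h0]
    exact hsub (interior_subset hx)
  exact D.regular q h0 hmax.fderiv_eq_zero

theorem r2_pair (M : RiemMetric 2) (e : Fin 2 → E 2 → E 2) (he : TriangularFrame M e)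
    (hs : SecLE M 0) (F : GFlow M.g) {k : ℝ} (hk : 0 ≤ k)
    (hcurv : TPH.MonoSn (toGeo M e he hs F) k) (D : SmoothDomain 2) {r : ℝ} (hr : 0 < r)
    (hV : riemVol M D.carrier = ENNReal.ofReal (TPH.VR 2 k r))
    (hA : riemArea M D ≤ ENNReal.ofReal (TPH.AR 2 k r)) :
    ∃ p N : E 2, ‖N‖ = 1 ∧ ∀ q ∈ frontier D.carrier, q ≠ p →
      N2.rB k (N2.ct k r) N ((toGeo M e he hs F).lg p q) = 0 ∧
      ‖(toGeo M e he hs F).lg p q‖ *
        ((toGeo M e he hs F).T p ((toGeo M e he hs F).lg p q)).det =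
        TPH.sn k ‖(toGeo M e he hs F).lg p q‖ := by
  have hVpos : 0 < TPH.VR 2 k r := by
    have h1 := TPH.VR_strictMonoOn (n := 2) (k := k) (by norm_num) hk (mem_Ici.2 le_rfl)
      (mem_Ici.2 hr.le) hr
    rwa [TPH.VR_zero] at h1
  have hApos : 0 < TPH.AR 2 k r := TPH.AR_pos (by norm_num) hk hr
  have hper := feps_per M e he hs F le_rfl D hApos.le hA
  obtain ⟨hv1, hlay⟩ := rs_V1 M e he hs F le_rfl D hVpos.le hV
  have hne : D.carrier.Nonempty := rcm_ne M D hVpos hV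
  have hopen : IsOpen D.carrier := isOpen_lt D.smooth.continuous continuous_const
  set G := toGeo M e he hs F with hG
  have heps : ∀ j : ℕ, (0 : ℝ) < 1 / ((j : ℝ) + 1) := fun j => by (clear * -; positivity)
  obtain ⟨p, hp⟩ : (frontier D.carrier).Nonempty := by
    rw [nonempty_frontier_iff]
    refine ⟨hne, ?_⟩
    intro hu
    have h1 := D.bdd
    have h2 : {x | D.ρ x < 0} = univ := hu
    rw [h2] at h1
    exact NormedSpace.unbounded_univ ℝ (E 2) h1
  have hρp : D.ρ p = 0 := by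
    rw [frontier_carrier] at hp
    exact hp.1
  obtain ⟨hNc, hN1⟩ := nrm_norm G D hρp
  have hNp : ‖nrm G D.ρ p‖ = 1 := hN1.self_of_nhds
  set h : ℕ → E 2 → ℝ := fun j => Feps D (1 / ((j : ℝ) + 1)) with hh
  have hsm : ∀ j, ContDiff ℝ 1 (h j) := fun j => (Feps_smooth D _).of_le (by simp)
  have hcs : ∀ j, HasCompactSupport (h j) := fun j => Feps_compact D (heps j)
  have hct := N2.lt_ct hk hr
  have htot := N2.rtotal_tendsto (G := G) (ct := N2.ct k r) hk hcurv hct.le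
    (CC := 2 * N2.C2 k r) (by have := N2.C2_pos hk hr; positivity)
    (fun N hN => N2.rCC hk hr hN) hApos.le hVpos.le (N2.rbal hk hr) hsm hcs
    (fun j => Feps_nonneg D _) (fun j => Feps_le_one D _) (N := nrm G D.ρ)
    (fun j y => D_feps G D (heps j) y) hper hv1 hlay
  have hsel : ∀ m : ℕ, ∃ j, m ≤ j ∧ ∃ y ∈ ball p (1 / ((m : ℝ) + 1)), G.D (h j) y ≠ 0 ∧
      N2.rDD G k (N2.ct k r) (h j) (nrm G D.ρ y) y ≤ ENNReal.ofReal (1 / ((m : ℝ) + 1)) := by
    intro m
    obtain ⟨c, hc, hev⟩ := feps_lower G (by norm_num) D hρp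
      (U := ball p (1 / ((m : ℝ) + 1))) (ball_mem_nhds p (heps m))
    exact N2.rselect hsm hcs htot measurableSet_ball hc hev (heps m) m
  choose j hj y hy hD hdd using hsel
  have hjt : Tendsto j atTop atTop := tendsto_atTop_mono hj tendsto_id
  have hyt : Tendsto y atTop (𝓝 p) := by
    rw [tendsto_iff_dist_tendsto_zero]
    exact squeeze_zero (fun _ => dist_nonneg) (fun m => (mem_ball.1 (hy m)).le)
      tendsto_one_div_add_atTop_nhds_zero_nat
  have hpt := N2.rfatou (G := G) (ct := N2.ct k r) hk hcurv hct.le hopen hsm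
    (fun j => Feps_nonneg D _) (fun j => Feps_le_one D _) (fun x hx => r2_in D hx)
    (fun x hx => r2_out D hx) hNc hNp hjt hyt hD hdd
  refine ⟨p, nrm G D.ρ p, hNp, fun q hq hqp => ?_⟩
  exact hpt.pair hk hcurv hct hNp (frontier_subset_closure hq) (r2_ext D hq) hqp

/-- `K = 0`. -/
theorem hfrFlat_two : HfrFlat 2 := by
  intro M e he hs F D r hr hV hA
  rw [rcm_vol0 (by norm_num)] at hV
  have hA' : riemArea M D ≤ ENNReal.ofReal (TPH.AR 2 0 r) := by
    refine hA.trans (le_of_eq ?_)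
    congr 1
    unfold modelArea TPH.AR
    rw [TP.sig_eq (by norm_num), om_eq, rs_sn_zero]
  obtain ⟨p, N, hN, h⟩ := r2_pair M e he hs F le_rfl (TPH.MonoSn.zero _) D hr hV hA'
  refine ⟨p, N, hN, fun q hq hqp => ?_⟩
  obtain ⟨h1, h2⟩ := h q hq hqp
  set G := toGeo M e he hs F with hG
  set v := G.lg p q with hv
  have hv0 : v ≠ 0 := by
    intro h0
    apply hqp
    have := G.ex_lg p q
    rw [← hv, h0, G.ex_zero] at this
    exact this.symm
  have hvp : 0 < ‖v‖ := norm_pos_iff.2 hv0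
  unfold N2.rB N2.ct N2.rs at h1
  rw [TPH.h1_sn_z] at h1 h2
  simp only [TPH.cs, zero_mul, Real.cosh_zero] at h1 h2
  constructor
  · have hpos : 0 < max 0 (inner ℝ N (‖v‖⁻¹ • v)) := by
      have : 0 < 1 / r * ‖v‖ := by positivity
      linarith only [this, h1]
    have hmax : max 0 (inner ℝ N (‖v‖⁻¹ • v)) = inner ℝ N (‖v‖⁻¹ • v) := by
      rcases max_choice 0 (inner ℝ N (‖v‖⁻¹ • v)) with h3 | h3
      · rw [h3] at hpos
        exact absurd hpos (lt_irrefl _)
      · exact h3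
    rw [hmax, real_inner_smul_right] at h1
    rw [real_inner_comm]
    have h4 : ‖v‖⁻¹ * inner ℝ N v * (1 + 1) = 1 / r * ‖v‖ := by linarith
    field_simp at h4
    nlinarith
  · have h3 : ‖v‖ * (G.T p v).det = ‖v‖ * 1 := by rw [h2, mul_one]
    rw [mul_left_cancel₀ hvp.ne' h3, abs_one]

/-- `K = -1`. -/
theorem hfrHyp_two : HfrHyp 2 := by
  intro M e he hs F D r hr hV hA
  rw [rcm_vol1 (by norm_num)] at hV
  have hA' : riemArea M D ≤ ENNReal.ofReal (TPH.AR 2 1 r) := by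
    refine hA.trans (le_of_eq ?_)
    congr 1
    unfold modelArea TPH.AR
    rw [TP.sig_eq (by norm_num), om_eq, rs_sn_one]
  obtain ⟨p, N, hN, h⟩ := r2_pair M e he (secLE_zero hs) F zero_le_one
    (TPH.curv_of_geoH (toGeoH M e he hs F le_rfl)).monoSn D hr hV hA'
  refine ⟨p, N, hN, fun q hq hqp => ?_⟩
  obtain ⟨h1, h2⟩ := h q hq hqp
  set G := toGeo M e he (secLE_zero hs) F with hG
  set v := G.lg p q with hv
  have hv0 : v ≠ 0 := by
    intro h0
    apply hqp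
    have := G.ex_lg p q
    rw [← hv, h0, G.ex_zero] at this
    exact this.symm
  have hvp : 0 < ‖v‖ := norm_pos_iff.2 hv0
  have hsn : ∀ x : ℝ, TPH.sn 1 x = Real.sinh x := fun x => by simp [TPH.sn]
  unfold N2.rB N2.ct N2.rs at h1
  rw [hsn, hsn] at h1
  rw [hsn] at h2
  simp only [TPH.cs, one_mul] at h1
  constructor
  · have hsr : 0 < Real.sinh r := Real.sinh_pos_iff.2 hr
    have hsv : 0 < Real.sinh ‖v‖ := Real.sinh_pos_iff.2 hvp
    have hcr := Real.cosh_pos r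
    have hcv := Real.cosh_pos ‖v‖
    have hpos : 0 < max 0 (inner ℝ N (‖v‖⁻¹ • v)) := by
      have h3 : 0 < Real.cosh r / Real.sinh r * Real.sinh ‖v‖ := by positivity
      have h4 : 0 < max 0 (inner ℝ N (‖v‖⁻¹ • v)) * (1 + Real.cosh ‖v‖) := by linarith only [h3, h1]
      exact (pos_iff_pos_of_mul_pos h4).2 (by linarith only [hcv])
    have hmax : max 0 (inner ℝ N (‖v‖⁻¹ • v)) = inner ℝ N (‖v‖⁻¹ • v) := by
      rcases max_choice 0 (inner ℝ N (‖v‖⁻¹ • v)) with h3 | h3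
      · rw [h3] at hpos
        exact absurd hpos (lt_irrefl _)
      · exact h3
    rw [hmax, real_inner_smul_right] at h1
    rw [real_inner_comm]
    have e1 : Real.cosh ‖v‖ = 2 * Real.cosh (‖v‖ / 2) ^ 2 - 1 := by
      have h3 := Real.cosh_two_mul (‖v‖ / 2)
      rw [show 2 * (‖v‖ / 2) = ‖v‖ by ring] at h3
      have h4 := Real.cosh_sq (‖v‖ / 2)
      linarith
    have e2 : Real.sinh ‖v‖ = 2 * Real.sinh (‖v‖ / 2) * Real.cosh (‖v‖ / 2) := by
      have h3 := Real.sinh_two_mul (‖v‖ / 2)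
      rwa [show 2 * (‖v‖ / 2) = ‖v‖ by ring] at h3
    have hc2 := Real.cosh_pos (‖v‖ / 2)
    rw [e1, e2] at h1
    have h5 : ‖v‖⁻¹ * inner ℝ N v * (2 * Real.cosh (‖v‖ / 2) ^ 2) =
        Real.cosh r / Real.sinh r * (2 * Real.sinh (‖v‖ / 2) * Real.cosh (‖v‖ / 2)) := by
      linarith
    field_simp at h5
    nlinarith
  · have h3 : |(G.T p v).det| = (G.T p v).det := abs_of_pos (TPH.det_T_pos G p v)
    simp only [Nat.add_one_sub_one, pow_one]
    rw [h3, mul_comm]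
    exact h2

end Vale.Agent.P219.CH

namespace Vale.Agent.P219.Co

/-- **The equality case in dimension two**, all `κ ≤ 0`. -/
theorem equality_two (M : RiemMetric 2) (hc : GeodesicallyComplete M) {κ : ℝ} (hκ : κ ≤ 0)
    (hs : SecLE M κ) (D : SmoothDomain 2) (r : ℝ) (hr : 0 ≤ r)
    (hV : riemVol M D.carrier = ENNReal.ofReal (modelVol 2 κ r))
    (hA : riemArea M D = ENNReal.ofReal (modelArea 2 κ r)) : IsometricToBallK M κ D r :=
  equality_of_hfr le_rfl CH.hfrFlat_two CH.hfrHyp_two M hc hκ hs D r hr hV hA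

end Vale.Agent.P219.Co
end
end

section

/-! # The generalized Cartan-Hadamard conjecture in all dimensions `n ≥ 2` -/

namespace Vale.Agent.P219.Co

/-- The generalized Cartan-Hadamard conjecture, with the equality case. -/
theorem cartanHadamard_q1 {n : ℕ} (hn : 2 ≤ n) {K : ℝ} (hK : K ≤ 0)
    (M : RiemMetric n) (hM : GeodesicallyComplete M) (hs : SecLE M K) :
    IsoperimetricIneq M K ∧
      ∀ (D : SmoothDomain n) (r : ℝ), 0 ≤ r →
        riemVol M D.carrier = ENNReal.ofReal (modelVol n K r) →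
        riemArea M D = ENNReal.ofReal (modelArea n K r) → IsometricToBallK M K D r := by
  rcases hn.eq_or_lt with rfl | hn
  · exact ⟨isop_of_func le_rfl (fun _ hk => SA.funcIso_two hk) M hM hK hs, fun D r hr hV hA =>
      equality_two M hM hK hs D r hr hV hA⟩
  · exact cartanHadamard_all hn hK M hM hs

end Vale.Agent.P219.Co
end
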